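/-
Row 260, package GK (Gaussian kit): L2 bookkeeping toolkit (bridge between statements of the form
`∫ (f - g)^2` and the Hilbert space `Lp ℝ 2 μ`).  Owner: helper200.  Sorry-free.
-/
import Mathlib

set_option autoImplicit false

namespace Claimed.Agent.R260

open MeasureTheory Filter Topology

variable {α : Type*} [MeasurableSpace α] {μ : Measure α}

theorem gk_l2_integrable_mul {f g : α → ℝ} (hf : MemLp f 2 μ) (hg : MemLp g 2 μ) :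
    Integrable (fun x => f x * g x) μ := hf.integrable_mul hg

theorem gk_l2_integrable_sq {f : α → ℝ} (hf : MemLp f 2 μ) :
    Integrable (fun x => f x ^ 2) μ := hf.integrable_sq

theorem gk_l2_integrable [IsFiniteMeasure μ] {f : α → ℝ} (hf : MemLp f 2 μ) :
    Integrable f μ := hf.integrable (by norm_num)

theorem gk_l2_inner_coe (F G : Lp ℝ 2 μ) : inner ℝ F G = ∫ x, F x * G x ∂μ := by
  rw [L2.inner_def]
  refine integral_congr_ae (Eventually.of_forall fun x => ?_)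
  simp [mul_comm]

theorem gk_l2_inner_toLp {f g : α → ℝ} (hf : MemLp f 2 μ) (hg : MemLp g 2 μ) :
    inner ℝ (hf.toLp f) (hg.toLp g) = ∫ x, f x * g x ∂μ := by
  rw [gk_l2_inner_coe]
  refine integral_congr_ae ?_
  filter_upwards [hf.coeFn_toLp, hg.coeFn_toLp] with x h1 h2
  rw [h1, h2]

theorem gk_l2_norm_coe_sq (F : Lp ℝ 2 μ) : ‖F‖ ^ 2 = ∫ x, (F x) ^ 2 ∂μ := by
  rw [← real_inner_self_eq_norm_sq, gk_l2_inner_coe]
  simp only [sq]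

theorem gk_l2_norm_toLp_sq {f : α → ℝ} (hf : MemLp f 2 μ) :
    ‖hf.toLp f‖ ^ 2 = ∫ x, (f x) ^ 2 ∂μ := by
  rw [← real_inner_self_eq_norm_sq, gk_l2_inner_toLp]
  simp only [sq]

theorem gk_l2_norm_sub_toLp_sq {f g : α → ℝ} (hf : MemLp f 2 μ) (hg : MemLp g 2 μ) :
    ‖hf.toLp f - hg.toLp g‖ ^ 2 = ∫ x, (f x - g x) ^ 2 ∂μ := by
  rw [← MemLp.toLp_sub hf hg, gk_l2_norm_toLp_sq]
  rfl

theorem gk_l2_integral_sq_nonneg (f : α → ℝ) : 0 ≤ ∫ x, (f x) ^ 2 ∂μ :=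
  integral_nonneg fun _ => sq_nonneg _

/-- Cauchy--Schwarz -/
theorem gk_l2_abs_integral_mul_le {f g : α → ℝ} (hf : MemLp f 2 μ) (hg : MemLp g 2 μ) :
    |∫ x, f x * g x ∂μ| ≤ Real.sqrt (∫ x, (f x) ^ 2 ∂μ) * Real.sqrt (∫ x, (g x) ^ 2 ∂μ) := by
  rw [← gk_l2_inner_toLp hf hg, ← gk_l2_norm_toLp_sq hf, ← gk_l2_norm_toLp_sq hg,
    Real.sqrt_sq (norm_nonneg _), Real.sqrt_sq (norm_nonneg _)]
  exact abs_real_inner_le_norm _ _

/-- Cauchy--Schwarz, squared form -/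
theorem gk_l2_sq_integral_mul_le {f g : α → ℝ} (hf : MemLp f 2 μ) (hg : MemLp g 2 μ) :
    (∫ x, f x * g x ∂μ) ^ 2 ≤ (∫ x, (f x) ^ 2 ∂μ) * (∫ x, (g x) ^ 2 ∂μ) := by
  have h := gk_l2_abs_integral_mul_le hf hg
  have h1 := gk_l2_integral_sq_nonneg (μ := μ) f
  have h2 := gk_l2_integral_sq_nonneg (μ := μ) g
  calc (∫ x, f x * g x ∂μ) ^ 2 = |∫ x, f x * g x ∂μ| ^ 2 := (sq_abs _).symm
    _ ≤ (Real.sqrt (∫ x, (f x) ^ 2 ∂μ) * Real.sqrt (∫ x, (g x) ^ 2 ∂μ)) ^ 2 := by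
        gcongr
    _ = _ := by rw [mul_pow, Real.sq_sqrt h1, Real.sq_sqrt h2]

/-- Young form of Cauchy--Schwarz -/
theorem gk_l2_two_integral_mul_le {f g : α → ℝ} (hf : MemLp f 2 μ) (hg : MemLp g 2 μ) :
    2 * ∫ x, f x * g x ∂μ ≤ ∫ x, (f x) ^ 2 ∂μ + ∫ x, (g x) ^ 2 ∂μ := by
  rw [← integral_add hf.integrable_sq hg.integrable_sq, ← integral_const_mul]
  refine integral_mono ((hf.integrable_mul hg).const_mul 2)
    (hf.integrable_sq.add hg.integrable_sq) fun x => ?_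
  simp only
  nlinarith [sq_nonneg (f x - g x)]

theorem gk_l2_sq_integral_le [IsProbabilityMeasure μ] {f : α → ℝ} (hf : MemLp f 2 μ) :
    (∫ x, f x ∂μ) ^ 2 ≤ ∫ x, (f x) ^ 2 ∂μ := by
  have h := gk_l2_sq_integral_mul_le hf (memLp_const (1 : ℝ) (μ := μ) (p := 2))
  simpa using h

theorem gk_l2_integral_add_sq_le {f g : α → ℝ} (hf : MemLp f 2 μ) (hg : MemLp g 2 μ) :
    ∫ x, (f x + g x) ^ 2 ∂μ ≤ 2 * ∫ x, (f x) ^ 2 ∂μ + 2 * ∫ x, (g x) ^ 2 ∂μ := by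
  rw [← integral_const_mul, ← integral_const_mul,
    ← integral_add (hf.integrable_sq.const_mul 2) (hg.integrable_sq.const_mul 2)]
  refine integral_mono (hf.add hg).integrable_sq
    ((hf.integrable_sq.const_mul 2).add (hg.integrable_sq.const_mul 2)) fun x => ?_
  simp only
  nlinarith [sq_nonneg (f x - g x)]

/-- Minkowski -/
theorem gk_l2_sqrt_integral_add_sq_le {f g : α → ℝ} (hf : MemLp f 2 μ) (hg : MemLp g 2 μ) :
    Real.sqrt (∫ x, (f x + g x) ^ 2 ∂μ)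
      ≤ Real.sqrt (∫ x, (f x) ^ 2 ∂μ) + Real.sqrt (∫ x, (g x) ^ 2 ∂μ) := by
  have h : ∫ x, (f x + g x) ^ 2 ∂μ = ‖hf.toLp f + hg.toLp g‖ ^ 2 := by
    rw [← MemLp.toLp_add hf hg, gk_l2_norm_toLp_sq]; rfl
  rw [h, ← gk_l2_norm_toLp_sq hf, ← gk_l2_norm_toLp_sq hg,
    Real.sqrt_sq (norm_nonneg _), Real.sqrt_sq (norm_nonneg _), Real.sqrt_sq (norm_nonneg _)]
  exact norm_add_le _ _

theorem gk_l2_ae_eq_zero {f : α → ℝ} (hf : MemLp f 2 μ) (h : ∫ x, (f x) ^ 2 ∂μ = 0) :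
    f =ᵐ[μ] 0 := by
  have h1 := (integral_eq_zero_iff_of_nonneg (fun x => sq_nonneg (f x)) hf.integrable_sq).1 h
  filter_upwards [h1] with x hx
  simpa using hx

theorem gk_l2_ae_eq {f g : α → ℝ} (hf : MemLp f 2 μ) (hg : MemLp g 2 μ)
    (h : ∫ x, (f x - g x) ^ 2 ∂μ = 0) : f =ᵐ[μ] g := by
  have h1 := gk_l2_ae_eq_zero (hf.sub hg) h
  filter_upwards [h1] with x hx
  have : f x - g x = 0 := hx
  linarith

section limits

variable {ι : Type*} {l : Filter ι}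

theorem gk_l2_tendsto_toLp_iff {f : ι → α → ℝ} {g : α → ℝ} (hf : ∀ i, MemLp (f i) 2 μ)
    (hg : MemLp g 2 μ) :
    Tendsto (fun i => (hf i).toLp (f i)) l (𝓝 (hg.toLp g))
      ↔ Tendsto (fun i => ∫ x, (f i x - g x) ^ 2 ∂μ) l (𝓝 0) := by
  rw [tendsto_iff_norm_sub_tendsto_zero]
  simp only [← gk_l2_norm_sub_toLp_sq (hf _) hg]
  constructor
  · intro h
    simpa using h.pow 2
  · intro h
    have := h.sqrt
    simpa [Real.sqrt_sq (norm_nonneg _)] using this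

/-- auxiliary: replace an eventually-`L²` family by an everywhere-`L²` family -/
theorem gk_l2_exists_modification {f : ι → α → ℝ} (hf : ∀ᶠ i in l, MemLp (f i) 2 μ) :
    ∃ f' : ι → α → ℝ, (∀ i, MemLp (f' i) 2 μ) ∧ ∀ᶠ i in l, f' i = f i := by
  classical
  refine ⟨fun i => if MemLp (f i) 2 μ then f i else 0, fun i => ?_, ?_⟩
  · by_cases h : MemLp (f i) 2 μ
    · simp [h]
    · simp only [h, if_false]; exact MemLp.zero
  · filter_upwards [hf] with i hi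
    simp [hi]

/-- continuity of the scalar product -/
theorem gk_l2_tendsto_integral_mul {f g : ι → α → ℝ} {f₀ g₀ : α → ℝ}
    (hf : ∀ᶠ i in l, MemLp (f i) 2 μ) (hg : ∀ᶠ i in l, MemLp (g i) 2 μ)
    (hf₀ : MemLp f₀ 2 μ) (hg₀ : MemLp g₀ 2 μ)
    (h1 : Tendsto (fun i => ∫ x, (f i x - f₀ x) ^ 2 ∂μ) l (𝓝 0))
    (h2 : Tendsto (fun i => ∫ x, (g i x - g₀ x) ^ 2 ∂μ) l (𝓝 0)) :
    Tendsto (fun i => ∫ x, f i x * g i x ∂μ) l (𝓝 (∫ x, f₀ x * g₀ x ∂μ)) := by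
  obtain ⟨f', hf', hff'⟩ := gk_l2_exists_modification hf
  obtain ⟨g', hg', hgg'⟩ := gk_l2_exists_modification hg
  have h1' : Tendsto (fun i => ∫ x, (f' i x - f₀ x) ^ 2 ∂μ) l (𝓝 0) := by
    refine h1.congr' ?_
    filter_upwards [hff'] with i hi
    rw [hi]
  have h2' : Tendsto (fun i => ∫ x, (g' i x - g₀ x) ^ 2 ∂μ) l (𝓝 0) := by
    refine h2.congr' ?_
    filter_upwards [hgg'] with i hi
    rw [hi]
  have h3 := ((gk_l2_tendsto_toLp_iff hf' hf₀).2 h1').inner (𝕜 := ℝ)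
    ((gk_l2_tendsto_toLp_iff hg' hg₀).2 h2')
  simp only [gk_l2_inner_toLp] at h3
  refine h3.congr' ?_
  filter_upwards [hff', hgg'] with i hi hi'
  rw [hi, hi']

theorem gk_l2_tendsto_integral_mul_left {g : ι → α → ℝ} {f₀ g₀ : α → ℝ}
    (hg : ∀ᶠ i in l, MemLp (g i) 2 μ) (hf₀ : MemLp f₀ 2 μ) (hg₀ : MemLp g₀ 2 μ)
    (h2 : Tendsto (fun i => ∫ x, (g i x - g₀ x) ^ 2 ∂μ) l (𝓝 0)) :
    Tendsto (fun i => ∫ x, f₀ x * g i x ∂μ) l (𝓝 (∫ x, f₀ x * g₀ x ∂μ)) :=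
  gk_l2_tendsto_integral_mul (f := fun _ => f₀) (Eventually.of_forall fun _ => hf₀) hg hf₀ hg₀
    (by simpa using tendsto_const_nhds) h2

theorem gk_l2_tendsto_integral_mul_right {f : ι → α → ℝ} {f₀ g₀ : α → ℝ}
    (hf : ∀ᶠ i in l, MemLp (f i) 2 μ) (hf₀ : MemLp f₀ 2 μ) (hg₀ : MemLp g₀ 2 μ)
    (h1 : Tendsto (fun i => ∫ x, (f i x - f₀ x) ^ 2 ∂μ) l (𝓝 0)) :
    Tendsto (fun i => ∫ x, f i x * g₀ x ∂μ) l (𝓝 (∫ x, f₀ x * g₀ x ∂μ)) :=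
  gk_l2_tendsto_integral_mul (g := fun _ => g₀) hf (Eventually.of_forall fun _ => hg₀) hf₀ hg₀
    h1 (by simpa using tendsto_const_nhds)

theorem gk_l2_tendsto_integral_sq {f : ι → α → ℝ} {f₀ : α → ℝ}
    (hf : ∀ᶠ i in l, MemLp (f i) 2 μ) (hf₀ : MemLp f₀ 2 μ)
    (h1 : Tendsto (fun i => ∫ x, (f i x - f₀ x) ^ 2 ∂μ) l (𝓝 0)) :
    Tendsto (fun i => ∫ x, (f i x) ^ 2 ∂μ) l (𝓝 (∫ x, (f₀ x) ^ 2 ∂μ)) := by
  simpa only [sq] using gk_l2_tendsto_integral_mul hf hf hf₀ hf₀ (by simpa only [sq] using h1)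
    (by simpa only [sq] using h1)

theorem gk_l2_tendsto_integral [IsFiniteMeasure μ] {f : ι → α → ℝ} {f₀ : α → ℝ}
    (hf : ∀ᶠ i in l, MemLp (f i) 2 μ) (hf₀ : MemLp f₀ 2 μ)
    (h1 : Tendsto (fun i => ∫ x, (f i x - f₀ x) ^ 2 ∂μ) l (𝓝 0)) :
    Tendsto (fun i => ∫ x, f i x ∂μ) l (𝓝 (∫ x, f₀ x ∂μ)) := by
  simpa using gk_l2_tendsto_integral_mul_right hf hf₀ (memLp_const (1 : ℝ)) h1

/-- sums of `L²`-convergent families converge -/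
theorem gk_l2_tendsto_add {f g : ι → α → ℝ} {f₀ g₀ : α → ℝ}
    (hf : ∀ᶠ i in l, MemLp (f i) 2 μ) (hg : ∀ᶠ i in l, MemLp (g i) 2 μ)
    (hf₀ : MemLp f₀ 2 μ) (hg₀ : MemLp g₀ 2 μ)
    (h1 : Tendsto (fun i => ∫ x, (f i x - f₀ x) ^ 2 ∂μ) l (𝓝 0))
    (h2 : Tendsto (fun i => ∫ x, (g i x - g₀ x) ^ 2 ∂μ) l (𝓝 0)) :
    Tendsto (fun i => ∫ x, ((f i x + g i x) - (f₀ x + g₀ x)) ^ 2 ∂μ) l (𝓝 0) := by
  have h3 : Tendsto (fun i => 2 * ∫ x, (f i x - f₀ x) ^ 2 ∂μ + 2 * ∫ x, (g i x - g₀ x) ^ 2 ∂μ)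
      l (𝓝 0) := by simpa using (h1.const_mul 2).add (h2.const_mul 2)
  refine squeeze_zero' (Eventually.of_forall fun i => gk_l2_integral_sq_nonneg _) ?_ h3
  filter_upwards [hf, hg] with i hi hi'
  have := gk_l2_integral_add_sq_le (hi.sub hf₀) (hi'.sub hg₀)
  refine le_trans (le_of_eq ?_) this
  refine integral_congr_ae (Eventually.of_forall fun x => ?_)
  simp only [Pi.sub_apply]
  ring

theorem gk_l2_tendsto_const_mul {f : ι → α → ℝ} {f₀ : α → ℝ} (a : ℝ)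
    (h1 : Tendsto (fun i => ∫ x, (f i x - f₀ x) ^ 2 ∂μ) l (𝓝 0)) :
    Tendsto (fun i => ∫ x, (a * f i x - a * f₀ x) ^ 2 ∂μ) l (𝓝 0) := by
  have h3 : Tendsto (fun i => a ^ 2 * ∫ x, (f i x - f₀ x) ^ 2 ∂μ) l (𝓝 0) := by
    simpa using h1.const_mul (a ^ 2)
  refine h3.congr fun i => ?_
  rw [← integral_const_mul]
  refine integral_congr_ae (Eventually.of_forall fun x => ?_)
  simp only
  ring

/-- multiplication by an a.e. bounded function is continuous in `L²` -/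
theorem gk_l2_tendsto_mul_bdd {f : ι → α → ℝ} {f₀ b : α → ℝ} {C : ℝ}
    (hb : ∀ᵐ x ∂μ, |b x| ≤ C) (hf : ∀ᶠ i in l, MemLp (f i) 2 μ) (hf₀ : MemLp f₀ 2 μ)
    (h1 : Tendsto (fun i => ∫ x, (f i x - f₀ x) ^ 2 ∂μ) l (𝓝 0)) :
    Tendsto (fun i => ∫ x, (f i x * b x - f₀ x * b x) ^ 2 ∂μ) l (𝓝 0) := by
  have h3 : Tendsto (fun i => C ^ 2 * ∫ x, (f i x - f₀ x) ^ 2 ∂μ) l (𝓝 0) := by
    simpa using h1.const_mul (C ^ 2)
  refine squeeze_zero' (Eventually.of_forall fun i => gk_l2_integral_sq_nonneg _) ?_ h3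
  filter_upwards [hf] with i hi
  rw [← integral_const_mul]
  refine integral_mono_of_nonneg (Eventually.of_forall fun x => sq_nonneg _)
    ((hi.sub hf₀).integrable_sq.const_mul _) ?_
  filter_upwards [hb] with x hx
  have h4 : (b x) ^ 2 ≤ C ^ 2 := by
    rw [← sq_abs (b x)]
    exact pow_le_pow_left₀ (abs_nonneg _) hx 2
  have h5 : (f i x * b x - f₀ x * b x) ^ 2 = (b x) ^ 2 * (f i x - f₀ x) ^ 2 := by ring
  rw [h5]
  exact mul_le_mul_of_nonneg_right h4 (sq_nonneg _)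

/-- uniqueness of `L²` limits -/
theorem gk_l2_limit_unique [l.NeBot] {f : ι → α → ℝ} {g g' : α → ℝ}
    (hf : ∀ᶠ i in l, MemLp (f i) 2 μ) (hg : MemLp g 2 μ) (hg' : MemLp g' 2 μ)
    (h1 : Tendsto (fun i => ∫ x, (f i x - g x) ^ 2 ∂μ) l (𝓝 0))
    (h2 : Tendsto (fun i => ∫ x, (f i x - g' x) ^ 2 ∂μ) l (𝓝 0)) : g =ᵐ[μ] g' := by
  obtain ⟨f', hf', hff'⟩ := gk_l2_exists_modification hf
  have h1' : Tendsto (fun i => ∫ x, (f' i x - g x) ^ 2 ∂μ) l (𝓝 0) := by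
    refine h1.congr' ?_
    filter_upwards [hff'] with i hi
    rw [hi]
  have h2' : Tendsto (fun i => ∫ x, (f' i x - g' x) ^ 2 ∂μ) l (𝓝 0) := by
    refine h2.congr' ?_
    filter_upwards [hff'] with i hi
    rw [hi]
  have h3 := tendsto_nhds_unique ((gk_l2_tendsto_toLp_iff hf' hg).2 h1')
    ((gk_l2_tendsto_toLp_iff hf' hg').2 h2')
  exact (MemLp.toLp_eq_toLp_iff hg hg').1 h3

/-- completeness of `L²`, in function form -/
theorem gk_l2_exists_limit [l.NeBot] {f : ι → α → ℝ} (hf : ∀ᶠ i in l, MemLp (f i) 2 μ)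
    (hC : ∀ ε > 0, ∀ᶠ p in l ×ˢ l, ∫ x, (f p.1 x - f p.2 x) ^ 2 ∂μ < ε) :
    ∃ g : α → ℝ, Measurable g ∧ MemLp g 2 μ ∧
      Tendsto (fun i => ∫ x, (f i x - g x) ^ 2 ∂μ) l (𝓝 0) := by
  obtain ⟨f', hf', hff'⟩ := gk_l2_exists_modification hf
  have hc : Cauchy (l.map fun i => (hf' i).toLp (f' i)) := by
    rw [Metric.cauchy_iff]
    refine ⟨map_neBot, fun ε hε => ?_⟩
    have h1 := hC (ε ^ 2) (by positivity)
    have h2 : ∀ᶠ p in l ×ˢ l, f' p.1 = f p.1 ∧ f' p.2 = f p.2 :=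
      (hff'.prod_mk hff')
    obtain ⟨pa, hpa, pb, hpb, hp⟩ := Filter.eventually_prod_iff.1 (h1.and h2)
    refine ⟨(fun i => (hf' i).toLp (f' i)) '' {i | pa i ∧ pb i},
      Filter.image_mem_map (hpa.and hpb), ?_⟩
    rintro _ ⟨i, ⟨hi, -⟩, rfl⟩ _ ⟨j, ⟨-, hj⟩, rfl⟩
    obtain ⟨h3, h4, h5⟩ := hp hi hj
    simp only at h3 h4 h5
    rw [dist_eq_norm]
    have h6 : ‖(hf' i).toLp (f' i) - (hf' j).toLp (f' j)‖ ^ 2 < ε ^ 2 := by
      rw [gk_l2_norm_sub_toLp_sq, h4, h5]; exact h3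
    exact lt_of_pow_lt_pow_left₀ 2 hε.le h6
  obtain ⟨G, hG⟩ := cauchy_map_iff_exists_tendsto.1 hc
  refine ⟨G, (Lp.stronglyMeasurable G).measurable, Lp.memLp G, ?_⟩
  have h7 : Tendsto (fun i => (hf' i).toLp (f' i)) l (𝓝 ((Lp.memLp G).toLp G)) := by
    rwa [Lp.toLp_coeFn]
  refine ((gk_l2_tendsto_toLp_iff hf' (Lp.memLp G)).1 h7).congr' ?_
  filter_upwards [hff'] with i hi
  rw [hi]

/-- an `L²`-convergent sequence has an a.e. convergent subsequence -/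
theorem gk_l2_exists_subseq_ae {f : ℕ → α → ℝ} {g : α → ℝ} (hf : ∀ n, MemLp (f n) 2 μ)
    (hg : MemLp g 2 μ) (h1 : Tendsto (fun n => ∫ x, (f n x - g x) ^ 2 ∂μ) atTop (𝓝 0)) :
    ∃ ns : ℕ → ℕ, StrictMono ns ∧ ∀ᵐ x ∂μ, Tendsto (fun k => f (ns k) x) atTop (𝓝 (g x)) := by
  have h2 := (gk_l2_tendsto_toLp_iff hf hg).2 h1
  have h3 : Tendsto (fun n => eLpNorm (f n - g) 2 μ) atTop (𝓝 0) :=
    (Lp.tendsto_Lp_iff_tendsto_eLpNorm'' f hf g hg).1 h2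
  have h4 : TendstoInMeasure μ f atTop g :=
    tendstoInMeasure_of_tendsto_eLpNorm (by norm_num) (fun n => (hf n).1) hg.1 h3
  exact h4.exists_seq_tendsto_ae

end limits

end Claimed.Agent.R260
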