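/-
Row 260, package GK (Gaussian kit): shared definitions.
Scalar functions on `EE m = EuclideanSpace ℝ (Fin m)` with the standard Gaussian measure `gam m`.
Owner: helper200.
-/
import Claimed.Agent.R260.Defs
import Claimed.Agent.R260.GKHilb

namespace Claimed.Agent.R260

open MeasureTheory ProbabilityTheory Filter Topology

variable {m : ℕ}

/-- The `r`-th vector of the standard basis. -/
noncomputable def eb (r : Fin m) : EE m := EuclideanSpace.single r (1 : ℝ)

/-- Partial derivative in the direction of the `r`-th basis vector (junk value `0` where `u` is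
not differentiable). -/
noncomputable def pd (r : Fin m) (u : EE m → ℝ) (x : EE m) : ℝ := fderiv ℝ u x (eb r)

/-- The Mehler (Ornstein--Uhlenbeck) operator with correlation `c ∈ [0,1]`. -/
noncomputable def mehler (c : ℝ) (u : EE m → ℝ) (x : EE m) : ℝ :=
  ∫ z, u (c • x + Real.sqrt (1 - c ^ 2) • z) ∂gam m

/-- Bounded measurable. -/
def BM (u : EE m → ℝ) : Prop := Measurable u ∧ ∃ C, ∀ x, |u x| ≤ C

/-- Measurable with polynomial growth. -/
def PG (u : EE m → ℝ) : Prop :=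
  Measurable u ∧ ∃ (C : ℝ) (k : ℕ), ∀ x, |u x| ≤ C * (1 + ‖x‖) ^ k

/-- `C¹` with bounded derivative. -/
def C1L (u : EE m → ℝ) : Prop := ContDiff ℝ 1 u ∧ ∃ C, ∀ x, ‖fderiv ℝ u x‖ ≤ C

/-- `C¹`, the function and its derivative have polynomial growth. -/
def C1P (u : EE m → ℝ) : Prop :=
  ContDiff ℝ 1 u ∧ ∃ (C : ℝ) (k : ℕ), ∀ x, |u x| + ‖fderiv ℝ u x‖ ≤ C * (1 + ‖x‖) ^ k

/-- `C^∞`, all derivatives of order `≥ 1` bounded. -/
def NiceL (u : EE m → ℝ) : Prop :=
  ContDiff ℝ (⊤ : ℕ∞) u ∧ ∀ k : ℕ, 1 ≤ k → ∃ C, ∀ x, ‖iteratedFDeriv ℝ k u x‖ ≤ C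

/-- `C^∞`, the function and all its derivatives bounded. -/
def NiceB (u : EE m → ℝ) : Prop :=
  ContDiff ℝ (⊤ : ℕ∞) u ∧ ∀ k : ℕ, ∃ C, ∀ x, ‖iteratedFDeriv ℝ k u x‖ ≤ C

/-- Gaussian Sobolev space `H¹(γ)` as the graph closure of `C1L`: `du r` is "the" `r`-th partial
derivative of `u`. -/
def GH1 (u : EE m → ℝ) (du : Fin m → EE m → ℝ) : Prop :=
  MemLp u 2 (gam m) ∧ (∀ r, MemLp (du r) 2 (gam m)) ∧
    ∃ v : ℕ → EE m → ℝ, (∀ n, C1L (v n)) ∧
      Tendsto (fun n => ∫ x, (v n x - u x) ^ 2 ∂gam m) atTop (𝓝 0) ∧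
      ∀ r, Tendsto (fun n => ∫ x, (pd r (v n) x - du r x) ^ 2 ∂gam m) atTop (𝓝 0)

/-- generates the equation lemmas of the definitions above in this file (rule 6: unique names) -/
theorem gk_defs_eqns_cite : True := by
  have := @eb.eq_1
  have := @pd.eq_1
  have := @mehler.eq_1
  have := @BM.eq_1
  have := @PG.eq_1
  have := @C1L.eq_1
  have := @C1P.eq_1
  have := @NiceL.eq_1
  have := @NiceB.eq_1
  have := @GH1.eq_1
  trivial

end Claimed.Agent.R260
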