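/-
Row 260, package GK (Gaussian kit): classes of functions, integrability.
Statements by helper200; proofs by helper299.
-/
import Claimed.Agent.R260.GKDefs

namespace Claimed.Agent.R260

open MeasureTheory ProbabilityTheory Filter Topology Set

variable {m : ℕ}

theorem gk_memLp_one_add_norm (p : ENNReal) (hp : p ≠ ⊤) :
    MemLp (fun x : EE m => 1 + ‖x‖) p (gam m) := by
  have h0 : MemLp (id : EE m → EE m) p (gam m) := IsGaussian.memLp_id (gam m) p hp
  have h1 : MemLp (fun x : EE m => ‖x‖) p (gam m) := h0.norm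
  have h2 : MemLp (fun _ : EE m => (1 : ℝ)) p (gam m) := memLp_const 1
  exact h2.add h1

/-- All polynomial moments of the Gaussian are finite. -/
theorem gk_integrable_pow (k : ℕ) : Integrable (fun x : EE m => (1 + ‖x‖) ^ k) (gam m) := by
  have h : MemLp (fun x : EE m => 1 + ‖x‖) k (gam m) := gk_memLp_one_add_norm _ (by simp)
  refine h.integrable_norm_pow'.congr (ae_of_all _ fun x => ?_)
  simp only [Real.norm_eq_abs]
  rw [abs_of_nonneg (by positivity : 0 ≤ 1 + ‖x‖)]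

theorem PG.integrable {u : EE m → ℝ} (hu : PG u) : Integrable u (gam m) := by
  obtain ⟨hm, C, k, hC⟩ := hu
  exact ((gk_integrable_pow k).const_mul C).mono' hm.aestronglyMeasurable
    (ae_of_all _ fun x => by rw [Real.norm_eq_abs]; exact hC x)

theorem gk_memLp_pow (k : ℕ) (p : NNReal) :
    MemLp (fun x : EE m => (1 + ‖x‖) ^ k) p (gam m) := by
  rcases Nat.eq_zero_or_pos k with rfl | hk
  · simpa using memLp_const (1 : ℝ)
  have h : MemLp (fun x : EE m => 1 + ‖x‖) ((p : ENNReal) * (k : ENNReal)) (gam m) :=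
    gk_memLp_one_add_norm _ (ENNReal.mul_ne_top (by simp) (by simp))
  have h2 := h.norm_rpow_div (k : ENNReal)
  have hk0 : (k : ENNReal) ≠ 0 := by exact_mod_cast hk.ne'
  rw [ENNReal.mul_div_cancel_right hk0 (by simp)] at h2
  refine h2.ae_eq (ae_of_all _ fun x => ?_)
  simp only [Real.norm_eq_abs, ENNReal.toReal_natCast, Real.rpow_natCast]
  rw [abs_of_nonneg (by positivity : 0 ≤ 1 + ‖x‖)]

theorem PG.memLp {u : EE m → ℝ} (hu : PG u) (p : NNReal) : MemLp u p (gam m) := by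
  obtain ⟨hm, C, k, hC⟩ := hu
  refine (gk_memLp_pow k p).of_le_mul (c := C) hm.aestronglyMeasurable (ae_of_all _ fun x => ?_)
  rw [Real.norm_eq_abs, Real.norm_eq_abs, abs_of_nonneg (by positivity : 0 ≤ (1 + ‖x‖) ^ k)]
  exact hC x

theorem gk_pow_le_pow_add (x : EE m) (k l : ℕ) : (1 + ‖x‖) ^ k ≤ (1 + ‖x‖) ^ (k + l) :=
  pow_le_pow_right₀ (by linarith [norm_nonneg x]) (Nat.le_add_right k l)

theorem gk_growth_add {a b C D : ℝ} {k l : ℕ} (x : EE m) (ha : a ≤ C * (1 + ‖x‖) ^ k)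
    (hb : b ≤ D * (1 + ‖x‖) ^ l) : a + b ≤ (|C| + |D|) * (1 + ‖x‖) ^ (k + l) := by
  have h1 := gk_pow_le_pow_add x k l
  have h2 := gk_pow_le_pow_add x l k
  rw [add_comm l k] at h2
  have p1 : 0 ≤ (1 + ‖x‖) ^ k := by positivity
  have p2 : 0 ≤ (1 + ‖x‖) ^ l := by positivity
  have e1 : C * (1 + ‖x‖) ^ k ≤ |C| * (1 + ‖x‖) ^ (k + l) :=
    (mul_le_mul_of_nonneg_right (le_abs_self C) p1).trans
      (mul_le_mul_of_nonneg_left h1 (abs_nonneg C))
  have e2 : D * (1 + ‖x‖) ^ l ≤ |D| * (1 + ‖x‖) ^ (k + l) :=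
    (mul_le_mul_of_nonneg_right (le_abs_self D) p2).trans
      (mul_le_mul_of_nonneg_left h2 (abs_nonneg D))
  rw [add_mul]
  linarith

theorem gk_growth_mul {a b C D : ℝ} {k l : ℕ} (x : EE m) (ha0 : 0 ≤ a) (hb0 : 0 ≤ b)
    (ha : a ≤ C * (1 + ‖x‖) ^ k) (hb : b ≤ D * (1 + ‖x‖) ^ l) :
    a * b ≤ (C * D) * (1 + ‖x‖) ^ (k + l) := by
  calc a * b ≤ (C * (1 + ‖x‖) ^ k) * (D * (1 + ‖x‖) ^ l) :=
        mul_le_mul ha hb hb0 (ha0.trans ha)
    _ = _ := by rw [pow_add]; ring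

theorem PG.mul {u v : EE m → ℝ} (hu : PG u) (hv : PG v) : PG (fun x => u x * v x) := by
  obtain ⟨hm, C, k, hC⟩ := hu
  obtain ⟨hm', D, l, hD⟩ := hv
  refine ⟨hm.mul hm', C * D, k + l, fun x => ?_⟩
  rw [abs_mul]
  exact gk_growth_mul x (abs_nonneg _) (abs_nonneg _) (hC x) (hD x)

theorem PG.add {u v : EE m → ℝ} (hu : PG u) (hv : PG v) : PG (fun x => u x + v x) := by
  obtain ⟨hm, C, k, hC⟩ := hu
  obtain ⟨hm', D, l, hD⟩ := hv
  refine ⟨hm.add hm', |C| + |D|, k + l, fun x => ?_⟩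
  exact (abs_add_le _ _).trans (gk_growth_add x (hC x) (hD x))

theorem gk_PG_coord (r : Fin m) : PG (fun x : EE m => x r) := by
  refine ⟨by fun_prop, 1, 1, fun x => ?_⟩
  have : ‖x r‖ ≤ ‖x‖ := PiLp.norm_apply_le x r
  rw [Real.norm_eq_abs] at this
  linarith

theorem BM.toPG {u : EE m → ℝ} (hu : BM u) : PG u := by
  obtain ⟨hm, C, hC⟩ := hu
  exact ⟨hm, C, 0, fun x => by simpa using hC x⟩

theorem gk_PG_of_lipschitz {u : EE m → ℝ} {K : NNReal} (hu : LipschitzWith K u) : PG u := by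
  refine ⟨hu.continuous.measurable, |u 0| + K, 1, fun x => ?_⟩
  have h := hu.dist_le_mul x 0
  rw [Real.dist_eq, dist_zero_right] at h
  have h2 : |u x| ≤ |u x - u 0| + |u 0| := by
    have := abs_add_le (u x - u 0) (u 0)
    simpa using this
  have h3 : 0 ≤ |u 0| * ‖x‖ := by positivity
  have h4 : (0 : ℝ) ≤ K := K.2
  rw [pow_one]
  nlinarith

theorem C1P.toPG {u : EE m → ℝ} (hu : C1P u) : PG u := by
  obtain ⟨hc, C, k, hC⟩ := hu
  exact ⟨hc.continuous.measurable, C, k, fun x =>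
    (le_add_of_nonneg_right (norm_nonneg _)).trans (hC x)⟩

theorem gk_norm_eb (r : Fin m) : ‖(eb r : EE m)‖ = 1 := by
  simp [eb]

theorem gk_abs_pd_le (r : Fin m) (u : EE m → ℝ) (x : EE m) : |pd r u x| ≤ ‖fderiv ℝ u x‖ := by
  have := (fderiv ℝ u x).le_opNorm (eb r)
  rwa [gk_norm_eb, mul_one, Real.norm_eq_abs] at this

theorem gk_continuous_pd {u : EE m → ℝ} (hu : ContDiff ℝ 1 u) (r : Fin m) :
    Continuous (pd r u) :=
  (hu.continuous_fderiv one_ne_zero).clm_apply continuous_const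

theorem C1P.pd_PG {u : EE m → ℝ} (hu : C1P u) (r : Fin m) : PG (pd r u) := by
  obtain ⟨hc, C, k, hC⟩ := hu
  exact ⟨(gk_continuous_pd hc r).measurable, C, k, fun x =>
    (gk_abs_pd_le r u x).trans ((le_add_of_nonneg_left (abs_nonneg _)).trans (hC x))⟩

theorem C1L.lipschitz {u : EE m → ℝ} (hu : C1L u) : ∃ K : NNReal, LipschitzWith K u := by
  obtain ⟨hc, C, hC⟩ := hu
  refine ⟨C.toNNReal, lipschitzWith_of_nnnorm_fderiv_le (hc.differentiable one_ne_zero) fun x => ?_⟩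
  rw [← NNReal.coe_le_coe, coe_nnnorm]
  exact (hC x).trans (Real.le_coe_toNNReal C)

theorem C1L.toC1P {u : EE m → ℝ} (hu : C1L u) : C1P u := by
  obtain ⟨K, hK⟩ := hu.lipschitz
  obtain ⟨-, D, l, hD⟩ := gk_PG_of_lipschitz hK
  obtain ⟨hc, C, hC⟩ := hu
  refine ⟨hc, |D| + |C|, l + 0, fun x => ?_⟩
  exact gk_growth_add x (hD x) (by simpa using hC x)

theorem gk_norm_fderiv_eq (u : EE m → ℝ) (x : EE m) :
    ‖fderiv ℝ u x‖ = ‖iteratedFDeriv ℝ 1 u x‖ := by
  rw [← norm_iteratedFDeriv_zero (𝕜 := ℝ) (f := fderiv ℝ u), norm_iteratedFDeriv_fderiv]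

theorem NiceL.toC1L {u : EE m → ℝ} (hu : NiceL u) : C1L u := by
  obtain ⟨hc, hb⟩ := hu
  obtain ⟨C, hC⟩ := hb 1 le_rfl
  exact ⟨hc.of_le (by exact_mod_cast le_top), C, fun x => by rw [gk_norm_fderiv_eq]; exact hC x⟩

theorem NiceB.toNiceL {u : EE m → ℝ} (hu : NiceB u) : NiceL u := ⟨hu.1, fun k _ => hu.2 k⟩

theorem NiceB.toBM {u : EE m → ℝ} (hu : NiceB u) : BM u := by
  obtain ⟨hc, hb⟩ := hu
  obtain ⟨C, hC⟩ := hb 0
  exact ⟨hc.continuous.measurable, C, fun x => by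
    have := hC x
    rwa [norm_iteratedFDeriv_zero, Real.norm_eq_abs] at this⟩

/-- partial derivatives of nice functions are nice -/
theorem NiceL.niceB_pd {u : EE m → ℝ} (hu : NiceL u) (r : Fin m) : NiceB (pd r u) := by
  obtain ⟨hc, hb⟩ := hu
  have hcf : ContDiff ℝ (⊤ : ℕ∞) (fderiv ℝ u) := by
    refine hc.fderiv_right ?_
    exact_mod_cast le_top
  have e : pd r u = (ContinuousLinearMap.apply ℝ ℝ (eb r)) ∘ (fderiv ℝ u) := by
    ext x; rfl
  refine ⟨?_, fun k => ?_⟩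
  · rw [e]; exact (ContinuousLinearMap.contDiff _).comp hcf
  · obtain ⟨C, hC⟩ := hb (k + 1) (Nat.le_add_left 1 k)
    refine ⟨‖ContinuousLinearMap.apply ℝ ℝ (eb r : EE m)‖ * C, fun x => ?_⟩
    rw [e]
    refine ((ContinuousLinearMap.apply ℝ ℝ (eb r : EE m)).norm_iteratedFDeriv_comp_left
      hcf.contDiffAt (by exact_mod_cast le_top)).trans ?_
    rw [norm_iteratedFDeriv_fderiv]
    exact mul_le_mul_of_nonneg_left (hC x) (norm_nonneg _)

theorem C1P.mul {u v : EE m → ℝ} (hu : C1P u) (hv : C1P v) : C1P (fun x => u x * v x) := by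
  obtain ⟨hc, C, k, hC⟩ := hu
  obtain ⟨hc', D, l, hD⟩ := hv
  refine ⟨hc.mul hc', C * D, k + l, fun x => ?_⟩
  have hd : DifferentiableAt ℝ u x := (hc.differentiable one_ne_zero) x
  have hd' : DifferentiableAt ℝ v x := (hc'.differentiable one_ne_zero) x
  have e : fderiv ℝ (fun x => u x * v x) x = u x • fderiv ℝ v x + v x • fderiv ℝ u x :=
    fderiv_fun_mul hd hd'
  have h1 : ‖fderiv ℝ (fun x => u x * v x) x‖ ≤ |u x| * ‖fderiv ℝ v x‖ + |v x| * ‖fderiv ℝ u x‖ := by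
    rw [e]
    refine (norm_add_le _ _).trans ?_
    rw [norm_smul, norm_smul, Real.norm_eq_abs, Real.norm_eq_abs]
  have h2 := gk_growth_mul x (add_nonneg (abs_nonneg (u x)) (norm_nonneg (fderiv ℝ u x)))
    (add_nonneg (abs_nonneg (v x)) (norm_nonneg (fderiv ℝ v x))) (hC x) (hD x)
  have h3 : 0 ≤ ‖fderiv ℝ u x‖ * ‖fderiv ℝ v x‖ := by positivity
  rw [abs_mul]
  nlinarith

theorem C1P.add {u v : EE m → ℝ} (hu : C1P u) (hv : C1P v) : C1P (fun x => u x + v x) := by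
  obtain ⟨hc, C, k, hC⟩ := hu
  obtain ⟨hc', D, l, hD⟩ := hv
  refine ⟨hc.add hc', |C| + |D|, k + l, fun x => ?_⟩
  have hd : DifferentiableAt ℝ u x := (hc.differentiable one_ne_zero) x
  have hd' : DifferentiableAt ℝ v x := (hc'.differentiable one_ne_zero) x
  have e : fderiv ℝ (fun x => u x + v x) x = fderiv ℝ u x + fderiv ℝ v x := fderiv_fun_add hd hd'
  have h1 := gk_growth_add x (hC x) (hD x)
  have h2 := abs_add_le (u x) (v x)
  have h3 := norm_add_le (fderiv ℝ u x) (fderiv ℝ v x)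
  rw [e]
  linarith

theorem gk_pd_mul {u v : EE m → ℝ} (hu : ContDiff ℝ 1 u) (hv : ContDiff ℝ 1 v) (r : Fin m)
    (x : EE m) : pd r (fun x => u x * v x) x = pd r u x * v x + u x * pd r v x := by
  have hd : DifferentiableAt ℝ u x := (hu.differentiable one_ne_zero) x
  have hd' : DifferentiableAt ℝ v x := (hv.differentiable one_ne_zero) x
  unfold pd
  rw [fderiv_fun_mul hd hd']
  simp only [add_apply, smul_apply, smul_eq_mul]
  ring

theorem gk_pd_coord (r s : Fin m) (x : EE m) :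
    pd r (fun x : EE m => x s) x = if r = s then 1 else 0 := by
  have e : (fun x : EE m => x s) = (EuclideanSpace.proj s : EE m →L[ℝ] ℝ) := by
    ext x; rfl
  unfold pd
  rw [e, ContinuousLinearMap.fderiv]
  simp [eb, eq_comm]

/-- test functions are nice -/
theorem gk_niceB_of_hasCompactSupport {u : EE m → ℝ} (hu : ContDiff ℝ (⊤ : ℕ∞) u)
    (hc : HasCompactSupport u) : NiceB u := by
  refine ⟨hu, fun k => ?_⟩
  exact (hu.continuous_iteratedFDeriv (m := k) (by exact_mod_cast le_top)).bounded_above_of_compact_support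
    (hc.iteratedFDeriv k)

end Claimed.Agent.R260
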