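/-
Row 260, package GK (Gaussian kit): density of the Gaussian, integration by parts.
Owner: helper175.
-/
import Claimed.Agent.R260.GKClass

namespace Claimed.Agent.R260

open MeasureTheory ProbabilityTheory Filter Topology Set

variable {m : ℕ}

/-- the Gaussian density -/
noncomputable def gkRho (m : ℕ) (x : EE m) : ℝ :=
  (2 * Real.pi) ^ (-(m : ℝ) / 2) * Real.exp (-‖x‖ ^ 2 / 2)

theorem gkRho_pos (x : EE m) : 0 < gkRho m x := by
  unfold gkRho; positivity

theorem gkRho_continuous : Continuous (gkRho m) := by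
  unfold gkRho; fun_prop

theorem gkRho_integrable : Integrable (gkRho m) := by
  have h := GaussianFourier.integrable_cexp_neg_mul_sq_norm_add (V := EE m) (b := (1 / 2 : ℂ))
    (by norm_num) 0 0
  have h2 : Integrable (fun v : EE m => Real.exp (-‖v‖ ^ 2 / 2)) := by
    have h3 := h.norm
    refine h3.congr (Eventually.of_forall fun v => ?_)
    simp only [Complex.norm_exp]
    congr 1
    simp
    norm_cast
    ring
  exact h2.const_mul _

theorem gk_charFun_aux (t : EE m) :
    ∫ x : EE m, (gkRho m x) • Complex.exp (((inner ℝ x t : ℝ) : ℂ) * Complex.I)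
      = Complex.exp (-(‖t‖ : ℂ) ^ 2 / 2) := by
  have h := GaussianFourier.integral_cexp_neg_mul_sq_norm_add (V := EE m) (b := (1 / 2 : ℂ))
    (by norm_num) Complex.I t
  have e1 : ∀ x : EE m, (gkRho m x) • Complex.exp (((inner ℝ x t : ℝ) : ℂ) * Complex.I)
      = (((2 * Real.pi) ^ (-(m : ℝ) / 2) : ℝ) : ℂ) *
        Complex.exp (-(1 / 2 : ℂ) * (‖x‖ : ℂ) ^ 2 + Complex.I * ((inner ℝ t x : ℝ) : ℂ)) := by
    intro x
    rw [Complex.exp_add, gkRho, Complex.real_smul, Complex.ofReal_mul, Complex.ofReal_exp,
      real_inner_comm, mul_assoc, mul_comm Complex.I]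
    congr 3
    push_cast
    ring
  simp_rw [e1]
  rw [integral_const_mul, h]
  have h1 : ((Real.pi : ℂ) / (1 / 2)) ^ ((Module.finrank ℝ (EE m) : ℂ) / 2)
      = (((2 * Real.pi) ^ ((m : ℝ) / 2) : ℝ) : ℂ) := by
    rw [Complex.ofReal_cpow (by positivity)]
    simp
    congr 1
    ring
  rw [h1, ← mul_assoc, ← Complex.ofReal_mul, ← Real.rpow_add (by positivity)]
  have : -(m : ℝ) / 2 + (m : ℝ) / 2 = 0 := by ring
  rw [this, Real.rpow_zero, Complex.I_sq]
  simp
  congr 1
  ring

theorem gk_gam_eq_withDensity_rho :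
    gam m = (volume : Measure (EE m)).withDensity (fun x => ENNReal.ofReal (gkRho m x)) := by
  have : IsFiniteMeasure
      ((volume : Measure (EE m)).withDensity (fun x => ENNReal.ofReal (gkRho m x))) :=
    isFiniteMeasure_withDensity_ofReal gkRho_integrable.2
  apply Measure.ext_of_charFun
  ext t
  rw [charFun_stdGaussian, charFun_apply,
    integral_withDensity_eq_integral_toReal_smul
      (gkRho_continuous.measurable.ennreal_ofReal) (Eventually.of_forall fun x => by simp)]
  simp_rw [ENNReal.toReal_ofReal (gkRho_pos _).le]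
  exact (gk_charFun_aux t).symm

/-- The density of the standard Gaussian with respect to Lebesgue measure. -/
theorem gk_gam_eq_withDensity :
    gam m = (volume : Measure (EE m)).withDensity
      (fun x => ENNReal.ofReal ((2 * Real.pi) ^ (-(m : ℝ) / 2) * Real.exp (-‖x‖ ^ 2 / 2))) :=
  gk_gam_eq_withDensity_rho

theorem gk_integral_gam_rho {F : Type*} [NormedAddCommGroup F] [NormedSpace ℝ F] (u : EE m → F) :
    ∫ x, u x ∂gam m = ∫ x, gkRho m x • u x := by
  conv_lhs => rw [gk_gam_eq_withDensity_rho]
  rw [integral_withDensity_eq_integral_toReal_smul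
      (gkRho_continuous.measurable.ennreal_ofReal) (Eventually.of_forall fun x => by simp)]
  simp_rw [ENNReal.toReal_ofReal (gkRho_pos _).le]

theorem gk_integrable_gam_iff {F : Type*} [NormedAddCommGroup F] [NormedSpace ℝ F]
    (u : EE m → F) :
    Integrable u (gam m) ↔ Integrable (fun x => gkRho m x • u x) := by
  conv_lhs => rw [gk_gam_eq_withDensity_rho]
  rw [integrable_withDensity_iff_integrable_smul'
      (gkRho_continuous.measurable.ennreal_ofReal) (Eventually.of_forall fun x => by simp)]
  simp_rw [ENNReal.toReal_ofReal (gkRho_pos _).le]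

theorem gk_integral_gam (u : EE m → ℝ) :
    ∫ x, u x ∂gam m
      = ∫ x, u x * ((2 * Real.pi) ^ (-(m : ℝ) / 2) * Real.exp (-‖x‖ ^ 2 / 2)) := by
  rw [gk_integral_gam_rho]
  refine integral_congr_ae (Eventually.of_forall fun x => ?_)
  simp only [smul_eq_mul, gkRho]
  ring

/-- `gam` and Lebesgue measure are mutually absolutely continuous. -/
theorem gk_gam_ac_volume : gam m ≪ (volume : Measure (EE m)) := by
  conv_lhs => rw [gk_gam_eq_withDensity_rho]
  exact withDensity_absolutelyContinuous _ _

theorem gk_volume_ac_gam : (volume : Measure (EE m)) ≪ gam m := by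
  conv_rhs => rw [gk_gam_eq_withDensity_rho]
  refine withDensity_absolutelyContinuous' (gkRho_continuous.measurable.ennreal_ofReal.aemeasurable)
    (Eventually.of_forall fun x => ?_)
  simp [gkRho_pos]

theorem gkRho_hasFDerivAt (x : EE m) :
    HasFDerivAt (gkRho m) ((-gkRho m x) • innerSL ℝ x) x := by
  have h1 : HasFDerivAt (fun y : EE m => ‖y‖ ^ 2) (2 • innerSL ℝ x) x :=
    (hasStrictFDerivAt_norm_sq x).hasFDerivAt
  have h2 : HasFDerivAt (fun y : EE m => -‖y‖ ^ 2 / 2) (-(innerSL ℝ x)) x := by
    have := (h1.neg).const_mul (1 / 2 : ℝ)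
    refine (this.congr_fderiv ?_).congr_of_eventuallyEq (Eventually.of_forall fun y => ?_)
    · ext v; simp
    · simp; ring
  have h3 := (h2.exp).const_mul ((2 * Real.pi) ^ (-(m : ℝ) / 2))
  refine (h3.congr_fderiv ?_)
  ext v
  simp [gkRho]
  ring

theorem gk_inner_eb (x : EE m) (r : Fin m) : inner ℝ x (eb r) = x r := by
  simp [eb, EuclideanSpace.inner_single_right]

/-- Gaussian integration by parts. -/
theorem gk_ibp {u : EE m → ℝ} (hu : C1P u) (r : Fin m) :
    ∫ x, x r * u x ∂gam m = ∫ x, pd r u x ∂gam m := by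
  have hd : ∀ x, fderiv ℝ (gkRho m) x (eb r) = -(gkRho m x * x r) := by
    intro x
    rw [(gkRho_hasFDerivAt x).fderiv]
    simp [gk_inner_eb]
  have i1 : Integrable (fun x => pd r u x) (gam m) := (hu.pd_PG r).integrable
  have i2 : Integrable (fun x => x r * u x) (gam m) := ((gk_PG_coord r).mul hu.toPG).integrable
  have i3 : Integrable u (gam m) := hu.toPG.integrable
  rw [gk_integrable_gam_iff] at i1 i2 i3
  have key := integral_mul_fderiv_eq_neg_fderiv_mul_of_integrable (μ := (volume : Measure (EE m)))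
    (f := u) (g := gkRho m) (v := eb r)
    (i1.congr (Eventually.of_forall fun x => by simp [pd, mul_comm]))
    (i2.neg.congr (Eventually.of_forall fun x => by simp [hd]; ring))
    (i3.congr (Eventually.of_forall fun x => by simp [mul_comm]))
    (fun x _ => (hu.1.differentiable one_ne_zero) x)
    (fun x _ => (gkRho_hasFDerivAt x).differentiableAt)
  rw [gk_integral_gam_rho, gk_integral_gam_rho]
  have e1 : ∫ x, u x * fderiv ℝ (gkRho m) x (eb r) = -∫ x, gkRho m x • (x r * u x) := by
    rw [← integral_neg]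
    refine integral_congr_ae (Eventually.of_forall fun x => ?_)
    simp [hd]; ring
  have e2 : ∫ x, fderiv ℝ u x (eb r) * gkRho m x = ∫ x, gkRho m x • pd r u x := by
    refine integral_congr_ae (Eventually.of_forall fun x => ?_)
    simp [pd, mul_comm]
  rw [e1, e2] at key
  linarith

end Claimed.Agent.R260
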