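/-
Row 260, package MX0a (owner: helper297): algebraic API of the functional calculus `mxFun`,
the rotation `mxRot` and the Schur multipliers `mxSchur` / `mxDK` of `MxDefs.lean`.
-/
import Claimed.Agent.R260.MxDefs

set_option autoImplicit false

namespace Claimed.Agent.R260

open Matrix
open scoped BigOperators

variable {m : ℕ}

/-! ### the eigenbasis -/

theorem mxU_transpose_mul (A : Mx m) : (mxU A)ᵀ * mxU A = 1 := by
  unfold mxU
  split_ifs with h
  · have h1 := (Matrix.mem_unitaryGroup_iff' (A := ((mx_isHermitian_of_isSymm h).eigenvectorUnitary :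
      Mx m))).mp (mx_isHermitian_of_isSymm h).eigenvectorUnitary.2
    rwa [Matrix.star_eq_conjTranspose, Matrix.conjTranspose_eq_transpose_of_trivial] at h1
  · simp

theorem mxU_mul_transpose (A : Mx m) : mxU A * (mxU A)ᵀ = 1 :=
  mul_eq_one_comm.mp (mxU_transpose_mul A)

theorem mx_spectral {A : Mx m} (hA : A.IsSymm) :
    A = mxU A * Matrix.diagonal (mxEig A) * (mxU A)ᵀ := by
  have h := (mx_isHermitian_of_isSymm hA).spectral_theorem
  unfold mxU mxEig
  rw [dif_pos hA, dif_pos hA]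
  conv_lhs => rw [h]
  simp [Unitary.conjStarAlgAut_apply, Matrix.star_eq_conjTranspose,
    Matrix.conjTranspose_eq_transpose_of_trivial]

/-! ### rotation into the eigenbasis -/

theorem mxRot_add (A F G : Mx m) : mxRot A (F + G) = mxRot A F + mxRot A G := by
  simp only [mxRot, Matrix.mul_add, Matrix.add_mul]

theorem mxRot_sub (A F G : Mx m) : mxRot A (F - G) = mxRot A F - mxRot A G := by
  simp only [mxRot, Matrix.mul_sub, Matrix.sub_mul]

theorem mxRot_smul (A : Mx m) (c : ℝ) (F : Mx m) : mxRot A (c • F) = c • mxRot A F := by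
  simp only [mxRot, Matrix.mul_smul, Matrix.smul_mul]

theorem mxRot_mul (A F G : Mx m) : mxRot A (F * G) = mxRot A F * mxRot A G := by
  have h := mxU_mul_transpose A
  calc mxRot A (F * G) = (mxU A)ᵀ * F * 1 * G * mxU A := by
        simp only [mxRot, Matrix.mul_one, Matrix.mul_assoc]
    _ = mxRot A F * mxRot A G := by
        rw [← h]
        simp only [mxRot, Matrix.mul_assoc]

theorem mxRot_transpose (A F : Mx m) : mxRot A Fᵀ = (mxRot A F)ᵀ := by
  simp only [mxRot, Matrix.transpose_mul, Matrix.transpose_transpose, Matrix.mul_assoc]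

theorem mxRot_one (A : Mx m) : mxRot A 1 = 1 := by
  simp only [mxRot, Matrix.mul_one, mxU_transpose_mul]

theorem mxRot_trace (A F : Mx m) : Matrix.trace (mxRot A F) = Matrix.trace F := by
  rw [mxRot, Matrix.trace_mul_comm, ← Matrix.mul_assoc, mxU_mul_transpose, Matrix.one_mul]

theorem mxRot_symm_apply (A : Mx m) {F : Mx m} (hF : F.IsSymm) (i j : Fin m) :
    mxRot A F i j = mxRot A F j i := by
  have h : (mxRot A F)ᵀ = mxRot A F := by rw [← mxRot_transpose, hF]
  conv_lhs => rw [← h]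
  rfl

theorem mxSq_eq_sum (F : Mx m) : mxSq F = ∑ i, ∑ j, (F i j) ^ 2 := by
  simp only [mxSq, Matrix.trace, Matrix.diag_apply, Matrix.mul_apply, Matrix.transpose_apply]
  rw [Finset.sum_comm]
  simp only [sq]

theorem mxIP_eq_sum (F G : Mx m) : mxIP F G = ∑ i, ∑ j, F i j * G i j := by
  simp only [mxIP, Matrix.trace, Matrix.diag_apply, Matrix.mul_apply, Matrix.transpose_apply]
  rw [Finset.sum_comm]

theorem mxIP_rot (A F G : Mx m) : mxIP F G = ∑ i, ∑ j, mxRot A F i j * mxRot A G i j := by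
  rw [← mxIP_eq_sum, mxIP, mxIP, ← mxRot_transpose, ← mxRot_mul, mxRot_trace]

theorem mxSq_rot (A F : Mx m) : mxSq F = ∑ i, ∑ j, (mxRot A F i j) ^ 2 := by
  have h := mxIP_rot A F F
  simp only [sq]
  exact h

theorem mxSq_nonneg (F : Mx m) : 0 ≤ mxSq F := by
  rw [mxSq_eq_sum]
  exact Finset.sum_nonneg fun i _ => Finset.sum_nonneg fun j _ => sq_nonneg _

/-- conjugating back: `Uᵀ (U D Uᵀ) U = D` -/
theorem mxRot_conj (A D : Mx m) : mxRot A (mxU A * D * (mxU A)ᵀ) = D := by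
  have h := mxU_transpose_mul A
  calc mxRot A (mxU A * D * (mxU A)ᵀ) = ((mxU A)ᵀ * mxU A) * D * ((mxU A)ᵀ * mxU A) := by
        simp only [mxRot, Matrix.mul_assoc]
    _ = D := by rw [h, Matrix.one_mul, Matrix.mul_one]

/-- `U (Uᵀ F U) Uᵀ = F` -/
theorem mxU_mul_mxRot_mul (A F : Mx m) : mxU A * mxRot A F * (mxU A)ᵀ = F := by
  have h := mxU_mul_transpose A
  calc mxU A * mxRot A F * (mxU A)ᵀ = (mxU A * (mxU A)ᵀ) * F * (mxU A * (mxU A)ᵀ) := by
        simp only [mxRot, Matrix.mul_assoc]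
    _ = F := by rw [h, Matrix.one_mul, Matrix.mul_one]

theorem mxRot_mxFun (f : ℝ → ℝ) (A : Mx m) :
    mxRot A (mxFun f A) = Matrix.diagonal (fun i => f (mxEig A i)) :=
  mxRot_conj A _

theorem mxRot_mul_mxFun_apply (f : ℝ → ℝ) (A F : Mx m) (i j : Fin m) :
    mxRot A (F * mxFun f A) i j = mxRot A F i j * f (mxEig A j) := by
  rw [mxRot_mul, mxRot_mxFun, Matrix.mul_diagonal]

theorem mxRot_mxFun_mul_apply (f : ℝ → ℝ) (A F : Mx m) (i j : Fin m) :
    mxRot A (mxFun f A * F) i j = f (mxEig A i) * mxRot A F i j := by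
  rw [mxRot_mul, mxRot_mxFun, Matrix.diagonal_mul]

theorem mxRot_mxSchur_apply (w : ℝ → ℝ → ℝ) (A Z : Mx m) (i j : Fin m) :
    mxRot A (mxSchur w A Z) i j = w (mxEig A i) (mxEig A j) * mxRot A Z i j := by
  rw [mxSchur, mxRot_conj]
  rfl

theorem mxRot_mxDK_apply (f f' : ℝ → ℝ) (A Z : Mx m) (i j : Fin m) :
    mxRot A (mxDK f f' A Z) i j = mxDD f f' (mxEig A i) (mxEig A j) * mxRot A Z i j :=
  mxRot_mxSchur_apply _ A Z i j

/-- a matrix is determined by its rotation -/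
theorem mxRot_injective (A : Mx m) {F G : Mx m} (h : mxRot A F = mxRot A G) : F = G := by
  rw [← mxU_mul_mxRot_mul A F, h, mxU_mul_mxRot_mul]

/-! ### functional calculus -/

theorem mxFun_isSymm (f : ℝ → ℝ) (A : Mx m) : (mxFun f A).IsSymm := by
  unfold Matrix.IsSymm mxFun
  simp only [Matrix.transpose_mul, Matrix.transpose_transpose, Matrix.diagonal_transpose,
    Matrix.mul_assoc]

theorem mxFun_id {A : Mx m} (hA : A.IsSymm) : mxFun (fun a => a) A = A :=
  (mx_spectral hA).symm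

theorem mxFun_const (c : ℝ) (A : Mx m) : mxFun (fun _ => c) A = c • (1 : Mx m) := by
  apply mxRot_injective A
  rw [mxRot_mxFun, mxRot_smul, mxRot_one]
  ext i j
  by_cases h : i = j <;> simp [h]

theorem mxFun_add (f g : ℝ → ℝ) (A : Mx m) :
    mxFun (fun a => f a + g a) A = mxFun f A + mxFun g A := by
  apply mxRot_injective A
  rw [mxRot_add, mxRot_mxFun, mxRot_mxFun, mxRot_mxFun, Matrix.diagonal_add]

theorem mxFun_sub (f g : ℝ → ℝ) (A : Mx m) :
    mxFun (fun a => f a - g a) A = mxFun f A - mxFun g A := by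
  apply mxRot_injective A
  rw [mxRot_sub, mxRot_mxFun, mxRot_mxFun, mxRot_mxFun, Matrix.diagonal_sub]

theorem mxFun_smul (c : ℝ) (f : ℝ → ℝ) (A : Mx m) :
    mxFun (fun a => c * f a) A = c • mxFun f A := by
  apply mxRot_injective A
  rw [mxRot_smul, mxRot_mxFun, mxRot_mxFun, ← Matrix.diagonal_smul]
  rfl

theorem mxFun_mul (f g : ℝ → ℝ) (A : Mx m) :
    mxFun (fun a => f a * g a) A = mxFun f A * mxFun g A := by
  apply mxRot_injective A
  rw [mxRot_mul, mxRot_mxFun, mxRot_mxFun, mxRot_mxFun, Matrix.diagonal_mul_diagonal]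

theorem mxFun_commute (f g : ℝ → ℝ) (A : Mx m) : mxFun f A * mxFun g A = mxFun g A * mxFun f A := by
  rw [← mxFun_mul, ← mxFun_mul]
  simp only [mul_comm]

theorem mxFun_congr {f g : ℝ → ℝ} {A : Mx m} (h : ∀ i, f (mxEig A i) = g (mxEig A i)) :
    mxFun f A = mxFun g A := by
  unfold mxFun
  rw [funext h]

theorem mxFun_trace (f : ℝ → ℝ) (A : Mx m) :
    Matrix.trace (mxFun f A) = ∑ i, f (mxEig A i) := by
  rw [← mxRot_trace A, mxRot_mxFun, Matrix.trace_diagonal]

theorem mxFun_det (f : ℝ → ℝ) (A : Mx m) : (mxFun f A).det = ∏ i, f (mxEig A i) := by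
  have h : (mxU A).det * (mxU A)ᵀ.det = 1 := by
    rw [← Matrix.det_mul, mxU_mul_transpose, Matrix.det_one]
  rw [mxFun, Matrix.det_mul, Matrix.det_mul, Matrix.det_diagonal, mul_right_comm, h, one_mul]

theorem mxFun_mul_inv {f : ℝ → ℝ} {A : Mx m} (h : ∀ i, f (mxEig A i) ≠ 0) :
    mxFun f A * mxFun (fun a => (f a)⁻¹) A = 1 := by
  rw [← mxFun_mul, mxFun_congr (g := fun _ => 1) (fun i => mul_inv_cancel₀ (h i)), mxFun_const,
    one_smul]

/-- quadratic forms of `f(A)`: `vᵀ f(A) v = ∑ f(a_i) (Uᵀ v)_i²` -/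
theorem mxFun_quad (f : ℝ → ℝ) (A : Mx m) (v : Fin m → ℝ) :
    v ⬝ᵥ (mxFun f A *ᵥ v) = ∑ i, f (mxEig A i) * (((mxU A)ᵀ *ᵥ v) i) ^ 2 := by
  rw [mxFun, ← Matrix.mulVec_mulVec, ← Matrix.mulVec_mulVec, Matrix.dotProduct_mulVec,
    ← Matrix.mulVec_transpose]
  simp only [dotProduct, Matrix.mulVec_diagonal]
  refine Finset.sum_congr rfl fun i _ => ?_
  ring

theorem mxFun_quad_mono {f g : ℝ → ℝ} {A : Mx m} (h : ∀ i, f (mxEig A i) ≤ g (mxEig A i))
    (v : Fin m → ℝ) : v ⬝ᵥ (mxFun f A *ᵥ v) ≤ v ⬝ᵥ (mxFun g A *ᵥ v) := by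
  rw [mxFun_quad, mxFun_quad]
  exact Finset.sum_le_sum fun i _ => mul_le_mul_of_nonneg_right (h i) (sq_nonneg _)

/-- `tr(Fᵀ F c(A)) ≤ C tr(Fᵀ F)` if `c ≤ C` on the spectrum; used as `|F c(A)^{1/2}|² ≤ C |F|²` -/
theorem mxFun_trace_le {c : ℝ → ℝ} {C : ℝ} {A : Mx m} (h : ∀ i, c (mxEig A i) ≤ C) (F : Mx m) :
    Matrix.trace (Fᵀ * F * mxFun c A) ≤ C * mxSq F := by
  have h1 : Matrix.trace (Fᵀ * F * mxFun c A) = mxIP F (F * mxFun c A) := by
    rw [mxIP, Matrix.mul_assoc]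
  rw [h1, mxIP_rot A, mxSq_rot A, Finset.mul_sum]
  refine Finset.sum_le_sum fun i _ => ?_
  rw [Finset.mul_sum]
  refine Finset.sum_le_sum fun j _ => ?_
  rw [mxRot_mul_mxFun_apply]
  have := mul_le_mul_of_nonneg_right (h j) (sq_nonneg (mxRot A F i j))
  nlinarith [this]

theorem mxFun_posSemidef {f : ℝ → ℝ} {A : Mx m} (h : ∀ i, 0 ≤ f (mxEig A i)) :
    (mxFun f A).PosSemidef := by
  refine Matrix.PosSemidef.of_dotProduct_mulVec_nonneg
    (mx_isHermitian_of_isSymm (mxFun_isSymm f A)) fun v => ?_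
  rw [star_trivial, mxFun_quad]
  exact Finset.sum_nonneg fun i _ => mul_nonneg (h i) (sq_nonneg _)

theorem mxFun_posDef {f : ℝ → ℝ} {A : Mx m} (h : ∀ i, 0 < f (mxEig A i)) :
    (mxFun f A).PosDef := by
  refine Matrix.PosDef.of_dotProduct_mulVec_pos
    (mx_isHermitian_of_isSymm (mxFun_isSymm f A)) fun v hv => ?_
  rw [star_trivial, mxFun_quad]
  have hw : (mxU A)ᵀ *ᵥ v ≠ 0 := by
    intro h0
    apply hv
    have : mxU A *ᵥ ((mxU A)ᵀ *ᵥ v) = v := by
      rw [Matrix.mulVec_mulVec, mxU_mul_transpose, Matrix.one_mulVec]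
    rw [← this, h0, Matrix.mulVec_zero]
  obtain ⟨i, hi⟩ := Function.ne_iff.mp hw
  refine Finset.sum_pos' (fun i _ => mul_nonneg (h i).le (sq_nonneg _))
    ⟨i, Finset.mem_univ i, mul_pos (h i) (sq_pos_iff.mpr hi)⟩

theorem mxFun_apply_abs_le {f : ℝ → ℝ} {C : ℝ} {A : Mx m} (h : ∀ i, |f (mxEig A i)| ≤ C)
    (i j : Fin m) : |mxFun f A i j| ≤ C := by
  have hrow : ∀ i, ∑ l, (mxU A i l) ^ 2 = 1 := by
    intro i
    have h1 := congrFun (congrFun (mxU_mul_transpose A) i) i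
    simp only [Matrix.mul_apply, Matrix.transpose_apply, Matrix.one_apply_eq] at h1
    simpa only [sq] using h1
  have hent : mxFun f A i j = ∑ l, mxU A i l * f (mxEig A l) * mxU A j l := by
    rw [mxFun, Matrix.mul_apply]
    simp only [Matrix.mul_diagonal, Matrix.transpose_apply]
  have hC : 0 ≤ C ∨ IsEmpty (Fin m) := by
    by_cases hm : IsEmpty (Fin m)
    · exact Or.inr hm
    · rw [not_isEmpty_iff] at hm
      exact Or.inl ((abs_nonneg _).trans (h hm.some))
  rcases hC with hC | hC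
  · rw [hent]
    calc |∑ l, mxU A i l * f (mxEig A l) * mxU A j l|
        ≤ ∑ l, |mxU A i l * f (mxEig A l) * mxU A j l| := Finset.abs_sum_le_sum_abs _ _
      _ ≤ ∑ l, C * (((mxU A i l) ^ 2 + (mxU A j l) ^ 2) / 2) := by
          refine Finset.sum_le_sum fun l _ => ?_
          rw [abs_mul, abs_mul]
          have h1 : |mxU A i l| * |mxU A j l| ≤ ((mxU A i l) ^ 2 + (mxU A j l) ^ 2) / 2 := by
            nlinarith [sq_nonneg (|mxU A i l| - |mxU A j l|), sq_abs (mxU A i l),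
              sq_abs (mxU A j l)]
          calc |mxU A i l| * |f (mxEig A l)| * |mxU A j l|
              = |f (mxEig A l)| * (|mxU A i l| * |mxU A j l|) := by ring
            _ ≤ C * (((mxU A i l) ^ 2 + (mxU A j l) ^ 2) / 2) :=
                mul_le_mul (h l) h1 (by positivity) hC
      _ = C := by
          rw [← Finset.mul_sum, ← Finset.sum_div, Finset.sum_add_distrib, hrow, hrow]
          ring
  · exact hC.elim i

end Claimed.Agent.R260
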