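/-
Row 260, package MX0b (owner: helper297): independence of `mxFun` / `mxSchur` of the chosen
eigenbasis, composition rules, Daleckii-Krein operator for monomials, norm bounds.
Proof of `mxFun_of_diag` / `mxSchur_of_diag`: with `W = Uᵀ V` one has `a_i W_ij = W_ij c_j`, so
`W_ij ≠ 0` forces `a_i = c_j`.
-/
import Claimed.Agent.R260.MxFun

set_option autoImplicit false

namespace Claimed.Agent.R260

open Matrix
open scoped BigOperators

variable {m : ℕ}

/-! ### independence of the eigenbasis -/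

theorem mx_diag_conj_isSymm (V : Mx m) (c : Fin m → ℝ) :
    (V * Matrix.diagonal c * Vᵀ).IsSymm := by
  unfold Matrix.IsSymm
  simp only [Matrix.transpose_mul, Matrix.transpose_transpose, Matrix.diagonal_transpose,
    Matrix.mul_assoc]

/-- the transition matrix `W = Uᵀ V` between the chosen eigenbasis and another one -/
noncomputable def mxW (V : Mx m) (c : Fin m → ℝ) : Mx m := (mxU (V * Matrix.diagonal c * Vᵀ))ᵀ * V

theorem mxW_mul_transpose (V : Mx m) (hV : Vᵀ * V = 1) (c : Fin m → ℝ) :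
    mxW V c * (mxW V c)ᵀ = 1 := by
  have hV' : V * Vᵀ = 1 := mul_eq_one_comm.mp hV
  calc mxW V c * (mxW V c)ᵀ
      = (mxU (V * Matrix.diagonal c * Vᵀ))ᵀ * (V * Vᵀ) * mxU (V * Matrix.diagonal c * Vᵀ) := by
        simp only [mxW, Matrix.transpose_mul, Matrix.transpose_transpose, Matrix.mul_assoc]
    _ = 1 := by rw [hV', Matrix.mul_one, mxU_transpose_mul]

theorem mxU_mul_mxW (V : Mx m) (c : Fin m → ℝ) :
    mxU (V * Matrix.diagonal c * Vᵀ) * mxW V c = V := by
  rw [mxW, ← Matrix.mul_assoc, mxU_mul_transpose, Matrix.one_mul]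

theorem mxW_mul_transpose_V (V : Mx m) (hV : Vᵀ * V = 1) (c : Fin m → ℝ) :
    mxW V c * Vᵀ = (mxU (V * Matrix.diagonal c * Vᵀ))ᵀ := by
  have hV' : V * Vᵀ = 1 := mul_eq_one_comm.mp hV
  rw [mxW, Matrix.mul_assoc, hV', Matrix.mul_one]

/-- `Uᵀ A = diag(a) Uᵀ` -/
theorem mxU_transpose_mul_self_eq {A : Mx m} (hA : A.IsSymm) :
    (mxU A)ᵀ * A = Matrix.diagonal (mxEig A) * (mxU A)ᵀ := by
  have h1 : mxRot A A = Matrix.diagonal (mxEig A) := by
    have := mxRot_mxFun (fun a => a) A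
    rwa [mxFun_id hA] at this
  calc (mxU A)ᵀ * A = (mxU A)ᵀ * A * (mxU A * (mxU A)ᵀ) := by
        rw [mxU_mul_transpose, Matrix.mul_one]
    _ = mxRot A A * (mxU A)ᵀ := by simp only [mxRot, Matrix.mul_assoc]
    _ = Matrix.diagonal (mxEig A) * (mxU A)ᵀ := by rw [h1]

theorem mxW_intertwine (V : Mx m) (hV : Vᵀ * V = 1) (c : Fin m → ℝ) :
    Matrix.diagonal (mxEig (V * Matrix.diagonal c * Vᵀ)) * mxW V c
      = mxW V c * Matrix.diagonal c := by
  have hsym := mx_diag_conj_isSymm V c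
  have h1 := mxU_transpose_mul_self_eq hsym
  calc Matrix.diagonal (mxEig (V * Matrix.diagonal c * Vᵀ)) * mxW V c
      = ((mxU (V * Matrix.diagonal c * Vᵀ))ᵀ * (V * Matrix.diagonal c * Vᵀ)) * V := by
        rw [h1, mxW]
        exact (Matrix.mul_assoc _ _ _).symm
    _ = ((mxU (V * Matrix.diagonal c * Vᵀ))ᵀ * V) * Matrix.diagonal c * (Vᵀ * V) := by
        simp only [Matrix.mul_assoc]
    _ = mxW V c * Matrix.diagonal c := by rw [hV, Matrix.mul_one, mxW]

/-- `W_ij ≠ 0` forces `a_i = c_j` -/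
theorem mxW_eig (V : Mx m) (hV : Vᵀ * V = 1) (c : Fin m → ℝ) {i j : Fin m}
    (h : mxW V c i j ≠ 0) : mxEig (V * Matrix.diagonal c * Vᵀ) i = c j := by
  have h1 := congrFun (congrFun (mxW_intertwine V hV c) i) j
  rw [Matrix.diagonal_mul, Matrix.mul_diagonal, mul_comm] at h1
  exact mul_left_cancel₀ h h1

/-- `f(V diag(c) Vᵀ) = V diag(f c) Vᵀ` for EVERY orthogonal `V` -/
theorem mxFun_of_diag (V : Mx m) (hV : Vᵀ * V = 1) (c : Fin m → ℝ) (f : ℝ → ℝ) :
    mxFun f (V * Matrix.diagonal c * Vᵀ) = V * Matrix.diagonal (fun i => f (c i)) * Vᵀ := by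
  set A := V * Matrix.diagonal c * Vᵀ with hA
  have h1 : Matrix.diagonal (fun i => f (mxEig A i)) * mxW V c
      = mxW V c * Matrix.diagonal (fun i => f (c i)) := by
    ext i j
    rw [Matrix.diagonal_mul, Matrix.mul_diagonal]
    by_cases h : mxW V c i j = 0
    · rw [h, mul_zero, zero_mul]
    · rw [mxW_eig V hV c h, mul_comm]
  calc mxFun f A = mxU A * (Matrix.diagonal (fun i => f (mxEig A i)) * mxW V c) * Vᵀ := by
        rw [mxFun, ← mxW_mul_transpose_V V hV c]
        simp only [Matrix.mul_assoc]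
    _ = (mxU A * mxW V c) * Matrix.diagonal (fun i => f (c i)) * Vᵀ := by
        rw [h1]
        simp only [Matrix.mul_assoc]
    _ = V * Matrix.diagonal (fun i => f (c i)) * Vᵀ := by rw [mxU_mul_mxW]

/-- Schur multipliers do not depend on the eigenbasis -/
theorem mxSchur_of_diag (V : Mx m) (hV : Vᵀ * V = 1) (c : Fin m → ℝ) (w : ℝ → ℝ → ℝ) (Z : Mx m) :
    mxSchur w (V * Matrix.diagonal c * Vᵀ) Z
      = V * (Matrix.of fun i j => w (c i) (c j) * (Vᵀ * Z * V) i j) * Vᵀ := by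
  set A := V * Matrix.diagonal c * Vᵀ with hA
  set W := mxW V c with hW
  set Z' := Vᵀ * Z * V with hZ'
  have hV' : V * Vᵀ = 1 := mul_eq_one_comm.mp hV
  have hrot : mxRot A Z = W * Z' * Wᵀ := by
    have hWV : W * Vᵀ = (mxU A)ᵀ := mxW_mul_transpose_V V hV c
    have hWV' : V * Wᵀ = mxU A := by
      have := congrArg Matrix.transpose hWV
      simpa only [Matrix.transpose_mul, Matrix.transpose_transpose] using this
    calc mxRot A Z = (W * Vᵀ) * Z * (V * Wᵀ) := by rw [hWV, hWV', mxRot]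
      _ = W * Z' * Wᵀ := by
          rw [hZ']
          simp only [Matrix.mul_assoc]
  have hkey : (Matrix.of fun i j => w (mxEig A i) (mxEig A j) * mxRot A Z i j)
      = W * (Matrix.of fun i j => w (c i) (c j) * Z' i j) * Wᵀ := by
    ext i j
    rw [hrot]
    simp only [Matrix.of_apply, Matrix.mul_apply, Matrix.transpose_apply, Finset.sum_mul,
      Finset.mul_sum]
    refine Finset.sum_congr rfl fun l _ => Finset.sum_congr rfl fun k _ => ?_
    by_cases h1 : W i k = 0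
    · simp [h1]
    by_cases h2 : W j l = 0
    · simp [h2]
    rw [mxW_eig V hV c h1, mxW_eig V hV c h2]
    ring
  calc mxSchur w A Z
      = (mxU A * W) * (Matrix.of fun i j => w (c i) (c j) * Z' i j) * (mxU A * W)ᵀ := by
        rw [mxSchur, hkey]
        simp only [Matrix.transpose_mul, Matrix.mul_assoc]
    _ = V * (Matrix.of fun i j => w (c i) (c j) * Z' i j) * Vᵀ := by rw [hW, mxU_mul_mxW]

theorem mxFun_comp (f g : ℝ → ℝ) (A : Mx m) : mxFun f (mxFun g A) = mxFun (fun a => f (g a)) A :=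
  mxFun_of_diag (mxU A) (mxU_transpose_mul A) (fun i => g (mxEig A i)) f

/-- the spectrum of `V diag(c) Vᵀ` is contained in `c` -/
theorem mxEig_of_diag_mem (V : Mx m) (hV : Vᵀ * V = 1) (c : Fin m → ℝ) (i : Fin m) :
    ∃ j, mxEig (V * Matrix.diagonal c * Vᵀ) i = c j := by
  have h1 := congrFun (congrFun (mxW_mul_transpose V hV c) i) i
  rw [Matrix.mul_apply, Matrix.one_apply_eq] at h1
  have h2 : ∃ j, mxW V c i j ≠ 0 := by
    by_contra hcon
    push Not at hcon
    simp [hcon] at h1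
  obtain ⟨j, hj⟩ := h2
  exact ⟨j, mxW_eig V hV c hj⟩

/-- the spectrum of `g(A)` is `g(spectrum A)` -/
theorem mxEig_mxFun_mem (g : ℝ → ℝ) (A : Mx m) (i : Fin m) :
    ∃ j, mxEig (mxFun g A) i = g (mxEig A j) :=
  mxEig_of_diag_mem (mxU A) (mxU_transpose_mul A) (fun i => g (mxEig A i)) i

/-- Schur multipliers with respect to `g(A)`, `g` injective on the spectrum -/
theorem mxSchur_mxFun (w : ℝ → ℝ → ℝ) (g : ℝ → ℝ) (A Z : Mx m) :
    mxSchur w (mxFun g A) Z = mxSchur (fun u v => w (g u) (g v)) A Z :=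
  mxSchur_of_diag (mxU A) (mxU_transpose_mul A) (fun i => g (mxEig A i)) w Z

theorem mxSchur_mxSchur (w w' : ℝ → ℝ → ℝ) (A Z : Mx m) :
    mxSchur w A (mxSchur w' A Z) = mxSchur (fun u v => w u v * w' u v) A Z := by
  apply mxRot_injective A
  ext i j
  rw [mxRot_mxSchur_apply, mxRot_mxSchur_apply, mxRot_mxSchur_apply, mul_assoc]

theorem mxSchur_one (A Z : Mx m) : mxSchur (fun _ _ => 1) A Z = Z := by
  apply mxRot_injective A
  ext i j
  rw [mxRot_mxSchur_apply, one_mul]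

theorem mxSchur_congr {w w' : ℝ → ℝ → ℝ} {A : Mx m}
    (h : ∀ i j, w (mxEig A i) (mxEig A j) = w' (mxEig A i) (mxEig A j)) (Z : Mx m) :
    mxSchur w A Z = mxSchur w' A Z := by
  apply mxRot_injective A
  ext i j
  rw [mxRot_mxSchur_apply, mxRot_mxSchur_apply, h]

theorem mxSchur_add (w : ℝ → ℝ → ℝ) (A Z Z' : Mx m) :
    mxSchur w A (Z + Z') = mxSchur w A Z + mxSchur w A Z' := by
  apply mxRot_injective A
  ext i j
  rw [mxRot_add, Matrix.add_apply, mxRot_mxSchur_apply, mxRot_mxSchur_apply, mxRot_mxSchur_apply,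
    mxRot_add, Matrix.add_apply, mul_add]

theorem mxSchur_smul (w : ℝ → ℝ → ℝ) (A : Mx m) (c : ℝ) (Z : Mx m) :
    mxSchur w A (c • Z) = c • mxSchur w A Z := by
  apply mxRot_injective A
  ext i j
  rw [mxRot_smul, Matrix.smul_apply, mxRot_mxSchur_apply, mxRot_mxSchur_apply, mxRot_smul,
    Matrix.smul_apply, smul_eq_mul, smul_eq_mul]
  ring

/-! ### Daleckii-Krein operator -/

theorem mxDD_symm (f f' : ℝ → ℝ) (u v : ℝ) : mxDD f f' u v = mxDD f f' v u := by
  unfold mxDD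
  by_cases h : u = v
  · subst h
    rfl
  · rw [if_neg h, if_neg (Ne.symm h), ← neg_sub (f u) (f v), ← neg_sub u v, neg_div_neg_eq]

theorem mxDK_isSymm (f f' : ℝ → ℝ) (A : Mx m) {Z : Mx m} (hZ : Z.IsSymm) :
    (mxDK f f' A Z).IsSymm := by
  unfold Matrix.IsSymm
  apply mxRot_injective A
  rw [mxRot_transpose]
  ext i j
  rw [Matrix.transpose_apply, mxRot_mxDK_apply, mxRot_mxDK_apply, mxDD_symm,
    mxRot_symm_apply A hZ]

theorem mxFun_pow {A : Mx m} (hA : A.IsSymm) (n : ℕ) : mxFun (fun a => a ^ n) A = A ^ n := by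
  induction n with
  | zero => simp only [pow_zero, mxFun_const, one_smul]
  | succ n ih =>
    simp only [pow_succ]
    rw [mxFun_mul, ih, mxFun_id hA]

/-- Leibniz rule = Daleckii-Krein for monomials -/
theorem mxDK_pow {A : Mx m} (hA : A.IsSymm) (n : ℕ) (Z : Mx m) :
    mxDK (fun a => a ^ (n + 1)) (fun a => (n + 1 : ℝ) * a ^ n) A Z
      = ∑ i ∈ Finset.range (n + 1), A ^ i * Z * A ^ (n - i) := by
  apply mxRot_injective A
  ext i j
  have hsum : mxRot A (∑ t ∈ Finset.range (n + 1), A ^ t * Z * A ^ (n - t)) i j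
      = ∑ t ∈ Finset.range (n + 1), mxEig A i ^ t * mxRot A Z i j * mxEig A j ^ (n - t) := by
    have h1 : mxRot A (∑ t ∈ Finset.range (n + 1), A ^ t * Z * A ^ (n - t))
        = ∑ t ∈ Finset.range (n + 1), mxRot A (A ^ t * Z * A ^ (n - t)) := by
      simp only [mxRot, Finset.mul_sum, Finset.sum_mul]
    rw [h1, Matrix.sum_apply]
    refine Finset.sum_congr rfl fun t _ => ?_
    rw [← mxFun_pow hA, ← mxFun_pow hA, mxRot_mul_mxFun_apply, mxRot_mxFun_mul_apply]
  rw [mxRot_mxDK_apply, hsum]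
  have hgeom := geom_sum₂_mul (mxEig A i) (mxEig A j) (n + 1)
  simp only [Nat.add_sub_cancel] at hgeom
  unfold mxDD
  by_cases h : mxEig A i = mxEig A j
  · rw [if_pos h, h]
    have : ∀ t ∈ Finset.range (n + 1),
        mxEig A j ^ t * mxRot A Z i j * mxEig A j ^ (n - t) = mxEig A j ^ n * mxRot A Z i j := by
      intro t ht
      have ht' : t ≤ n := Nat.lt_succ_iff.mp (Finset.mem_range.mp ht)
      calc mxEig A j ^ t * mxRot A Z i j * mxEig A j ^ (n - t)
          = (mxEig A j ^ t * mxEig A j ^ (n - t)) * mxRot A Z i j := by ring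
        _ = mxEig A j ^ n * mxRot A Z i j := by rw [← pow_add, Nat.add_sub_cancel' ht']
    rw [Finset.sum_congr rfl this, Finset.sum_const, Finset.card_range, nsmul_eq_mul]
    push_cast
    ring
  · rw [if_neg h, ← hgeom, mul_div_assoc, div_self (sub_ne_zero.mpr h), mul_one, Finset.sum_mul]
    refine Finset.sum_congr rfl fun t _ => ?_
    ring

/-- `|Df(A)[Z]|_F ≤ C |Z|_F` if all divided differences on the spectrum are bounded by `C` -/
theorem mxDK_sq_le {f f' : ℝ → ℝ} {C : ℝ} {A : Mx m}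
    (h : ∀ i j, |mxDD f f' (mxEig A i) (mxEig A j)| ≤ C) (Z : Mx m) :
    mxSq (mxDK f f' A Z) ≤ C ^ 2 * mxSq Z := by
  rw [mxSq_rot A, mxSq_rot A Z, Finset.mul_sum]
  refine Finset.sum_le_sum fun i _ => ?_
  rw [Finset.mul_sum]
  refine Finset.sum_le_sum fun j _ => ?_
  rw [mxRot_mxDK_apply, mul_pow]
  have h1 := abs_le.mp (h i j)
  exact mul_le_mul_of_nonneg_right (sq_le_sq' h1.1 h1.2) (sq_nonneg _)

/-- mean value bound for divided differences -/
theorem mxDD_abs_le {f f' : ℝ → ℝ} (hf : ∀ a, HasDerivAt f (f' a) a) {lo hi C : ℝ}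
    (hC : ∀ a ∈ Set.Icc lo hi, |f' a| ≤ C) {u v : ℝ} (hu : u ∈ Set.Icc lo hi)
    (hv : v ∈ Set.Icc lo hi) : |mxDD f f' u v| ≤ C := by
  unfold mxDD
  by_cases h : u = v
  · rw [if_pos h]
    exact hC u hu
  · rw [if_neg h]
    have h1 : ‖f u - f v‖ ≤ C * ‖u - v‖ :=
      (convex_Icc lo hi).norm_image_sub_le_of_norm_hasDerivWithin_le
        (fun x _ => (hf x).hasDerivWithinAt) (fun x hx => hC x hx) hv hu
    rw [abs_div, div_le_iff₀ (abs_pos.mpr (sub_ne_zero.mpr h))]
    exact h1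

end Claimed.Agent.R260
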