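/-
Row 260, package MXI: the integrability API for matrix fields on a measure space.
Proofs: helper215.
-/
import Claimed.Agent.R260.MxFunB

set_option autoImplicit false

namespace Claimed.Agent.R260

open Matrix MeasureTheory
open scoped BigOperators

variable {m : ℕ}

/-! ### matrix fields -/

variable {Ω : Type*} [MeasurableSpace Ω]

/-- measurable bounded matrix field -/
def MxBd (F : Ω → Mx m) : Prop :=
  (∀ i j, Measurable fun ω => F ω i j) ∧ ∃ C : ℝ, ∀ ω i j, |F ω i j| ≤ C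

/-- square integrable matrix field -/
def MxL2 (μ : Measure Ω) (F : Ω → Mx m) : Prop := ∀ i j, MemLp (fun ω => F ω i j) 2 μ

theorem mx_int_eqns_cite : True := by
  have := @MxBd.eq_1.{0}
  have := @MxL2.eq_1.{0}
  trivial

theorem MxBd.const (M : Mx m) : MxBd (fun _ : Ω => M) := by
  refine ⟨fun i j => measurable_const, ∑ i, ∑ j, |M i j|, fun _ i j => ?_⟩
  calc |M i j| ≤ ∑ j, |M i j| :=
        Finset.single_le_sum (f := fun j => |M i j|) (fun j _ => abs_nonneg _) (Finset.mem_univ j)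
    _ ≤ ∑ i, ∑ j, |M i j| :=
        Finset.single_le_sum (f := fun i => ∑ j, |M i j|)
          (fun i _ => Finset.sum_nonneg fun j _ => abs_nonneg _) (Finset.mem_univ i)

theorem MxBd.add {F G : Ω → Mx m} (hF : MxBd F) (hG : MxBd G) : MxBd (fun ω => F ω + G ω) := by
  obtain ⟨hFm, C, hC⟩ := hF
  obtain ⟨hGm, D, hD⟩ := hG
  refine ⟨fun i j => (hFm i j).add (hGm i j), C + D, fun ω i j => ?_⟩
  exact (abs_add_le _ _).trans (add_le_add (hC ω i j) (hD ω i j))

theorem MxBd.neg {F : Ω → Mx m} (hF : MxBd F) : MxBd (fun ω => -F ω) := by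
  obtain ⟨hFm, C, hC⟩ := hF
  refine ⟨fun i j => (hFm i j).neg, C, fun ω i j => ?_⟩
  show |(-F ω) i j| ≤ C
  rw [Matrix.neg_apply, abs_neg]; exact hC ω i j

theorem MxBd.sub {F G : Ω → Mx m} (hF : MxBd F) (hG : MxBd G) : MxBd (fun ω => F ω - G ω) := by
  simpa only [sub_eq_add_neg] using hF.add hG.neg

theorem MxBd.smul (c : ℝ) {F : Ω → Mx m} (hF : MxBd F) : MxBd (fun ω => c • F ω) := by
  obtain ⟨hFm, C, hC⟩ := hF
  refine ⟨fun i j => (hFm i j).const_mul c, |c| * C, fun ω i j => ?_⟩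
  show |(c • F ω) i j| ≤ |c| * C
  rw [Matrix.smul_apply, smul_eq_mul, abs_mul]
  exact mul_le_mul_of_nonneg_left (hC ω i j) (abs_nonneg _)

theorem MxBd.mul {F G : Ω → Mx m} (hF : MxBd F) (hG : MxBd G) : MxBd (fun ω => F ω * G ω) := by
  obtain ⟨hFm, C, hC⟩ := hF
  obtain ⟨hGm, D, hD⟩ := hG
  refine ⟨fun i j => ?_, ∑ _k : Fin m, C * D, fun ω i j => ?_⟩
  · simp only [Matrix.mul_apply]
    exact Finset.measurable_sum _ fun k _ => (hFm i k).mul (hGm k j)
  · show |(F ω * G ω) i j| ≤ _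
    rw [Matrix.mul_apply]
    refine (Finset.abs_sum_le_sum_abs _ _).trans (Finset.sum_le_sum fun k _ => ?_)
    rw [abs_mul]
    exact mul_le_mul (hC ω i k) (hD ω k j) (abs_nonneg _) ((abs_nonneg _).trans (hC ω i k))

theorem MxBd.transpose {F : Ω → Mx m} (hF : MxBd F) : MxBd (fun ω => (F ω)ᵀ) := by
  obtain ⟨hFm, C, hC⟩ := hF
  exact ⟨fun i j => hFm j i, C, fun ω i j => hC ω j i⟩

theorem MxBd.sum {ι : Type*} (s : Finset ι) {F : ι → Ω → Mx m} (hF : ∀ r ∈ s, MxBd (F r)) :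
    MxBd (fun ω => ∑ r ∈ s, F r ω) := by
  classical
  induction s using Finset.induction_on with
  | empty => simpa using MxBd.const (Ω := Ω) (0 : Mx m)
  | insert a s ha ih =>
    simp only [Finset.sum_insert ha]
    exact (hF a (Finset.mem_insert_self a s)).add
      (ih fun r hr => hF r (Finset.mem_insert_of_mem hr))

variable {μ : Measure Ω}

theorem MxBd.toL2 [IsFiniteMeasure μ] {F : Ω → Mx m} (hF : MxBd F) : MxL2 μ F := by
  obtain ⟨hFm, C, hC⟩ := hF
  exact fun i j => MemLp.of_bound (hFm i j).aestronglyMeasurable C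
    (Filter.Eventually.of_forall fun ω => by rw [Real.norm_eq_abs]; exact hC ω i j)

theorem MxL2.add {F G : Ω → Mx m} (hF : MxL2 μ F) (hG : MxL2 μ G) :
    MxL2 μ (fun ω => F ω + G ω) := fun i j => (hF i j).add (hG i j)

theorem MxL2.sub {F G : Ω → Mx m} (hF : MxL2 μ F) (hG : MxL2 μ G) :
    MxL2 μ (fun ω => F ω - G ω) := fun i j => (hF i j).sub (hG i j)

theorem MxL2.neg {F : Ω → Mx m} (hF : MxL2 μ F) : MxL2 μ (fun ω => -F ω) :=
  fun i j => (hF i j).neg

theorem MxL2.smul (c : ℝ) {F : Ω → Mx m} (hF : MxL2 μ F) : MxL2 μ (fun ω => c • F ω) :=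
  fun i j => (hF i j).const_mul c

/-- scalar `L²` function times a constant matrix -/
theorem MxL2.smul_const {x : Ω → ℝ} (hx : MemLp x 2 μ) (M : Mx m) :
    MxL2 μ (fun ω => x ω • M) := by
  intro i j
  have := hx.const_mul (M i j)
  simpa only [Matrix.smul_apply, smul_eq_mul, mul_comm] using this

theorem MxL2.transpose {F : Ω → Mx m} (hF : MxL2 μ F) : MxL2 μ (fun ω => (F ω)ᵀ) :=
  fun i j => hF j i

theorem MxL2.sum {ι : Type*} (s : Finset ι) {F : ι → Ω → Mx m} (hF : ∀ r ∈ s, MxL2 μ (F r)) :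
    MxL2 μ (fun ω => ∑ r ∈ s, F r ω) := by
  intro i j
  have := memLp_finsetSum s (fun r hr => hF r hr i j)
  simpa only [Matrix.sum_apply] using this

theorem mxi_memLp_bdd_mul {f g : Ω → ℝ} (hf : Measurable f) {C : ℝ} (hC : ∀ ω, |f ω| ≤ C)
    (hg : MemLp g 2 μ) : MemLp (fun ω => f ω * g ω) 2 μ := by
  refine MemLp.of_le_mul (c := C) hg (hf.aestronglyMeasurable.mul hg.1)
    (Filter.Eventually.of_forall fun ω => ?_)
  rw [norm_mul, Real.norm_eq_abs]
  exact mul_le_mul_of_nonneg_right (hC ω) (norm_nonneg _)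

theorem MxBd.mul_L2 {F G : Ω → Mx m} (hF : MxBd F) (hG : MxL2 μ G) :
    MxL2 μ (fun ω => F ω * G ω) := by
  obtain ⟨hFm, C, hC⟩ := hF
  intro i j
  simp only [Matrix.mul_apply]
  exact memLp_finsetSum _ fun k _ => mxi_memLp_bdd_mul (hFm i k) (fun ω => hC ω i k) (hG k j)

theorem MxL2.mul_Bd {F G : Ω → Mx m} (hF : MxL2 μ F) (hG : MxBd G) :
    MxL2 μ (fun ω => F ω * G ω) := by
  obtain ⟨hGm, C, hC⟩ := hG
  intro i j
  simp only [Matrix.mul_apply]
  refine memLp_finsetSum _ fun k _ => ?_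
  simpa only [mul_comm] using mxi_memLp_bdd_mul (hGm k j) (fun ω => hC ω k j) (hF i k)

theorem MxL2.integrable_mul_apply {F G : Ω → Mx m} (hF : MxL2 μ F) (hG : MxL2 μ G) (i j : Fin m) :
    Integrable (fun ω => (F ω * G ω) i j) μ := by
  simp only [Matrix.mul_apply]
  exact integrable_finsetSum _ fun k _ => (hF i k).integrable_mul (hG k j)

theorem MxL2.integrable_trace_mul {F G : Ω → Mx m} (hF : MxL2 μ F) (hG : MxL2 μ G) :
    Integrable (fun ω => Matrix.trace (F ω * G ω)) μ := by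
  unfold Matrix.trace
  exact integrable_finsetSum _ fun i _ => hF.integrable_mul_apply hG i i

theorem MxL2.integrable_mxSq {F : Ω → Mx m} (hF : MxL2 μ F) :
    Integrable (fun ω => mxSq (F ω)) μ := hF.transpose.integrable_trace_mul hF

theorem MxL2.integrable_mxIP {F G : Ω → Mx m} (hF : MxL2 μ F) (hG : MxL2 μ G) :
    Integrable (fun ω => mxIP (F ω) (G ω)) μ := hF.transpose.integrable_trace_mul hG

theorem MxL2.integrable_mxSqS (S : Mx m) {F : Ω → Mx m} (hF : MxL2 μ F) :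
    Integrable (fun ω => mxSqS S (F ω)) μ :=
  (hF.transpose.mul_Bd (MxBd.const S)).integrable_trace_mul hF

theorem MxL2.integrable_apply [IsFiniteMeasure μ] {F : Ω → Mx m} (hF : MxL2 μ F) (i j : Fin m) :
    Integrable (fun ω => F ω i j) μ := (hF i j).integrable (by norm_num)

theorem MxL2.integrable_trace [IsFiniteMeasure μ] {F : Ω → Mx m} (hF : MxL2 μ F) :
    Integrable (fun ω => Matrix.trace (F ω)) μ := by
  unfold Matrix.trace
  exact integrable_finsetSum _ fun i _ => hF.integrable_apply i i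

/-! ### functional calculus of fields -/

/-- a measurable field of symmetric matrices with spectrum in `[-R,R]` -/
structure MxSymBd (A : Ω → Mx m) : Prop where
  symm : ∀ ω, (A ω).IsSymm
  meas : ∀ i j, Measurable fun ω => A ω i j
  bdd : ∃ R : ℝ, ∀ ω i, |mxEig (A ω) i| ≤ R

end Claimed.Agent.R260
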