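/-
Row 260, package DK, leaf DK-ChainB-poly (owner: helper175): polynomial functional calculus,
linearity / product rule of the Daleckii-Krein operator, `C¹` polynomial approximation, Jensen.
Imports only the pointwise library (no measure theory).
-/
import Claimed.Agent.R260.MxFunB

set_option autoImplicit false

namespace Claimed.Agent.R260

open Matrix
open scoped BigOperators

variable {m : ℕ}

/-! ### polynomial functional calculus -/

theorem mxFun_poly {A : Mx m} (hA : A.IsSymm) (P : Polynomial ℝ) :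
    mxFun (fun a => P.eval a) A = Polynomial.aeval A P := by
  induction P using Polynomial.induction_on' with
  | add p q hp hq =>
    simp only [Polynomial.eval_add, map_add]
    rw [mxFun_add, hp, hq]
  | monomial n c =>
    simp only [Polynomial.eval_monomial, Polynomial.aeval_monomial]
    rw [mxFun_smul, mxFun_pow hA, Algebra.algebraMap_eq_smul_one, smul_mul_assoc, one_mul]

theorem mxDK_add (f f' g g' : ℝ → ℝ) (A Z : Mx m) :
    mxDK (fun a => f a + g a) (fun a => f' a + g' a) A Z = mxDK f f' A Z + mxDK g g' A Z := by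
  apply mxRot_injective A
  ext i j
  rw [mxRot_add, Matrix.add_apply, mxRot_mxDK_apply, mxRot_mxDK_apply, mxRot_mxDK_apply]
  unfold mxDD
  split_ifs <;> ring

theorem mxDK_sub (f f' g g' : ℝ → ℝ) (A Z : Mx m) :
    mxDK (fun a => f a - g a) (fun a => f' a - g' a) A Z = mxDK f f' A Z - mxDK g g' A Z := by
  apply mxRot_injective A
  ext i j
  rw [mxRot_sub, Matrix.sub_apply, mxRot_mxDK_apply, mxRot_mxDK_apply, mxRot_mxDK_apply]
  unfold mxDD
  split_ifs <;> ring

theorem mxDK_const_mul (c : ℝ) (f f' : ℝ → ℝ) (A Z : Mx m) :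
    mxDK (fun a => c * f a) (fun a => c * f' a) A Z = c • mxDK f f' A Z := by
  apply mxRot_injective A
  ext i j
  rw [mxRot_smul, Matrix.smul_apply, mxRot_mxDK_apply, mxRot_mxDK_apply, smul_eq_mul]
  unfold mxDD
  split_ifs <;> ring

theorem mxDK_const (c : ℝ) (A Z : Mx m) : mxDK (fun _ => c) (fun _ => 0) A Z = 0 := by
  apply mxRot_injective A
  ext i j
  rw [mxRot_mxDK_apply]
  unfold mxDD
  simp [mxRot]

/-- product rule for the Daleckii-Krein operator -/
theorem mxDK_mul (f f' g g' : ℝ → ℝ) (A Z : Mx m) :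
    mxDK (fun a => f a * g a) (fun a => f' a * g a + f a * g' a) A Z
      = mxDK f f' A Z * mxFun g A + mxFun f A * mxDK g g' A Z := by
  apply mxRot_injective A
  ext i j
  rw [mxRot_add, Matrix.add_apply, mxRot_mul_mxFun_apply, mxRot_mxFun_mul_apply,
    mxRot_mxDK_apply, mxRot_mxDK_apply, mxRot_mxDK_apply]
  unfold mxDD
  by_cases h : mxEig A i = mxEig A j
  · rw [if_pos h, if_pos h, if_pos h, h]
    ring
  · rw [if_neg h, if_neg h, if_neg h]
    have := sub_ne_zero.mpr h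
    field_simp
    ring

/-- `mxDK` only depends on the values on the spectrum -/
theorem mxDK_congr {f f' g g' : ℝ → ℝ} {A : Mx m} (h : ∀ i, f (mxEig A i) = g (mxEig A i))
    (h' : ∀ i, f' (mxEig A i) = g' (mxEig A i)) (Z : Mx m) : mxDK f f' A Z = mxDK g g' A Z := by
  unfold mxDK
  refine mxSchur_congr (fun i j => ?_) Z
  unfold mxDD
  rw [h i, h j, h' i]

/-- mean value bound for divided differences, local version -/
theorem mxDD_abs_le' {f f' : ℝ → ℝ} {lo hi C : ℝ}
    (hf : ∀ a ∈ Set.Icc lo hi, HasDerivWithinAt f (f' a) (Set.Icc lo hi) a)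
    (hC : ∀ a ∈ Set.Icc lo hi, |f' a| ≤ C) {u v : ℝ} (hu : u ∈ Set.Icc lo hi)
    (hv : v ∈ Set.Icc lo hi) : |mxDD f f' u v| ≤ C := by
  unfold mxDD
  by_cases h : u = v
  · rw [if_pos h]
    exact hC u hu
  · rw [if_neg h]
    have h1 : ‖f u - f v‖ ≤ C * ‖u - v‖ :=
      (convex_Icc lo hi).norm_image_sub_le_of_norm_hasDerivWithin_le
        (fun x hx => hf x hx) (fun x hx => hC x hx) hv hu
    rw [abs_div, div_le_iff₀ (abs_pos.mpr (sub_ne_zero.mpr h))]
    exact h1

/-- a polynomial antiderivative -/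
theorem mx_exists_antiderivative (p : Polynomial ℝ) : ∃ Q : Polynomial ℝ, Q.derivative = p := by
  induction p using Polynomial.induction_on' with
  | add p q hp hq =>
    obtain ⟨P, hP⟩ := hp
    obtain ⟨Q, hQ⟩ := hq
    exact ⟨P + Q, by rw [Polynomial.derivative_add, hP, hQ]⟩
  | monomial n c =>
    refine ⟨Polynomial.monomial (n + 1) (c / (n + 1)), ?_⟩
    rw [Polynomial.derivative_monomial]
    have : (n : ℝ) + 1 ≠ 0 := by positivity
    simp
    field_simp

theorem mx_poly_approx_aux {lo hi : ℝ} {f f' : ℝ → ℝ}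
    (hf : ∀ a ∈ Set.Icc lo hi, HasDerivWithinAt f (f' a) (Set.Icc lo hi) a)
    (hf' : ContinuousOn f' (Set.Icc lo hi)) {δ : ℝ} (hδ : 0 < δ) :
    ∃ P : Polynomial ℝ, ∀ a ∈ Set.Icc lo hi,
      |f a - P.eval a| ≤ δ * |hi - lo| ∧ |f' a - P.derivative.eval a| ≤ δ := by
  obtain ⟨p, hp⟩ := exists_polynomial_near_of_continuousOn lo hi f' hf' δ hδ
  obtain ⟨Q, hQ⟩ := mx_exists_antiderivative p
  refine ⟨Q + Polynomial.C (f lo - Q.eval lo), fun a ha => ?_⟩
  have hd : (Q + Polynomial.C (f lo - Q.eval lo)).derivative = p := by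
    rw [Polynomial.derivative_add, Polynomial.derivative_C, add_zero, hQ]
  have hb : ∀ x ∈ Set.Icc lo hi, |f' x - p.eval x| ≤ δ := fun x hx => by
    rw [abs_sub_comm]; exact (hp x hx).le
  refine ⟨?_, by rw [hd]; exact hb a ha⟩
  have hlo : lo ∈ Set.Icc lo hi := ⟨le_rfl, ha.1.trans ha.2⟩
  set g : ℝ → ℝ := fun x => f x - (Q + Polynomial.C (f lo - Q.eval lo)).eval x with hg
  have hgd : ∀ x ∈ Set.Icc lo hi, HasDerivWithinAt g (f' x - p.eval x) (Set.Icc lo hi) x := by
    intro x hx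
    have h1 := (Q + Polynomial.C (f lo - Q.eval lo)).hasDerivAt x
    rw [hd] at h1
    exact (hf x hx).sub h1.hasDerivWithinAt
  have h1 : ‖g a - g lo‖ ≤ δ * ‖a - lo‖ :=
    (convex_Icc lo hi).norm_image_sub_le_of_norm_hasDerivWithin_le hgd
      (fun x hx => hb x hx) hlo ha
  have hg0 : g lo = 0 := by simp [hg]
  rw [hg0, sub_zero] at h1
  refine h1.trans (mul_le_mul_of_nonneg_left ?_ hδ.le)
  rw [Real.norm_eq_abs, abs_of_nonneg (sub_nonneg.2 ha.1),
    abs_of_nonneg (sub_nonneg.2 (ha.1.trans ha.2))]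
  linarith [ha.2]

/-- `C¹` approximation by polynomials on a compact interval (Weierstrass for `f'`, integrate) -/
theorem mx_poly_approx {lo hi : ℝ} {f f' : ℝ → ℝ}
    (hf : ∀ a ∈ Set.Icc lo hi, HasDerivWithinAt f (f' a) (Set.Icc lo hi) a)
    (hf' : ContinuousOn f' (Set.Icc lo hi)) :
    ∃ P : ℕ → Polynomial ℝ, ∀ ε > 0, ∀ᶠ n in Filter.atTop, ∀ a ∈ Set.Icc lo hi,
      |f a - (P n).eval a| ≤ ε ∧ |f' a - (P n).derivative.eval a| ≤ ε := by
  set L : ℝ := 1 + |hi - lo| with hL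
  have hL1 : 1 ≤ L := by rw [hL]; linarith [abs_nonneg (hi - lo)]
  have hLpos : 0 < L := by linarith
  have hδ : ∀ n : ℕ, 0 < 1 / (((n : ℝ) + 1) * L) := fun n => by positivity
  choose P hP using fun n : ℕ => mx_poly_approx_aux hf hf' (hδ n)
  refine ⟨P, fun ε hε => ?_⟩
  obtain ⟨N, hN⟩ := exists_nat_one_div_lt hε
  filter_upwards [Filter.eventually_ge_atTop N] with n hn a ha
  have hn1 : 1 / ((n : ℝ) + 1) ≤ ε := by
    refine le_trans ?_ hN.le
    apply one_div_le_one_div_of_le (by positivity)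
    have : (N : ℝ) ≤ n := by exact_mod_cast hn
    linarith
  obtain ⟨h1, h2⟩ := hP n a ha
  have e1 : 1 / (((n : ℝ) + 1) * L) * |hi - lo| ≤ 1 / ((n : ℝ) + 1) := by
    rw [one_div_mul_eq_div, div_le_div_iff₀ (by positivity) (by positivity)]
    have : |hi - lo| ≤ L := by rw [hL]; linarith
    have hn0 : (0 : ℝ) ≤ (n : ℝ) + 1 := by positivity
    nlinarith
  have e2 : 1 / (((n : ℝ) + 1) * L) ≤ 1 / ((n : ℝ) + 1) := by
    apply one_div_le_one_div_of_le (by positivity)
    have hn0 : (0 : ℝ) ≤ (n : ℝ) + 1 := by positivity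
    nlinarith
  exact ⟨h1.trans (e1.trans hn1), h2.trans (e2.trans hn1)⟩

/-! ### Jensen -/

/-- pointwise Jensen on the spectral measure of a unit vector: `f(<e,Ae>) ≤ <e,f(A)e>` -/
theorem mxFun_jensen {f : ℝ → ℝ} (hf : ConvexOn ℝ Set.univ f) {A : Mx m} (hA : A.IsSymm)
    (e : Fin m → ℝ) (he : e ⬝ᵥ e = 1) : f (e ⬝ᵥ (A *ᵥ e)) ≤ e ⬝ᵥ (mxFun f A *ᵥ e) := by
  have h1 : e ⬝ᵥ (A *ᵥ e) = ∑ i, (((mxU A)ᵀ *ᵥ e) i) ^ 2 • mxEig A i := by
    conv_lhs => rw [← mxFun_id hA]
    rw [mxFun_quad]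
    simp only [smul_eq_mul, mul_comm]
  have h2 : ∑ i, (((mxU A)ᵀ *ᵥ e) i) ^ 2 = 1 := by
    have := mxFun_quad (fun _ => 1) A e
    rw [mxFun_const, one_smul, Matrix.one_mulVec, he] at this
    simpa using this.symm
  rw [h1, mxFun_quad]
  have := hf.map_sum_le (t := Finset.univ) (w := fun i => (((mxU A)ᵀ *ᵥ e) i) ^ 2)
    (p := fun i => mxEig A i) (fun i _ => sq_nonneg _) h2 (fun i _ => Set.mem_univ _)
  simpa only [smul_eq_mul, mul_comm] using this

end Claimed.Agent.R260
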