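/-
Row 260, package MX0c: continuity / measurability of the functional calculus and of
the Daleckii-Krein operator; bounded / L2 fields obtained by functional calculus.
Proofs: helper215.
-/
import Claimed.Agent.R260.MxInt
import Claimed.Agent.R260.MxPoly

set_option autoImplicit false

namespace Claimed.Agent.R260

open Matrix MeasureTheory
open scoped BigOperators Topology

variable {m : ℕ}

/-! ### continuity (uniform polynomial approximation on bounded sets, Weierstrass) -/

/-- symmetrisation -/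
noncomputable def mxiSym (A : Mx m) : Mx m := (1 / 2 : ℝ) • (A + Aᵀ)

theorem mxiSym_isSymm (A : Mx m) : (mxiSym A).IsSymm := by
  unfold mxiSym Matrix.IsSymm
  rw [Matrix.transpose_smul, Matrix.transpose_add, Matrix.transpose_transpose, add_comm]

theorem mxiSym_of_isSymm {A : Mx m} (hA : A.IsSymm) : mxiSym A = A := by
  unfold mxiSym
  rw [hA.eq, ← two_smul ℝ A, smul_smul]
  norm_num

theorem mxiSym_continuous : Continuous (mxiSym : Mx m → Mx m) := by
  unfold mxiSym
  exact ((continuous_id (X := Mx m)).add (continuous_id (X := Mx m)).matrix_transpose).const_smul (1 / 2 : ℝ)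

theorem mxSq_continuous : Continuous (mxSq : Mx m → ℝ) := by
  unfold mxSq
  exact ((continuous_id (X := Mx m)).matrix_transpose.matrix_mul continuous_id).matrix_trace

/-- eigenvalues are bounded by the Frobenius norm -/
theorem mxEig_sq_le {A : Mx m} (hA : A.IsSymm) (i : Fin m) : (mxEig A i) ^ 2 ≤ mxSq A := by
  have h1 : mxSq A = ∑ i, (mxEig A i) ^ 2 := by
    rw [← mxFun_trace (fun a => a ^ 2) A, mxFun_pow hA, pow_two]
    unfold mxSq
    rw [hA.eq]
  rw [h1]
  exact Finset.single_le_sum (f := fun i => (mxEig A i) ^ 2) (fun i _ => sq_nonneg _)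
    (Finset.mem_univ i)

theorem mxEig_mem_Icc {A : Mx m} (hA : A.IsSymm) {ρ : ℝ} (h1 : 1 ≤ ρ) (h : mxSq A < ρ) (i : Fin m) :
    mxEig A i ∈ Set.Icc (-ρ) ρ := by
  have h2 := mxEig_sq_le hA i
  have h3 : (mxEig A i) ^ 2 ≤ ρ ^ 2 := by nlinarith
  have := abs_le_of_sq_le_sq h3 (by linarith)
  exact abs_le.mp this

/-- polynomial functional calculus is continuous -/
theorem mxi_poly_continuous (p : Polynomial ℝ) :
    Continuous fun A : Mx m => mxFun (fun a => p.eval a) (mxiSym A) := by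
  induction p using Polynomial.induction_on' with
  | add p q hp hq =>
    simp only [Polynomial.eval_add, mxFun_add]
    exact hp.add hq
  | monomial n c =>
    simp only [Polynomial.eval_monomial, mxFun_smul, mxFun_pow (mxiSym_isSymm _)]
    exact (mxiSym_continuous.pow n).const_smul c

/-- `A ↦ f(A)` is continuous on symmetric matrices (stated through the symmetrisation) -/
theorem mxFun_continuous {f : ℝ → ℝ} (hf : Continuous f) :
    Continuous fun A : Mx m => mxFun f ((1 / 2 : ℝ) • (A + Aᵀ)) := by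
  change Continuous fun A : Mx m => mxFun f (mxiSym A)
  refine continuous_matrix fun i j => ?_
  rw [continuous_iff_continuousAt]
  intro A0
  refine continuousAt_of_locally_uniform_approx_of_continuousAt fun u hu => ?_
  obtain ⟨ε, hε, hεu⟩ := Metric.mem_uniformity_dist.mp hu
  set ρ : ℝ := mxSq (mxiSym A0) + 1 with hρ
  have hρ1 : 1 ≤ ρ := by have := mxSq_nonneg (mxiSym A0); linarith
  obtain ⟨p, hp⟩ := exists_polynomial_near_of_continuousOn (-ρ) ρ f hf.continuousOn (ε / 2)
    (by positivity)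
  refine ⟨{A | mxSq (mxiSym A) < ρ}, ?_, fun A => mxFun (fun a => p.eval a) (mxiSym A) i j,
    ((mxi_poly_continuous p).matrix_elem i j).continuousAt, fun A hA => hεu ?_⟩
  · exact (isOpen_lt (mxSq_continuous.comp mxiSym_continuous) continuous_const).mem_nhds
      (by show mxSq (mxiSym A0) < ρ; linarith)
  · rw [Real.dist_eq, ← Matrix.sub_apply, ← mxFun_sub]
    refine lt_of_le_of_lt (mxFun_apply_abs_le (C := ε / 2) (fun k => ?_) i j) (by linarith)
    have := hp _ (mxEig_mem_Icc (mxiSym_isSymm A) hρ1 hA k)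
    rw [abs_sub_comm]
    exact this.le

theorem mxi_DD_add (f f' g g' : ℝ → ℝ) (u v : ℝ) :
    mxDD (fun a => f a + g a) (fun a => f' a + g' a) u v = mxDD f f' u v + mxDD g g' u v := by
  unfold mxDD
  split_ifs
  · rfl
  · ring

theorem mxi_DD_sub (f f' g g' : ℝ → ℝ) (u v : ℝ) :
    mxDD (fun a => f a - g a) (fun a => f' a - g' a) u v = mxDD f f' u v - mxDD g g' u v := by
  unfold mxDD
  split_ifs
  · rfl
  · ring

theorem mxi_DD_smul (c : ℝ) (f f' : ℝ → ℝ) (u v : ℝ) :
    mxDD (fun a => c * f a) (fun a => c * f' a) u v = c * mxDD f f' u v := by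
  unfold mxDD
  split_ifs
  · rfl
  · ring

theorem mxi_DK_add (f f' g g' : ℝ → ℝ) (A Z : Mx m) :
    mxDK (fun a => f a + g a) (fun a => f' a + g' a) A Z = mxDK f f' A Z + mxDK g g' A Z := by
  refine mxRot_injective A ?_
  ext i j
  rw [mxRot_add, Matrix.add_apply, mxRot_mxDK_apply, mxRot_mxDK_apply, mxRot_mxDK_apply, mxi_DD_add]
  ring

theorem mxi_DK_sub (f f' g g' : ℝ → ℝ) (A Z : Mx m) :
    mxDK (fun a => f a - g a) (fun a => f' a - g' a) A Z = mxDK f f' A Z - mxDK g g' A Z := by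
  refine mxRot_injective A ?_
  ext i j
  rw [mxRot_sub, Matrix.sub_apply, mxRot_mxDK_apply, mxRot_mxDK_apply, mxRot_mxDK_apply, mxi_DD_sub]
  ring

theorem mxi_DK_smul (c : ℝ) (f f' : ℝ → ℝ) (A Z : Mx m) :
    mxDK (fun a => c * f a) (fun a => c * f' a) A Z = c • mxDK f f' A Z := by
  refine mxRot_injective A ?_
  ext i j
  rw [mxRot_smul, Matrix.smul_apply, mxRot_mxDK_apply, mxRot_mxDK_apply, mxi_DD_smul, smul_eq_mul]
  ring

theorem mxi_apply_sq_le (F : Mx m) (i j : Fin m) : (F i j) ^ 2 ≤ mxSq F := by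
  rw [mxSq_eq_sum]
  calc (F i j) ^ 2 ≤ ∑ j, (F i j) ^ 2 :=
        Finset.single_le_sum (f := fun j => (F i j) ^ 2) (fun j _ => sq_nonneg _) (Finset.mem_univ j)
    _ ≤ ∑ i, ∑ j, (F i j) ^ 2 :=
        Finset.single_le_sum (f := fun i => ∑ j, (F i j) ^ 2)
          (fun i _ => Finset.sum_nonneg fun j _ => sq_nonneg _) (Finset.mem_univ i)

/-- every polynomial has a primitive whose Daleckii-Krein operator is continuous -/
theorem mxi_poly_DK_continuous (p : Polynomial ℝ) :
    ∃ F : ℝ → ℝ, (∀ a, HasDerivAt F (p.eval a) a) ∧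
      Continuous fun P : Mx m × Mx m => mxDK F (fun a => p.eval a) (mxiSym P.1) P.2 := by
  induction p using Polynomial.induction_on' with
  | add p q hp hq =>
    obtain ⟨F, hF, hFc⟩ := hp
    obtain ⟨G, hG, hGc⟩ := hq
    refine ⟨fun a => F a + G a, fun a => ?_, ?_⟩
    · rw [Polynomial.eval_add]; exact (hF a).add (hG a)
    · simp only [Polynomial.eval_add, mxi_DK_add]
      exact hFc.add hGc
  | monomial n c =>
    refine ⟨fun a => c / (n + 1) * a ^ (n + 1), fun a => ?_, ?_⟩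
    · have h := (hasDerivAt_pow (n + 1) a).const_mul (c / (n + 1))
      have e : (Polynomial.monomial n c).eval a = c / (n + 1) * (((n + 1 : ℕ) : ℝ) * a ^ (n + 1 - 1)) := by
        rw [Polynomial.eval_monomial]
        have : ((n : ℝ) + 1) ≠ 0 := by positivity
        push_cast
        field_simp
      rw [e]
      exact h
    · have e : (fun a : ℝ => (Polynomial.monomial n c).eval a)
          = fun a => c / (n + 1) * (((n : ℝ) + 1) * a ^ n) := by
        funext a
        rw [Polynomial.eval_monomial]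
        have : ((n : ℝ) + 1) ≠ 0 := by positivity
        field_simp
      rw [e]
      simp only [mxi_DK_smul, mxDK_pow (mxiSym_isSymm _)]
      refine Continuous.const_smul (g := fun P : Mx m × Mx m => ∑ i ∈ Finset.range (n + 1),
        mxiSym P.1 ^ i * P.2 * mxiSym P.1 ^ (n - i)) (continuous_finsetSum _ fun k _ => ?_) (c / ((n : ℝ) + 1))
      exact (((mxiSym_continuous.comp continuous_fst).pow k).matrix_mul continuous_snd).matrix_mul
        ((mxiSym_continuous.comp continuous_fst).pow (n - k))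

/-- `(A,Z) ↦ Df(A)[Z]` is continuous on symmetric `A` if `f` is `C¹` -/
theorem mxDK_continuous {f f' : ℝ → ℝ} (hf : ∀ a, HasDerivAt f (f' a) a) (hf' : Continuous f') :
    Continuous fun P : Mx m × Mx m => mxDK f f' ((1 / 2 : ℝ) • (P.1 + P.1ᵀ)) P.2 := by
  change Continuous fun P : Mx m × Mx m => mxDK f f' (mxiSym P.1) P.2
  refine continuous_matrix fun i j => ?_
  rw [continuous_iff_continuousAt]
  intro P0
  refine continuousAt_of_locally_uniform_approx_of_continuousAt fun u hu => ?_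
  obtain ⟨ε, hε, hεu⟩ := Metric.mem_uniformity_dist.mp hu
  set ρ : ℝ := mxSq (mxiSym P0.1) + 1 with hρ
  have hρ1 : 1 ≤ ρ := by have := mxSq_nonneg (mxiSym P0.1); linarith
  set M : ℝ := mxSq P0.2 + 1 with hM
  have hM1 : 1 ≤ M := by have := mxSq_nonneg P0.2; linarith
  have hδ : 0 < ε / (2 * M) := by positivity
  obtain ⟨p, hp⟩ := exists_polynomial_near_of_continuousOn (-ρ) ρ f' hf'.continuousOn (ε / (2 * M)) hδ
  obtain ⟨F, hF, hFc⟩ := mxi_poly_DK_continuous (m := m) p
  refine ⟨{P | mxSq (mxiSym P.1) < ρ} ∩ {P | mxSq P.2 < M}, ?_,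
    fun P => mxDK F (fun a => p.eval a) (mxiSym P.1) P.2 i j,
    (hFc.matrix_elem i j).continuousAt, fun P hP => hεu ?_⟩
  · refine Filter.inter_mem ?_ ?_
    · exact (isOpen_lt (mxSq_continuous.comp (mxiSym_continuous.comp continuous_fst))
        continuous_const).mem_nhds (by show mxSq (mxiSym P0.1) < ρ; linarith)
    · exact (isOpen_lt (mxSq_continuous.comp continuous_snd) continuous_const).mem_nhds
        (by show mxSq P0.2 < M; linarith)
  · obtain ⟨hP1, hP2⟩ := hP
    rw [Real.dist_eq, ← Matrix.sub_apply, ← mxi_DK_sub]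
    have hDD : ∀ k l, |mxDD (fun a => f a - F a) (fun a => f' a - p.eval a)
        (mxEig (mxiSym P.1) k) (mxEig (mxiSym P.1) l)| ≤ ε / (2 * M) := fun k l =>
      mxDD_abs_le (fun a => (hf a).sub (hF a)) (lo := -ρ) (hi := ρ)
        (fun a ha => by rw [abs_sub_comm]; exact (hp a ha).le)
        (mxEig_mem_Icc (mxiSym_isSymm P.1) hρ1 hP1 k) (mxEig_mem_Icc (mxiSym_isSymm P.1) hρ1 hP1 l)
    have h1 := mxDK_sq_le hDD P.2
    have h2 := mxi_apply_sq_le (mxDK (fun a => f a - F a) (fun a => f' a - p.eval a)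
      (mxiSym P.1) P.2) i j
    have h3 : (ε / (2 * M)) ^ 2 * mxSq P.2 ≤ (ε / 2) ^ 2 := by
      have h4 : (ε / (2 * M)) ^ 2 * mxSq P.2 ≤ (ε / (2 * M)) ^ 2 * M :=
        mul_le_mul_of_nonneg_left (le_of_lt hP2) (sq_nonneg _)
      have h5 : (ε / (2 * M)) ^ 2 * M = (ε / 2) ^ 2 / M := by field_simp
      have h6 : (ε / 2) ^ 2 / M ≤ (ε / 2) ^ 2 := div_le_self (sq_nonneg _) hM1
      linarith
    have h7 := abs_le_of_sq_le_sq (h2.trans (h1.trans h3)) (by positivity)
    linarith

variable {Ω : Type*} [MeasurableSpace Ω] {μ : Measure Ω}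

theorem mxFun_measurable_sym {J : Ω → Mx m} (hJ : ∀ i j, Measurable fun ω => J ω i j)
    {f : ℝ → ℝ} (hf : Continuous f) :
    ∀ i j, Measurable fun ω => mxFun f ((1 / 2 : ℝ) • (J ω + (J ω)ᵀ)) i j := by
  intro i j
  have hc : Continuous fun a : Fin m → Fin m → ℝ => mxFun f (mxiSym (Matrix.of a)) i j :=
    (mxFun_continuous hf).matrix_elem i j
  have hm : Measurable fun ω => (fun k l => J ω k l : Fin m → Fin m → ℝ) :=
    measurable_pi_iff.mpr fun k => measurable_pi_iff.mpr fun l => hJ k l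
  have h := hc.measurable.comp hm
  have e : ((fun a : Fin m → Fin m → ℝ => mxFun f (mxiSym (Matrix.of a)) i j) ∘
      fun ω => (fun k l => J ω k l : Fin m → Fin m → ℝ))
      = fun ω => mxFun f ((1 / 2 : ℝ) • (J ω + (J ω)ᵀ)) i j := by
    funext ω
    show mxFun f (mxiSym (J ω)) i j = _
    rfl
  rwa [e] at h

theorem mxDK_measurable_sym {J Z : Ω → Mx m} (hJ : ∀ i j, Measurable fun ω => J ω i j)
    (hZ : ∀ i j, Measurable fun ω => Z ω i j) {f f' : ℝ → ℝ}
    (hf : ∀ a, HasDerivAt f (f' a) a) (hf' : Continuous f') :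
    ∀ i j, Measurable fun ω => mxDK f f' ((1 / 2 : ℝ) • (J ω + (J ω)ᵀ)) (Z ω) i j := by
  intro i j
  have hc : Continuous fun a : (Fin m → Fin m → ℝ) × (Fin m → Fin m → ℝ) =>
      mxDK f f' (mxiSym (Matrix.of a.1)) (Matrix.of a.2) i j :=
    (mxDK_continuous hf hf').matrix_elem i j
  have hm1 : Measurable fun ω => (fun k l => J ω k l : Fin m → Fin m → ℝ) :=
    measurable_pi_iff.mpr fun k => measurable_pi_iff.mpr fun l => hJ k l
  have hm2 : Measurable fun ω => (fun k l => Z ω k l : Fin m → Fin m → ℝ) :=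
    measurable_pi_iff.mpr fun k => measurable_pi_iff.mpr fun l => hZ k l
  have h := hc.measurable.comp (hm1.prodMk hm2)
  have e : ((fun a : (Fin m → Fin m → ℝ) × (Fin m → Fin m → ℝ) =>
      mxDK f f' (mxiSym (Matrix.of a.1)) (Matrix.of a.2) i j) ∘
      fun ω => ((fun k l => J ω k l : Fin m → Fin m → ℝ),
        (fun k l => Z ω k l : Fin m → Fin m → ℝ)))
      = fun ω => mxDK f f' ((1 / 2 : ℝ) • (J ω + (J ω)ᵀ)) (Z ω) i j := by
    funext ω
    show mxDK f f' (mxiSym (J ω)) (Z ω) i j = _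
    rfl
  rwa [e] at h

theorem MxSymBd.toBd {A : Ω → Mx m} (hA : MxSymBd A) : MxBd A := by
  obtain ⟨R, hR⟩ := hA.bdd
  refine ⟨hA.meas, R, fun ω i j => ?_⟩
  have := mxFun_apply_abs_le (f := fun a => a) (A := A ω) (hR ω) i j
  rwa [mxFun_id (hA.symm ω)] at this

theorem MxSymBd.mxFun_bd {A : Ω → Mx m} (hA : MxSymBd A) {f : ℝ → ℝ} (hf : Continuous f) :
    MxBd (fun ω => mxFun f (A ω)) := by
  obtain ⟨R, hR⟩ := hA.bdd
  refine ⟨fun i j => ?_, ?_⟩
  · have hc : Continuous fun a : Fin m → Fin m → ℝ => mxFun f (mxiSym (Matrix.of a)) i j :=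
      (mxFun_continuous hf).matrix_elem i j
    have hm : Measurable fun ω => (fun k l => A ω k l : Fin m → Fin m → ℝ) :=
      measurable_pi_iff.mpr fun k => measurable_pi_iff.mpr fun l => hA.meas k l
    have h := hc.measurable.comp hm
    have e : ((fun a : Fin m → Fin m → ℝ => mxFun f (mxiSym (Matrix.of a)) i j) ∘
        fun ω => (fun k l => A ω k l : Fin m → Fin m → ℝ)) = fun ω => mxFun f (A ω) i j := by
      funext ω
      show mxFun f (mxiSym (A ω)) i j = _
      rw [mxiSym_of_isSymm (hA.symm ω)]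
    rwa [e] at h
  · obtain ⟨C, hC⟩ := (isCompact_Icc (a := -R) (b := R)).exists_bound_of_continuousOn hf.continuousOn
    exact ⟨C, fun ω i j => mxFun_apply_abs_le (fun k => hC _ (abs_le.mp (hR ω k))) i j⟩

theorem MxSymBd.mxDK_L2 {A : Ω → Mx m} (hA : MxSymBd A) {f f' : ℝ → ℝ}
    (hf : ∀ a, HasDerivAt f (f' a) a) (hf' : Continuous f') {Z : Ω → Mx m} (hZ : MxL2 μ Z) :
    MxL2 μ (fun ω => mxDK f f' (A ω) (Z ω)) := by
  obtain ⟨R, hR⟩ := hA.bdd
  obtain ⟨C, hC⟩ := (isCompact_Icc (a := -R) (b := R)).exists_bound_of_continuousOn hf'.continuousOn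
  intro i j
  -- measurability
  have hmeas : AEStronglyMeasurable (fun ω => mxDK f f' (A ω) (Z ω) i j) μ := by
    have hc : Continuous fun a : (Fin m → Fin m → ℝ) × (Fin m → Fin m → ℝ) =>
        mxDK f f' (mxiSym (Matrix.of a.1)) (Matrix.of a.2) i j :=
      (mxDK_continuous hf hf').matrix_elem i j
    have hm1 : AEMeasurable (fun ω => (fun k l => A ω k l : Fin m → Fin m → ℝ)) μ :=
      (measurable_pi_iff.mpr fun k => measurable_pi_iff.mpr fun l => hA.meas k l).aemeasurable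
    have hm2 : AEMeasurable (fun ω => (fun k l => Z ω k l : Fin m → Fin m → ℝ)) μ :=
      aemeasurable_pi_iff.mpr fun k => aemeasurable_pi_iff.mpr fun l => (hZ k l).1.aemeasurable
    have h := hc.measurable.comp_aemeasurable (hm1.prodMk hm2)
    have e : ((fun a : (Fin m → Fin m → ℝ) × (Fin m → Fin m → ℝ) =>
        mxDK f f' (mxiSym (Matrix.of a.1)) (Matrix.of a.2) i j) ∘
        fun ω => ((fun k l => A ω k l : Fin m → Fin m → ℝ),
          (fun k l => Z ω k l : Fin m → Fin m → ℝ))) = fun ω => mxDK f f' (A ω) (Z ω) i j := by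
      funext ω
      show mxDK f f' (mxiSym (A ω)) (Z ω) i j = _
      rw [mxiSym_of_isSymm (hA.symm ω)]
    rw [e] at h
    exact h.aestronglyMeasurable
  -- domination
  have hdom : MemLp (fun ω => ∑ k, ∑ l, |Z ω k l|) 2 μ :=
    memLp_finsetSum _ fun k _ => memLp_finsetSum _ fun l _ => (hZ k l).abs
  have hC0 : 0 ≤ |C| := abs_nonneg _
  refine MemLp.of_le_mul (c := |C|) hdom hmeas (Filter.Eventually.of_forall fun ω => ?_)
  have hDD : ∀ k l, |mxDD f f' (mxEig (A ω) k) (mxEig (A ω) l)| ≤ |C| := fun k l =>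
    mxDD_abs_le hf (lo := -R) (hi := R) (fun a ha => (hC a ha).trans (le_abs_self C))
      (abs_le.mp (hR ω k)) (abs_le.mp (hR ω l))
  have h1 := mxDK_sq_le hDD (Z ω)
  have h2 := mxi_apply_sq_le (mxDK f f' (A ω) (Z ω)) i j
  have hS : 0 ≤ ∑ k, ∑ l, |Z ω k l| :=
    Finset.sum_nonneg fun k _ => Finset.sum_nonneg fun l _ => abs_nonneg _
  have h3 : mxSq (Z ω) ≤ (∑ k, ∑ l, |Z ω k l|) ^ 2 := by
    rw [mxSq_eq_sum]
    calc ∑ k, ∑ l, (Z ω k l) ^ 2 = ∑ k, ∑ l, |Z ω k l| ^ 2 := by simp only [sq_abs]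
      _ ≤ ∑ k, (∑ l, |Z ω k l|) ^ 2 := Finset.sum_le_sum fun k _ =>
          Finset.sum_sq_le_sq_sum_of_nonneg fun l _ => abs_nonneg _
      _ ≤ (∑ k, ∑ l, |Z ω k l|) ^ 2 :=
          Finset.sum_sq_le_sq_sum_of_nonneg fun k _ => Finset.sum_nonneg fun l _ => abs_nonneg _
  have h4 : (mxDK f f' (A ω) (Z ω) i j) ^ 2 ≤ (|C| * ∑ k, ∑ l, |Z ω k l|) ^ 2 := by
    rw [mul_pow]
    exact h2.trans (h1.trans (mul_le_mul_of_nonneg_left h3 (sq_nonneg _)))
  have h5 := abs_le_of_sq_le_sq h4 (mul_nonneg hC0 hS)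
  rw [Real.norm_eq_abs, Real.norm_eq_abs, abs_of_nonneg hS]
  exact h5

end Claimed.Agent.R260
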