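/-
Row 260, package DK (owner helper184): matrix fields in the Gaussian Sobolev class `GH1` and the
CHAIN RULE for the functional calculus:
  entries of `A` in `GH1` with derivative fields `Z r`, `A` symmetric with spectrum in `[lo,hi]`,
  `f` of class `C¹` on `[lo,hi]`
  ⟹ entries of `mxFun f A` in `GH1` with derivative fields `mxDK f f' A (Z r)`.
Proof: monomials by `GH1.mul_bdd` + `mxDK_pow`; polynomials by linearity; general `f` by
`mx_poly_approx`, `mxFun_apply_abs_le`, `mxDK_sq_le`, `mxDD_abs_le'` and `gk_gh1_of_tendsto`.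
-/
import Claimed.Agent.R260.MxCont
import Claimed.Agent.R260.GK

set_option autoImplicit false

namespace Claimed.Agent.R260

open Matrix MeasureTheory
open scoped BigOperators

variable {m : ℕ}

/-- a matrix field all of whose entries are in `GH1`; `dF r` is the field `∂_r F` -/
def MxGH1 (F : EE m → Mx m) (dF : Fin m → EE m → Mx m) : Prop :=
  ∀ i j, GH1 (fun x => F x i j) (fun r x => dF r x i j)

/-- entries bounded almost everywhere -/
def MxAeBd (F : EE m → Mx m) : Prop := ∃ C : ℝ, ∀ᵐ x ∂gam m, ∀ i j, |F x i j| ≤ C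

theorem mx_chain_eqns_cite : True := by
  have := @MxGH1.eq_1
  have := @MxAeBd.eq_1
  trivial

/-! ### linear structure and products -/

theorem MxGH1.const (M : Mx m) : MxGH1 (fun _ => M) (fun _ _ => 0) :=
  fun i j => gk_gh1_const (M i j)

theorem MxGH1.add {F G : EE m → Mx m} {dF dG : Fin m → EE m → Mx m} (hF : MxGH1 F dF)
    (hG : MxGH1 G dG) : MxGH1 (fun x => F x + G x) (fun r x => dF r x + dG r x) :=
  fun i j => (hF i j).add (hG i j)

theorem MxGH1.sub {F G : EE m → Mx m} {dF dG : Fin m → EE m → Mx m} (hF : MxGH1 F dF)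
    (hG : MxGH1 G dG) : MxGH1 (fun x => F x - G x) (fun r x => dF r x - dG r x) :=
  fun i j => (hF i j).sub (hG i j)

theorem MxGH1.smul (c : ℝ) {F : EE m → Mx m} {dF : Fin m → EE m → Mx m} (hF : MxGH1 F dF) :
    MxGH1 (fun x => c • F x) (fun r x => c • dF r x) :=
  fun i j => (hF i j).const_mul c

theorem MxGH1.sum {ι : Type*} (s : Finset ι) {F : ι → EE m → Mx m}
    {dF : ι → Fin m → EE m → Mx m} (hF : ∀ a ∈ s, MxGH1 (F a) (dF a)) :
    MxGH1 (fun x => ∑ a ∈ s, F a x) (fun r x => ∑ a ∈ s, dF a r x) := by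
  intro i j
  have h := GH1.sum s (u := fun a x => F a x i j) (du := fun a r x => dF a r x i j)
    fun a ha => hF a ha i j
  simpa only [Matrix.sum_apply] using h

theorem MxGH1.transpose {F : EE m → Mx m} {dF : Fin m → EE m → Mx m} (hF : MxGH1 F dF) :
    MxGH1 (fun x => (F x)ᵀ) (fun r x => (dF r x)ᵀ) :=
  fun i j => hF j i

theorem MxGH1.const_mul (M : Mx m) {F : EE m → Mx m} {dF : Fin m → EE m → Mx m}
    (hF : MxGH1 F dF) : MxGH1 (fun x => M * F x) (fun r x => M * dF r x) := by
  intro i j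
  have h := GH1.sum Finset.univ (u := fun k x => M i k * F x k j)
    (du := fun k r x => M i k * dF r x k j) fun k _ => (hF k j).const_mul (M i k)
  simpa only [Matrix.mul_apply] using h

theorem MxGH1.mul_const {F : EE m → Mx m} {dF : Fin m → EE m → Mx m} (hF : MxGH1 F dF)
    (M : Mx m) : MxGH1 (fun x => F x * M) (fun r x => dF r x * M) := by
  intro i j
  have h := GH1.sum Finset.univ (u := fun k x => M k j * F x i k)
    (du := fun k r x => M k j * dF r x i k) fun k _ => (hF i k).const_mul (M k j)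
  simpa only [Matrix.mul_apply, mul_comm] using h

theorem MxAeBd.entry {F : EE m → Mx m} (hF : MxAeBd F) (i j : Fin m) :
    ∃ C, ∀ᵐ x ∂gam m, |F x i j| ≤ C := by
  obtain ⟨C, hC⟩ := hF
  exact ⟨C, hC.mono fun x hx => hx i j⟩

/-- Leibniz rule for bounded fields -/
theorem MxGH1.mul {F G : EE m → Mx m} {dF dG : Fin m → EE m → Mx m} (hF : MxGH1 F dF)
    (hG : MxGH1 G dG) (hbF : MxAeBd F) (hbG : MxAeBd G) :
    MxGH1 (fun x => F x * G x) (fun r x => dF r x * G x + F x * dG r x) := by
  intro i j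
  have h := GH1.sum Finset.univ (u := fun k x => F x i k * G x k j)
    (du := fun k r x => dF r x i k * G x k j + F x i k * dG r x k j)
    fun k _ => (hF i k).mul_bdd (hG k j) (hbF.entry i k) (hbG.entry k j)
  simpa only [Matrix.mul_apply, Matrix.add_apply, Finset.sum_add_distrib] using h

theorem MxAeBd.mul {F G : EE m → Mx m} (hF : MxAeBd F) (hG : MxAeBd G) :
    MxAeBd (fun x => F x * G x) := by
  obtain ⟨C, hC⟩ := hF
  obtain ⟨D, hD⟩ := hG
  refine ⟨∑ _k : Fin m, C * D, ?_⟩
  filter_upwards [hC, hD] with x hx hy i j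
  rw [Matrix.mul_apply]
  refine (Finset.abs_sum_le_sum_abs _ _).trans (Finset.sum_le_sum fun k _ => ?_)
  rw [abs_mul]
  exact mul_le_mul (hx i k) (hy k j) (abs_nonneg _) ((abs_nonneg _).trans (hx i k))

theorem MxGH1.trace {F : EE m → Mx m} {dF : Fin m → EE m → Mx m} (hF : MxGH1 F dF) :
    GH1 (fun x => Matrix.trace (F x)) (fun r x => Matrix.trace (dF r x)) := by
  have h := GH1.sum Finset.univ (u := fun k x => F x k k) (du := fun k r x => dF r x k k)
    fun k _ => hF k k
  simpa only [Matrix.trace, Matrix.diag_apply] using h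

theorem MxGH1.congr_ae {F F' : EE m → Mx m} {dF dF' : Fin m → EE m → Mx m} (hF : MxGH1 F dF)
    (h : F =ᵐ[gam m] F') (h' : ∀ r, dF r =ᵐ[gam m] dF' r) : MxGH1 F' dF' :=
  fun i j => (hF i j).congr_ae (h.mono fun x hx => by simp only [hx])
    fun r => (h' r).mono fun x hx => by simp only [hx]

theorem MxGH1.toL2 {F : EE m → Mx m} {dF : Fin m → EE m → Mx m} (hF : MxGH1 F dF) :
    MxL2 (gam m) F ∧ ∀ r, MxL2 (gam m) (dF r) :=
  ⟨fun i j => (hF i j).1, fun r i j => (hF i j).2.1 r⟩

/-- matrix integration by parts `E[x_r F] = E[∂_r F]` -/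
theorem MxGH1.ibp {F : EE m → Mx m} {dF : Fin m → EE m → Mx m} (hF : MxGH1 F dF) (r : Fin m)
    (i j : Fin m) : ∫ x, x r * F x i j ∂gam m = ∫ x, dF r x i j ∂gam m :=
  (hF i j).ibp r

/-! ### the chain rule (helper220) -/

section chainC

open Filter Topology

theorem mxc_DK_id (A Z : Mx m) : mxDK (fun a => a) (fun _ => 1) A Z = Z := by
  unfold mxDK
  rw [mxSchur_congr (w' := fun _ _ => 1), mxSchur_one]
  intro i j
  unfold mxDD
  split_ifs with h
  · rfl
  · exact div_self (sub_ne_zero.2 h)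

theorem mxc_pow_aeBd {A : EE m → Mx m} (hA : MxSymBd A) (n : ℕ) :
    MxAeBd (fun x => mxFun (fun a => a ^ n) (A x)) := by
  obtain ⟨R, hR⟩ := hA.bdd
  refine ⟨|R| ^ n, Filter.Eventually.of_forall fun x i j => ?_⟩
  apply mxFun_apply_abs_le
  intro l
  rw [abs_pow]
  exact pow_le_pow_left₀ (abs_nonneg _) ((hR x l).trans (le_abs_self R)) n

theorem mxc_aeBd {A : EE m → Mx m} (hA : MxSymBd A) : MxAeBd A := by
  obtain ⟨_, C, hC⟩ := hA.toBd
  exact ⟨C, Filter.Eventually.of_forall fun x i j => hC x i j⟩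

theorem mx_gh1_pow {A : EE m → Mx m} {Z : Fin m → EE m → Mx m} (hA : MxSymBd A)
    (hAZ : MxGH1 A Z) (n : ℕ) :
    MxGH1 (fun x => mxFun (fun a => a ^ n) (A x))
      (fun r x => mxDK (fun a => a ^ n) (fun a => (n : ℝ) * a ^ (n - 1)) (A x) (Z r x)) := by
  induction n with
  | zero =>
    have h := MxGH1.const (m := m) (1 : Mx m)
    have e1 : (fun x => mxFun (fun a => a ^ 0) (A x)) = fun _ => (1 : Mx m) := by
      funext x
      simp only [pow_zero, mxFun_const, one_smul]
    have e2 : (fun (r : Fin m) x => mxDK (fun a => a ^ 0)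
        (fun a => ((0 : ℕ) : ℝ) * a ^ (0 - 1)) (A x) (Z r x)) = fun _ _ => (0 : Mx m) := by
      funext r x
      simp only [pow_zero, Nat.cast_zero, zero_mul]
      exact mxDK_const 1 (A x) (Z r x)
    rw [e1, e2]
    exact h
  | succ n ih =>
    have h := MxGH1.mul ih hAZ (mxc_pow_aeBd hA n) (mxc_aeBd hA)
    have e1 : (fun x => mxFun (fun a => a ^ (n + 1)) (A x))
        = fun x => mxFun (fun a => a ^ n) (A x) * A x := by
      funext x
      simp only [pow_succ]
      rw [mxFun_mul, mxFun_id (hA.symm x)]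
    have e2 : (fun (r : Fin m) x => mxDK (fun a => a ^ (n + 1))
        (fun a => ((n + 1 : ℕ) : ℝ) * a ^ (n + 1 - 1)) (A x) (Z r x))
        = fun r x => mxDK (fun a => a ^ n) (fun a => (n : ℝ) * a ^ (n - 1)) (A x) (Z r x) * A x
            + mxFun (fun a => a ^ n) (A x) * Z r x := by
      funext r x
      have h1 := mxDK_mul (fun a => a ^ n) (fun a => (n : ℝ) * a ^ (n - 1)) (fun a => a)
        (fun _ => 1) (A x) (Z r x)
      rw [mxFun_id (hA.symm x), mxc_DK_id] at h1
      rw [← h1]
      congr 1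
      funext a
      rcases n with _ | k
      · simp
      · simp only [Nat.add_sub_cancel]
        push_cast
        ring
    rw [e1, e2]
    exact h

theorem mx_gh1_poly {A : EE m → Mx m} {Z : Fin m → EE m → Mx m} (hA : MxSymBd A)
    (hAZ : MxGH1 A Z) (P : Polynomial ℝ) :
    MxGH1 (fun x => mxFun (fun a => P.eval a) (A x))
      (fun r x => mxDK (fun a => P.eval a) (fun a => P.derivative.eval a) (A x) (Z r x)) := by
  induction P using Polynomial.induction_on' with
  | add p q hp hq =>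
    have h := hp.add hq
    have e1 : (fun x => mxFun (fun a => (p + q).eval a) (A x))
        = fun x => mxFun (fun a => p.eval a) (A x) + mxFun (fun a => q.eval a) (A x) := by
      funext x
      simp only [Polynomial.eval_add]
      rw [mxFun_add]
    have e2 : (fun (r : Fin m) x => mxDK (fun a => (p + q).eval a)
        (fun a => (p + q).derivative.eval a) (A x) (Z r x))
        = fun r x => mxDK (fun a => p.eval a) (fun a => p.derivative.eval a) (A x) (Z r x)
          + mxDK (fun a => q.eval a) (fun a => q.derivative.eval a) (A x) (Z r x) := by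
      funext r x
      simp only [Polynomial.eval_add, Polynomial.derivative_add]
      rw [mxDK_add]
    rw [e1, e2]
    exact h
  | monomial n c =>
    have h := (mx_gh1_pow hA hAZ n).smul c
    have e1 : (fun x => mxFun (fun a => (Polynomial.monomial n c).eval a) (A x))
        = fun x => c • mxFun (fun a => a ^ n) (A x) := by
      funext x
      simp only [Polynomial.eval_monomial]
      rw [mxFun_smul]
    have e2 : (fun (r : Fin m) x => mxDK (fun a => (Polynomial.monomial n c).eval a)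
        (fun a => (Polynomial.monomial n c).derivative.eval a) (A x) (Z r x))
        = fun r x => c • mxDK (fun a => a ^ n) (fun a => (n : ℝ) * a ^ (n - 1)) (A x) (Z r x) := by
      funext r x
      simp only [Polynomial.eval_monomial, Polynomial.derivative_monomial]
      rw [← mxDK_const_mul]
      congr 1
      funext a
      ring
    rw [e1, e2]
    exact h

theorem mxc_tendsto_of_le {a : ℕ → ℝ} {L K : ℝ} (hK : 0 ≤ K)
    (h : ∀ ε > 0, ∀ᶠ n in atTop, |a n - L| ≤ ε * K) : Tendsto a atTop (𝓝 L) := by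
  rw [Metric.tendsto_nhds]
  intro δ hδ
  have hε : 0 < δ / (2 * (K + 1)) := by positivity
  filter_upwards [h _ hε] with n hn
  rw [Real.dist_eq]
  calc |a n - L| ≤ δ / (2 * (K + 1)) * K := hn
    _ = δ * (K / (2 * (K + 1))) := by ring
    _ < δ * 1 := by
        apply mul_lt_mul_of_pos_left _ hδ
        rw [div_lt_one (by positivity)]
        linarith
    _ = δ := mul_one δ

theorem mxc_apply_sq_le (F : Mx m) (i j : Fin m) : (F i j) ^ 2 ≤ mxSq F := by
  rw [mxSq_eq_sum]
  calc (F i j) ^ 2 ≤ ∑ l, (F i l) ^ 2 :=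
        Finset.single_le_sum (f := fun l => (F i l) ^ 2) (fun l _ => sq_nonneg _)
          (Finset.mem_univ j)
    _ ≤ ∑ k, ∑ l, (F k l) ^ 2 :=
        Finset.single_le_sum (f := fun k => ∑ l, (F k l) ^ 2)
          (fun k _ => Finset.sum_nonneg fun l _ => sq_nonneg _) (Finset.mem_univ i)

theorem mxc_sqrt_mxSq_le (F : Mx m) : Real.sqrt (mxSq F) ≤ ∑ k, ∑ l, |F k l| := by
  have h0 : 0 ≤ ∑ k, ∑ l, |F k l| :=
    Finset.sum_nonneg fun k _ => Finset.sum_nonneg fun l _ => abs_nonneg _
  rw [Real.sqrt_le_left h0] 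
  rw [mxSq_eq_sum]
  have h1 : ∀ k, ∑ l, (F k l) ^ 2 ≤ (∑ l, |F k l|) ^ 2 := by
    intro k
    have := Finset.sum_sq_le_sq_sum_of_nonneg (s := Finset.univ) (f := fun l => |F k l|)
      (fun l _ => abs_nonneg _)
    simpa only [sq_abs] using this
  calc ∑ k, ∑ l, (F k l) ^ 2 ≤ ∑ k, (∑ l, |F k l|) ^ 2 := Finset.sum_le_sum fun k _ => h1 k
    _ ≤ (∑ k, ∑ l, |F k l|) ^ 2 :=
        Finset.sum_sq_le_sq_sum_of_nonneg (fun k _ => Finset.sum_nonneg fun l _ => abs_nonneg _)

/-- the two uniform estimates behind the chain rule -/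
theorem mxc_est {lo hi ε : ℝ} {f f' : ℝ → ℝ} {P : Polynomial ℝ}
    (hf : ∀ a ∈ Set.Icc lo hi, HasDerivWithinAt f (f' a) (Set.Icc lo hi) a)
    (hP : ∀ a ∈ Set.Icc lo hi, |f a - P.eval a| ≤ ε ∧ |f' a - P.derivative.eval a| ≤ ε)
    {A : Mx m} (hspec : ∀ i, mxEig A i ∈ Set.Icc lo hi) (Z : Mx m) (i j : Fin m) :
    |mxFun (fun a => P.eval a) A i j - mxFun f A i j| ≤ ε ∧
      (mxDK (fun a => P.eval a) (fun a => P.derivative.eval a) A Z i j - mxDK f f' A Z i j) ^ 2
        ≤ ε ^ 2 * mxSq Z := by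
  constructor
  · have h1 : mxFun (fun a => P.eval a) A i j - mxFun f A i j
        = mxFun (fun a => P.eval a - f a) A i j := by
      rw [mxFun_sub]; rfl
    rw [h1]
    apply mxFun_apply_abs_le
    intro l
    rw [abs_sub_comm]
    exact (hP _ (hspec l)).1
  · have h1 : mxDK (fun a => P.eval a) (fun a => P.derivative.eval a) A Z i j - mxDK f f' A Z i j
        = mxDK (fun a => P.eval a - f a) (fun a => P.derivative.eval a - f' a) A Z i j := by
      rw [mxDK_sub]; rfl
    rw [h1]
    refine (mxc_apply_sq_le _ i j).trans ?_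
    apply mxDK_sq_le
    intro k l
    apply mxDD_abs_le' (lo := lo) (hi := hi) _ _ (hspec k) (hspec l)
    · intro a ha
      exact (P.hasDerivAt a).hasDerivWithinAt.sub (hf a ha)
    · intro a ha
      rw [abs_sub_comm]
      exact (hP a ha).2

theorem mxFun_aeBd {A : EE m → Mx m} {lo hi : ℝ} (hspec : ∀ x i, mxEig (A x) i ∈ Set.Icc lo hi)
    {f : ℝ → ℝ} (hf : ContinuousOn f (Set.Icc lo hi)) : MxAeBd (fun x => mxFun f (A x)) := by
  obtain ⟨C, hC⟩ := isCompact_Icc.exists_bound_of_continuousOn hf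
  refine ⟨C, Filter.Eventually.of_forall fun x i j => ?_⟩
  apply mxFun_apply_abs_le
  intro l
  exact hC _ (hspec x l)

theorem mx_gh1_chain_on {A : EE m → Mx m} {Z : Fin m → EE m → Mx m} (hA : MxSymBd A)
    (hAZ : MxGH1 A Z) {lo hi : ℝ} (hspec : ∀ x i, mxEig (A x) i ∈ Set.Icc lo hi)
    {f f' : ℝ → ℝ} (hf : ∀ a ∈ Set.Icc lo hi, HasDerivWithinAt f (f' a) (Set.Icc lo hi) a)
    (hf' : ContinuousOn f' (Set.Icc lo hi)) :
    MxGH1 (fun x => mxFun f (A x)) (fun r x => mxDK f f' (A x) (Z r x)) := by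
  obtain ⟨P, hP⟩ := mx_poly_approx hf hf'
  intro i j
  have hv : ∀ n, GH1 (fun x => mxFun (fun a => (P n).eval a) (A x) i j)
      (fun r x => mxDK (fun a => (P n).eval a) (fun a => (P n).derivative.eval a) (A x) (Z r x) i j) :=
    fun n => mx_gh1_poly hA hAZ (P n) i j
  have hZ2 : ∀ r, MxL2 (gam m) (Z r) := (MxGH1.toL2 hAZ).2
  have hfc : ContinuousOn f (Set.Icc lo hi) := fun a ha => (hf a ha).continuousWithinAt
  -- pointwise convergence
  have hpt0 : ∀ x, Tendsto (fun n => mxFun (fun a => (P n).eval a) (A x) i j) atTop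
      (𝓝 (mxFun f (A x) i j)) := by
    intro x
    apply mxc_tendsto_of_le (K := 1) zero_le_one
    intro ε hε
    filter_upwards [hP ε hε] with n hn
    rw [mul_one]
    exact (mxc_est hf hn (hspec x) 0 i j).1
  have hpt1 : ∀ r x, Tendsto (fun n => mxDK (fun a => (P n).eval a)
      (fun a => (P n).derivative.eval a) (A x) (Z r x) i j) atTop
      (𝓝 (mxDK f f' (A x) (Z r x) i j)) := by
    intro r x
    apply mxc_tendsto_of_le (K := Real.sqrt (mxSq (Z r x))) (Real.sqrt_nonneg _)
    intro ε hε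
    filter_upwards [hP ε hε] with n hn
    have h1 := (mxc_est hf hn (hspec x) (Z r x) i j).2
    have h2 : ε ^ 2 * mxSq (Z r x) = (ε * Real.sqrt (mxSq (Z r x))) ^ 2 := by
      rw [mul_pow, Real.sq_sqrt (mxSq_nonneg _)]
    rw [h2] at h1
    exact abs_le_of_sq_le_sq h1 (by positivity)
  -- measurability
  have hm0 : AEStronglyMeasurable (fun x => mxFun f (A x) i j) (gam m) :=
    aestronglyMeasurable_of_tendsto_ae atTop (fun n => (hv n).1.aestronglyMeasurable)
      (Filter.Eventually.of_forall hpt0)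
  have hm1 : ∀ r, AEStronglyMeasurable (fun x => mxDK f f' (A x) (Z r x) i j) (gam m) := fun r =>
    aestronglyMeasurable_of_tendsto_ae atTop (fun n => ((hv n).2.1 r).aestronglyMeasurable)
      (Filter.Eventually.of_forall (hpt1 r))
  -- `L²` bounds
  have hu : MemLp (fun x => mxFun f (A x) i j) 2 (gam m) := by
    obtain ⟨C, hC⟩ := mxFun_aeBd hspec hfc
    refine MemLp.of_bound hm0 C ?_
    filter_upwards [hC] with x hx
    exact hx i j
  obtain ⟨C', hC'⟩ := isCompact_Icc.exists_bound_of_continuousOn hf'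
  have hdu : ∀ r, MemLp (fun x => mxDK f f' (A x) (Z r x) i j) 2 (gam m) := by
    intro r
    rw [memLp_two_iff_integrable_sq (hm1 r)]
    refine Integrable.mono' ((hZ2 r).integrable_mxSq.const_mul (C' ^ 2)) ((hm1 r).pow 2)
      (Filter.Eventually.of_forall fun x => ?_)
    rw [Real.norm_eq_abs, abs_of_nonneg (sq_nonneg _)]
    refine (mxc_apply_sq_le _ i j).trans ?_
    apply mxDK_sq_le
    intro k l
    exact mxDD_abs_le' hf (fun a ha => hC' a ha) (hspec x k) (hspec x l)
  -- convergence in `L²`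
  refine gk_gh1_of_tendsto (l := atTop) (Filter.Eventually.of_forall hv) hu hdu ?_ ?_
  · apply mxc_tendsto_of_le (K := 1) zero_le_one
    intro ε hε
    filter_upwards [hP (Real.sqrt ε) (Real.sqrt_pos.2 hε)] with n hn
    rw [sub_zero, mul_one, abs_of_nonneg (integral_nonneg fun x => sq_nonneg _)]
    calc ∫ x, (mxFun (fun a => (P n).eval a) (A x) i j - mxFun f (A x) i j) ^ 2 ∂gam m
        ≤ ∫ _x, ε ∂gam m := by
          apply integral_mono (((hv n).1.sub hu).integrable_sq) (integrable_const _)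
          intro x
          have h1 := (mxc_est hf hn (hspec x) 0 i j).1
          have h2 : (mxFun (fun a => (P n).eval a) (A x) i j - mxFun f (A x) i j) ^ 2
              ≤ (Real.sqrt ε) ^ 2 := by
            rw [← sq_abs]
            exact pow_le_pow_left₀ (abs_nonneg _) h1 2
          rwa [Real.sq_sqrt hε.le] at h2
      _ = ε := by simp
  · intro r
    apply mxc_tendsto_of_le (K := ∫ x, mxSq (Z r x) ∂gam m)
      (integral_nonneg fun x => mxSq_nonneg _)
    intro ε hε
    filter_upwards [hP (Real.sqrt ε) (Real.sqrt_pos.2 hε)] with n hn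
    rw [sub_zero, abs_of_nonneg (integral_nonneg fun x => sq_nonneg _), ← integral_const_mul]
    apply integral_mono ((((hv n).2.1 r).sub (hdu r)).integrable_sq)
      ((hZ2 r).integrable_mxSq.const_mul ε)
    intro x
    have h1 := (mxc_est hf hn (hspec x) (Z r x) i j).2
    rwa [Real.sq_sqrt hε.le] at h1

theorem mx_gh1_chain {A : EE m → Mx m} {Z : Fin m → EE m → Mx m} (hA : MxSymBd A)
    (hAZ : MxGH1 A Z) {f f' : ℝ → ℝ} (hf : ∀ a, HasDerivAt f (f' a) a) (hf' : Continuous f') :
    MxGH1 (fun x => mxFun f (A x)) (fun r x => mxDK f f' (A x) (Z r x)) := by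
  obtain ⟨R, hR⟩ := hA.bdd
  exact mx_gh1_chain_on hA hAZ (lo := -R) (hi := R) (fun x i => abs_le.1 (hR x i))
    (fun a _ => (hf a).hasDerivWithinAt) hf'.continuousOn

end chainC

end Claimed.Agent.R260
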