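/-
Row 260, package GK (Gaussian kit): the Mehler operator, pointwise algebra.
Statements by helper200; proofs by helper299.
-/
import Claimed.Agent.R260.GKClass
import Claimed.Agent.R260.GKIbp

namespace Claimed.Agent.R260

open MeasureTheory ProbabilityTheory Filter Topology Set

variable {m : ℕ}

theorem gk_mehler_measurable (c : ℝ) {u : EE m → ℝ} (hu : Measurable u) :
    Measurable (mehler c u) := by
  have h : Measurable (fun p : EE m × EE m => u (c • p.1 + Real.sqrt (1 - c ^ 2) • p.2)) :=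
    hu.comp (by fun_prop)
  exact h.stronglyMeasurable.integral_prod_right'.measurable

/-- polynomial growth is stable under affine substitutions -/
theorem PG.comp_affine {u : EE m → ℝ} (hu : PG u) (a : EE m) (s : ℝ) :
    PG (fun z => u (a + s • z)) := by
  obtain ⟨hm, C, k, hC⟩ := hu
  have hC0 : 0 ≤ C := by
    have := (abs_nonneg _).trans (hC 0)
    simpa using this
  refine ⟨hm.comp (by fun_prop), C * (1 + ‖a‖ + |s|) ^ k, k, fun z => ?_⟩
  refine (hC _).trans ?_
  rw [mul_assoc, ← mul_pow]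
  refine mul_le_mul_of_nonneg_left (pow_le_pow_left₀ (by positivity) ?_ k) hC0
  have h1 : ‖a + s • z‖ ≤ ‖a‖ + |s| * ‖z‖ := by
    refine (norm_add_le _ _).trans ?_
    rw [norm_smul, Real.norm_eq_abs]
  have h2 : 0 ≤ ‖a‖ * ‖z‖ := by positivity
  have h3 : 0 ≤ |s| := abs_nonneg s
  have h4 : 0 ≤ ‖z‖ := norm_nonneg z
  nlinarith

/-- for `u` of polynomial growth the defining integral converges at every point -/
theorem gk_mehler_integrable (c : ℝ) {u : EE m → ℝ} (hu : PG u) (x : EE m) :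
    Integrable (fun z => u (c • x + Real.sqrt (1 - c ^ 2) • z)) (gam m) :=
  (hu.comp_affine (c • x) (Real.sqrt (1 - c ^ 2))).integrable

theorem gk_mehler_PG {c : ℝ} (hc : c ∈ Icc (0 : ℝ) 1) {u : EE m → ℝ} (hu : PG u) :
    PG (mehler c u) := by
  have hint := gk_mehler_integrable c hu
  obtain ⟨hm, C, k, hC⟩ := hu
  have hC0 : 0 ≤ C := by
    have := (abs_nonneg _).trans (hC 0)
    simpa using this
  have hs0 : 0 ≤ Real.sqrt (1 - c ^ 2) := Real.sqrt_nonneg _
  have hs1 : Real.sqrt (1 - c ^ 2) ≤ 1 := by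
    rw [Real.sqrt_le_left (by norm_num)]
    nlinarith [sq_nonneg c]
  refine ⟨gk_mehler_measurable c hm, C * ∫ z : EE m, (1 + ‖z‖) ^ k ∂gam m, k, fun x => ?_⟩
  have hb : ∀ z : EE m, |u (c • x + Real.sqrt (1 - c ^ 2) • z)| ≤
      C * (1 + ‖x‖) ^ k * (1 + ‖z‖) ^ k := by
    intro z
    refine (hC _).trans ?_
    rw [mul_assoc, ← mul_pow]
    refine mul_le_mul_of_nonneg_left (pow_le_pow_left₀ (by positivity) ?_ k) hC0
    have h1 : ‖c • x + Real.sqrt (1 - c ^ 2) • z‖ ≤ c * ‖x‖ + Real.sqrt (1 - c ^ 2) * ‖z‖ := by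
      refine (norm_add_le _ _).trans ?_
      rw [norm_smul, norm_smul, Real.norm_eq_abs, Real.norm_eq_abs, abs_of_nonneg hc.1,
        abs_of_nonneg hs0]
    have h2 : 0 ≤ ‖x‖ * ‖z‖ := by positivity
    have h3 : c * ‖x‖ ≤ ‖x‖ := mul_le_of_le_one_left (norm_nonneg x) hc.2
    have h4 : Real.sqrt (1 - c ^ 2) * ‖z‖ ≤ ‖z‖ := mul_le_of_le_one_left (norm_nonneg z) hs1
    nlinarith
  calc |mehler c u x| ≤ ∫ z, |u (c • x + Real.sqrt (1 - c ^ 2) • z)| ∂gam m :=
        abs_integral_le_integral_abs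
    _ ≤ ∫ z, C * (1 + ‖x‖) ^ k * (1 + ‖z‖) ^ k ∂gam m :=
        integral_mono (hint x).abs ((gk_integrable_pow k).const_mul _) hb
    _ = _ := by rw [integral_const_mul]; ring

theorem gk_mehler_one {u : EE m → ℝ} : mehler 1 u = u := by
  ext x
  simp [mehler]

theorem gk_mehler_zero {u : EE m → ℝ} (x : EE m) : mehler 0 u x = ∫ z, u z ∂gam m := by
  simp [mehler]

theorem gk_mehler_const (c a : ℝ) (x : EE m) : mehler c (fun _ : EE m => a) x = a := by
  simp [mehler]

theorem gk_mehler_add (c : ℝ) {u v : EE m → ℝ} (hu : PG u) (hv : PG v) (x : EE m) :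
    mehler c (fun y => u y + v y) x = mehler c u x + mehler c v x :=
  integral_add (gk_mehler_integrable c hu x) (gk_mehler_integrable c hv x)

theorem gk_mehler_const_mul (c a : ℝ) (u : EE m → ℝ) (x : EE m) :
    mehler c (fun y => a * u y) x = a * mehler c u x :=
  integral_const_mul _ _

theorem gk_mehler_sum (c : ℝ) {ι : Type*} (s : Finset ι) {u : ι → EE m → ℝ}
    (hu : ∀ i ∈ s, PG (u i)) (x : EE m) :
    mehler c (fun y => ∑ i ∈ s, u i y) x = ∑ i ∈ s, mehler c (u i) x :=
  integral_finsetSum s fun i hi => gk_mehler_integrable c (hu i hi) x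

theorem gk_mehler_mono (c : ℝ) {u v : EE m → ℝ} (hu : PG u) (hv : PG v) (h : ∀ y, u y ≤ v y)
    (x : EE m) : mehler c u x ≤ mehler c v x :=
  integral_mono (gk_mehler_integrable c hu x) (gk_mehler_integrable c hv x) fun _ => h _

/-- nondegenerate affine maps preserve the class of Gaussian null sets -/
theorem gk_quasiMeasurePreserving_affine (a : EE m) {s : ℝ} (hs : s ≠ 0) :
    Measure.QuasiMeasurePreserving (fun z : EE m => a + s • z) (gam m) (gam m) := by
  have hmeas : Measurable (fun z : EE m => a + s • z) := by fun_prop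
  refine ⟨hmeas, ?_⟩
  refine (gk_gam_ac_volume.map hmeas).trans (Measure.AbsolutelyContinuous.trans ?_ gk_volume_ac_gam)
  have e : (fun z : EE m => a + s • z) = (fun y => a + y) ∘ (fun z => s • z) := rfl
  rw [e, ← Measure.map_map (by fun_prop) (by fun_prop), Measure.map_addHaar_smul _ hs,
    Measure.map_smul, map_add_left_eq_self]
  exact Measure.smul_absolutelyContinuous

theorem gk_sqrt_ne_zero {c : ℝ} (hc : c ∈ Ico (0 : ℝ) 1) : Real.sqrt (1 - c ^ 2) ≠ 0 := by
  apply Real.sqrt_ne_zero'.2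
  nlinarith [hc.1, hc.2]

/-- a.e. version of monotonicity (needs `c < 1`: the law of `c x + σ z` is absolutely continuous) -/
theorem gk_mehler_mono_ae {c : ℝ} (hc : c ∈ Ico (0 : ℝ) 1) {u v : EE m → ℝ} (hu : PG u) (hv : PG v)
    (h : ∀ᵐ y ∂gam m, u y ≤ v y) (x : EE m) : mehler c u x ≤ mehler c v x :=
  integral_mono_ae (gk_mehler_integrable c hu x) (gk_mehler_integrable c hv x)
    ((gk_quasiMeasurePreserving_affine (c • x) (gk_sqrt_ne_zero hc)).ae h)

theorem gk_mehler_congr_ae {c : ℝ} (hc : c ∈ Ico (0 : ℝ) 1) {u v : EE m → ℝ}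
    (h : u =ᵐ[gam m] v) (x : EE m) : mehler c u x = mehler c v x :=
  integral_congr_ae ((gk_quasiMeasurePreserving_affine (c • x) (gk_sqrt_ne_zero hc)).ae h)

theorem gk_mehler_abs_le (c : ℝ) {u : EE m → ℝ} {C : ℝ} (h : ∀ y, |u y| ≤ C) (x : EE m) :
    |mehler c u x| ≤ C := by
  have := norm_integral_le_of_norm_le_const (μ := gam m)
    (f := fun z => u (c • x + Real.sqrt (1 - c ^ 2) • z)) (C := C)
    (ae_of_all _ fun z => by rw [Real.norm_eq_abs]; exact h _)
  simpa [mehler] using this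

theorem gk_integral_coord (r : Fin m) : ∫ z : EE m, z r ∂gam m = 0 :=
  integral_strongDual_stdGaussian (EuclideanSpace.proj r : EE m →L[ℝ] ℝ)

theorem gk_mehler_coord (c : ℝ) (r : Fin m) (x : EE m) :
    mehler c (fun y : EE m => y r) x = c * x r := by
  unfold mehler
  have e : ∀ z : EE m, (c • x + Real.sqrt (1 - c ^ 2) • z) r =
      c * x r + Real.sqrt (1 - c ^ 2) * z r := fun z => by simp
  simp_rw [e]
  rw [integral_add (integrable_const _) ((gk_PG_coord r).integrable.const_mul _),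
    integral_const_mul (Real.sqrt (1 - c ^ 2)), gk_integral_coord]
  simp

/-- translation: `mehler c (u (· + c • h)) x = mehler c u (x + h)` -/
theorem gk_mehler_translate (c : ℝ) (u : EE m → ℝ) (h x : EE m) :
    mehler c u (x + h) = mehler c (fun y => u (y + c • h)) x := by
  unfold mehler
  congr 1
  ext z
  congr 1
  rw [smul_add]
  abel

end Claimed.Agent.R260
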