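/-
Row 260, package GK (Gaussian kit): rotation invariance of the product Gaussian.
Skeleton by helper200, proofs by helper45.
-/
import Claimed.Agent.R260.GKClass

namespace Claimed.Agent.R260

open MeasureTheory ProbabilityTheory Filter Topology Set

variable {m : ℕ}

/-- characteristic functional of a linear image of `γ ⊗ γ` -/
theorem gk_charFunDual_lin {G : Type*} [NormedAddCommGroup G] [NormedSpace ℝ G]
    [MeasurableSpace G] [BorelSpace G] (T : EE m × EE m →L[ℝ] G) (L : StrongDual ℝ G) :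
    charFunDual (((gam m).prod (gam m)).map T) L
      = Complex.exp (-((‖(L.comp T).comp (.inl ℝ (EE m) (EE m))‖ ^ 2
          + ‖(L.comp T).comp (.inr ℝ (EE m) (EE m))‖ ^ 2 : ℝ) : ℂ) / 2) := by
  rw [charFunDual_map, charFunDual_prod, charFunDual_stdGaussian, charFunDual_stdGaussian,
    ← Complex.exp_add]
  congr 1
  push_cast
  ring

/-- the parallelogram-type identity in the dual space -/
theorem gk_dual_norm_rot (L₁ L₂ : StrongDual ℝ (EE m)) (c s : ℝ) :
    ‖c • L₁ + s • L₂‖ ^ 2 + ‖s • L₁ - c • L₂‖ ^ 2 = (c ^ 2 + s ^ 2) * (‖L₁‖ ^ 2 + ‖L₂‖ ^ 2) := by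
  obtain ⟨a₁, rfl⟩ := (InnerProductSpace.toDual ℝ (EE m)).surjective L₁
  obtain ⟨a₂, rfl⟩ := (InnerProductSpace.toDual ℝ (EE m)).surjective L₂
  have h1 : c • InnerProductSpace.toDual ℝ (EE m) a₁ + s • InnerProductSpace.toDual ℝ (EE m) a₂
      = InnerProductSpace.toDual ℝ (EE m) (c • a₁ + s • a₂) := by
    simp
  have h2 : s • InnerProductSpace.toDual ℝ (EE m) a₁ - c • InnerProductSpace.toDual ℝ (EE m) a₂
      = InnerProductSpace.toDual ℝ (EE m) (s • a₁ - c • a₂) := by
    simp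
  rw [h1, h2]
  simp only [LinearIsometryEquiv.norm_map]
  rw [norm_add_sq_real, norm_sub_sq_real]
  simp only [norm_smul, inner_smul_left, inner_smul_right, mul_pow, Real.norm_eq_abs, sq_abs]
  simp
  ring

theorem gk_sq_add_sqrt {c : ℝ} (hc : c ∈ Icc (0 : ℝ) 1) : c ^ 2 + Real.sqrt (1 - c ^ 2) ^ 2 = 1 := by
  rw [Real.sq_sqrt]
  · ring
  · have : c ^ 2 ≤ 1 := by
      have := hc.1; have := hc.2; nlinarith
    linarith

/-- the reflection as a continuous linear map -/
noncomputable def gkRotL (m : ℕ) (c s : ℝ) : EE m × EE m →L[ℝ] EE m × EE m :=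
  (c • ContinuousLinearMap.fst ℝ (EE m) (EE m) + s • ContinuousLinearMap.snd ℝ (EE m) (EE m)).prod
    (s • ContinuousLinearMap.fst ℝ (EE m) (EE m) - c • ContinuousLinearMap.snd ℝ (EE m) (EE m))

theorem gkRotL_apply (c s : ℝ) (p : EE m × EE m) :
    gkRotL m c s p = (c • p.1 + s • p.2, s • p.1 - c • p.2) := rfl

/-- The reflection `(x,z) ↦ (c x + σ z, σ x - c z)`, `σ = √(1-c²)`, preserves `γ ⊗ γ`. -/
theorem gk_rot_map {c : ℝ} (hc : c ∈ Icc (0 : ℝ) 1) :
    Measure.map (fun p : EE m × EE m =>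
        (c • p.1 + Real.sqrt (1 - c ^ 2) • p.2, Real.sqrt (1 - c ^ 2) • p.1 - c • p.2))
      ((gam m).prod (gam m)) = (gam m).prod (gam m) := by
  set s := Real.sqrt (1 - c ^ 2) with hs
  have hT : (fun p : EE m × EE m => (c • p.1 + s • p.2, s • p.1 - c • p.2)) = ⇑(gkRotL m c s) := by
    funext p; rfl
  rw [hT]
  apply Measure.ext_of_charFunDual
  funext L
  rw [gk_charFunDual_lin, charFunDual_prod, charFunDual_stdGaussian, charFunDual_stdGaussian,
    ← Complex.exp_add]
  set L₁ := L.comp (.inl ℝ (EE m) (EE m)) with hL₁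
  set L₂ := L.comp (.inr ℝ (EE m) (EE m)) with hL₂
  have hL : ∀ p : EE m × EE m, L p = L₁ p.1 + L₂ p.2 := by
    intro p
    have := L.comp_inl_add_comp_inr p
    simpa [hL₁, hL₂] using this.symm
  have e1 : (L.comp (gkRotL m c s)).comp (.inl ℝ (EE m) (EE m)) = c • L₁ + s • L₂ := by
    ext x
    simp [gkRotL_apply, hL]
  have e2 : (L.comp (gkRotL m c s)).comp (.inr ℝ (EE m) (EE m)) = s • L₁ - c • L₂ := by
    ext x
    simp [gkRotL_apply, hL]
    ring
  rw [e1, e2, gk_dual_norm_rot, gk_sq_add_sqrt hc]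
  congr 1
  push_cast
  ring

/-- The law of `c X + σ Z` is Gaussian. -/
theorem gk_map_comb {c : ℝ} (hc : c ∈ Icc (0 : ℝ) 1) :
    Measure.map (fun p : EE m × EE m => c • p.1 + Real.sqrt (1 - c ^ 2) • p.2)
      ((gam m).prod (gam m)) = gam m := by
  have h := gk_rot_map (m := m) hc
  have h2 := congrArg (Measure.map Prod.fst) h
  rw [Measure.map_map measurable_fst (by fun_prop)] at h2
  rw [measurePreserving_fst.map_eq] at h2
  exact h2

/-- Exchangeability of the pair `(X, c X + σ Z)`. -/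
theorem gk_map_pair_swap {c : ℝ} (hc : c ∈ Icc (0 : ℝ) 1) :
    Measure.map (fun p : EE m × EE m => (c • p.1 + Real.sqrt (1 - c ^ 2) • p.2, p.1))
      ((gam m).prod (gam m))
    = Measure.map (fun p : EE m × EE m => (p.1, c • p.1 + Real.sqrt (1 - c ^ 2) • p.2))
      ((gam m).prod (gam m)) := by
  have h := gk_rot_map (m := m) hc
  have hcs := gk_sq_add_sqrt hc
  set s := Real.sqrt (1 - c ^ 2) with hs
  have h2 := congrArg (Measure.map (fun p : EE m × EE m => (p.1, c • p.1 + s • p.2))) h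
  rw [Measure.map_map (by fun_prop) (by fun_prop)] at h2
  rw [← h2]
  congr 1
  funext p
  simp only [Function.comp_apply, Prod.mk.injEq, true_and]
  have : c • (c • p.1 + s • p.2) + s • (s • p.1 - c • p.2) = (c ^ 2 + s ^ 2) • p.1 := by
    simp only [smul_add, smul_sub, smul_smul, add_smul]
    rw [mul_comm s c, sq, sq]
    abel
  rw [this, hcs, one_smul]

/-- `a Z + b Z'` has the law of `√(a²+b²) Z`. -/
theorem gk_map_comb' (a b : ℝ) :
    Measure.map (fun p : EE m × EE m => a • p.1 + b • p.2) ((gam m).prod (gam m))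
      = Measure.map (fun z : EE m => Real.sqrt (a ^ 2 + b ^ 2) • z) (gam m) := by
  set T : EE m × EE m →L[ℝ] EE m :=
    a • ContinuousLinearMap.fst ℝ (EE m) (EE m) + b • ContinuousLinearMap.snd ℝ (EE m) (EE m)
    with hTdef
  set S : EE m →L[ℝ] EE m := Real.sqrt (a ^ 2 + b ^ 2) • ContinuousLinearMap.id ℝ (EE m) with hSdef
  have hT : (fun p : EE m × EE m => a • p.1 + b • p.2) = ⇑T := by funext p; rfl
  have hS : (fun z : EE m => Real.sqrt (a ^ 2 + b ^ 2) • z) = ⇑S := by funext p; rfl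
  rw [hT, hS]
  have : IsProbabilityMeasure (Measure.map (⇑T) ((gam m).prod (gam m))) :=
    Measure.isProbabilityMeasure_map T.continuous.aemeasurable
  have : IsProbabilityMeasure (Measure.map (⇑S) (gam m)) :=
    Measure.isProbabilityMeasure_map S.continuous.aemeasurable
  apply Measure.ext_of_charFunDual
  funext L
  rw [gk_charFunDual_lin, charFunDual_map, charFunDual_stdGaussian]
  have e1 : (L.comp T).comp (.inl ℝ (EE m) (EE m)) = a • L := by
    ext x
    simp [hTdef]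
  have e2 : (L.comp T).comp (.inr ℝ (EE m) (EE m)) = b • L := by
    ext x
    simp [hTdef]
  have e3 : L.comp S = Real.sqrt (a ^ 2 + b ^ 2) • L := by
    ext x
    simp [hSdef]
  rw [e1, e2, e3]
  have h3 : ‖Real.sqrt (a ^ 2 + b ^ 2) • L‖ ^ 2 = (a ^ 2 + b ^ 2) * ‖L‖ ^ 2 := by
    rw [norm_smul, mul_pow, Real.norm_eq_abs, sq_abs, Real.sq_sqrt (by positivity)]
  have h3' : ((‖Real.sqrt (a ^ 2 + b ^ 2) • L‖ : ℝ) : ℂ) ^ 2
      = (((a ^ 2 + b ^ 2) * ‖L‖ ^ 2 : ℝ) : ℂ) := by
    rw [← h3]; push_cast; ring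
  rw [h3']
  simp only [norm_smul, mul_pow, Real.norm_eq_abs, sq_abs]
  congr 1
  push_cast
  ring

end Claimed.Agent.R260
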