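/-
Row 260, package GK (Gaussian kit): the Mehler operator in L2: invariance, contraction, symmetry, semigroup.
Owner: helper175.
-/
import Claimed.Agent.R260.GKMehlerA
import Claimed.Agent.R260.GKRot

namespace Claimed.Agent.R260

open MeasureTheory ProbabilityTheory Filter Topology Set

variable {m : ℕ}


theorem gk_comb_measurable (a b : ℝ) :
    Measurable (fun p : EE m × EE m => a • p.1 + b • p.2) := by fun_prop

theorem gk_integrable_comp_comb {c : ℝ} (hc : c ∈ Icc (0 : ℝ) 1) {u : EE m → ℝ}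
    (hi : Integrable u (gam m)) :
    Integrable (fun p : EE m × EE m => u (c • p.1 + Real.sqrt (1 - c ^ 2) • p.2))
      ((gam m).prod (gam m)) := by
  have h : Integrable u (Measure.map (fun p : EE m × EE m => c • p.1 + Real.sqrt (1 - c ^ 2) • p.2)
      ((gam m).prod (gam m))) := by rwa [gk_map_comb hc]
  exact h.comp_measurable (gk_comb_measurable _ _)

theorem gk_integral_comp_comb {c : ℝ} (hc : c ∈ Icc (0 : ℝ) 1) {u : EE m → ℝ}
    (hu : AEStronglyMeasurable u (gam m)) :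
    ∫ p : EE m × EE m, u (c • p.1 + Real.sqrt (1 - c ^ 2) • p.2) ∂((gam m).prod (gam m))
      = ∫ y, u y ∂gam m := by
  have h := integral_map (μ := (gam m).prod (gam m))
    (φ := fun p : EE m × EE m => c • p.1 + Real.sqrt (1 - c ^ 2) • p.2) (f := u)
    (gk_comb_measurable _ _).aemeasurable (by rwa [gk_map_comb hc])
  rw [gk_map_comb hc] at h
  exact h.symm

/-- invariance of the Gaussian measure -/
theorem gk_integral_mehler {c : ℝ} (hc : c ∈ Icc (0 : ℝ) 1) {u : EE m → ℝ} (hu : Measurable u)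
    (hi : Integrable u (gam m)) : ∫ x, mehler c u x ∂gam m = ∫ x, u x ∂gam m := by
  rw [← gk_integral_comp_comb hc hi.1, integral_prod _ (gk_integrable_comp_comb hc hi)]
  rfl

theorem gk_mehler_integrable_of_integrable {c : ℝ} (hc : c ∈ Icc (0 : ℝ) 1) {u : EE m → ℝ}
    (hi : Integrable u (gam m)) : Integrable (mehler c u) (gam m) :=
  (gk_integrable_comp_comb hc hi).integral_prod_left

/-- for a.e. `x` the integrand defining `mehler c u x` is integrable -/
theorem gk_ae_integrable_mehler {c : ℝ} (hc : c ∈ Icc (0 : ℝ) 1) {u : EE m → ℝ}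
    (hi : Integrable u (gam m)) :
    ∀ᵐ x ∂gam m, Integrable (fun z => u (c • x + Real.sqrt (1 - c ^ 2) • z)) (gam m) :=
  (gk_integrable_comp_comb hc hi).prod_right_ae

theorem gk_sq_integrable {u : EE m → ℝ} (h2 : MemLp u 2 (gam m)) :
    Integrable (fun x => (u x) ^ 2) (gam m) := h2.integrable_sq

theorem gk_mehler_sq_le_ae {c : ℝ} (hc : c ∈ Icc (0 : ℝ) 1) {u : EE m → ℝ} (hu : Measurable u)
    (h2 : MemLp u 2 (gam m)) :
    ∀ᵐ x ∂gam m, (mehler c u x) ^ 2 ≤ mehler c (fun y => (u y) ^ 2) x := by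
  filter_upwards [gk_ae_integrable_mehler hc (gk_sq_integrable h2)] with x hx
  have hm : Measurable (fun z : EE m => u (c • x + Real.sqrt (1 - c ^ 2) • z)) :=
    hu.comp (by fun_prop)
  have hL : MemLp (fun z : EE m => u (c • x + Real.sqrt (1 - c ^ 2) • z)) 2 (gam m) :=
    (memLp_two_iff_integrable_sq hm.aestronglyMeasurable).2 hx
  have h := variance_nonneg (fun z : EE m => u (c • x + Real.sqrt (1 - c ^ 2) • z)) (gam m)
  rw [variance_eq_sub hL] at h
  simp only [Pi.pow_apply] at h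
  unfold mehler
  linarith

theorem gk_mehler_memLp {c : ℝ} (hc : c ∈ Icc (0 : ℝ) 1) {u : EE m → ℝ} (hu : Measurable u)
    (h2 : MemLp u 2 (gam m)) : MemLp (mehler c u) 2 (gam m) := by
  rw [memLp_two_iff_integrable_sq (gk_mehler_measurable c hu).aestronglyMeasurable]
  refine (gk_mehler_integrable_of_integrable hc (gk_sq_integrable h2)).mono'
    ((gk_mehler_measurable c hu).pow_const 2).aestronglyMeasurable ?_
  filter_upwards [gk_mehler_sq_le_ae hc hu h2] with x hx
  rwa [Real.norm_of_nonneg (sq_nonneg _)]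

/-- `L²(γ)` contraction -/
theorem gk_mehler_sq_le {c : ℝ} (hc : c ∈ Icc (0 : ℝ) 1) {u : EE m → ℝ} (hu : Measurable u)
    (h2 : MemLp u 2 (gam m)) :
    ∫ x, (mehler c u x) ^ 2 ∂gam m ≤ ∫ x, (u x) ^ 2 ∂gam m := by
  rw [← gk_integral_mehler hc (hu.pow_const 2) (gk_sq_integrable h2)]
  exact integral_mono_ae (gk_sq_integrable (gk_mehler_memLp hc hu h2))
    (gk_mehler_integrable_of_integrable hc (gk_sq_integrable h2)) (gk_mehler_sq_le_ae hc hu h2)




theorem gk_memLp_comp_comb {c : ℝ} (hc : c ∈ Icc (0 : ℝ) 1) {u : EE m → ℝ}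
    (h2 : MemLp u 2 (gam m)) :
    MemLp (fun p : EE m × EE m => u (c • p.1 + Real.sqrt (1 - c ^ 2) • p.2)) 2
      ((gam m).prod (gam m)) := by
  have h : MemLp u 2 (Measure.map (fun p : EE m × EE m => c • p.1 + Real.sqrt (1 - c ^ 2) • p.2)
      ((gam m).prod (gam m))) := by rwa [gk_map_comb hc]
  exact h.comp_of_map (gk_comb_measurable _ _).aemeasurable

theorem gk_memLp_comp_fst {u : EE m → ℝ} (h2 : MemLp u 2 (gam m)) :
    MemLp (fun p : EE m × EE m => u p.1) 2 ((gam m).prod (gam m)) :=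
  h2.comp_measurePreserving measurePreserving_fst

theorem gk_integrable_pair {c : ℝ} (hc : c ∈ Icc (0 : ℝ) 1) {u v : EE m → ℝ}
    (hu2 : MemLp u 2 (gam m)) (hv2 : MemLp v 2 (gam m)) :
    Integrable (fun p : EE m × EE m => u p.1 * v (c • p.1 + Real.sqrt (1 - c ^ 2) • p.2))
      ((gam m).prod (gam m)) :=
  (gk_memLp_comp_fst hu2).integrable_mul (gk_memLp_comp_comb hc hv2)

theorem gk_form_eq_prod {c : ℝ} (hc : c ∈ Icc (0 : ℝ) 1) {u v : EE m → ℝ}
    (hu2 : MemLp u 2 (gam m)) (hv2 : MemLp v 2 (gam m)) :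
    ∫ x, u x * mehler c v x ∂gam m
      = ∫ p : EE m × EE m, u p.1 * v (c • p.1 + Real.sqrt (1 - c ^ 2) • p.2)
          ∂((gam m).prod (gam m)) := by
  rw [integral_prod _ (gk_integrable_pair hc hu2 hv2)]
  refine integral_congr_ae (Eventually.of_forall fun x => ?_)
  simp only [mehler, integral_const_mul]

/-- symmetry in `L²(γ)` -/
theorem gk_mehler_symm {c : ℝ} (hc : c ∈ Icc (0 : ℝ) 1) {u v : EE m → ℝ} (hu : Measurable u)
    (hv : Measurable v) (hu2 : MemLp u 2 (gam m)) (hv2 : MemLp v 2 (gam m)) :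
    ∫ x, u x * mehler c v x ∂gam m = ∫ x, mehler c u x * v x ∂gam m := by
  have hG : Measurable (fun q : EE m × EE m => u q.1 * v q.2) :=
    (hu.comp measurable_fst).mul (hv.comp measurable_snd)
  have m1 : Measurable (fun p : EE m × EE m => (p.1, c • p.1 + Real.sqrt (1 - c ^ 2) • p.2)) := by
    fun_prop
  have m2 : Measurable (fun p : EE m × EE m => (c • p.1 + Real.sqrt (1 - c ^ 2) • p.2, p.1)) := by
    fun_prop
  have e1 := integral_map (μ := (gam m).prod (gam m)) m1.aemeasurable hG.aestronglyMeasurable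
  have e2 := integral_map (μ := (gam m).prod (gam m)) m2.aemeasurable hG.aestronglyMeasurable
  rw [gk_map_pair_swap hc, e1] at e2
  have e3 : ∫ x, mehler c u x * v x ∂gam m = ∫ x, v x * mehler c u x ∂gam m := by
    simp_rw [mul_comm]
  rw [e3, gk_form_eq_prod hc hu2 hv2, gk_form_eq_prod hc hv2 hu2, e2]
  simp_rw [mul_comm]




theorem gk_one_sub_sq_nonneg {c : ℝ} (hc : c ∈ Icc (0 : ℝ) 1) : 0 ≤ 1 - c ^ 2 := by
  have := hc.1; have := hc.2; nlinarith

theorem gk_mul_mem_Icc {c c' : ℝ} (hc : c ∈ Icc (0 : ℝ) 1) (hc' : c' ∈ Icc (0 : ℝ) 1) :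
    c * c' ∈ Icc (0 : ℝ) 1 :=
  ⟨mul_nonneg hc.1 hc'.1, mul_le_one₀ hc.2 hc'.1 hc'.2⟩

/-- semigroup property at a point where the defining integral converges -/
theorem gk_mehler_mehler_of_integrable {c c' : ℝ} (hc : c ∈ Icc (0 : ℝ) 1)
    (hc' : c' ∈ Icc (0 : ℝ) 1) {u : EE m → ℝ} (hu : Measurable u) (x : EE m)
    (hint : Integrable (fun z => u ((c * c') • x + Real.sqrt (1 - (c * c') ^ 2) • z)) (gam m)) :
    mehler c (mehler c' u) x = mehler (c * c') u x := by
  set a : ℝ := c' * Real.sqrt (1 - c ^ 2) with ha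
  set b : ℝ := Real.sqrt (1 - c' ^ 2) with hb
  have hab : a ^ 2 + b ^ 2 = 1 - (c * c') ^ 2 := by
    rw [ha, hb, mul_pow, Real.sq_sqrt (gk_one_sub_sq_nonneg hc),
      Real.sq_sqrt (gk_one_sub_sq_nonneg hc')]
    ring
  set w : EE m → ℝ := fun y => u ((c * c') • x + y) with hw
  have hwm : Measurable w := hu.comp (by fun_prop)
  have hs : Measurable (fun z : EE m => Real.sqrt (a ^ 2 + b ^ 2) • z) := by fun_prop
  have hI1 : Integrable w (Measure.map (fun z : EE m => Real.sqrt (a ^ 2 + b ^ 2) • z) (gam m)) := by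
    rw [integrable_map_measure hwm.aestronglyMeasurable hs.aemeasurable, hab]
    exact hint
  have hI2 : Integrable (fun p : EE m × EE m => w (a • p.1 + b • p.2)) ((gam m).prod (gam m)) := by
    rw [← gk_map_comb'] at hI1
    exact hI1.comp_measurable (gk_comb_measurable a b)
  have e1 : mehler c (mehler c' u) x = ∫ z, ∫ z', w (a • z + b • z') ∂gam m ∂gam m := by
    unfold mehler
    refine integral_congr_ae (Eventually.of_forall fun z => ?_)
    refine integral_congr_ae (Eventually.of_forall fun z' => ?_)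
    simp only [hw, ha, hb]
    congr 1
    rw [smul_add, smul_smul, smul_smul, mul_comm c' c, add_assoc]
  rw [e1, ← integral_prod _ hI2,
    ← integral_map (φ := fun p : EE m × EE m => a • p.1 + b • p.2)
      (gk_comb_measurable a b).aemeasurable hwm.aestronglyMeasurable,
    gk_map_comb', integral_map hs.aemeasurable hwm.aestronglyMeasurable, hab]
  rfl

/-- semigroup property, pointwise for functions of polynomial growth -/
theorem gk_mehler_mehler {c c' : ℝ} (hc : c ∈ Icc (0 : ℝ) 1) (hc' : c' ∈ Icc (0 : ℝ) 1)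
    {u : EE m → ℝ} (hu : PG u) (x : EE m) :
    mehler c (mehler c' u) x = mehler (c * c') u x :=
  gk_mehler_mehler_of_integrable hc hc' hu.1 x (gk_mehler_integrable _ hu x)


/-- semigroup property, a.e. for `L²` functions -/
theorem gk_mehler_mehler_ae {c c' : ℝ} (hc : c ∈ Icc (0 : ℝ) 1) (hc' : c' ∈ Icc (0 : ℝ) 1)
    {u : EE m → ℝ} (hu : Measurable u) (h2 : MemLp u 2 (gam m)) :
    mehler c (mehler c' u) =ᵐ[gam m] mehler (c * c') u := by
  have hi : Integrable u (gam m) := h2.integrable (by norm_num)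
  filter_upwards [gk_ae_integrable_mehler (gk_mul_mem_Icc hc hc') hi] with x hx
  exact gk_mehler_mehler_of_integrable hc hc' hu x hx

/-- `E[u P_{ab} v] = E[P_a u · P_b v]` -/
theorem gk_form_mul {a b : ℝ} (ha : a ∈ Icc (0 : ℝ) 1) (hb : b ∈ Icc (0 : ℝ) 1) {u v : EE m → ℝ}
    (hu : Measurable u) (hv : Measurable v) (hu2 : MemLp u 2 (gam m)) (hv2 : MemLp v 2 (gam m)) :
    ∫ x, u x * mehler (a * b) v x ∂gam m = ∫ x, mehler a u x * mehler b v x ∂gam m := by
  rw [← gk_mehler_symm ha hu (gk_mehler_measurable b hv) hu2 (gk_mehler_memLp hb hv hv2)]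
  refine integral_congr_ae ?_
  filter_upwards [gk_mehler_mehler_ae ha hb hv hv2] with x hx
  rw [hx]

theorem gk_sqrt_mem_Icc {c : ℝ} (hc : c ∈ Icc (0 : ℝ) 1) : Real.sqrt c ∈ Icc (0 : ℝ) 1 :=
  ⟨Real.sqrt_nonneg _, Real.sqrt_le_one.2 hc.2⟩

/-- positivity of the Mehler kernel -/
theorem gk_mehler_pos {c : ℝ} (hc : c ∈ Icc (0 : ℝ) 1) {u : EE m → ℝ} (hu : Measurable u)
    (h2 : MemLp u 2 (gam m)) : 0 ≤ ∫ x, u x * mehler c u x ∂gam m := by
  have hs := gk_sqrt_mem_Icc hc
  have e : c = Real.sqrt c * Real.sqrt c := (Real.mul_self_sqrt hc.1).symm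
  rw [e, gk_form_mul hs hs hu hu h2 h2]
  exact integral_nonneg fun x => mul_self_nonneg _

/-- Cauchy--Schwarz plus contraction: `E[w P_t w] ≤ E[w²]` -/
theorem gk_form_le_sq {t : ℝ} (ht : t ∈ Icc (0 : ℝ) 1) {w : EE m → ℝ} (hw : Measurable w)
    (h2 : MemLp w 2 (gam m)) :
    ∫ x, w x * mehler t w x ∂gam m ≤ ∫ x, (w x) ^ 2 ∂gam m := by
  have hP := gk_mehler_memLp ht hw h2
  have h1 : ∫ x, w x * mehler t w x ∂gam m
      ≤ ∫ x, ((w x) ^ 2 + (mehler t w x) ^ 2) / 2 ∂gam m := by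
    refine integral_mono (h2.integrable_mul hP)
      (((gk_sq_integrable h2).add (gk_sq_integrable hP)).div_const 2) fun x => ?_
    simp only
    nlinarith [sq_nonneg (w x - mehler t w x)]
  have h3 : ∫ x, ((w x) ^ 2 + (mehler t w x) ^ 2) / 2 ∂gam m
      = (∫ x, (w x) ^ 2 ∂gam m + ∫ x, (mehler t w x) ^ 2 ∂gam m) / 2 := by
    rw [integral_div, integral_add (gk_sq_integrable h2) (gk_sq_integrable hP)]
  have h4 := gk_mehler_sq_le ht hw h2
  linarith

/-- `c ↦ E[u · mehler c u]` is nondecreasing on `[0,1]` -/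
theorem gk_mehler_form_mono {c c' : ℝ} (hc : 0 ≤ c) (hcc' : c ≤ c') (hc' : c' ≤ 1) {u : EE m → ℝ}
    (hu : Measurable u) (h2 : MemLp u 2 (gam m)) :
    ∫ x, u x * mehler c u x ∂gam m ≤ ∫ x, u x * mehler c' u x ∂gam m := by
  rcases eq_or_lt_of_le (hc.trans hcc') with h0 | h0
  · have : c = c' := le_antisymm hcc' (h0 ▸ hc)
    rw [this]
  have hc'I : c' ∈ Icc (0 : ℝ) 1 := ⟨h0.le, hc'⟩
  have hs := gk_sqrt_mem_Icc hc'I
  set s := Real.sqrt c' with hsdef
  have hss : s * s = c' := Real.mul_self_sqrt h0.le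
  set t := c / c' with htdef
  have ht : t ∈ Icc (0 : ℝ) 1 := ⟨div_nonneg hc h0.le, (div_le_one h0).2 hcc'⟩
  have e1 : c = s * (t * s) := by
    rw [htdef, mul_comm (c / c') s, ← mul_assoc, hss]; field_simp
  have hw := gk_mehler_measurable s hu
  have hw2 := gk_mehler_memLp hs hu h2
  have e2 : ∫ x, u x * mehler c u x ∂gam m
      = ∫ x, mehler s u x * mehler t (mehler s u) x ∂gam m := by
    rw [e1, gk_form_mul hs (gk_mul_mem_Icc ht hs) hu hu h2 h2]
    refine integral_congr_ae ?_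
    filter_upwards [gk_mehler_mehler_ae ht hs hu h2] with x hx
    rw [hx]
  have e3 : ∫ x, u x * mehler c' u x ∂gam m = ∫ x, (mehler s u x) ^ 2 ∂gam m := by
    rw [← hss, gk_form_mul hs hs hu hu h2 h2]
    simp_rw [sq]
  rw [e2, e3]
  exact gk_form_le_sq ht hw hw2

end Claimed.Agent.R260
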