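/-
Row 260, package GK (Gaussian kit): smoothing by the Mehler operator.
Owner: helper77.  Statements verbatim from helper200's skeleton; no sorry in this file.
Route: Cameron--Martin shift + differentiation under the integral give differentiability and the
kernel formula (`gks_hasFDerivAt`); higher regularity by induction through the semigroup property
`mehler c = mehler √c ∘ mehler √c` and the commutation with derivatives (Lipschitz case).
-/
import Claimed.Agent.R260.GKMehlerD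
import Claimed.Agent.R260.GKMehlerB
import Claimed.Agent.R260.GKIbp

namespace Claimed.Agent.R260

open MeasureTheory ProbabilityTheory Filter Topology Set

variable {m : ℕ}

/-- exponential moments of the norm -/
theorem gks_integrable_exp_norm (b : ℝ) :
    Integrable (fun z : EE m => Real.exp (b * ‖z‖)) (gam m) := by
  obtain ⟨C, hC, hI⟩ := IsGaussian.exists_integrable_exp_sq (gam m)
  refine (hI.const_mul (Real.exp (b ^ 2 / (4 * C)))).mono' (by fun_prop) ?_
  refine Eventually.of_forall fun z => ?_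
  rw [Real.norm_eq_abs, abs_of_pos (Real.exp_pos _), ← Real.exp_add]
  refine Real.exp_le_exp.mpr ?_
  have h1 : 0 ≤ (b / (2 * C) - ‖z‖) ^ 2 * C := by positivity
  have h2 : (b / (2 * C) - ‖z‖) ^ 2 * C = b ^ 2 / (4 * C) - b * ‖z‖ + C * ‖z‖ ^ 2 := by
    field_simp
    ring
  linarith

theorem gks_memLp_exp_norm (b : ℝ) :
    MemLp (fun z : EE m => Real.exp (b * ‖z‖)) 2 (gam m) := by
  rw [memLp_two_iff_integrable_sq (by fun_prop)]
  have := gks_integrable_exp_norm (m := m) (2 * b)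
  refine this.congr (Eventually.of_forall fun z => ?_)
  simp only
  rw [← Real.exp_nat_mul]
  congr 1
  push_cast
  ring

theorem gks_sqrt_mem (c : ℝ) :
    Real.sqrt (1 - c ^ 2) ∈ Icc (0 : ℝ) 1 := by
  refine ⟨Real.sqrt_nonneg _, ?_⟩
  rw [Real.sqrt_le_left (by norm_num : (0:ℝ) ≤ 1)]
  nlinarith [sq_nonneg c]

/-- polynomial growth is preserved by the affine substitution of the Mehler formula -/
theorem gks_PG_comp {c : ℝ} (hc : c ∈ Icc (0 : ℝ) 1) {u : EE m → ℝ} (hu : PG u) (x : EE m) :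
    PG (fun z => u (c • x + Real.sqrt (1 - c ^ 2) • z)) := by
  obtain ⟨hm, C, k, hC⟩ := hu
  obtain ⟨hσ0, hσ1⟩ := gks_sqrt_mem c
  set σ := Real.sqrt (1 - c ^ 2)
  refine ⟨hm.comp (by fun_prop), |C| * (1 + ‖x‖) ^ k, k, fun z => ?_⟩
  have h1 : ‖c • x + σ • z‖ ≤ ‖x‖ + ‖z‖ := by
    refine (norm_add_le _ _).trans ?_
    rw [norm_smul, norm_smul, Real.norm_eq_abs, Real.norm_eq_abs, abs_of_nonneg hc.1,
      abs_of_nonneg hσ0]
    have := norm_nonneg x
    have := norm_nonneg z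
    nlinarith [hc.2]
  have h2 : (1 + ‖c • x + σ • z‖) ^ k ≤ (1 + ‖x‖) ^ k * (1 + ‖z‖) ^ k := by
    rw [← mul_pow]
    refine pow_le_pow_left₀ (by positivity) ?_ k
    have := norm_nonneg x
    have := norm_nonneg z
    nlinarith
  calc |u (c • x + σ • z)| ≤ C * (1 + ‖c • x + σ • z‖) ^ k := hC _
    _ ≤ |C| * (1 + ‖c • x + σ • z‖) ^ k := by
        gcongr
        exact le_abs_self C
    _ ≤ |C| * ((1 + ‖x‖) ^ k * (1 + ‖z‖) ^ k) := by gcongr
    _ = |C| * (1 + ‖x‖) ^ k * (1 + ‖z‖) ^ k := by ring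

/-- Cameron--Martin formula for the Mehler operator -/
theorem gks_shift {c : ℝ} (hc : c ∈ Ico (0 : ℝ) 1) (u : EE m → ℝ) (x h : EE m) :
    mehler c u (x + h) = ∫ z, u (c • x + Real.sqrt (1 - c ^ 2) • z)
      * Real.exp (c / Real.sqrt (1 - c ^ 2) * inner ℝ z h
          - (c / Real.sqrt (1 - c ^ 2)) ^ 2 * ‖h‖ ^ 2 / 2) ∂gam m := by
  have hσ : Real.sqrt (1 - c ^ 2) ≠ 0 := by
    have : 0 < 1 - c ^ 2 := by nlinarith [hc.1, hc.2]
    exact (Real.sqrt_pos.mpr this).ne'
  set σ := Real.sqrt (1 - c ^ 2)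
  set a := c / σ with ha
  have hσa : σ * a = c := by rw [ha]; field_simp
  unfold mehler
  rw [gk_integral_gam, gk_integral_gam]
  rw [← integral_sub_right_eq_self _ (a • h)]
  refine integral_congr_ae (Eventually.of_forall fun w => ?_)
  simp only
  have h1 : c • (x + h) + σ • (w - a • h) = c • x + σ • w := by
    rw [smul_add, smul_sub, smul_smul, hσa]
    abel
  have h2 : ‖w - a • h‖ ^ 2 = ‖w‖ ^ 2 - 2 * (a * inner ℝ w h) + a ^ 2 * ‖h‖ ^ 2 := by
    rw [norm_sub_sq_real, inner_smul_right, norm_smul, mul_pow, Real.norm_eq_abs, sq_abs]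
  rw [h1, h2, mul_assoc, mul_left_comm (Real.exp _), ← Real.exp_add]
  congr 3
  ring

/-- the exponential weight of the Cameron--Martin formula is differentiable in the shift -/
theorem gks_hasFDerivAt_weight (a : ℝ) (z h : EE m) :
    HasFDerivAt (fun h : EE m => Real.exp (a * inner ℝ z h - a ^ 2 * ‖h‖ ^ 2 / 2))
      (Real.exp (a * inner ℝ z h - a ^ 2 * ‖h‖ ^ 2 / 2) •
        (a • innerSL ℝ z - a ^ 2 • innerSL ℝ h)) h := by
  have h1 : HasFDerivAt (fun h : EE m => inner ℝ z h) (innerSL ℝ z) h :=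
    (innerSL ℝ z).hasFDerivAt
  have h2 : HasFDerivAt (fun h : EE m => ‖h‖ ^ 2) (2 • innerSL ℝ h) h := by
    have := (hasFDerivAt_id h).norm_sq
    simpa using this
  have h3 := ((h1.const_mul a).sub (h2.const_mul (a ^ 2 / 2))).exp
  have e1 : ∀ h : EE m, a * inner ℝ z h - a ^ 2 * ‖h‖ ^ 2 / 2
      = a * inner ℝ z h - a ^ 2 / 2 * ‖h‖ ^ 2 := fun h => by ring
  have e2 : (a • innerSL ℝ z - a ^ 2 • innerSL ℝ h : EE m →L[ℝ] ℝ)
      = a • innerSL ℝ z - (a ^ 2 / 2) • (2 • innerSL ℝ h) := by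
    ext v
    simp
    ring
  simp only [e1, e2]
  exact h3

/-- **Key lemma**: the Mehler regularisation of a function of polynomial growth is differentiable,
with the kernel formula for the derivative. -/
theorem gks_hasFDerivAt {c : ℝ} (hc : c ∈ Ico (0 : ℝ) 1) {u : EE m → ℝ} (hu : PG u) (x : EE m) :
    Integrable (fun z => u (c • x + Real.sqrt (1 - c ^ 2) • z) •
        ((c / Real.sqrt (1 - c ^ 2)) • innerSL ℝ z)) (gam m) ∧
    HasFDerivAt (mehler c u)
      (∫ z, u (c • x + Real.sqrt (1 - c ^ 2) • z) •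
        ((c / Real.sqrt (1 - c ^ 2)) • innerSL ℝ z) ∂gam m) x := by
  have hc' : c ∈ Icc (0 : ℝ) 1 := ⟨hc.1, hc.2.le⟩
  have hσ : 0 < Real.sqrt (1 - c ^ 2) := by
    have : 0 < 1 - c ^ 2 := by nlinarith [hc.1, hc.2]
    exact Real.sqrt_pos.mpr this
  have hU := gks_PG_comp hc' hu x
  have hsh := gks_shift hc u x
  set σ := Real.sqrt (1 - c ^ 2)
  set a := c / σ with ha
  have ha0 : 0 ≤ a := div_nonneg hc.1 hσ.le
  set U : EE m → ℝ := fun z => u (c • x + σ • z) with hUdef
  -- the dominating function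
  have hg1 : PG (fun z : EE m => U z * (a * ‖z‖ + a ^ 2)) := by
    refine hU.mul ⟨by fun_prop, a + a ^ 2, 1, fun z => ?_⟩
    have := norm_nonneg z
    rw [abs_of_nonneg (by positivity)]
    nlinarith [sq_nonneg a]
  have hbint : Integrable (fun z : EE m => |U z * (a * ‖z‖ + a ^ 2)| * Real.exp (a * ‖z‖))
      (gam m) := by
    have h1 : MemLp (fun z : EE m => |U z * (a * ‖z‖ + a ^ 2)|) 2 (gam m) := (hg1.memLp 2).abs
    exact h1.integrable_mul (gks_memLp_exp_norm a)
  have hmeasU : Measurable U := hU.1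
  have key : HasFDerivAt (fun h : EE m => ∫ z, U z * Real.exp (a * inner ℝ z h
      - a ^ 2 * ‖h‖ ^ 2 / 2) ∂gam m)
      (∫ z, U z • (Real.exp (a * inner ℝ z (0 : EE m) - a ^ 2 * ‖(0 : EE m)‖ ^ 2 / 2) •
        (a • innerSL ℝ z - a ^ 2 • innerSL ℝ (0 : EE m))) ∂gam m) 0 := by
    refine hasFDerivAt_integral_of_dominated_of_fderiv_le (μ := gam m)
      (F := fun h z => U z * Real.exp (a * inner ℝ z h - a ^ 2 * ‖h‖ ^ 2 / 2))
      (F' := fun h z => U z • (Real.exp (a * inner ℝ z h - a ^ 2 * ‖h‖ ^ 2 / 2) •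
        (a • innerSL ℝ z - a ^ 2 • innerSL ℝ h)))
      (bound := fun z => |U z * (a * ‖z‖ + a ^ 2)| * Real.exp (a * ‖z‖))
      (s := Metric.ball 0 1) (Metric.ball_mem_nhds _ one_pos) ?_ ?_ ?_ ?_ hbint ?_
    · refine Eventually.of_forall fun h => ?_
      exact (hmeasU.mul (by fun_prop)).aestronglyMeasurable
    · simpa using hU.integrable
    · refine (hmeasU.aestronglyMeasurable).smul ?_
      refine Continuous.aestronglyMeasurable ?_
      have h1 : Continuous (fun z : EE m => innerSL ℝ z) := (innerSL ℝ).continuous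
      fun_prop
    · refine Eventually.of_forall fun z h hh => ?_
      have hh1 : ‖h‖ < 1 := by simpa using hh
      rw [norm_smul, norm_smul, Real.norm_eq_abs, Real.norm_eq_abs, abs_of_pos (Real.exp_pos _),
        abs_mul, abs_of_nonneg (by positivity : 0 ≤ a * ‖z‖ + a ^ 2)]
      have h1 : ‖a • innerSL ℝ z - a ^ 2 • innerSL ℝ h‖ ≤ a * ‖z‖ + a ^ 2 := by
        refine (norm_sub_le _ _).trans ?_
        rw [norm_smul, norm_smul, innerSL_apply_norm, innerSL_apply_norm, Real.norm_eq_abs,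
          Real.norm_eq_abs, abs_of_nonneg ha0, abs_of_nonneg (sq_nonneg a)]
        nlinarith [sq_nonneg a]
      have h2 : Real.exp (a * inner ℝ z h - a ^ 2 * ‖h‖ ^ 2 / 2) ≤ Real.exp (a * ‖z‖) := by
        refine Real.exp_le_exp.mpr ?_
        have h3 : inner ℝ z h ≤ ‖z‖ * ‖h‖ := real_inner_le_norm z h
        have h4 : ‖z‖ * ‖h‖ ≤ ‖z‖ := by nlinarith [norm_nonneg z]
        have h5 : 0 ≤ a ^ 2 * ‖h‖ ^ 2 / 2 := by positivity
        nlinarith
      calc |U z| * (Real.exp (a * inner ℝ z h - a ^ 2 * ‖h‖ ^ 2 / 2)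
            * ‖a • innerSL ℝ z - a ^ 2 • innerSL ℝ h‖)
          ≤ |U z| * (Real.exp (a * ‖z‖) * (a * ‖z‖ + a ^ 2)) := by gcongr
        _ = |U z| * (a * ‖z‖ + a ^ 2) * Real.exp (a * ‖z‖) := by ring
    · refine Eventually.of_forall fun z h _ => ?_
      exact (gks_hasFDerivAt_weight a z h).const_mul (U z)
  have e0 : (fun z : EE m => U z • (Real.exp (a * inner ℝ z (0 : EE m)
      - a ^ 2 * ‖(0 : EE m)‖ ^ 2 / 2) • (a • innerSL ℝ z - a ^ 2 • innerSL ℝ (0 : EE m))))
      = fun z : EE m => U z • (a • innerSL ℝ z) := by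
    funext z
    simp
  rw [e0] at key
  refine ⟨?_, ?_⟩
  · refine hbint.mono' ?_ (Eventually.of_forall fun z => ?_)
    · refine (hmeasU.aestronglyMeasurable).smul ?_
      refine Continuous.aestronglyMeasurable ?_
      have h1 : Continuous (fun z : EE m => innerSL ℝ z) := (innerSL ℝ).continuous
      fun_prop
    · rw [norm_smul, norm_smul, innerSL_apply_norm, Real.norm_eq_abs, Real.norm_eq_abs,
        abs_of_nonneg ha0, abs_mul, abs_of_nonneg (by positivity : 0 ≤ a * ‖z‖ + a ^ 2)]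
      have h1 : 1 ≤ Real.exp (a * ‖z‖) := Real.one_le_exp (by positivity)
      have h2 : 0 ≤ |U z| := abs_nonneg _
      have h3 : |U z| * (a * ‖z‖) ≤ |U z| * (a * ‖z‖ + a ^ 2) := by
        gcongr
        nlinarith [sq_nonneg a]
      have h4 : 0 ≤ |U z| * (a * ‖z‖ + a ^ 2) := by positivity
      nlinarith
  · have h1 : (fun h : EE m => mehler c u (x + h)) = fun h : EE m => ∫ z, U z * Real.exp
        (a * inner ℝ z h - a ^ 2 * ‖h‖ ^ 2 / 2) ∂gam m := by
      funext h
      exact hsh h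
    rw [← h1] at key
    have h2 : HasFDerivAt (fun y : EE m => y - x) (ContinuousLinearMap.id ℝ (EE m)) x :=
      (hasFDerivAt_id x).sub_const x
    have key' : HasFDerivAt (fun h : EE m => mehler c u (x + h))
        (∫ z, U z • (a • innerSL ℝ z) ∂gam m) (x - x) := by
      rw [sub_self]
      exact key
    have h3 := HasFDerivAt.comp (g := fun h : EE m => mehler c u (x + h))
      (f := fun y : EE m => y - x) x key' h2
    have h4 : ((fun h : EE m => mehler c u (x + h)) ∘ fun y : EE m => y - x) = mehler c u := by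
      funext y
      simp
    rw [h4, ContinuousLinearMap.comp_id] at h3
    exact h3

/-- the kernel formula for the derivative: no regularity of `u` needed -/
theorem gk_pd_mehler_kernel {c : ℝ} (hc : c ∈ Ico (0 : ℝ) 1) {u : EE m → ℝ} (hu : PG u)
    (r : Fin m) (x : EE m) :
    pd r (mehler c u) x
      = c / Real.sqrt (1 - c ^ 2)
          * ∫ z, u (c • x + Real.sqrt (1 - c ^ 2) • z) * z r ∂gam m := by
  obtain ⟨h1, h2⟩ := gks_hasFDerivAt hc hu x
  unfold pd
  rw [h2.fderiv, ContinuousLinearMap.integral_apply h1, ← integral_const_mul]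
  refine integral_congr_ae (Eventually.of_forall fun z => ?_)
  have h3 : inner ℝ z (eb r) = z r := by
    simp [eb, EuclideanSpace.inner_single_right]
  simp only [_root_.smul_apply, innerSL_apply_apply, h3, smul_eq_mul]
  ring


/-- a continuous linear functional in coordinates -/
theorem gks_clm_eq_sum (L : EE m →L[ℝ] ℝ) :
    L = ∑ r, L (eb r) • (EuclideanSpace.proj r : EE m →L[ℝ] ℝ) := by
  ext v
  have hv : v = ∑ r, v r • (eb r : EE m) := by
    ext i
    simp [eb, Pi.single_apply]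
  conv_lhs => rw [hv]
  simp [map_sum, mul_comm]

theorem gks_fderiv_eq_sum (f : EE m → ℝ) :
    fderiv ℝ f = fun x => ∑ r, pd r f x • (EuclideanSpace.proj r : EE m →L[ℝ] ℝ) := by
  funext x
  exact gks_clm_eq_sum _

/-- from the partial derivatives to the function: regularity -/
theorem gks_contDiff_succ {f : EE m → ℝ} (hf : Differentiable ℝ f) {k : ℕ}
    (h : ∀ r, ContDiff ℝ k (pd r f)) : ContDiff ℝ (k + 1 : ℕ) f := by
  have : ((k + 1 : ℕ) : WithTop ℕ∞) = (k : WithTop ℕ∞) + 1 := by push_cast; rfl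
  rw [this, contDiff_succ_iff_fderiv]
  refine ⟨hf, by simp, ?_⟩
  rw [gks_fderiv_eq_sum]
  exact ContDiff.sum fun r _ => (h r).smul contDiff_const

/-- from the partial derivatives to the function: bounds -/
theorem gks_norm_iteratedFDeriv_succ_le {f : EE m → ℝ} {k : ℕ}
    (h : ∀ r, ContDiff ℝ k (pd r f)) (x : EE m) :
    ‖iteratedFDeriv ℝ (k + 1) f x‖
      ≤ ∑ r, ‖(EuclideanSpace.proj r : EE m →L[ℝ] ℝ)‖ * ‖iteratedFDeriv ℝ k (pd r f) x‖ := by
  rw [← norm_iteratedFDeriv_fderiv, gks_fderiv_eq_sum]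
  rw [iteratedFDeriv_fun_sum_apply (u := Finset.univ)
    (f := fun r x => pd r f x • (EuclideanSpace.proj r : EE m →L[ℝ] ℝ))
    (fun r _ => ((h r).smul contDiff_const).contDiffAt)]
  refine (norm_sum_le _ _).trans (Finset.sum_le_sum fun r _ => ?_)
  have h1 := ((ContinuousLinearMap.id ℝ ℝ).smulRight
    (EuclideanSpace.proj r : EE m →L[ℝ] ℝ)).norm_iteratedFDeriv_comp_left
      (h r).contDiffAt (le_refl _) (x := x)
  refine h1.trans ?_
  gcongr
  rw [ContinuousLinearMap.norm_smulRight_apply]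
  simp

/-- `C^k` with bounded derivatives of all orders `≤ k` -/
def GksB (k : ℕ) (f : EE m → ℝ) : Prop :=
  ContDiff ℝ k f ∧ ∀ j ≤ k, ∃ C, ∀ x, ‖iteratedFDeriv ℝ j f x‖ ≤ C

theorem GksB.const_mul {k : ℕ} {f : EE m → ℝ} (h : GksB k f) (a : ℝ) :
    GksB k (fun x => a * f x) := by
  refine ⟨contDiff_const.mul h.1, fun j hj => ?_⟩
  obtain ⟨C, hC⟩ := h.2 j hj
  refine ⟨|a| * C, fun x => ?_⟩
  have h1 : ContDiffAt ℝ j f x := (h.1.of_le (by exact_mod_cast hj)).contDiffAt
  have h2 := iteratedFDeriv_const_smul_apply' (𝕜 := ℝ) (a := a) h1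
  simp only [smul_eq_mul] at h2
  rw [h2, norm_smul, Real.norm_eq_abs]
  gcongr
  exact hC x

/-- bounds for the derivatives of order `≥ 1` from bounds on the partial derivatives -/
theorem gks_bound_succ {f : EE m → ℝ} {k : ℕ} (h : ∀ r, GksB k (pd r f)) (i : ℕ) (hi : i ≤ k) :
    ∃ C, ∀ x, ‖iteratedFDeriv ℝ (i + 1) f x‖ ≤ C := by
  have h1 : ∀ r, ∃ C, ∀ x, ‖iteratedFDeriv ℝ i (pd r f) x‖ ≤ C := fun r => (h r).2 i hi
  choose C hC using h1
  refine ⟨∑ r, ‖(EuclideanSpace.proj r : EE m →L[ℝ] ℝ)‖ * C r, fun x => ?_⟩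
  refine (gks_norm_iteratedFDeriv_succ_le
    (fun r => (h r).1.of_le (by exact_mod_cast hi)) x).trans ?_
  refine Finset.sum_le_sum fun r _ => ?_
  gcongr
  exact hC r x

theorem GksB.succ {f : EE m → ℝ} (hf : Differentiable ℝ f) (hb : ∃ C, ∀ x, |f x| ≤ C) {k : ℕ}
    (h : ∀ r, GksB k (pd r f)) : GksB (k + 1) f := by
  refine ⟨gks_contDiff_succ hf fun r => (h r).1, fun j hj => ?_⟩
  rcases j with _ | i
  · obtain ⟨C, hC⟩ := hb
    exact ⟨C, fun x => by rw [norm_iteratedFDeriv_zero]; exact hC x⟩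
  · exact gks_bound_succ h i (by omega)

theorem gks_mehler_differentiable {c : ℝ} (hc : c ∈ Ico (0 : ℝ) 1) {u : EE m → ℝ} (hu : PG u) :
    Differentiable ℝ (mehler c u) := fun x => (gks_hasFDerivAt hc hu x).2.differentiableAt

theorem gks_mehler_BM (c : ℝ) {u : EE m → ℝ} (hu : BM u) : BM (mehler c u) := by
  obtain ⟨hm, C, hC⟩ := hu
  exact ⟨gk_mehler_measurable c hm, C, gk_mehler_abs_le c hC⟩

/-- the Mehler regularisation of a bounded function is Lipschitz -/
theorem gks_mehler_lipschitz {c : ℝ} (hc : c ∈ Ico (0 : ℝ) 1) {u : EE m → ℝ} (hu : BM u) :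
    ∃ K : NNReal, LipschitzWith K (mehler c u) := by
  obtain ⟨C, hC⟩ := hu.2
  have hσ : 0 < Real.sqrt (1 - c ^ 2) := by
    have : 0 < 1 - c ^ 2 := by nlinarith [hc.1, hc.2]
    exact Real.sqrt_pos.mpr this
  have ha0 : 0 ≤ c / Real.sqrt (1 - c ^ 2) := div_nonneg hc.1 hσ.le
  have hC0 : 0 ≤ C := (abs_nonneg _).trans (hC 0)
  have hint : Integrable (fun z : EE m => C * (c / Real.sqrt (1 - c ^ 2)) * ‖z‖) (gam m) :=
    (IsGaussian.integrable_id (μ := gam m)).norm.const_mul _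
  have hM : 0 ≤ ∫ z : EE m, C * (c / Real.sqrt (1 - c ^ 2)) * ‖z‖ ∂gam m :=
    integral_nonneg fun z => by positivity
  refine ⟨Real.toNNReal (∫ z : EE m, C * (c / Real.sqrt (1 - c ^ 2)) * ‖z‖ ∂gam m),
    lipschitzWith_of_nnnorm_fderiv_le (gks_mehler_differentiable hc hu.toPG) fun x => ?_⟩
  rw [← NNReal.coe_le_coe, coe_nnnorm, Real.coe_toNNReal _ hM,
    (gks_hasFDerivAt hc hu.toPG x).2.fderiv]
  refine norm_integral_le_of_norm_le hint (Eventually.of_forall fun z => ?_)
  rw [norm_smul, norm_smul, innerSL_apply_norm, Real.norm_eq_abs, Real.norm_eq_abs,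
    abs_of_nonneg ha0, ← mul_assoc]
  gcongr
  exact hC _

theorem gks_sqrt_mem_Ico {c : ℝ} (hc : c ∈ Ico (0 : ℝ) 1) : Real.sqrt c ∈ Ico (0 : ℝ) 1 := by
  refine ⟨Real.sqrt_nonneg _, ?_⟩
  rw [Real.sqrt_lt' one_pos]
  simpa using hc.2

/-- smoothing, finite order -/
theorem gks_mehler_B (k : ℕ) : ∀ c ∈ Ico (0 : ℝ) 1, ∀ u : EE m → ℝ, BM u → GksB k (mehler c u) := by
  induction k with
  | zero =>
    intro c hc u hu
    refine ⟨?_, fun j hj => ?_⟩
    · rw [Nat.cast_zero, contDiff_zero]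
      exact (gks_mehler_differentiable hc hu.toPG).continuous
    · obtain rfl : j = 0 := by omega
      obtain ⟨C, hC⟩ := (gks_mehler_BM c hu).2
      exact ⟨C, fun x => by rw [norm_iteratedFDeriv_zero]; exact hC x⟩
  | succ k ih =>
    intro c hc u hu
    have hc1 := gks_sqrt_mem_Ico hc
    have hc1' : Real.sqrt c ∈ Icc (0 : ℝ) 1 := ⟨hc1.1, hc1.2.le⟩
    have hv := gks_mehler_BM (Real.sqrt c) hu
    obtain ⟨K, hK⟩ := gks_mehler_lipschitz hc1 hu
    have hsemi : mehler c u = mehler (Real.sqrt c) (mehler (Real.sqrt c) u) := by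
      funext x
      rw [gk_mehler_mehler hc1' hc1' hu.toPG x, Real.mul_self_sqrt hc.1]
    rw [hsemi]
    refine GksB.succ (gks_mehler_differentiable hc1 hv.toPG) (gks_mehler_BM _ hv).2 fun r => ?_
    have h1 : pd r (mehler (Real.sqrt c) (mehler (Real.sqrt c) u))
        = fun x => Real.sqrt c * mehler (Real.sqrt c) (pd r (mehler (Real.sqrt c) u)) x := by
      funext x
      exact gk_pd_mehler_of_lipschitz hc1 hK r x
    rw [h1]
    exact (ih _ hc1 _ (gk_pd_BM_of_lipschitz hK r)).const_mul _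

/-- smoothing: bounded measurable functions become `C^∞` with all derivatives bounded -/
theorem gk_mehler_niceB {c : ℝ} (hc : c ∈ Ico (0 : ℝ) 1) {u : EE m → ℝ} (hu : BM u) :
    NiceB (mehler c u) := by
  refine ⟨?_, fun k => (gks_mehler_B k c hc u hu).2 k le_rfl⟩
  exact contDiff_infty.mpr fun k => (gks_mehler_B k c hc u hu).1

/-- smoothing: Lipschitz functions become `C^∞` with all derivatives of order `≥ 1` bounded -/
theorem gk_mehler_niceL {c : ℝ} (hc : c ∈ Ico (0 : ℝ) 1) {u : EE m → ℝ} {K : NNReal}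
    (hu : LipschitzWith K u) : NiceL (mehler c u) := by
  have hd := gks_mehler_differentiable hc (gk_PG_of_lipschitz hu)
  have h1 : ∀ (k : ℕ) (r : Fin m), GksB k (pd r (mehler c u)) := by
    intro k r
    have h2 : pd r (mehler c u) = fun x => c * mehler c (pd r u) x := by
      funext x
      exact gk_pd_mehler_of_lipschitz hc hu r x
    rw [h2]
    exact (gks_mehler_B k c hc _ (gk_pd_BM_of_lipschitz hu r)).const_mul _
  refine ⟨?_, fun k hk => ?_⟩
  · refine contDiff_infty.mpr fun k => ?_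
    exact (gks_contDiff_succ hd fun r => (h1 k r).1).of_le (by exact_mod_cast Nat.le_succ k)
  · obtain ⟨i, rfl⟩ : ∃ i, k = i + 1 := ⟨k - 1, by omega⟩
    exact gks_bound_succ (h1 i) i le_rfl

/-- `mehler c` preserves `NiceB` also for `c = 1` -/
theorem gk_mehler_niceB' {c : ℝ} (hc : c ∈ Icc (0 : ℝ) 1) {u : EE m → ℝ} (hu : NiceB u) :
    NiceB (mehler c u) := by
  rcases hc.2.lt_or_eq with h | h
  · exact gk_mehler_niceB ⟨hc.1, h⟩ hu.toBM
  · rw [h, gk_mehler_one]
    exact hu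

end Claimed.Agent.R260
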