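/-
Row 260 (helper89).  File AbsCore: the one-variable core of Proposition 3.5 (paper Section 4.1,
from "Choose u = min(.13, 1.28/sqrt lambda)" to the end of the proof), with explicit rationals.
Used by the three wrappers ScAbs2 / MxAbsorbSc / M3Lam.

Proof (differs from the paper): with `S = 40/(37+3λ)`, `H ρ = (40/3)(.15+.45325 S)(1-S)²/S`.
* `u = .13`: `S - 1 - log S ≤ (c0 + c1 S)(1-S)²/S` holds for ALL `S > 0` as soon as
  `(1-c0)² ≤ 8 c0 c1` (the difference is monotone on each side of `S = 1`); no numerics of `log`.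
* `u = 1.28/√λ`: `x = √S ≤ .35`, `√λ x ≤ √(40/3)`, `sinh y ≤ y` at `y = log (e x) ≤ 0` gives
  `-2 log x ≤ 2 + 1/(e x) - e x`, and a polynomial inequality remains.
-/
import Mathlib

set_option autoImplicit false

namespace Claimed.Agent.R260

/-- `f b ≤ f a` if `f' ≤ 0` on `[a,b]` -/
theorem absc_le_of_deriv_nonpos {f f' : ℝ → ℝ} {a b : ℝ} (hab : a ≤ b)
    (hd : ∀ x ∈ Set.Icc a b, HasDerivAt f (f' x) x) (hn : ∀ x ∈ Set.Icc a b, f' x ≤ 0) :
    f b ≤ f a := by
  have hanti : AntitoneOn f (Set.Icc a b) := by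
    apply antitoneOn_of_deriv_nonpos (convex_Icc a b)
    · exact fun x hx => (hd x hx).continuousAt.continuousWithinAt
    · exact fun x hx => (hd x (interior_subset hx)).differentiableAt.differentiableWithinAt
    · intro x hx
      rw [(hd x (interior_subset hx)).deriv]
      exact hn x (interior_subset hx)
  exact hanti (Set.left_mem_Icc.2 hab) (Set.right_mem_Icc.2 hab) hab

/-- `f a ≤ f b` if `0 ≤ f'` on `[a,b]` -/
theorem absc_le_of_deriv_nonneg {f f' : ℝ → ℝ} {a b : ℝ} (hab : a ≤ b)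
    (hd : ∀ x ∈ Set.Icc a b, HasDerivAt f (f' x) x) (hn : ∀ x ∈ Set.Icc a b, 0 ≤ f' x) :
    f a ≤ f b := by
  have hmono : MonotoneOn f (Set.Icc a b) := by
    apply monotoneOn_of_deriv_nonneg (convex_Icc a b)
    · exact fun x hx => (hd x hx).continuousAt.continuousWithinAt
    · exact fun x hx => (hd x (interior_subset hx)).differentiableAt.differentiableWithinAt
    · intro x hx
      rw [(hd x (interior_subset hx)).deriv]
      exact hn x (interior_subset hx)
  exact hmono (Set.left_mem_Icc.2 hab) (Set.right_mem_Icc.2 hab) hab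

/-- the auxiliary function of the first regime -/
noncomputable def abscF (c0 c1 x : ℝ) : ℝ :=
  (c0 + c1 * x) * (1 - x) ^ 2 * x⁻¹ + 1 - x + Real.log x

theorem abscF_hasDerivAt (c0 c1 : ℝ) {x : ℝ} (hx : 0 < x) :
    HasDerivAt (abscF c0 c1) ((1 - x) / x ^ 2 * (-c0 + (1 - c0) * x - 2 * c1 * x ^ 2)) x := by
  have h1 : HasDerivAt (fun y : ℝ => c0 + c1 * y) c1 x := by
    simpa using ((hasDerivAt_id x).const_mul c1).const_add c0
  have h2 : HasDerivAt (fun y : ℝ => (1 - y) ^ 2) (2 * (1 - x) * (-1)) x := by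
    simpa using ((hasDerivAt_id x).const_sub 1).fun_pow 2
  have h3 : HasDerivAt (fun y : ℝ => y⁻¹) (-(x ^ 2)⁻¹) x := hasDerivAt_inv hx.ne'
  have h4 := ((((h1.fun_mul h2).fun_mul h3).add_const 1).fun_sub (hasDerivAt_id x)).fun_add
    (Real.hasDerivAt_log hx.ne')
  refine HasDerivAt.congr_deriv (f := abscF c0 c1) h4 ?_
  field_simp
  ring

/-- first regime: `x - 1 - log x ≤ (c0 + c1 x)(1-x)²/x` if the discriminant is negative -/
theorem absc_log_of_disc {c0 c1 : ℝ} (hc1 : 0 < c1) (hdisc : (1 - c0) ^ 2 ≤ 8 * c0 * c1)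
    {x : ℝ} (hx : 0 < x) :
    x - 1 - Real.log x ≤ (c0 + c1 * x) * (1 - x) ^ 2 * x⁻¹ := by
  have hR : ∀ y : ℝ, -c0 + (1 - c0) * y - 2 * c1 * y ^ 2 ≤ 0 := by
    intro y
    have h : 0 ≤ (4 * c1 * y - (1 - c0)) ^ 2 := sq_nonneg _
    have h8 : 8 * c1 * (-c0 + (1 - c0) * y - 2 * c1 * y ^ 2) ≤ 0 := by nlinarith
    by_contra hcon
    rw [not_le] at hcon
    have : 0 < 8 * c1 * (-c0 + (1 - c0) * y - 2 * c1 * y ^ 2) := by positivity
    linarith
  have h1 : abscF c0 c1 1 = 0 := by simp [abscF]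
  have key : abscF c0 c1 1 ≤ abscF c0 c1 x := by
    rcases le_total x 1 with hx1 | hx1
    · refine absc_le_of_deriv_nonpos hx1
        (fun y hy => abscF_hasDerivAt c0 c1 (lt_of_lt_of_le hx hy.1)) (fun y hy => ?_)
      have hy0 : 0 < y := lt_of_lt_of_le hx hy.1
      have : 0 ≤ (1 - y) / y ^ 2 := div_nonneg (by linarith [hy.2]) (by positivity)
      exact mul_nonpos_of_nonneg_of_nonpos this (hR y)
    · refine absc_le_of_deriv_nonneg hx1
        (fun y hy => abscF_hasDerivAt c0 c1 (lt_of_lt_of_le one_pos hy.1)) (fun y hy => ?_)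
      have hy0 : 0 < y := lt_of_lt_of_le one_pos hy.1
      have : (1 - y) / y ^ 2 ≤ 0 := div_nonpos_of_nonpos_of_nonneg (by linarith [hy.1]) (by positivity)
      exact mul_nonneg_of_nonpos_of_nonpos this (hR y)
  rw [h1] at key
  simp only [abscF] at key
  linarith

/-- second regime, the logarithm: `-2 log x ≤ 2 + 1/(2.718 x) - 2.718 x` for `0 < x ≤ .35` -/
theorem absc_neg_two_log_le {x : ℝ} (hx : 0 < x) (hx1 : x ≤ 7 / 20) :
    -(2 * Real.log x) ≤ 2 + (1359 / 500 * x)⁻¹ - 1359 / 500 * x := by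
  have he1 : (1359 / 500 : ℝ) < Real.exp 1 := by
    have := Real.exp_one_gt_d9
    linarith
  have he2 : Real.exp 1 < 2.72 := by
    have := Real.exp_one_lt_d9
    linarith
  set t : ℝ := Real.exp 1 * x with ht
  have ht0 : 0 < t := by positivity
  have ht1 : t ≤ 1 := by
    have : t ≤ 2.72 * (7 / 20) := by
      rw [ht]
      exact mul_le_mul he2.le hx1 hx.le (by norm_num)
    linarith
  have hlog : Real.log t = 1 + Real.log x := by
    rw [ht, Real.log_mul (Real.exp_pos 1).ne' hx.ne', Real.log_exp]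
  have hs : Real.sinh (Real.log t) ≤ Real.log t :=
    Real.sinh_le_self_iff.2 (Real.log_nonpos ht0.le ht1)
  rw [Real.sinh_log ht0, hlog] at hs
  have hlow : 1359 / 500 * x ≤ t := by
    rw [ht]
    exact mul_le_mul_of_nonneg_right he1.le hx.le
  have hinv : t⁻¹ ≤ (1359 / 500 * x)⁻¹ := inv_anti₀ (by positivity) hlow
  linarith

/-- second regime, the polynomial inequality -/
theorem absc_poly {x : ℝ} (hx : 0 ≤ x) (hx1 : x ≤ 7 / 20) :
    x ^ 3 + x + 500 / 1359 - 1359 / 500 * x ^ 2
      ≤ 3215 / 1000 * ((3 / 20 + 1813 / 4000 * x ^ 2) * (1 - x ^ 2) ^ 2) := by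
  nlinarith [sq_nonneg (x - 1 / 6), sq_nonneg x, mul_nonneg hx hx, mul_nonneg hx (sub_nonneg.2 hx1),
    pow_nonneg hx 3, pow_nonneg hx 4, pow_nonneg hx 6]

/-- second regime: the logarithmic bound in the variable `x = √S` -/
theorem absc_log2 {x : ℝ} (hx : 0 < x) (hx1 : x ≤ 7 / 20) :
    x ^ 2 - 1 - 2 * Real.log x
      ≤ 3215 / 1000 * ((3 / 20 + 1813 / 4000 * x ^ 2) * (1 - x ^ 2) ^ 2) / x := by
  have h1 := absc_neg_two_log_le hx hx1
  have h2 := absc_poly hx.le hx1
  rw [le_div_iff₀ hx]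
  have h3 : (1359 / 500 * x)⁻¹ * x = 500 / 1359 := by
    field_simp
  nlinarith [mul_le_mul_of_nonneg_right h1 hx.le]

/-! ### the quantities of Prop 3.5 at an eigenvalue `λ` -/

/-- `u(λ) = min(.13, 1.28/√λ)` -/
noncomputable def abscU (lam : ℝ) : ℝ :=
  if lam ≤ 16384 / 169 then 13 / 100 else 32 / (25 * Real.sqrt lam)

/-- `S = (1/s + α λ)⁻¹ = 40/(37+3λ)` -/
noncomputable def abscS (lam : ℝ) : ℝ := 40 / (37 + 3 * lam)

/-- `H ρ` -/
noncomputable def abscHR (lam : ℝ) : ℝ :=
  3 * (lam - 1) ^ 2 / (37 + 3 * lam) * (3 / 20 + 49 / 100 * (37 / (37 + 3 * lam)))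

/-- `d_u` -/
noncomputable def abscD (u : ℝ) : ℝ := u ^ 3 / (16 * (46 / 100 - u))

theorem abscU_pos (lam : ℝ) : 0 < abscU lam := by
  unfold abscU
  split_ifs with h
  · norm_num
  · have : 0 < lam := lt_trans (by norm_num) (not_le.1 h)
    have := Real.sqrt_pos.2 this
    positivity

theorem absc_sqrt_gt {lam : ℝ} (h : ¬ lam ≤ 16384 / 169) : 128 / 13 < Real.sqrt lam := by
  rw [not_le] at h
  apply Real.lt_sqrt_of_sq_lt
  norm_num
  exact h

theorem abscU_le (lam : ℝ) : abscU lam ≤ 13 / 100 := by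
  unfold abscU
  split_ifs with h
  · exact le_refl _
  · have h1 := absc_sqrt_gt h
    rw [div_le_iff₀ (by positivity)]
    linarith

theorem absc_lam_mul_U_sq {lam : ℝ} (hl : 0 ≤ lam) : lam * abscU lam ^ 2 ≤ 1024 / 625 := by
  unfold abscU
  split_ifs with h
  · nlinarith
  · have h0 : 0 < lam := lt_trans (by norm_num) (not_le.1 h)
    have hs : Real.sqrt lam ^ 2 = lam := Real.sq_sqrt hl
    have hs0 := Real.sqrt_pos.2 h0
    rw [div_pow, mul_pow, hs]
    apply le_of_eq
    field_simp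
    norm_num

theorem abscS_pos {lam : ℝ} (hl : 0 ≤ lam) : 0 < abscS lam := by
  unfold abscS
  positivity

theorem abscHR_nonneg {lam : ℝ} (hl : 0 ≤ lam) : 0 ≤ abscHR lam := by
  unfold abscHR
  positivity

theorem abscHR_eq {lam : ℝ} (hl : 0 ≤ lam) :
    abscHR lam = 40 / 3 * ((3 / 20 + 1813 / 4000 * abscS lam) * (1 - abscS lam) ^ 2)
      / abscS lam := by
  have h : (37 + 3 * lam) ≠ 0 := by positivity
  unfold abscHR abscS
  field_simp
  ring

/-- (iii): `T - log S ≤ .688 u H ρ` -/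
theorem absc_log_le {lam : ℝ} (hl : 0 ≤ lam) :
    abscS lam - 1 - Real.log (abscS lam) ≤ 86 / 125 * abscU lam * abscHR lam := by
  have hS := abscS_pos hl
  by_cases h : lam ≤ 16384 / 169
  · have hU : abscU lam = 13 / 100 := by simp [abscU, h]
    rw [hU, abscHR_eq hl]
    have := absc_log_of_disc (c0 := 86 / 125 * (13 / 100) * (40 / 3) * (3 / 20))
      (c1 := 86 / 125 * (13 / 100) * (40 / 3) * (1813 / 4000)) (by norm_num) (by norm_num) hS
    refine this.trans (le_of_eq ?_)
    field_simp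
  · have h0 : 16384 / 169 < lam := not_le.1 h
    have hU : abscU lam = 32 / (25 * Real.sqrt lam) := by simp [abscU, h]
    set x : ℝ := Real.sqrt (abscS lam) with hx
    have hx0 : 0 < x := Real.sqrt_pos.2 hS
    have hxx : x ^ 2 = abscS lam := Real.sq_sqrt hS.le
    have hx1 : x ≤ 7 / 20 := by
      rw [hx]
      apply Real.sqrt_le_iff.2
      refine ⟨by norm_num, ?_⟩
      unfold abscS
      rw [div_le_iff₀ (by positivity)]
      linarith
    have hsl : 0 < Real.sqrt lam := Real.sqrt_pos.2 (lt_trans (by norm_num) h0)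
    have hprod : Real.sqrt lam * x ≤ 36515 / 10000 := by
      rw [hx, ← Real.sqrt_mul hl]
      apply Real.sqrt_le_iff.2
      refine ⟨by norm_num, ?_⟩
      unfold abscS
      rw [mul_div_assoc', div_le_iff₀ (by positivity)]
      linarith
    have hUlow : 32 / 25 * x / (36515 / 10000) ≤ abscU lam := by
      rw [hU, div_le_div_iff₀ (by norm_num) (by positivity)]
      nlinarith
    have hlog : Real.log (abscS lam) = 2 * Real.log x := by
      rw [← hxx, Real.log_pow]
      norm_num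
    have h2 := absc_log2 hx0 hx1
    have hHR := abscHR_nonneg hl
    have hHReq := abscHR_eq hl
    rw [← hxx] at hHReq
    rw [hlog, ← hxx]
    have hP : 0 ≤ (3 / 20 + 1813 / 4000 * x ^ 2) * (1 - x ^ 2) ^ 2 := by positivity
    calc x ^ 2 - 1 - 2 * Real.log x
        ≤ 3215 / 1000 * ((3 / 20 + 1813 / 4000 * x ^ 2) * (1 - x ^ 2) ^ 2) / x := h2
      _ ≤ 86 / 125 * (32 / 25 * x / (36515 / 10000)) * abscHR lam := by
          rw [hHReq]
          have e : 86 / 125 * (32 / 25 * x / (36515 / 10000))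
              * (40 / 3 * ((3 / 20 + 1813 / 4000 * x ^ 2) * (1 - x ^ 2) ^ 2) / x ^ 2)
              = (86 / 125 * (32 / 25) / (36515 / 10000) * (40 / 3))
                * ((3 / 20 + 1813 / 4000 * x ^ 2) * (1 - x ^ 2) ^ 2) / x := by
            field_simp
          rw [e]
          apply div_le_div_of_nonneg_right _ hx0.le
          apply mul_le_mul_of_nonneg_right _ hP
          norm_num
      _ ≤ 86 / 125 * abscU lam * abscHR lam := by
          apply mul_le_mul_of_nonneg_right _ hHR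
          apply mul_le_mul_of_nonneg_left hUlow
          norm_num

theorem abscD_nonneg (lam : ℝ) : 0 ≤ abscD (abscU lam) := by
  have h1 := abscU_pos lam
  have h2 := abscU_le lam
  unfold abscD
  have : 0 < 46 / 100 - abscU lam := by linarith
  positivity

/-- `d_u ≤ u³/5.28` -/
theorem abscD_le (lam : ℝ) : abscD (abscU lam) ≤ abscU lam ^ 3 / (528 / 100) := by
  have h1 := abscU_pos lam
  have h2 := abscU_le lam
  unfold abscD
  apply div_le_div_of_nonneg_left (by positivity) (by norm_num)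
  linarith

/-- (i): `u - d_u λ ≥ .689 u` -/
theorem absc_U_sub {lam : ℝ} (hl : 0 ≤ lam) :
    689 / 1000 * abscU lam ≤ abscU lam - abscD (abscU lam) * lam := by
  have h1 := abscU_pos lam
  have h3 := absc_lam_mul_U_sq hl
  have h4 := abscD_le lam
  have h5 : abscD (abscU lam) * lam ≤ abscU lam ^ 3 / (528 / 100) * lam :=
    mul_le_mul_of_nonneg_right h4 hl
  have h6 : abscU lam ^ 3 / (528 / 100) * lam = abscU lam * (lam * abscU lam ^ 2) / (528 / 100) := by
    ring
  have h7 : abscU lam * (lam * abscU lam ^ 2) ≤ abscU lam * (1024 / 625) :=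
    mul_le_mul_of_nonneg_left h3 h1.le
  have h8 : abscU lam * (lam * abscU lam ^ 2) / (528 / 100) ≤ abscU lam * (1024 / 625) / (528 / 100) :=
    div_le_div_of_nonneg_right h7 (by norm_num)
  nlinarith

/-- `H ρ ≤ .64 (λ + 3/37)` -/
theorem abscHR_le {lam : ℝ} (hl : 0 ≤ lam) : abscHR lam ≤ 64 / 100 * (lam + 3 / 37) := by
  have hpos : 0 < 37 + 3 * lam := by positivity
  have hH : 3 * (lam - 1) ^ 2 / (37 + 3 * lam) ≤ lam + 3 / 37 := by
    rw [div_le_iff₀ hpos]
    nlinarith
  have hH0 : 0 ≤ 3 * (lam - 1) ^ 2 / (37 + 3 * lam) := by positivity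
  have hr : 3 / 20 + 49 / 100 * (37 / (37 + 3 * lam)) ≤ 64 / 100 := by
    have : 37 / (37 + 3 * lam) ≤ 1 := by
      rw [div_le_one hpos]
      linarith
    linarith
  have hr0 : 0 ≤ 3 / 20 + 49 / 100 * (37 / (37 + 3 * lam)) := by positivity
  unfold abscHR
  calc 3 * (lam - 1) ^ 2 / (37 + 3 * lam) * (3 / 20 + 49 / 100 * (37 / (37 + 3 * lam)))
      ≤ (lam + 3 / 37) * (64 / 100) := mul_le_mul hH hr hr0 (by positivity)
    _ = 64 / 100 * (lam + 3 / 37) := by ring

/-- (ii): `H ρ d_u ≤ .027` -/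
theorem absc_HR_mul_D {lam : ℝ} (hl : 0 ≤ lam) :
    abscHR lam * abscD (abscU lam) ≤ 27 / 1000 := by
  have h1 := abscU_pos lam
  have h2 := abscU_le lam
  have h3 := absc_lam_mul_U_sq hl
  have h4 := abscD_le lam
  have h5 := abscHR_le hl
  have h6 := abscD_nonneg lam
  have h7 : abscU lam ^ 3 ≤ (13 / 100) ^ 3 := pow_le_pow_left₀ h1.le h2 3
  have h8 : lam * abscU lam ^ 3 ≤ 1024 / 625 * (13 / 100) := by
    have : lam * abscU lam ^ 3 = (lam * abscU lam ^ 2) * abscU lam := by ring
    rw [this]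
    exact mul_le_mul h3 h2 h1.le (by norm_num)
  calc abscHR lam * abscD (abscU lam)
      ≤ (64 / 100 * (lam + 3 / 37)) * (abscU lam ^ 3 / (528 / 100)) :=
        mul_le_mul h5 h4 h6 (by positivity)
    _ = 64 / 528 * (lam * abscU lam ^ 3 + 3 / 37 * abscU lam ^ 3) := by ring
    _ ≤ 64 / 528 * (1024 / 625 * (13 / 100) + 3 / 37 * (13 / 100) ^ 3) := by
        apply mul_le_mul_of_nonneg_left _ (by norm_num)
        linarith
    _ ≤ 27 / 1000 := by norm_num

/-- **The scalar core of Prop 3.5**, with a lower bound `pbar` of the mean of `p`. -/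
theorem absc_main {lam r pbar : ℝ} (hl : 0 ≤ lam) (hr : 0 ≤ r)
    (hp : abscU lam - abscD (abscU lam) * (lam + r) ≤ pbar) :
    abscS lam - 1 - Real.log (abscS lam) - abscHR lam * pbar
      ≤ -(1 / 1000) * (abscHR lam * abscU lam) + 27 / 1000 * r := by
  have h1 := absc_log_le hl
  have h2 := absc_U_sub hl
  have h3 := absc_HR_mul_D hl
  have h4 := abscHR_nonneg hl
  have h5 : abscHR lam * (abscU lam - abscD (abscU lam) * (lam + r)) ≤ abscHR lam * pbar :=
    mul_le_mul_of_nonneg_left hp h4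
  have h6 : abscHR lam * (689 / 1000 * abscU lam)
      ≤ abscHR lam * (abscU lam - abscD (abscU lam) * lam) := mul_le_mul_of_nonneg_left h2 h4
  have h7 : abscHR lam * abscD (abscU lam) * r ≤ 27 / 1000 * r := mul_le_mul_of_nonneg_right h3 hr
  nlinarith

/-! ### the other two ways of writing `u(λ)` -/

theorem abscU_eq_ite_min {lam : ℝ} (hl : 0 ≤ lam) :
    (if lam = 0 then 13 / 100 else min (13 / 100) (32 / (25 * Real.sqrt lam))) = abscU lam := by
  unfold abscU
  by_cases h0 : lam = 0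
  · subst h0
    norm_num
  · rw [if_neg h0]
    have hpos : 0 < lam := lt_of_le_of_ne hl (Ne.symm h0)
    have hs := Real.sqrt_pos.2 hpos
    split_ifs with h
    · apply min_eq_left
      have : Real.sqrt lam ≤ 128 / 13 := by
        apply Real.sqrt_le_iff.2
        refine ⟨by norm_num, ?_⟩
        norm_num
        exact h
      rw [le_div_iff₀ (by positivity)]
      linarith
    · apply min_eq_right
      have := absc_sqrt_gt h
      rw [div_le_iff₀ (by positivity)]
      linarith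

theorem abscU_eq_div_max (lam : ℝ) :
    (32 / 25) / max (Real.sqrt lam) (128 / 13) = abscU lam := by
  unfold abscU
  split_ifs with h
  · have : Real.sqrt lam ≤ 128 / 13 := by
      apply Real.sqrt_le_iff.2
      refine ⟨by norm_num, ?_⟩
      norm_num
      exact h
    rw [max_eq_right this]
    norm_num
  · have := absc_sqrt_gt h
    rw [max_eq_left this.le]
    have hs : 0 < Real.sqrt lam := lt_trans (by norm_num) this
    field_simp

/-- realises the equation lemmas of the definitions of this file here (unique names) -/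
theorem absc_eqns_cite : True := by
  have := @abscF.eq_1
  have := @abscU.eq_1
  have := @abscS.eq_1
  have := @abscHR.eq_1
  have := @abscD.eq_1
  trivial

end Claimed.Agent.R260
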