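/-
Row 260, package AP (approximation layer, Sec. 5 of the paper).  Owner: helper181.
A convex set with nonempty interior and finite Haar measure is bounded.
-/
import Mathlib

set_option autoImplicit false
open MeasureTheory Set Filter Topology Metric

namespace Claimed.Agent.R260

variable {E : Type*} [NormedAddCommGroup E] [NormedSpace ℝ E] [MeasurableSpace E] [BorelSpace E]
  [FiniteDimensional ℝ E] (μ : Measure E) [μ.IsAddHaarMeasure]

/-- If a convex set contains `ball x₀ r` and a point `z`, it contains the ball of radius `r/2`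
around every point of the first half of the segment `[x₀, z]`. -/
theorem ap_ball_subset_of_convex {s : Set E} (hs : Convex ℝ s) {x₀ z : E} {r t : ℝ}
    (hr : 0 < r) (hB : ball x₀ r ⊆ s) (hz : z ∈ s) (ht0 : 0 ≤ t) (ht : t ≤ 1 / 2) :
    ball (x₀ + t • (z - x₀)) (r / 2) ⊆ s := by
  intro y hy
  have h1t : 0 < 1 - t := by linarith
  set w : E := y - (x₀ + t • (z - x₀)) with hw
  have hwn : ‖w‖ < r / 2 := by
    rw [mem_ball, dist_eq_norm] at hy
    exact hy
  have hmem : x₀ + (1 - t)⁻¹ • w ∈ s := by
    apply hB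
    rw [mem_ball, dist_eq_norm, add_sub_cancel_left, norm_smul, Real.norm_eq_abs,
      abs_of_pos (inv_pos.mpr h1t)]
    have h2 : (1 - t)⁻¹ ≤ 2 := by
      rw [inv_le_comm₀ h1t (by norm_num)]
      linarith
    calc (1 - t)⁻¹ * ‖w‖ ≤ 2 * ‖w‖ := by gcongr
      _ < r := by linarith
  have key : y = (1 - t) • (x₀ + (1 - t)⁻¹ • w) + t • z := by
    rw [smul_add, smul_smul, mul_inv_cancel₀ h1t.ne', one_smul, hw]
    module
  rw [key]
  exact hs hmem hz h1t.le ht0 (by ring)

/-- A convex set with nonempty interior and finite Haar measure is bounded. -/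
theorem ap_convex_isBounded_of_measure_ne_top {s : Set E} (hs : Convex ℝ s)
    (hint : (interior s).Nonempty) (hμ : μ s ≠ ⊤) : Bornology.IsBounded s := by
  obtain ⟨x₀, hx₀⟩ := hint
  obtain ⟨r, hr, hB⟩ := Metric.isOpen_iff.mp isOpen_interior x₀ hx₀
  replace hB : ball x₀ r ⊆ s := hB.trans interior_subset
  set v := μ (ball (0 : E) (r / 2)) with hv
  have hvpos : 0 < v := measure_ball_pos μ _ (by positivity)
  have hvtop : v ≠ ⊤ := measure_ball_lt_top.ne
  -- choose `N` with `μ s < N * v`
  obtain ⟨N, hN⟩ : ∃ N : ℕ, μ s < N * v := by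
    obtain ⟨N, hN⟩ := ENNReal.exists_nat_gt (ENNReal.div_ne_top hμ hvpos.ne')
    refine ⟨N, ?_⟩
    rwa [ENNReal.div_lt_iff (Or.inl hvpos.ne') (Or.inl hvtop)] at hN
  rw [Metric.isBounded_iff_subset_closedBall x₀]
  refine ⟨2 * r * N, fun z hz => ?_⟩
  by_contra hcon
  rw [mem_closedBall, dist_eq_norm, not_le] at hcon
  set d := ‖z - x₀‖ with hd
  have hNnonneg : (0 : ℝ) ≤ N := Nat.cast_nonneg N
  have hdpos : 0 < d := lt_of_le_of_lt (by positivity) hcon
  -- centres
  let c : ℕ → E := fun k => x₀ + ((k : ℝ) * r / d) • (z - x₀)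
  have hsub : ∀ k ∈ Finset.range N, ball (c k) (r / 2) ⊆ s := by
    intro k hk
    have hk' : (k : ℝ) < N := by exact_mod_cast Finset.mem_range.mp hk
    apply ap_ball_subset_of_convex hs hr hB hz (by positivity)
    rw [div_le_iff₀ hdpos]
    nlinarith
  have hdisj : (↑(Finset.range N) : Set ℕ).PairwiseDisjoint (fun k => ball (c k) (r / 2)) := by
    intro k _ l _ hkl
    apply ball_disjoint_ball
    have : c k - c l = (((k : ℝ) - l) * r / d) • (z - x₀) := by
      simp only [c]
      module
    rw [dist_eq_norm, this, norm_smul, ← hd, Real.norm_eq_abs, abs_div, abs_mul, abs_of_pos hr,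
      abs_of_pos hdpos, div_mul_cancel₀ _ hdpos.ne']
    have h1 : (1 : ℝ) ≤ |(k : ℝ) - l| := by
      have : (k : ℤ) - l ≠ 0 := by
        intro h
        apply hkl
        omega
      have h2 : (1 : ℤ) ≤ |(k : ℤ) - l| := Int.one_le_abs this
      exact_mod_cast h2
    nlinarith
  have hle : (N : ENNReal) * v ≤ μ s := by
    calc (N : ENNReal) * v = ∑ k ∈ Finset.range N, μ (ball (c k) (r / 2)) := by
          simp [Measure.addHaar_ball_center, hv]
      _ = μ (⋃ k ∈ Finset.range N, ball (c k) (r / 2)) :=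
          (measure_biUnion_finset hdisj (fun _ _ => measurableSet_ball)).symm
      _ ≤ μ s := measure_mono (by
          intro y hy
          simp only [mem_iUnion] at hy
          obtain ⟨k, hk, hy⟩ := hy
          exact hsub k hk hy)
  exact absurd hN (not_lt.mpr hle)

end Claimed.Agent.R260
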