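/-
Row 260, package AP (approximation layer, Sec. 5 of the paper).  Owner: helper181.
Lemma 5.1: a log-concave probability density decays exponentially.
No semicontinuity is assumed (the frozen definition has none).
-/
import Mathlib
import Claimed.Agent.R260.ApConvexBdd

set_option autoImplicit false
open MeasureTheory Set Filter Topology Metric

namespace Claimed.Agent.R260

variable {E : Type*} [NormedAddCommGroup E] [NormedSpace ℝ E] [MeasurableSpace E] [BorelSpace E]
  [FiniteDimensional ℝ E]

/-- Log-concave probability density w.r.t. `μ` (the frozen `IsLogConcaveDensityOn` on a general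
finite-dimensional space). -/
structure ApLC (μ : Measure E) (f : E → ℝ) : Prop where
  meas : Measurable f
  nonneg : ∀ x, 0 ≤ f x
  mass : ∫ x, f x ∂μ = 1
  convex : Convex ℝ {x | 0 < f x}
  concave : ConcaveOn ℝ {x | 0 < f x} (fun x => Real.log (f x))

namespace ApLC

variable {μ : Measure E} {f : E → ℝ}

omit [BorelSpace E] [FiniteDimensional ℝ E] in
theorem integrable (hf : ApLC μ f) : Integrable f μ :=
  integrable_of_integral_eq_one hf.mass

omit [BorelSpace E] [FiniteDimensional ℝ E] in
theorem measure_pos (hf : ApLC μ f) : 0 < μ {x | 0 < f x} := by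
  by_contra h
  have h0 : μ {x | 0 < f x} = 0 := by simpa using h
  have : f =ᵐ[μ] 0 := by
    have : ∀ᵐ x ∂μ, x ∉ {x | 0 < f x} := measure_eq_zero_iff_ae_notMem.mp h0
    filter_upwards [this] with x hx
    exact le_antisymm (not_lt.mp hx) (hf.nonneg x)
  have h1 := hf.mass
  rw [integral_congr_ae this] at h1
  simp at h1

theorem interior_nonempty [μ.IsAddHaarMeasure] (hf : ApLC μ f) :
    (interior {x | 0 < f x}).Nonempty := by
  rw [hf.convex.interior_nonempty_iff_affineSpan_eq_top]
  by_contra hspan
  have h0 : μ (affineSpan ℝ {x | 0 < f x} : Set E) = 0 := Measure.addHaar_affineSubspace μ _ hspan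
  have := measure_mono_null (subset_affineSpan ℝ {x | 0 < f x}) h0
  exact hf.measure_pos.ne' this

theorem exists_ball_lower [μ.IsAddHaarMeasure] (hf : ApLC μ f) :
    ∃ (x₀ : E) (r c₀ : ℝ), 0 < r ∧ 0 < c₀ ∧ ∀ x ∈ ball x₀ r, c₀ ≤ f x := by
  obtain ⟨x₀, hx₀⟩ := hf.interior_nonempty
  have hcont : ContinuousOn (fun x => Real.log (f x)) (interior {x | 0 < f x}) :=
    hf.concave.continuousOn_interior
  have hat : ContinuousAt (fun x => Real.log (f x)) x₀ :=
    hcont.continuousAt (isOpen_interior.mem_nhds hx₀)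
  have h1 : ∀ᶠ x in 𝓝 x₀, Real.log (f x₀) - 1 < Real.log (f x) :=
    hat.eventually (lt_mem_nhds (by linarith))
  have h2 : ∀ᶠ x in 𝓝 x₀, x ∈ interior {x | 0 < f x} := isOpen_interior.mem_nhds hx₀
  obtain ⟨r, hr, hball⟩ := Metric.eventually_nhds_iff_ball.mp (h1.and h2)
  refine ⟨x₀, r, Real.exp (Real.log (f x₀) - 1), hr, Real.exp_pos _, fun x hx => ?_⟩
  obtain ⟨hx1, hx2⟩ := hball x hx
  have hpos : 0 < f x := (interior_subset hx2 : x ∈ {x | 0 < f x})
  calc Real.exp (Real.log (f x₀) - 1) ≤ Real.exp (Real.log (f x)) := Real.exp_le_exp.mpr hx1.le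
    _ = f x := Real.exp_log hpos

omit [MeasurableSpace E] [BorelSpace E] [FiniteDimensional ℝ E] in
theorem superlevel_convex' (hcv : ConcaveOn ℝ {x | 0 < f x} (fun x => Real.log (f x)))
    {c : ℝ} (hc : 0 < c) : Convex ℝ {x | c ≤ f x} := by
  intro x hx y hy a b ha hb hab
  have hx' : 0 < f x := lt_of_lt_of_le hc hx
  have hy' : 0 < f y := lt_of_lt_of_le hc hy
  have hz : 0 < f (a • x + b • y) := hcv.1 hx' hy' ha hb hab
  have h := hcv.2 hx' hy' ha hb hab
  simp only [smul_eq_mul] at h
  have h1 : Real.log c ≤ Real.log (f x) := Real.log_le_log hc hx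
  have h2 : Real.log c ≤ Real.log (f y) := Real.log_le_log hc hy
  have h3 : Real.log c ≤ Real.log (f (a • x + b • y)) := by
    calc Real.log c = a * Real.log c + b * Real.log c := by rw [← add_mul, hab, one_mul]
      _ ≤ a * Real.log (f x) + b * Real.log (f y) := by gcongr
      _ ≤ _ := h
  exact (Real.log_le_log_iff hc hz).mp h3

/-- **Lemma 5.1** (exponential decay). -/
theorem exp_decay [μ.IsAddHaarMeasure] (hf : ApLC μ f) :
    ∃ a b : ℝ, 0 < a ∧ ∀ x, f x ≤ Real.exp (b - a * ‖x‖) := by
  obtain ⟨x₀, r, c₀, hr, hc₀, hball⟩ := hf.exists_ball_lower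
  have hx₀c : c₀ ≤ f x₀ := hball x₀ (mem_ball_self hr)
  have hx₀ : 0 < f x₀ := lt_of_lt_of_le hc₀ hx₀c
  set c₁ := c₀ * Real.exp (-1) with hc₁
  have hc₁pos : 0 < c₁ := by positivity
  have hc₁le : c₁ ≤ c₀ := by
    rw [hc₁]
    have : Real.exp (-1) ≤ 1 := Real.exp_le_one_iff.mpr (by norm_num)
    nlinarith
  have hAconv : Convex ℝ {x | c₁ ≤ f x} := superlevel_convex' hf.concave hc₁pos
  have hAint : (interior {x | c₁ ≤ f x}).Nonempty := by
    refine ⟨x₀, ?_⟩
    rw [mem_interior]
    exact ⟨ball x₀ r, fun x hx => hc₁le.trans (hball x hx), isOpen_ball, mem_ball_self hr⟩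
  have hAfin : μ {x | c₁ ≤ f x} ≠ ⊤ := (hf.integrable.measure_ge_lt_top hc₁pos).ne
  have hAbdd := ap_convex_isBounded_of_measure_ne_top μ hAconv hAint hAfin
  rw [Metric.isBounded_iff_subset_closedBall x₀] at hAbdd
  obtain ⟨R', hR'⟩ := hAbdd
  have hR'0 : 0 ≤ R' := by
    have : x₀ ∈ closedBall x₀ R' := hR' (hc₁le.trans hx₀c)
    simpa using this
  set R := R' + 1 with hR
  have hRpos : 0 < R := by linarith
  set ρ := r / 2 with hρ
  have hρpos : 0 < ρ := by positivity
  set Δ := Real.log (f x₀) - Real.log c₀ with hΔ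
  have hΔ0 : 0 ≤ Δ := sub_nonneg.mpr (Real.log_le_log hc₀ hx₀c)
  set K := Real.log c₀ + Δ * (1 + R / ρ) with hK
  have hKge : Real.log (f x₀) ≤ K := by
    have : 0 ≤ Δ * (R / ρ) := by positivity
    rw [hK, hΔ] at *
    nlinarith
  -- main claim
  have main : ∀ x, 0 < f x → Real.log (f x) ≤ K + 1 - ‖x - x₀‖ / R := by
    intro x hx
    set d := ‖x - x₀‖ with hd
    rcases lt_or_ge d R with hdR | hdR
    · -- near region
      have hdR' : d / R < 1 := (div_lt_one hRpos).mpr hdR
      suffices Real.log (f x) ≤ K by linarith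
      rcases eq_or_lt_of_le (norm_nonneg (x - x₀)) with h0 | hdpos
      · have : x = x₀ := by
          have := norm_eq_zero.mp h0.symm
          exact sub_eq_zero.mp this
        rw [this]; exact hKge
      · rw [← hd] at hdpos
        set x' := x₀ - (ρ / d) • (x - x₀) with hx'
        have hx'ball : x' ∈ ball x₀ r := by
          rw [mem_ball, dist_eq_norm, hx', sub_sub_cancel_left, norm_neg, norm_smul, ← hd,
            Real.norm_eq_abs, abs_of_pos (by positivity), div_mul_cancel₀ _ hdpos.ne']
          linarith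
        have hfx' : c₀ ≤ f x' := hball x' hx'ball
        have hx'pos : 0 < f x' := lt_of_lt_of_le hc₀ hfx'
        set lam := ρ / (ρ + d) with hlam
        have hsum : 0 < ρ + d := by positivity
        have hlampos : 0 < lam := by positivity
        have hlam1 : 1 - lam = d / (ρ + d) := by
          rw [hlam]; field_simp; ring
        have hlam1' : 0 ≤ 1 - lam := by rw [hlam1]; positivity
        have hcomb : lam • x + (1 - lam) • x' = x₀ := by
          have e1 : lam • x + (1 - lam) • x' = x₀ + (lam - (1 - lam) * (ρ / d)) • (x - x₀) := by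
            rw [hx']; module
          have e2 : lam - (1 - lam) * (ρ / d) = 0 := by
            rw [hlam1, hlam]; field_simp; ring
          rw [e1, e2, zero_smul, add_zero]
        have h := hf.concave.2 hx hx'pos hlampos.le hlam1' (by ring)
        simp only [smul_eq_mul] at h
        rw [hcomb] at h
        have hlogx' : Real.log c₀ ≤ Real.log (f x') := Real.log_le_log hc₀ hfx'
        have h2 : lam * Real.log (f x) ≤ Real.log (f x₀) - (1 - lam) * Real.log c₀ := by
          nlinarith
        have h3 : lam * Real.log (f x) ≤ lam * (Real.log c₀ + Δ * (1 + d / ρ)) := by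
          have e : lam * (Real.log c₀ + Δ * (1 + d / ρ))
              = Real.log (f x₀) - (1 - lam) * Real.log c₀ := by
            have : lam * (1 + d / ρ) = 1 := by rw [hlam]; field_simp
            calc lam * (Real.log c₀ + Δ * (1 + d / ρ))
                = lam * Real.log c₀ + Δ * (lam * (1 + d / ρ)) := by ring
              _ = lam * Real.log c₀ + Δ := by rw [this, mul_one]
              _ = _ := by rw [hΔ]; ring
          rw [e]; exact h2
        have h4 : Real.log (f x) ≤ Real.log c₀ + Δ * (1 + d / ρ) := le_of_mul_le_mul_left h3 hlampos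
        have h5 : Δ * (1 + d / ρ) ≤ Δ * (1 + R / ρ) := by gcongr
        rw [hK]; linarith
    · -- far region
      have hdpos : 0 < d := lt_of_lt_of_le hRpos hdR
      set s := R / d with hs
      have hs0 : 0 < s := by positivity
      have hs1 : s ≤ 1 := (div_le_one hdpos).mpr hdR
      set y := (1 - s) • x₀ + s • x with hy
      have hypos : 0 < f y := hf.convex hx₀ hx (by linarith) hs0.le (by ring)
      have hynorm : ‖y - x₀‖ = R := by
        have : y - x₀ = s • (x - x₀) := by rw [hy]; module
        rw [this, norm_smul, ← hd, Real.norm_eq_abs, abs_of_pos hs0, hs, div_mul_cancel₀ _ hdpos.ne']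
      have hynot : ¬ c₁ ≤ f y := by
        intro hcon
        have : y ∈ closedBall x₀ R' := hR' hcon
        rw [mem_closedBall, dist_eq_norm, hynorm] at this
        linarith
      have hylt : Real.log (f y) < Real.log c₀ - 1 := by
        have : Real.log (f y) < Real.log c₁ := Real.log_lt_log hypos (not_le.mp hynot)
        rwa [hc₁, Real.log_mul hc₀.ne' (Real.exp_pos _).ne', Real.log_exp, ← sub_eq_add_neg] at this
      have h := hf.concave.2 hx₀ hx (by linarith : 0 ≤ 1 - s) hs0.le (by ring)
      simp only [smul_eq_mul] at h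
      have hlog : Real.log c₀ ≤ Real.log (f x₀) := Real.log_le_log hc₀ hx₀c
      have h2 : s * (Real.log (f x) - Real.log (f x₀)) < -1 := by nlinarith
      have h3 : Real.log (f x) - Real.log (f x₀) < - (d / R) := by
        have : Real.log (f x) - Real.log (f x₀) < -1 / s := by
          rw [lt_div_iff₀ hs0]; linarith
        have e : -1 / s = -(d / R) := by rw [hs]; field_simp
        rwa [e] at this
      linarith
  refine ⟨1 / R, K + 1 + ‖x₀‖ / R, by positivity, fun x => ?_⟩
  rcases eq_or_lt_of_le (hf.nonneg x) with h0 | hpos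
  · rw [← h0]; exact (Real.exp_pos _).le
  · have h1 := main x hpos
    have h2 : ‖x‖ - ‖x₀‖ ≤ ‖x - x₀‖ := norm_sub_norm_le x x₀
    have h3 : (‖x‖ - ‖x₀‖) / R ≤ ‖x - x₀‖ / R := by gcongr
    calc f x = Real.exp (Real.log (f x)) := (Real.exp_log hpos).symm
      _ ≤ _ := Real.exp_le_exp.mpr (by
        have : (‖x‖ - ‖x₀‖) / R = 1 / R * ‖x‖ - ‖x₀‖ / R := by ring
        linarith)

end ApLC

end Claimed.Agent.R260
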