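/-
Row 260, package A5, leaf L1 = paper Lemma 5.1 (coercivity of log-concave densities).
-/
import Claimed.Agent.R260.ApxDefs
import Claimed.Agent.R260.ApCoercive

set_option autoImplicit false

namespace Claimed.Agent.R260

open MeasureTheory Set Filter Topology

/-- **Paper Lemma 5.1.**  A log-concave probability density decays exponentially. -/
theorem apx_coercive {m : ℕ} {g : EE m → ℝ} (hg : LogConcE g) :
    ∃ a b : ℝ, 0 < a ∧ 0 ≤ b ∧ ∀ x, g x ≤ Real.exp (b - a * ‖x‖) := by
  obtain ⟨h1, h2, h3, h4, h5⟩ := hg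
  obtain ⟨a, b, ha, hb⟩ := (ApLC.mk h1 h2 h3 h4 h5 : ApLC volume g).exp_decay
  exact ⟨a, max b 0, ha, le_max_right _ _, fun x => (hb x).trans
    (Real.exp_le_exp.mpr (by have := le_max_left b 0; linarith))⟩

end Claimed.Agent.R260
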