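/-
Row 260, package A5, leaf L2: the Moreau envelope of `-log g` (paper (5.5)), without extended
reals and without minimisers.
-/
import Claimed.Agent.R260.ApxDefs

set_option autoImplicit false

namespace Claimed.Agent.R260

open MeasureTheory Set Filter Topology
open scoped RealInnerProductSpace

/-- Moreau envelope of `-log g` (infimum over the support only). -/
noncomputable def apxQ {m : ℕ} (g : EE m → ℝ) (j : ℝ) (x : EE m) : ℝ :=
  ⨅ y : {y : EE m // 0 < g y}, (-Real.log (g y) + j / 2 * ‖x - y‖ ^ 2)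

variable {m : ℕ} {g : EE m → ℝ} {a b j : ℝ}

theorem apxQ_supp_nonempty (hg : LogConcE g) : Nonempty {y : EE m // 0 < g y} := by
  by_contra hne
  rw [not_nonempty_iff] at hne
  have h0 : ∀ x, g x = 0 := by
    intro x
    have h1 := hg.2.1 x
    by_contra h2
    exact hne.false ⟨x, lt_of_le_of_ne h1 (Ne.symm h2)⟩
  have h3 := hg.2.2.1
  simp [h0] at h3

theorem apxQ_neglog_ge (hb : ∀ x, g x ≤ Real.exp (b - a * ‖x‖)) {y : EE m} (hy : 0 < g y) :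
    a * ‖y‖ - b ≤ -Real.log (g y) := by
  have h1 : Real.log (g y) ≤ b - a * ‖y‖ := by
    have := Real.log_le_log hy (hb y)
    rwa [Real.log_exp] at this
  linarith

theorem apxQ_term_ge (hb : ∀ x, g x ≤ Real.exp (b - a * ‖x‖)) (ha : 0 < a) (hj : 0 < j)
    (x : EE m) {y : EE m} (hy : 0 < g y) :
    a * ‖x‖ - b - a ^ 2 / (2 * j) ≤ -Real.log (g y) + j / 2 * ‖x - y‖ ^ 2 := by
  have h1 := apxQ_neglog_ge hb hy
  have h2 : ‖x‖ ≤ ‖x - y‖ + ‖y‖ := by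
    calc ‖x‖ = ‖(x - y) + y‖ := by congr 1; abel
      _ ≤ ‖x - y‖ + ‖y‖ := norm_add_le _ _
  have h3 : a * ‖x‖ ≤ a * ‖x - y‖ + a * ‖y‖ := by nlinarith
  have h4 : a * ‖x - y‖ - a ^ 2 / (2 * j) ≤ j / 2 * ‖x - y‖ ^ 2 := by
    have h5 : 0 ≤ (j * ‖x - y‖ - a) ^ 2 / (2 * j) := by positivity
    have h6 : (j * ‖x - y‖ - a) ^ 2 / (2 * j)
        = j / 2 * ‖x - y‖ ^ 2 - a * ‖x - y‖ + a ^ 2 / (2 * j) := by
      field_simp; ring
    linarith
  linarith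

theorem apxQ_bddBelow (hb : ∀ x, g x ≤ Real.exp (b - a * ‖x‖)) (ha : 0 < a) (hj : 0 < j)
    (x : EE m) :
    BddBelow (range fun y : {y : EE m // 0 < g y} =>
      (-Real.log (g y) + j / 2 * ‖x - y‖ ^ 2)) := by
  refine ⟨a * ‖x‖ - b - a ^ 2 / (2 * j), ?_⟩
  rintro _ ⟨y, rfl⟩
  exact apxQ_term_ge hb ha hj x y.2

theorem apxQ_le_term (hb : ∀ x, g x ≤ Real.exp (b - a * ‖x‖)) (ha : 0 < a) (hj : 0 < j)
    (x : EE m) {y : EE m} (hy : 0 < g y) :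
    apxQ g j x ≤ -Real.log (g y) + j / 2 * ‖x - y‖ ^ 2 :=
  ciInf_le (apxQ_bddBelow hb ha hj x) (⟨y, hy⟩ : {y : EE m // 0 < g y})

theorem apxQ_exists_lt (hg : LogConcE g) (x : EE m) {ε : ℝ} (hε : 0 < ε) :
    ∃ y : EE m, 0 < g y ∧ -Real.log (g y) + j / 2 * ‖x - y‖ ^ 2 < apxQ g j x + ε := by
  have := apxQ_supp_nonempty hg
  obtain ⟨y, hy⟩ := exists_lt_of_ciInf_lt (f := fun y : {y : EE m // 0 < g y} =>
      (-Real.log (g y) + j / 2 * ‖x - y‖ ^ 2)) (a := apxQ g j x + ε)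
      (by show apxQ g j x < apxQ g j x + ε; linarith)
  exact ⟨y.1, y.2, hy⟩

theorem apxQ_le (hg : LogConcE g) (hb : ∀ x, g x ≤ Real.exp (b - a * ‖x‖)) (ha : 0 < a)
    (hj : 0 < j) {x : EE m} (hx : 0 < g x) : apxQ g j x ≤ -Real.log (g x) := by
  have := apxQ_le_term hb ha hj x hx
  simpa using this

/-- paper (5.6) -/
theorem apxQ_ge (hg : LogConcE g) (hb : ∀ x, g x ≤ Real.exp (b - a * ‖x‖)) (ha : 0 < a)
    (hj : 0 < j) (x : EE m) : a * ‖x‖ - b - a ^ 2 / (2 * j) ≤ apxQ g j x := by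
  have := apxQ_supp_nonempty hg
  exact le_ciInf (fun y => apxQ_term_ge hb ha hj x y.2)

theorem apxQ_sq_convex (u v : EE m) {s t : ℝ} (hs : 0 ≤ s) (ht : 0 ≤ t) (hst : s + t = 1) :
    ‖s • u + t • v‖ ^ 2 ≤ s * ‖u‖ ^ 2 + t * ‖v‖ ^ 2 := by
  have h1 : ‖s • u + t • v‖ ≤ s * ‖u‖ + t * ‖v‖ := by
    calc ‖s • u + t • v‖ ≤ ‖s • u‖ + ‖t • v‖ := norm_add_le _ _
      _ = s * ‖u‖ + t * ‖v‖ := by
          rw [norm_smul, norm_smul, Real.norm_of_nonneg hs, Real.norm_of_nonneg ht]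
  have h2 : ‖s • u + t • v‖ ^ 2 ≤ (s * ‖u‖ + t * ‖v‖) ^ 2 :=
    pow_le_pow_left₀ (norm_nonneg _) h1 2
  have h3 : (s * ‖u‖ + t * ‖v‖) ^ 2 ≤ s * ‖u‖ ^ 2 + t * ‖v‖ ^ 2 := by
    have ht' : t = 1 - s := by linarith
    subst ht'
    nlinarith [mul_nonneg hs ht, sq_nonneg (‖u‖ - ‖v‖)]
  linarith

theorem apxQ_convex (hg : LogConcE g) (hb : ∀ x, g x ≤ Real.exp (b - a * ‖x‖)) (ha : 0 < a)
    (hj : 0 < j) : ConvexOn ℝ univ (apxQ g j) := by
  refine ⟨convex_univ, ?_⟩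
  intro x₁ _ x₂ _ s t hs ht hst
  refine le_of_forall_pos_le_add ?_
  intro ε hε
  obtain ⟨y₁, hy₁, h₁⟩ := apxQ_exists_lt (j := j) hg x₁ hε
  obtain ⟨y₂, hy₂, h₂⟩ := apxQ_exists_lt (j := j) hg x₂ hε
  have hconc := hg.2.2.2.2
  have hy : 0 < g (s • y₁ + t • y₂) := hg.2.2.2.1 hy₁ hy₂ hs ht hst
  have hlog : s • Real.log (g y₁) + t • Real.log (g y₂) ≤ Real.log (g (s • y₁ + t • y₂)) :=
    hconc.2 hy₁ hy₂ hs ht hst
  simp only [smul_eq_mul] at hlog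
  have hsq : ‖(s • x₁ + t • x₂) - (s • y₁ + t • y₂)‖ ^ 2
      ≤ s * ‖x₁ - y₁‖ ^ 2 + t * ‖x₂ - y₂‖ ^ 2 := by
    have e : (s • x₁ + t • x₂) - (s • y₁ + t • y₂) = s • (x₁ - y₁) + t • (x₂ - y₂) := by
      simp only [smul_sub]; abel
    rw [e]
    exact apxQ_sq_convex _ _ hs ht hst
  have h0 := apxQ_le_term hb ha hj (s • x₁ + t • x₂) hy
  have hj2 : 0 ≤ j / 2 := by positivity
  have h3 := mul_le_mul_of_nonneg_left hsq hj2
  have h4 := mul_le_mul_of_nonneg_left h₁.le hs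
  have h5 := mul_le_mul_of_nonneg_left h₂.le ht
  simp only [smul_eq_mul]
  have h6 : s * ε + t * ε = ε := by rw [← add_mul, hst, one_mul]
  nlinarith

theorem apxQ_semiconcave (hg : LogConcE g) (hb : ∀ x, g x ≤ Real.exp (b - a * ‖x‖)) (ha : 0 < a)
    (hj : 0 < j) : ConvexOn ℝ univ (fun x => j / 2 * ‖x‖ ^ 2 - apxQ g j x) := by
  refine ⟨convex_univ, ?_⟩
  intro x₁ _ x₂ _ s t hs ht hst
  refine le_of_forall_pos_le_add ?_
  intro ε hε
  obtain ⟨y, hy, h⟩ := apxQ_exists_lt (j := j) hg (s • x₁ + t • x₂) hε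
  have h₁ := apxQ_le_term hb ha hj x₁ hy
  have h₂ := apxQ_le_term hb ha hj x₂ hy
  have hexp : ∀ x : EE m, ‖x - y‖ ^ 2 = ‖x‖ ^ 2 - 2 * ⟪x, y⟫ + ‖y‖ ^ 2 := fun x =>
    norm_sub_sq_real x y
  rw [hexp] at h h₁ h₂
  have hin : ⟪s • x₁ + t • x₂, y⟫ = s * ⟪x₁, y⟫ + t * ⟪x₂, y⟫ := by
    rw [inner_add_left, inner_smul_left, inner_smul_left]; simp
  rw [hin] at h
  have h4 := mul_le_mul_of_nonneg_left h₁ hs
  have h5 := mul_le_mul_of_nonneg_left h₂ ht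
  simp only [smul_eq_mul]
  have ht' : t = 1 - s := by linarith
  subst ht'
  nlinarith

/-- a lower bound for the terms with `y` far from `x` -/
theorem apxQ_term_far (hb : ∀ x, g x ≤ Real.exp (b - a * ‖x‖)) (ha : 0 < a) (hj : 0 < j)
    (x : EE m) {y : EE m} (hy : 0 < g y) {δ : ℝ} (hδ : 0 ≤ δ) (hxy : δ ≤ ‖x - y‖) :
    -b + j / 2 * δ ^ 2 ≤ -Real.log (g y) + j / 2 * ‖x - y‖ ^ 2 := by
  have h1 := apxQ_neglog_ge hb hy
  have h2 : 0 ≤ a * ‖y‖ := by positivity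
  have h3 : δ ^ 2 ≤ ‖x - y‖ ^ 2 := pow_le_pow_left₀ hδ hxy 2
  have h4 : j / 2 * δ ^ 2 ≤ j / 2 * ‖x - y‖ ^ 2 :=
    mul_le_mul_of_nonneg_left h3 (by positivity)
  linarith

/-- paper (5.7), inside the support -/
theorem apxQ_tendsto_interior (hg : LogConcE g) (hb : ∀ x, g x ≤ Real.exp (b - a * ‖x‖))
    (ha : 0 < a) {x : EE m} (hx : x ∈ interior {x | 0 < g x}) :
    Tendsto (fun j : ℕ => apxQ g ((j : ℝ) + 1) x) atTop (𝓝 (-Real.log (g x))) := by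
  have := apxQ_supp_nonempty hg
  have hxS : 0 < g x := by
    have : x ∈ {x | 0 < g x} := interior_subset hx
    exact this
  have hconv : ConvexOn ℝ {x | 0 < g x} (fun x => -Real.log (g x)) := hg.2.2.2.2.neg
  have hcont : ContinuousAt (fun x => -Real.log (g x)) x :=
    (hconv.continuousOn_interior).continuousAt (isOpen_interior.mem_nhds hx)
  rw [Metric.tendsto_atTop]
  intro ε hε
  obtain ⟨δ, hδ, hδc⟩ := Metric.continuousAt_iff.1 hcont (ε / 2) (by positivity)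
  -- choose `J` with `-b + (J+1)/2 δ² ≥ -log g x`
  obtain ⟨J, hJ⟩ := exists_nat_gt ((-Real.log (g x) + b) * 2 / δ ^ 2)
  refine ⟨J, ?_⟩
  intro n hn
  have hjpos : (0:ℝ) < (n : ℝ) + 1 := by positivity
  have hup : apxQ g ((n : ℝ) + 1) x ≤ -Real.log (g x) := apxQ_le hg hb ha hjpos hxS
  have hlow : -Real.log (g x) - ε / 2 ≤ apxQ g ((n : ℝ) + 1) x := by
    refine le_ciInf ?_
    rintro ⟨y, hy⟩
    by_cases hclose : ‖x - y‖ < δ
    · have h1 := hδc (x := y) (by rw [dist_eq_norm, norm_sub_rev]; exact hclose)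
      rw [Real.dist_eq] at h1
      have h2 := (abs_lt.1 h1).1
      have h3 : 0 ≤ ((n : ℝ) + 1) / 2 * ‖x - y‖ ^ 2 := by positivity
      show -Real.log (g x) - ε / 2 ≤ -Real.log (g y) + ((n : ℝ) + 1) / 2 * ‖x - y‖ ^ 2
      linarith
    · push Not at hclose
      have h1 := apxQ_term_far hb ha hjpos x hy hδ.le hclose
      have hnJ : (J : ℝ) ≤ n := by exact_mod_cast hn
      have h2 : (-Real.log (g x) + b) * 2 / δ ^ 2 < (n : ℝ) + 1 := by linarith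
      have hδ2 : 0 < δ ^ 2 := by positivity
      have h3 : (-Real.log (g x) + b) * 2 < ((n : ℝ) + 1) * δ ^ 2 := by
        rwa [div_lt_iff₀ hδ2] at h2
      show -Real.log (g x) - ε / 2 ≤ -Real.log (g y) + ((n : ℝ) + 1) / 2 * ‖x - y‖ ^ 2
      nlinarith
  rw [Real.dist_eq, abs_lt]
  constructor <;> linarith

/-- paper (5.7), outside the closed support -/
theorem apxQ_tendsto_outside (hg : LogConcE g) (hb : ∀ x, g x ≤ Real.exp (b - a * ‖x‖))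
    (ha : 0 < a) {x : EE m} (hx : x ∉ closure {x | 0 < g x}) :
    Tendsto (fun j : ℕ => apxQ g ((j : ℝ) + 1) x) atTop atTop := by
  have := apxQ_supp_nonempty hg
  obtain ⟨δ, hδ, hball⟩ := Metric.isOpen_iff.1 isClosed_closure.isOpen_compl x hx
  have hfar : ∀ y : EE m, 0 < g y → δ ≤ ‖x - y‖ := by
    intro y hy
    by_contra hlt
    push Not at hlt
    have : y ∈ Metric.ball x δ := by rw [Metric.mem_ball, dist_eq_norm, norm_sub_rev]; exact hlt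
    exact hball this (subset_closure hy)
  have hlow : ∀ n : ℕ, -b + ((n : ℝ) + 1) / 2 * δ ^ 2 ≤ apxQ g ((n : ℝ) + 1) x := by
    intro n
    refine le_ciInf ?_
    rintro ⟨y, hy⟩
    exact apxQ_term_far hb ha (by positivity) x hy hδ.le (hfar y hy)
  refine tendsto_atTop_mono hlow ?_
  have h1 : Tendsto (fun n : ℕ => (n : ℝ)) atTop atTop := tendsto_natCast_atTop_atTop
  have h2 : Tendsto (fun n : ℕ => ((n : ℝ) + 1) / 2 * δ ^ 2) atTop atTop := by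
    have : (fun n : ℕ => ((n : ℝ) + 1) / 2 * δ ^ 2)
        = fun n : ℕ => (δ ^ 2 / 2) * (n : ℝ) + δ ^ 2 / 2 := by
      funext n; ring
    rw [this]
    exact tendsto_atTop_add_const_right _ _ (h1.const_mul_atTop (by positivity))
  exact tendsto_atTop_add_const_left _ _ h2

end Claimed.Agent.R260
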