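/-
Row 260, package A5, leaves L0, L4: integrability and dominated convergence for a sequence of
potentials with a common linear lower bound.
-/
import Claimed.Agent.R260.ApxDefs

set_option autoImplicit false

namespace Claimed.Agent.R260

open MeasureTheory Set Filter Topology

/-- The unnormalised approximating potentials: what dominated convergence needs. -/
structure ApxSeq {m : ℕ} (g : EE m → ℝ) (W : ℕ → EE m → ℝ) (a B : ℝ) : Prop where
  ha : 0 < a
  meas : Measurable g
  cont : ∀ j, Continuous (W j)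
  lower : ∀ j x, a * ‖x‖ - B ≤ W j x
  lim : ∀ᵐ x, (0 < g x ∧ Tendsto (fun j => W j x) atTop (𝓝 (-Real.log (g x)))) ∨
    (g x = 0 ∧ Tendsto (fun j => W j x) atTop atTop)

theorem apx_pow_mul_exp_le {a : ℝ} (ha : 0 < a) (n : ℕ) {t : ℝ} (ht : 0 ≤ t) :
    (1 + t) ^ n * Real.exp (-(a * t)) ≤ (n.factorial : ℝ) / a ^ n * Real.exp a := by
  have h1 := Real.pow_div_factorial_le_exp (a * (1 + t)) (by positivity) n
  have hf : (0 : ℝ) < n.factorial := by positivity
  have han : 0 < a ^ n := by positivity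
  rw [div_le_iff₀ hf, mul_pow] at h1
  have h2 : (1 + t) ^ n ≤ (n.factorial : ℝ) / a ^ n * Real.exp (a * (1 + t)) := by
    rw [div_mul_eq_mul_div, le_div_iff₀ han]
    linarith
  calc (1 + t) ^ n * Real.exp (-(a * t))
      ≤ ((n.factorial : ℝ) / a ^ n * Real.exp (a * (1 + t))) * Real.exp (-(a * t)) :=
        mul_le_mul_of_nonneg_right h2 (Real.exp_pos _).le
    _ = (n.factorial : ℝ) / a ^ n * Real.exp a := by
        rw [mul_assoc, ← Real.exp_add]; congr 2; ring

/-- L0: the dominating function. -/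
theorem apx_integrable_dom {m : ℕ} {a : ℝ} (ha : 0 < a) (k : ℕ) :
    Integrable (fun x : EE m => (1 + ‖x‖) ^ k * Real.exp (-(a * ‖x‖))) := by
  have h0 : Integrable (fun x : EE m => (1 + ‖x‖) ^ (-((m : ℝ) + 1))) := by
    apply integrable_one_add_norm
    simp
  set C : ℝ := ((k + m + 1).factorial : ℝ) / a ^ (k + m + 1) * Real.exp a with hC
  refine (h0.const_mul C).mono' ?_ ?_
  · apply Continuous.aestronglyMeasurable
    fun_prop
  · refine Eventually.of_forall fun x => ?_
    have hx : (0 : ℝ) < 1 + ‖x‖ := by positivity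
    rw [Real.norm_of_nonneg (by positivity)]
    have h1 := apx_pow_mul_exp_le ha (k + m + 1) (norm_nonneg x)
    have h2 : (1 + ‖x‖) ^ (-((m : ℝ) + 1)) = ((1 + ‖x‖) ^ (m + 1))⁻¹ := by
      rw [Real.rpow_neg hx.le]
      congr 1
      have : ((m : ℝ) + 1) = ((m + 1 : ℕ) : ℝ) := by push_cast; ring
      rw [this, Real.rpow_natCast]
    rw [h2, ← div_eq_mul_inv, le_div_iff₀ (by positivity)]
    calc (1 + ‖x‖) ^ k * Real.exp (-(a * ‖x‖)) * (1 + ‖x‖) ^ (m + 1)
        = (1 + ‖x‖) ^ (k + m + 1) * Real.exp (-(a * ‖x‖)) := by ring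
      _ ≤ C := h1

theorem apx_integrable_exp {m : ℕ} {a : ℝ} (ha : 0 < a) :
    Integrable (fun x : EE m => Real.exp (-(a * ‖x‖))) := by
  simpa using apx_integrable_dom (m := m) ha 0

/-- the elementary bound behind the domination of the entropy integrands (paper (5.4)). -/
theorem apx_abs_mul_exp_le {s L : ℝ} (h : L ≤ s) :
    |s * Real.exp (-s)| ≤ Real.exp (-(L / 2)) + Real.exp (-(2 * L)) := by
  rcases le_or_gt 0 s with hs | hs
  · rw [abs_of_nonneg (by positivity)]
    have h1 : s ≤ Real.exp (s / 2) := by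
      have := Real.quadratic_le_exp_of_nonneg (by positivity : 0 ≤ s / 2)
      nlinarith [sq_nonneg (s - 2)]
    have h2 : s * Real.exp (-s) ≤ Real.exp (-(s / 2)) := by
      calc s * Real.exp (-s) ≤ Real.exp (s / 2) * Real.exp (-s) :=
            mul_le_mul_of_nonneg_right h1 (Real.exp_pos _).le
        _ = Real.exp (-(s / 2)) := by rw [← Real.exp_add]; congr 1; ring
    have h3 : Real.exp (-(s / 2)) ≤ Real.exp (-(L / 2)) := Real.exp_le_exp.2 (by linarith)
    have := Real.exp_pos (-(2 * L))
    linarith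
  · rw [abs_mul, abs_of_neg hs, abs_of_pos (Real.exp_pos _)]
    have h1 : -s ≤ Real.exp (-s) := by
      have := Real.add_one_le_exp (-s)
      linarith
    have h2 : -s * Real.exp (-s) ≤ Real.exp (-(2 * s)) := by
      calc -s * Real.exp (-s) ≤ Real.exp (-s) * Real.exp (-s) :=
            mul_le_mul_of_nonneg_right h1 (Real.exp_pos _).le
        _ = Real.exp (-(2 * s)) := by rw [← Real.exp_add]; congr 1; ring
    have h3 : Real.exp (-(2 * s)) ≤ Real.exp (-(2 * L)) := Real.exp_le_exp.2 (by linarith)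
    have := Real.exp_pos (-(L / 2))
    linarith

variable {m : ℕ} {g : EE m → ℝ} {W : ℕ → EE m → ℝ} {a B : ℝ}

/-- the dominating function for the weighted integrals. -/
theorem apx_integrable_domW (ha : 0 < a) (B c : ℝ) :
    Integrable (fun x : EE m => c * (1 + ‖x‖ ^ 2) * Real.exp (B - a * ‖x‖)) := by
  have h0 := (apx_integrable_dom (m := m) ha 0).const_mul (c * Real.exp B)
  have h2 := (apx_integrable_dom (m := m) ha 2).const_mul (|c| * Real.exp B)
  refine h2.mono' ?_ ?_
  · apply Continuous.aestronglyMeasurable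
    fun_prop
  · refine Eventually.of_forall fun x => ?_
    have e : Real.exp (B - a * ‖x‖) = Real.exp B * Real.exp (-(a * ‖x‖)) := by
      rw [← Real.exp_add]; congr 1
    rw [e, norm_mul, norm_mul, Real.norm_eq_abs, Real.norm_of_nonneg (by positivity),
      Real.norm_of_nonneg (by positivity)]
    have h3 : 1 + ‖x‖ ^ 2 ≤ (1 + ‖x‖) ^ 2 := by nlinarith [norm_nonneg x]
    have h4 : 0 ≤ |c| * (Real.exp B * Real.exp (-(a * ‖x‖))) := by positivity
    calc |c| * (1 + ‖x‖ ^ 2) * (Real.exp B * Real.exp (-(a * ‖x‖)))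
        = (|c| * (Real.exp B * Real.exp (-(a * ‖x‖)))) * (1 + ‖x‖ ^ 2) := by ring
      _ ≤ (|c| * (Real.exp B * Real.exp (-(a * ‖x‖)))) * (1 + ‖x‖) ^ 2 :=
          mul_le_mul_of_nonneg_left h3 h4
      _ = |c| * Real.exp B * ((1 + ‖x‖) ^ 2 * Real.exp (-(a * ‖x‖))) := by ring

/-- the dominating function for the entropy integrals. -/
theorem apx_integrable_domE (ha : 0 < a) (B : ℝ) :
    Integrable (fun x : EE m => Real.exp (-((a * ‖x‖ - B) / 2)) +
      Real.exp (-(2 * (a * ‖x‖ - B)))) := by
  have h1 := (apx_integrable_exp (m := m) (by positivity : 0 < a / 2)).const_mul (Real.exp (B / 2))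
  have h2 := (apx_integrable_exp (m := m) (by positivity : 0 < 2 * a)).const_mul
    (Real.exp (2 * B))
  refine (h1.add h2).congr (Eventually.of_forall fun x => ?_)
  simp only [Pi.add_apply, ← Real.exp_add]
  congr 2 <;> ring

theorem ApxSeq.ae_nonneg (h : ApxSeq g W a B) : ∀ᵐ x, 0 ≤ g x := by
  filter_upwards [h.lim] with x hx
  rcases hx with ⟨h1, -⟩ | ⟨h1, -⟩
  · exact h1.le
  · exact h1.ge

/-- on the support, `-log g ≥ a|x| - B`. -/
theorem ApxSeq.ae_log (h : ApxSeq g W a B) : ∀ᵐ x, 0 < g x → a * ‖x‖ - B ≤ -Real.log (g x) := by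
  filter_upwards [h.lim] with x hx hpos
  rcases hx with ⟨-, h2⟩ | ⟨h1, -⟩
  · exact ge_of_tendsto' h2 fun j => h.lower j x
  · exact absurd h1 hpos.ne'

/-- consequence of the a.e. limit: `g ≤ e^{B - a|x|}` a.e. -/
theorem ApxSeq.ae_le (h : ApxSeq g W a B) : ∀ᵐ x, g x ≤ Real.exp (B - a * ‖x‖) := by
  filter_upwards [h.lim, h.ae_log] with x hx hl
  rcases hx with ⟨h1, -⟩ | ⟨h1, -⟩
  · have := hl h1
    rw [← Real.exp_log h1]
    exact Real.exp_le_exp.2 (by linarith)
  · rw [h1]; exact (Real.exp_pos _).le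

theorem ApxSeq.exp_le (h : ApxSeq g W a B) (j : ℕ) (x : EE m) :
    Real.exp (-W j x) ≤ Real.exp (B - a * ‖x‖) :=
  Real.exp_le_exp.2 (by have := h.lower j x; linarith)

/-- pointwise a.e. convergence of the densities. -/
theorem ApxSeq.ae_tendsto (h : ApxSeq g W a B) :
    ∀ᵐ x, Tendsto (fun j => Real.exp (-W j x)) atTop (𝓝 (g x)) := by
  filter_upwards [h.lim] with x hx
  rcases hx with ⟨h1, h2⟩ | ⟨h1, h2⟩
  · have := (Real.continuous_exp.tendsto _).comp h2.neg
    simpa [Real.exp_log h1, Function.comp_def] using this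
  · rw [h1]
    exact Real.tendsto_exp_atBot.comp (tendsto_neg_atTop_atBot.comp h2)

theorem ApxSeq.integrable_weight (h : ApxSeq g W a B) {p : EE m → ℝ} (hp : Measurable p) {c : ℝ}
    (hpc : ∀ x, |p x| ≤ c * (1 + ‖x‖ ^ 2)) (j : ℕ) :
    Integrable (fun x => p x * Real.exp (-W j x)) := by
  refine (apx_integrable_domW (m := m) h.ha B c).mono' ?_ ?_
  · exact (hp.mul (Real.measurable_exp.comp (h.cont j).measurable.neg)).aestronglyMeasurable
  · refine Eventually.of_forall fun x => ?_
    rw [norm_mul, Real.norm_eq_abs, Real.norm_of_nonneg (Real.exp_pos _).le]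
    exact mul_le_mul (hpc x) (h.exp_le j x) (Real.exp_pos _).le ((abs_nonneg _).trans (hpc x))

theorem ApxSeq.integrable_weight_lim (h : ApxSeq g W a B) {p : EE m → ℝ} (hp : Measurable p)
    {c : ℝ} (hpc : ∀ x, |p x| ≤ c * (1 + ‖x‖ ^ 2)) :
    Integrable (fun x => p x * g x) := by
  refine (apx_integrable_domW (m := m) h.ha B c).mono' ?_ ?_
  · exact (hp.mul h.meas).aestronglyMeasurable
  · filter_upwards [h.ae_le, h.ae_nonneg] with x hx h0
    rw [norm_mul, Real.norm_eq_abs, Real.norm_of_nonneg h0]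
    exact mul_le_mul (hpc x) hx h0 ((abs_nonneg _).trans (hpc x))

/-- L4a: convergence of all moments of order at most two. -/
theorem ApxSeq.tendsto_weight (h : ApxSeq g W a B) {p : EE m → ℝ} (hp : Measurable p) {c : ℝ}
    (hpc : ∀ x, |p x| ≤ c * (1 + ‖x‖ ^ 2)) :
    Tendsto (fun j => ∫ x, p x * Real.exp (-W j x)) atTop (𝓝 (∫ x, p x * g x)) := by
  refine tendsto_integral_of_dominated_convergence
    (fun x : EE m => c * (1 + ‖x‖ ^ 2) * Real.exp (B - a * ‖x‖)) ?_
    (apx_integrable_domW (m := m) h.ha B c) ?_ ?_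
  · intro j
    exact (hp.mul (Real.measurable_exp.comp (h.cont j).measurable.neg)).aestronglyMeasurable
  · intro j
    refine Eventually.of_forall fun x => ?_
    rw [norm_mul, Real.norm_eq_abs, Real.norm_of_nonneg (Real.exp_pos _).le]
    exact mul_le_mul (hpc x) (h.exp_le j x) (Real.exp_pos _).le ((abs_nonneg _).trans (hpc x))
  · filter_upwards [h.ae_tendsto] with x hx
    exact hx.const_mul (p x)

/-- L4b: convergence in `L¹`. -/
theorem ApxSeq.tendsto_L1 (h : ApxSeq g W a B) :
    Tendsto (fun j => ∫ x, |Real.exp (-W j x) - g x|) atTop (𝓝 0) := by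
  have hdom := apx_integrable_domW (m := m) h.ha B 2
  have key := tendsto_integral_of_dominated_convergence
    (F := fun (j : ℕ) (x : EE m) => |Real.exp (-W j x) - g x|) (f := fun _ => (0 : ℝ))
    (fun x : EE m => 2 * (1 + ‖x‖ ^ 2) * Real.exp (B - a * ‖x‖)) ?_ hdom ?_ ?_
  · simpa using key
  · intro j
    exact (((Real.measurable_exp.comp (h.cont j).measurable.neg).sub
      h.meas).abs).aestronglyMeasurable
  · intro j
    filter_upwards [h.ae_le, h.ae_nonneg] with x hx h0
    rw [Real.norm_eq_abs, abs_abs]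
    have h1 := h.exp_le j x
    have h2 := Real.exp_pos (-W j x)
    have h3 : |Real.exp (-W j x) - g x| ≤ 2 * Real.exp (B - a * ‖x‖) := by
      rw [abs_le]; constructor <;> linarith
    have h4 : 0 ≤ ‖x‖ ^ 2 * Real.exp (B - a * ‖x‖) := by positivity
    nlinarith
  · filter_upwards [h.ae_tendsto] with x hx
    have := (hx.sub_const (g x)).abs
    simpa using this

theorem ApxSeq.integrable_entropy (h : ApxSeq g W a B) (j : ℕ) :
    Integrable (fun x => W j x * Real.exp (-W j x)) := by
  refine (apx_integrable_domE (m := m) h.ha B).mono' ?_ ?_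
  · exact ((h.cont j).mul (Real.continuous_exp.comp (h.cont j).neg)).aestronglyMeasurable
  · exact Eventually.of_forall fun x => apx_abs_mul_exp_le (h.lower j x)

theorem ApxSeq.integrable_entropy_lim (h : ApxSeq g W a B) :
    Integrable (fun x => g x * Real.log (g x)) := by
  refine (apx_integrable_domE (m := m) h.ha B).mono' ?_ ?_
  · exact (h.meas.mul (Real.measurable_log.comp h.meas)).aestronglyMeasurable
  · filter_upwards [h.ae_log, h.ae_nonneg] with x hx h0
    rcases h0.eq_or_lt with h1 | h1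
    · rw [← h1]; simp; positivity
    · have := apx_abs_mul_exp_le (hx h1)
      rw [neg_neg, Real.exp_log h1] at this
      rw [Real.norm_eq_abs]
      calc |g x * Real.log (g x)| = |-Real.log (g x) * g x| := by
            rw [neg_mul, abs_neg, mul_comm]
        _ ≤ _ := this

/-- L4c: convergence of the entropy integrals (paper (5.4) gives the domination). -/
theorem ApxSeq.tendsto_entropy (h : ApxSeq g W a B) :
    Tendsto (fun j => ∫ x, W j x * Real.exp (-W j x)) atTop
      (𝓝 (-∫ x, g x * Real.log (g x))) := by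
  rw [← integral_neg]
  refine tendsto_integral_of_dominated_convergence
    (fun x : EE m => Real.exp (-((a * ‖x‖ - B) / 2)) + Real.exp (-(2 * (a * ‖x‖ - B)))) ?_
    (apx_integrable_domE (m := m) h.ha B) ?_ ?_
  · intro j
    exact ((h.cont j).mul (Real.continuous_exp.comp (h.cont j).neg)).aestronglyMeasurable
  · intro j
    exact Eventually.of_forall fun x => apx_abs_mul_exp_le (h.lower j x)
  · filter_upwards [h.lim] with x hx
    rcases hx with ⟨h1, h2⟩ | ⟨h1, h2⟩
    · have h3 := (Real.continuous_exp.tendsto _).comp h2.neg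
      have h4 := h2.mul h3
      simp only [Function.comp_def, neg_neg, Real.exp_log h1] at h4
      convert h4 using 2
      ring
    · rw [h1]
      have h3 := (Real.tendsto_pow_mul_exp_neg_atTop_nhds_zero 1).comp h2
      simpa [Function.comp_def] using h3

end Claimed.Agent.R260
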