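/-
Row 260, package A5, leaf L3: mollification of a convex, semiconcave function.
-/
import Claimed.Agent.R260.ApxDefs

set_option autoImplicit false

namespace Claimed.Agent.R260

open MeasureTheory Set Filter Topology
open scoped ContDiff Convolution RealInnerProductSpace

/-- the parallelogram-type identity behind semiconcavity -/
theorem apx_sq_identity {m : ℕ} (u v : EE m) {s t : ℝ} (hst : s + t = 1) :
    s * ‖u‖ ^ 2 + t * ‖v‖ ^ 2 - ‖s • u + t • v‖ ^ 2 = s * t * ‖u - v‖ ^ 2 := by
  have h1 : ‖s • u + t • v‖ ^ 2 = s ^ 2 * ‖u‖ ^ 2 + 2 * (s * t * ⟪u, v⟫) + t ^ 2 * ‖v‖ ^ 2 := by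
    rw [norm_add_sq_real, norm_smul, norm_smul, inner_smul_left, inner_smul_right, mul_pow,
      mul_pow]
    simp only [Real.norm_eq_abs, sq_abs, conj_trivial]
    ring
  have h2 : ‖u - v‖ ^ 2 = ‖u‖ ^ 2 - 2 * ⟪u, v⟫ + ‖v‖ ^ 2 := norm_sub_sq_real u v
  rw [h1, h2]
  have ht : t = 1 - s := by linarith
  subst ht
  ring

/-- `C/2 |x|² - φ` is convex iff `φ` satisfies the semiconcavity inequality. -/
theorem apx_semiconcave_iff {m : ℕ} {φ : EE m → ℝ} {C : ℝ} :
    ConvexOn ℝ univ (fun x => C / 2 * ‖x‖ ^ 2 - φ x) ↔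
      ∀ (u v : EE m) (s t : ℝ), 0 ≤ s → 0 ≤ t → s + t = 1 →
        s * φ u + t * φ v - φ (s • u + t • v) ≤ C / 2 * (s * t * ‖u - v‖ ^ 2) := by
  constructor
  · intro h u v s t hs ht hst
    have := h.2 (mem_univ u) (mem_univ v) hs ht hst
    simp only [smul_eq_mul] at this
    have e := apx_sq_identity u v hst
    have e' : C / 2 * (s * ‖u‖ ^ 2 + t * ‖v‖ ^ 2 - ‖s • u + t • v‖ ^ 2)
        = C / 2 * (s * t * ‖u - v‖ ^ 2) := by rw [e]
    linarith [e']
  · intro h
    refine ⟨convex_univ, ?_⟩
    intro u _ v _ s t hs ht hst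
    have := h u v s t hs ht hst
    simp only [smul_eq_mul]
    have e := apx_sq_identity u v hst
    have e' : C / 2 * (s * ‖u‖ ^ 2 + t * ‖v‖ ^ 2 - ‖s • u + t • v‖ ^ 2)
        = C / 2 * (s * t * ‖u - v‖ ^ 2) := by rw [e]
    linarith [e']

/-- Convolution with an even smooth probability density supported in the ball of radius `ε`
preserves convexity of `φ` and of `C/2 |x|² - φ`, and moves `φ` by at most `C ε²/2` (two Jensen
inequalities).  Paper (5.8)-(5.10). -/
theorem apx_mollify {m : ℕ} {φ : EE m → ℝ} {C ε : ℝ} (hC : 0 ≤ C) (hε : 0 < ε)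
    (h1 : ConvexOn ℝ univ φ) (h2 : ConvexOn ℝ univ (fun x => C / 2 * ‖x‖ ^ 2 - φ x)) :
    ∃ ψ : EE m → ℝ, ContDiff ℝ ∞ ψ ∧ ConvexOn ℝ univ ψ ∧
      ConvexOn ℝ univ (fun x => C / 2 * ‖x‖ ^ 2 - ψ x) ∧
      ∀ x, φ x ≤ ψ x ∧ ψ x ≤ φ x + C / 2 * ε ^ 2 := by
  have hφc : Continuous φ := by
    have := h1.continuousOn isOpen_univ
    exact continuousOn_univ.1 this
  set β : ContDiffBump (0 : EE m) := ⟨ε / 2, ε, half_pos hε, half_lt_self hε⟩ with hβ
  set η : EE m → ℝ := β.normed volume with hη
  have hη0 : ∀ y, 0 ≤ η y := fun y => β.nonneg_normed y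
  have hη1 : ∫ y, η y = 1 := β.integral_normed
  have hηc : Continuous η := β.continuous_normed
  have hηs : HasCompactSupport η := β.hasCompactSupport_normed
  have hηsupp : ∀ y, η y ≠ 0 → ‖y‖ < ε := by
    intro y hy
    have h : y ∈ Function.support η := hy
    rw [hη, β.support_normed_eq] at h
    simpa using h
  have hηeven : ∀ y, η (-y) = η y := fun y => β.normed_neg y
  set ψ : EE m → ℝ := fun x => ∫ y, η y * φ (x - y) with hψ
  have hint : ∀ F : EE m → ℝ, Continuous F → Integrable (fun y => η y * F y) := fun F hF =>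
    (hηc.mul hF).integrable_of_hasCompactSupport (hηs.mul_right)
  have hintφ : ∀ x, Integrable (fun y => η y * φ (x - y)) := fun x =>
    hint (fun y => φ (x - y)) (hφc.comp (continuous_const.sub continuous_id))
  have hηint : Integrable η := hηc.integrable_of_hasCompactSupport hηs
  have hsemi := apx_semiconcave_iff.1 h2
  -- symmetrised formula
  have hflip : ∀ x, ψ x = ∫ y, η y * φ (x + y) := by
    intro x
    have := integral_neg_eq_self (fun y => η y * φ (x + y)) (volume : Measure (EE m))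
    rw [← this]
    refine integral_congr_ae (Filter.Eventually.of_forall (fun y => ?_))
    simp only [hηeven, sub_eq_add_neg]
  have hintφ' : ∀ x, Integrable (fun y => η y * φ (x + y)) := fun x =>
    hint (fun y => φ (x + y)) (hφc.comp (continuous_const.add continuous_id))
  have hsym : ∀ x, ψ x = ∫ y, η y * ((1 / 2) * φ (x - y) + (1 / 2) * φ (x + y)) := by
    intro x
    have e : (fun y => η y * ((1 / 2) * φ (x - y) + (1 / 2) * φ (x + y)))
        = fun y => (1 / 2) * (η y * φ (x - y)) + (1 / 2) * (η y * φ (x + y)) := by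
      funext y; ring
    rw [e, integral_add ((hintφ x).const_mul _) ((hintφ' x).const_mul _), integral_const_mul,
      integral_const_mul, ← hflip x]
    simp only [hψ]
    ring
  have hintsym : ∀ x, Integrable (fun y => η y * ((1 / 2) * φ (x - y) + (1 / 2) * φ (x + y))) := by
    intro x
    have e : (fun y => η y * ((1 / 2) * φ (x - y) + (1 / 2) * φ (x + y)))
        = fun y => (1 / 2) * (η y * φ (x - y)) + (1 / 2) * (η y * φ (x + y)) := by
      funext y; ring
    rw [e]
    exact ((hintφ x).const_mul _).add ((hintφ' x).const_mul _)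
  have hmid : ∀ x y : EE m, x = (1 / 2 : ℝ) • (x - y) + (1 / 2 : ℝ) • (x + y) := by
    intro x y
    rw [← smul_add]
    have : x - y + (x + y) = (2 : ℝ) • x := by rw [two_smul]; abel
    rw [this, smul_smul]; norm_num
  refine ⟨ψ, ?_, ?_, ?_, ?_⟩
  · -- smoothness
    have hconv : ψ = (η ⋆[ContinuousLinearMap.lsmul ℝ ℝ, volume] φ) := by
      funext x
      simp [hψ, convolution]
    rw [hconv]
    exact hηs.contDiff_convolution_left _ β.contDiff_normed hφc.locallyIntegrable
  · -- convexity
    refine ⟨convex_univ, ?_⟩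
    intro x₁ _ x₂ _ s t hs ht hst
    simp only [smul_eq_mul, hψ]
    rw [← integral_const_mul, ← integral_const_mul,
      ← integral_add ((hintφ x₁).const_mul s) ((hintφ x₂).const_mul t)]
    refine integral_mono (hintφ _) (((hintφ x₁).const_mul s).add ((hintφ x₂).const_mul t)) ?_
    intro y
    have e : s • x₁ + t • x₂ - y = s • (x₁ - y) + t • (x₂ - y) := by
      have : y = s • y + t • y := by rw [← add_smul, hst, one_smul]
      simp only [smul_sub]
      nth_rewrite 1 [this]
      abel
    have h := h1.2 (mem_univ (x₁ - y)) (mem_univ (x₂ - y)) hs ht hst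
    simp only [smul_eq_mul] at h
    show η y * φ (s • x₁ + t • x₂ - y) ≤ s * (η y * φ (x₁ - y)) + t * (η y * φ (x₂ - y))
    rw [e]
    nlinarith [hη0 y]
  · -- semiconcavity
    rw [apx_semiconcave_iff]
    intro x₁ x₂ s t hs ht hst
    simp only [hψ]
    have hK : C / 2 * (s * t * ‖x₁ - x₂‖ ^ 2) = ∫ y, η y * (C / 2 * (s * t * ‖x₁ - x₂‖ ^ 2)) := by
      rw [integral_mul_const, hη1, one_mul]
    have hA : Integrable (fun y => s * (η y * φ (x₁ - y)) + t * (η y * φ (x₂ - y))) :=
      ((hintφ x₁).const_mul s).add ((hintφ x₂).const_mul t)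
    have hcomb : s * (∫ y, η y * φ (x₁ - y)) + t * (∫ y, η y * φ (x₂ - y))
        - ∫ y, η y * φ (s • x₁ + t • x₂ - y)
        = ∫ y, (s * (η y * φ (x₁ - y)) + t * (η y * φ (x₂ - y))
            - η y * φ (s • x₁ + t • x₂ - y)) := by
      rw [integral_sub hA (hintφ _),
        integral_add ((hintφ x₁).const_mul s) ((hintφ x₂).const_mul t),
        integral_const_mul, integral_const_mul]
    rw [hK, hcomb]
    refine integral_mono (hA.sub (hintφ _)) (hηint.mul_const _) ?_
    intro y
    have e : s • x₁ + t • x₂ - y = s • (x₁ - y) + t • (x₂ - y) := by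
      have : y = s • y + t • y := by rw [← add_smul, hst, one_smul]
      simp only [smul_sub]
      nth_rewrite 1 [this]
      abel
    have h := hsemi (x₁ - y) (x₂ - y) s t hs ht hst
    have e2 : x₁ - y - (x₂ - y) = x₁ - x₂ := by abel
    rw [e2] at h
    show s * (η y * φ (x₁ - y)) + t * (η y * φ (x₂ - y)) - η y * φ (s • x₁ + t • x₂ - y)
      ≤ η y * (C / 2 * (s * t * ‖x₁ - x₂‖ ^ 2))
    rw [e]
    nlinarith [hη0 y]
  · intro x
    constructor
    · -- lower bound
      have hK : φ x = ∫ y, η y * φ x := by rw [integral_mul_const, hη1, one_mul]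
      rw [hsym x, hK]
      refine integral_mono (hηint.mul_const _) (hintsym x) ?_
      intro y
      have h := h1.2 (mem_univ (x - y)) (mem_univ (x + y)) (by norm_num : (0:ℝ) ≤ 1 / 2)
        (by norm_num : (0:ℝ) ≤ 1 / 2) (by norm_num)
      rw [← hmid x y] at h
      simp only [smul_eq_mul] at h
      exact mul_le_mul_of_nonneg_left h (hη0 y)
    · -- upper bound
      have hK : φ x + C / 2 * ε ^ 2 = ∫ y, η y * (φ x + C / 2 * ε ^ 2) := by
        rw [integral_mul_const, hη1, one_mul]
      rw [hsym x, hK]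
      refine integral_mono (hintsym x) (hηint.mul_const _) ?_
      intro y
      show η y * ((1 / 2) * φ (x - y) + (1 / 2) * φ (x + y)) ≤ η y * (φ x + C / 2 * ε ^ 2)
      by_cases hy : η y = 0
      · rw [hy]; simp
      · have hyε := hηsupp y hy
        have h := hsemi (x - y) (x + y) (1 / 2) (1 / 2) (by norm_num) (by norm_num) (by norm_num)
        rw [← hmid x y] at h
        have e2 : x - y - (x + y) = -((2:ℝ) • y) := by rw [two_smul]; abel
        rw [e2, norm_neg, norm_smul] at h
        have h3 : ‖y‖ ^ 2 ≤ ε ^ 2 := pow_le_pow_left₀ (norm_nonneg _) hyε.le 2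
        refine mul_le_mul_of_nonneg_left ?_ (hη0 y)
        have h4 : ‖(2:ℝ)‖ = 2 := by norm_num
        rw [h4] at h
        nlinarith

end Claimed.Agent.R260
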