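/-
Row 260, package A5, leaf L5: construction of the approximating potentials (paper (5.8)).
-/
import Claimed.Agent.R260.ApxCoercive
import Claimed.Agent.R260.ApxEnvelope
import Claimed.Agent.R260.ApxMollify
import Claimed.Agent.R260.ApxLimit

set_option autoImplicit false

namespace Claimed.Agent.R260

open MeasureTheory Set Filter Topology
open scoped ContDiff

/-- L5: `W_j = Q_{j+1} * η_{1/(j+1)} + |x|²/(j+1)`. -/
theorem apx_exists_seq {m : ℕ} {g : EE m → ℝ} (hg : LogConcE g) :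
    ∃ (W : ℕ → EE m → ℝ) (a B : ℝ), ApxSeq g W a B ∧ (∀ j, ContDiff ℝ ∞ (W j)) ∧
      ∀ j : ℕ, QC (2 / ((j : ℝ) + 1)) ((j : ℝ) + 1 + 2 / ((j : ℝ) + 1)) (W j) := by
  obtain ⟨a, b, ha, hb0, hb⟩ := apx_coercive hg
  have hj : ∀ j : ℕ, (0 : ℝ) < (j : ℝ) + 1 := fun j => by positivity
  have hmol : ∀ j : ℕ, ∃ ψ : EE m → ℝ, ContDiff ℝ ∞ ψ ∧ ConvexOn ℝ univ ψ ∧
      ConvexOn ℝ univ (fun x => ((j : ℝ) + 1) / 2 * ‖x‖ ^ 2 - ψ x) ∧
      ∀ x, apxQ g ((j : ℝ) + 1) x ≤ ψ x ∧
        ψ x ≤ apxQ g ((j : ℝ) + 1) x + ((j : ℝ) + 1) / 2 * (1 / ((j : ℝ) + 1)) ^ 2 := fun j =>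
    apx_mollify (hj j).le (by have := hj j; positivity) (apxQ_convex hg hb ha (hj j))
      (apxQ_semiconcave hg hb ha (hj j))
  choose ψ hψs hψc hψsc hψb using hmol
  have herr : ∀ j : ℕ, ((j : ℝ) + 1) / 2 * (1 / ((j : ℝ) + 1)) ^ 2 = 1 / 2 * (1 / ((j : ℝ) + 1)) := by
    intro j
    have := (hj j).ne'
    field_simp
  have hlim0 : Tendsto (fun j : ℕ => 1 / ((j : ℝ) + 1)) atTop (𝓝 0) :=
    tendsto_one_div_add_atTop_nhds_zero_nat
  refine ⟨fun j x => ψ j x + ‖x‖ ^ 2 / ((j : ℝ) + 1), a, b + a ^ 2 / 2, ?_, ?_, ?_⟩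
  · refine ⟨ha, hg.1, fun j => ?_, fun j x => ?_, ?_⟩
    · have := (hψs j).continuous
      fun_prop
    · have h1 := apxQ_ge hg hb ha (hj j) x
      have h2 := (hψb j x).1
      have h3 : 0 ≤ ‖x‖ ^ 2 / ((j : ℝ) + 1) := by have := hj j; positivity
      have h4 : a ^ 2 / (2 * ((j : ℝ) + 1)) ≤ a ^ 2 / 2 := by
        apply div_le_div_of_nonneg_left (by positivity) (by norm_num)
        have : (0 : ℝ) ≤ j := Nat.cast_nonneg j
        linarith
      linarith
    · have hnull : volume (frontier {x : EE m | 0 < g x}) = 0 := hg.2.2.2.1.addHaar_frontier volume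
      have hae : ∀ᵐ x : EE m, x ∉ frontier {x : EE m | 0 < g x} := by
        rw [ae_iff]; simpa using hnull
      filter_upwards [hae] with x hx
      by_cases hxi : x ∈ interior {x : EE m | 0 < g x}
      · left
        have hpos : x ∈ {x : EE m | 0 < g x} := interior_subset hxi
        refine ⟨hpos, ?_⟩
        have hQ := apxQ_tendsto_interior hg hb ha hxi
        have hup : Tendsto (fun j : ℕ => apxQ g ((j : ℝ) + 1) x + 1 / 2 * (1 / ((j : ℝ) + 1)))
            atTop (𝓝 (-Real.log (g x))) := by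
          have := hQ.add (hlim0.const_mul (1 / 2))
          rwa [mul_zero, add_zero] at this
        have hψt : Tendsto (fun j : ℕ => ψ j x) atTop (𝓝 (-Real.log (g x))) :=
          tendsto_of_tendsto_of_tendsto_of_le_of_le hQ hup (fun j => (hψb j x).1)
            (fun j => by have := (hψb j x).2; rw [herr] at this; exact this)
        have hq : Tendsto (fun j : ℕ => ‖x‖ ^ 2 / ((j : ℝ) + 1)) atTop (𝓝 0) := by
          have := hlim0.const_mul (‖x‖ ^ 2)
          simpa [div_eq_mul_inv] using this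
        simpa using hψt.add hq
      · right
        have hxc : x ∉ closure {x : EE m | 0 < g x} := fun hc => hx ⟨hc, hxi⟩
        refine ⟨?_, ?_⟩
        · have : ¬ 0 < g x := fun h => hxc (subset_closure h)
          exact le_antisymm (not_lt.1 this) (hg.2.1 x)
        · refine tendsto_atTop_mono (fun j => ?_) (apxQ_tendsto_outside hg hb ha hxc)
          have h2 := (hψb j x).1
          have h3 : 0 ≤ ‖x‖ ^ 2 / ((j : ℝ) + 1) := by have := hj j; positivity
          linarith
  · intro j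
    have h1 : ContDiff ℝ ∞ (fun x : EE m => ‖x‖ ^ 2) := contDiff_norm_sq ℝ
    exact (hψs j).add (h1.div_const _)
  · intro j
    have := (hj j).ne'
    constructor
    · refine (hψc j).congr fun x _ => ?_
      field_simp
      ring
    · refine (hψsc j).congr fun x _ => ?_
      field_simp
      ring

end Claimed.Agent.R260
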