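/-
Row 260, package G (paper Section 7), leaf G7: Schur complement, pure linear algebra.
Owner: helper128.
-/
import Mathlib

set_option autoImplicit false

namespace Claimed.Agent.R260

/-- (G7) determinant of `[[α, α bᵀ], [α b, β S + α b bᵀ]]`. -/
theorem coneDet_aux {n : ℕ} (C : Matrix (Fin (n + 1)) (Fin (n + 1)) ℝ)
    (S : Matrix (Fin n) (Fin n) ℝ)
    (b : Fin n → ℝ) (α β : ℝ) (h00 : C 0 0 = α) (h0s : ∀ j : Fin n, C 0 j.succ = α * b j)
    (hs0 : ∀ i : Fin n, C i.succ 0 = α * b i)
    (hss : ∀ i j : Fin n, C i.succ j.succ = β * S i j + α * (b i * b j)) :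
    C.det = α * β ^ n * S.det := by
  -- the matrix after the row operations
  set B : Matrix (Fin (n + 1)) (Fin (n + 1)) ℝ :=
    Matrix.of (Fin.cons (Fin.cons α fun j => α * b j) fun i => Fin.cons 0 fun j => β * S i j)
    with hB
  have hB00 : B 0 0 = α := by simp [hB]
  have hB0s : ∀ j : Fin n, B 0 j.succ = α * b j := fun j => by simp [hB]
  have hBs0 : ∀ i : Fin n, B i.succ 0 = 0 := fun i => by simp [hB]
  have hBss : ∀ i j : Fin n, B i.succ j.succ = β * S i j := fun i j => by simp [hB]
  have h1 : C.det = B.det := by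
    refine Matrix.det_eq_of_forall_row_eq_smul_add_const (Fin.cons 0 b) 0 (by simp) ?_
    intro i j
    refine Fin.cases ?_ (fun i => ?_) i <;> refine Fin.cases ?_ (fun j => ?_) j
    · simp [h00, hB00]
    · simp [h0s, hB0s]
    · simp only [Fin.cons_succ, hs0, hBs0, hB00]; ring
    · simp only [Fin.cons_succ, hss, hBss, hB0s]; ring
  have h2 : B.submatrix (Fin.succAbove 0) Fin.succ = β • S := by
    ext i j
    simp [hBss]
  rw [h1, Matrix.det_succ_column_zero, Fin.sum_univ_succ]
  simp only [hBs0, mul_zero, zero_mul, Finset.sum_const_zero, add_zero, hB00, h2,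
    Matrix.det_smul, Fintype.card_fin, Fin.val_zero, pow_zero, one_mul]
  ring

end Claimed.Agent.R260
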