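/-
Row 260, package G (paper Section 7), leaf G10: equality case.  If the cone density over `K` is
a.e. an affine exponential product, then `K` is a simplex.  Owner: helper27.
-/
import Claimed.Agent.R260.ConeDefs

set_option autoImplicit false

namespace Claimed.Agent.R260

open MeasureTheory Claims.C0428 Claims.C0429 Topology Filter

variable {n : ℕ} {K : Set (Fin n → ℝ)}

/-- Two a.e. equal functions agree somewhere on every nonempty open set. -/
theorem coneEq_exists_eq {m : ℕ} {f g : (Fin m → ℝ) → ℝ} (h : f =ᵐ[volume] g)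
    {N : Set (Fin m → ℝ)} (hN : IsOpen N) (hne : N.Nonempty) : ∃ z ∈ N, f z = g z := by
  by_contra hcon
  push Not at hcon
  have h0 : volume {z | ¬ f z = g z} = 0 := ae_iff.mp h
  have hsub : N ⊆ {z | ¬ f z = g z} := fun z hz => hcon z hz
  have : volume N = 0 := measure_mono_null hsub h0
  exact (hN.measure_pos volume hne).ne' this

theorem coneEq_const_pos (hK : IsConvexBody K) : 0 < coneConst K := by
  have h1 : 0 < volume K :=
    lt_of_lt_of_le (isOpen_interior.measure_pos volume hK.2.2) (measure_mono interior_subset)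
  have h2 : volume K ≠ ⊤ := hK.1.measure_lt_top.ne
  have h3 : 0 < (volume K).toReal := ENNReal.toReal_pos h1.ne' h2
  unfold coneConst
  positivity

theorem coneEq_pos_iff (hK : IsConvexBody K) (z : Fin (n + 1) → ℝ) :
    0 < coneDensity K z ↔ z ∈ coneSet K := by
  have hc := coneEq_const_pos hK
  unfold coneDensity
  by_cases hz : z ∈ coneSet K
  · simp only [Set.indicator_of_mem hz, hz, iff_true]
    positivity
  · simp [hz]

theorem coneEq_exp_pos_iff {m : ℕ} (M : Matrix (Fin m) (Fin m) ℝ) (b : Fin m → ℝ)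
    (hM : M.det ≠ 0) (y : Fin m → ℝ) :
    0 < affineExpProductDensity M b y ↔ ∀ i, 0 ≤ (M⁻¹.mulVec (y - b)) i := by
  have hd : 0 < |M.det|⁻¹ := inv_pos.mpr (abs_pos.mpr hM)
  unfold affineExpProductDensity
  constructor
  · intro h i
    by_contra hi
    have : ∏ i, oneSidedExpDensity ((M⁻¹.mulVec (y - b)) i) = 0 := by
      refine Finset.prod_eq_zero (Finset.mem_univ i) ?_
      simp [oneSidedExpDensity, hi]
    rw [this, mul_zero] at h
    exact lt_irrefl _ h
  · intro h
    refine mul_pos hd (Finset.prod_pos fun i _ => ?_)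
    simp only [oneSidedExpDensity, h i, if_true]
    exact Real.exp_pos _

/-- The closed cone over `K`. -/
def coneEqCl (K : Set (Fin n → ℝ)) : Set (Fin (n + 1) → ℝ) :=
  {z | 0 ≤ z 0 ∧ ∃ x ∈ K, Fin.tail z = z 0 • x}

theorem coneEq_tail_continuous : Continuous fun z : Fin (n + 1) → ℝ => Fin.tail z := by
  unfold Fin.tail
  fun_prop

theorem coneEq_cl_isClosed (hK : IsCompact K) : IsClosed (coneEqCl K) := by
  refine IsSeqClosed.isClosed ?_
  intro zs z hzs hlim
  choose h0 x hx hxe using hzs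
  obtain ⟨x0, hx0, φ, hφ, hφlim⟩ := hK.tendsto_subseq hx
  have hl0 : Tendsto (fun k => zs k 0) atTop (𝓝 (z 0)) :=
    ((continuous_apply 0).tendsto z).comp hlim
  refine ⟨ge_of_tendsto' hl0 h0, x0, hx0, ?_⟩
  have h1 : Tendsto (fun k => Fin.tail (zs (φ k))) atTop (𝓝 (Fin.tail z)) :=
    ((coneEq_tail_continuous.tendsto z).comp hlim).comp hφ.tendsto_atTop
  have h2 : Tendsto (fun k => zs (φ k) 0 • x (φ k)) atTop (𝓝 (z 0 • x0)) :=
    (hl0.comp hφ.tendsto_atTop).smul hφlim
  have h3 : (fun k => Fin.tail (zs (φ k))) = fun k => zs (φ k) 0 • x (φ k) := by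
    funext k; exact hxe (φ k)
  rw [h3] at h1
  exact tendsto_nhds_unique h1 h2

theorem coneEq_subset_cl : coneSet K ⊆ coneEqCl K := by
  intro z hz
  refine ⟨hz.1.le, _, hz.2, ?_⟩
  rw [smul_smul, mul_inv_cancel₀ hz.1.ne', one_smul]

theorem coneEq_cl_cases {z : Fin (n + 1) → ℝ} (hz : z ∈ coneEqCl K) : z = 0 ∨ z ∈ coneSet K := by
  obtain ⟨h0, x, hx, hxe⟩ := hz
  rcases h0.eq_or_lt with h | h
  · left
    rw [← h, zero_smul] at hxe
    funext i
    refine Fin.cases ?_ (fun j => ?_) i
    · exact h.symm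
    · exact congrFun hxe j
  · right
    refine ⟨h, ?_⟩
    rw [hxe, smul_smul, inv_mul_cancel₀ h.ne', one_smul]
    exact hx

theorem coneEq_smul_mem {z : Fin (n + 1) → ℝ} (hz : z ∈ coneSet K) {s : ℝ} (hs : 0 < s) :
    s • z ∈ coneSet K := by
  refine ⟨by simpa using mul_pos hs hz.1, ?_⟩
  have h1 : Fin.tail (s • z) = s • Fin.tail z := rfl
  have h2 : (s • z) 0 = s * z 0 := rfl
  rw [h1, h2, smul_smul, mul_inv, mul_assoc, mul_comm (z 0)⁻¹ s, ← mul_assoc,
    inv_mul_cancel₀ hs.ne', one_mul]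
  exact hz.2

/-- The open cone over the interior of `K`. -/
def coneEqOp (K : Set (Fin n → ℝ)) : Set (Fin (n + 1) → ℝ) :=
  {z | 0 < z 0} ∩ (fun z => (z 0)⁻¹ • Fin.tail z) ⁻¹' interior K

theorem coneEq_op_isOpen : IsOpen (coneEqOp K) := by
  have h1 : ContinuousOn (fun z : Fin (n + 1) → ℝ => (z 0)⁻¹) {z | 0 < z 0} :=
    (continuous_apply 0).continuousOn.inv₀ fun z hz => (ne_of_gt hz)
  have h2 : ContinuousOn (fun z : Fin (n + 1) → ℝ => (z 0)⁻¹ • Fin.tail z) {z | 0 < z 0} :=
    h1.smul coneEq_tail_continuous.continuousOn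
  exact h2.isOpen_inter_preimage (isOpen_lt continuous_const (continuous_apply 0))
    isOpen_interior

theorem coneEq_op_subset : coneEqOp K ⊆ coneSet K :=
  fun _ hz => ⟨hz.1, interior_subset hz.2⟩

theorem coneEq_subset_closure_op (hK : IsConvexBody K) : coneSet K ⊆ closure (coneEqOp K) := by
  intro z hz
  have hx : (z 0)⁻¹ • Fin.tail z ∈ closure (interior K) := by
    rw [hK.2.1.closure_interior_eq_closure_of_nonempty_interior hK.2.2]
    exact subset_closure hz.2
  have hcont : Continuous fun x : Fin n → ℝ => (Fin.cons (z 0) (z 0 • x) : Fin (n + 1) → ℝ) := by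
    refine continuous_pi fun i => ?_
    refine Fin.cases ?_ (fun j => ?_) i
    · simpa using continuous_const
    · simp only [Fin.cons_succ]
      fun_prop
  have hmaps : Set.MapsTo (fun x : Fin n → ℝ => (Fin.cons (z 0) (z 0 • x) : Fin (n + 1) → ℝ))
      (interior K) (coneEqOp K) := by
    intro x hx
    refine ⟨by simpa using hz.1, ?_⟩
    show ((Fin.cons (z 0) (z 0 • x) : Fin (n + 1) → ℝ) 0)⁻¹ •
      Fin.tail (Fin.cons (z 0) (z 0 • x) : Fin (n + 1) → ℝ) ∈ interior K
    rw [Fin.cons_zero, Fin.tail_cons, smul_smul, inv_mul_cancel₀ hz.1.ne', one_smul]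
    exact hx
  have := map_mem_closure hcont hx hmaps
  have he : (Fin.cons (z 0) (z 0 • ((z 0)⁻¹ • Fin.tail z)) : Fin (n + 1) → ℝ) = z := by
    rw [smul_smul, mul_inv_cancel₀ hz.1.ne', one_smul, Fin.cons_self_tail]
  rwa [he] at this

/-- The closed affine orthant. -/
def coneEqB {m : ℕ} (M : Matrix (Fin m) (Fin m) ℝ) (b : Fin m → ℝ) : Set (Fin m → ℝ) :=
  {y | ∀ i, 0 ≤ (M⁻¹.mulVec (y - b)) i}

/-- The open affine orthant. -/
def coneEqBo {m : ℕ} (M : Matrix (Fin m) (Fin m) ℝ) (b : Fin m → ℝ) : Set (Fin m → ℝ) :=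
  {y | ∀ i, 0 < (M⁻¹.mulVec (y - b)) i}

theorem coneEq_mulVec_continuous {m : ℕ} (M : Matrix (Fin m) (Fin m) ℝ) (b : Fin m → ℝ)
    (i : Fin m) : Continuous fun y : Fin m → ℝ => (M⁻¹.mulVec (y - b)) i := by
  have h : Continuous fun y : Fin m → ℝ => M⁻¹.mulVec (y - b) :=
    Continuous.matrix_mulVec continuous_const (continuous_id.sub continuous_const)
  exact (continuous_apply i).comp h

theorem coneEq_B_isClosed {m : ℕ} (M : Matrix (Fin m) (Fin m) ℝ) (b : Fin m → ℝ) :
    IsClosed (coneEqB M b) := by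
  have : coneEqB M b = ⋂ i, {y | 0 ≤ (M⁻¹.mulVec (y - b)) i} := by
    ext y; simp [coneEqB]
  rw [this]
  exact isClosed_iInter fun i => isClosed_le continuous_const (coneEq_mulVec_continuous M b i)

theorem coneEq_Bo_isOpen {m : ℕ} (M : Matrix (Fin m) (Fin m) ℝ) (b : Fin m → ℝ) :
    IsOpen (coneEqBo M b) := by
  have : coneEqBo M b = ⋂ i, {y | 0 < (M⁻¹.mulVec (y - b)) i} := by
    ext y; simp [coneEqBo]
  rw [this]
  exact isOpen_iInter_of_finite fun i =>
    isOpen_lt continuous_const (coneEq_mulVec_continuous M b i)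

theorem coneEq_B_subset_closure {m : ℕ} (M : Matrix (Fin m) (Fin m) ℝ) (b : Fin m → ℝ)
    (hM : M.det ≠ 0) : coneEqB M b ⊆ closure (coneEqBo M b) := by
  intro y hy
  have hu : IsUnit M.det := isUnit_iff_ne_zero.mpr hM
  have hlim : Tendsto (fun ε : ℝ => y + ε • M.mulVec (fun _ => (1 : ℝ))) (𝓝[>] 0) (𝓝 y) := by
    have hc : Continuous fun ε : ℝ => y + ε • M.mulVec (fun _ => (1 : ℝ)) := by fun_prop
    have := (hc.tendsto 0).mono_left (nhdsWithin_le_nhds (s := Set.Ioi (0 : ℝ)))
    simpa using this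
  refine mem_closure_of_tendsto hlim ?_
  filter_upwards [self_mem_nhdsWithin] with ε hε i
  have h1 : M⁻¹.mulVec (y + ε • M.mulVec (fun _ => (1 : ℝ)) - b) =
      M⁻¹.mulVec (y - b) + ε • (fun _ => (1 : ℝ)) := by
    have : y + ε • M.mulVec (fun _ => (1 : ℝ)) - b = (y - b) + ε • M.mulVec (fun _ => (1 : ℝ)) := by
      abel
    rw [this, Matrix.mulVec_add, Matrix.mulVec_smul, Matrix.mulVec_mulVec,
      Matrix.nonsing_inv_mul _ hu, Matrix.one_mulVec]
  rw [h1]
  have h2 := hy i
  have h3 : (0 : ℝ) < ε := hε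
  simp only [Pi.add_apply, Pi.smul_apply, smul_eq_mul, mul_one]
  linarith

/-- **(G10)** equality case: the support is an affine orthant, hence `K` is a simplex. -/
theorem coneEq_simplex_of_ae (hK : IsConvexBody K) (M : Matrix (Fin (n + 1)) (Fin (n + 1)) ℝ)
    (b : Fin (n + 1) → ℝ) (hM : M.det ≠ 0)
    (h : coneDensity K =ᵐ[volume] affineExpProductDensity M b) : IsSimplexIn K := by
  have hu : IsUnit M.det := isUnit_iff_ne_zero.mpr hM
  -- `A ⊆ B`
  have hAB : coneSet K ⊆ coneEqB M b := by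
    intro z hz
    by_contra hzB
    have hopen : IsOpen ((coneEqB M b)ᶜ ∩ coneEqOp K) :=
      (coneEq_B_isClosed M b).isOpen_compl.inter coneEq_op_isOpen
    have hne : ((coneEqB M b)ᶜ ∩ coneEqOp K).Nonempty :=
      mem_closure_iff.mp (coneEq_subset_closure_op hK hz) _
        (coneEq_B_isClosed M b).isOpen_compl hzB
    obtain ⟨z', ⟨hz'1, hz'2⟩, he⟩ := coneEq_exists_eq h hopen hne
    have h1 : 0 < coneDensity K z' := (coneEq_pos_iff hK z').mpr (coneEq_op_subset hz'2)
    rw [he] at h1
    exact hz'1 ((coneEq_exp_pos_iff M b hM z').mp h1)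
  -- `B ⊆ Cl`
  have hBC : coneEqB M b ⊆ coneEqCl K := by
    have hcl : closure (coneSet K) ⊆ coneEqCl K :=
      closure_minimal coneEq_subset_cl (coneEq_cl_isClosed hK.1)
    have hBo : coneEqBo M b ⊆ closure (coneSet K) := by
      intro y hy
      by_contra hyA
      have hopen : IsOpen (coneEqBo M b ∩ (closure (coneSet K))ᶜ) :=
        (coneEq_Bo_isOpen M b).inter isClosed_closure.isOpen_compl
      obtain ⟨z', ⟨hz'1, hz'2⟩, he⟩ := coneEq_exists_eq h hopen ⟨y, hy, hyA⟩
      have h1 : 0 < affineExpProductDensity M b z' :=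
        (coneEq_exp_pos_iff M b hM z').mpr fun i => (hz'1 i).le
      rw [← he] at h1
      exact hz'2 (subset_closure ((coneEq_pos_iff hK z').mp h1))
    exact (coneEq_B_subset_closure M b hM).trans
      (closure_minimal (hBo.trans hcl) (coneEq_cl_isClosed hK.1))
  -- `b = 0`
  have hb : b = 0 := by
    have hbB : b ∈ coneEqB M b := by
      intro i
      simp
    rcases coneEq_cl_cases (hBC hbB) with h0 | hbA
    · exact h0
    · have h1 := hAB (coneEq_smul_mem hbA (s := 2) (by norm_num))
      have h2 := hAB (coneEq_smul_mem hbA (s := 1 / 2) (by norm_num))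
      have e1 : (2 : ℝ) • b - b = b := by rw [two_smul]; abel
      have e2 : (1 / 2 : ℝ) • b - b = (-(1 / 2 : ℝ)) • b := by
        funext i; simp only [Pi.sub_apply, Pi.smul_apply, smul_eq_mul]; ring
      have h3 : M⁻¹.mulVec b = 0 := by
        funext i
        have a1 := h1 i
        have a2 := h2 i
        rw [e1] at a1
        rw [e2, Matrix.mulVec_smul] at a2
        simp only [Pi.smul_apply, smul_eq_mul] at a2
        simp only [Pi.zero_apply]
        linarith
      have : M.mulVec (M⁻¹.mulVec b) = b := by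
        rw [Matrix.mulVec_mulVec, Matrix.mul_nonsing_inv _ hu, Matrix.one_mulVec]
      rw [← this, h3, Matrix.mulVec_zero]
  subst hb
  -- columns
  set w : Fin (n + 1) → (Fin (n + 1) → ℝ) := fun i => M.mulVec (Pi.single i 1) with hw
  have hinv : ∀ i, M⁻¹.mulVec (w i) = Pi.single i 1 := by
    intro i
    rw [hw]
    simp only [Matrix.mulVec_mulVec, Matrix.nonsing_inv_mul _ hu, Matrix.one_mulVec]
  have hwA : ∀ i, w i ∈ coneSet K := by
    intro i
    have hwB : w i ∈ coneEqB M 0 := by
      intro j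
      rw [sub_zero, hinv i]
      by_cases hij : j = i
      · subst hij; simp
      · simp [Pi.single_eq_of_ne hij]
    rcases coneEq_cl_cases (hBC hwB) with h0 | hA
    · exfalso
      have := hinv i
      rw [h0, Matrix.mulVec_zero] at this
      have := congrFun this i
      simp at this
    · exact hA
  have hsum : ∀ u : Fin (n + 1) → ℝ, M.mulVec u = ∑ i, u i • w i := by
    intro u
    have : u = ∑ i, u i • (Pi.single i 1 : Fin (n + 1) → ℝ) := by
      funext j
      simp [Finset.sum_apply, Pi.single_apply]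
    conv_lhs => rw [this]
    rw [Matrix.mulVec_sum]
    simp only [Matrix.mulVec_smul, hw]
  refine ⟨fun i => (w i 0)⁻¹ • Fin.tail (w i), ?_, ?_⟩
  · -- affine independence
    rw [affineIndependent_iff]
    intro s c hc0 hc1 i hi
    set u : Fin (n + 1) → ℝ := fun j => if j ∈ s then c j * (w j 0)⁻¹ else 0 with hu'
    have hMu : M.mulVec u = ∑ j ∈ s, (c j * (w j 0)⁻¹) • w j := by
      rw [hsum]
      simp only [hu', ite_smul, zero_smul]
      rw [Finset.sum_ite_mem, Finset.univ_inter]
    have hzero : M.mulVec u = 0 := by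
      rw [hMu]
      funext k
      refine Fin.cases ?_ (fun j => ?_) k
      · simp only [Finset.sum_apply, Pi.smul_apply, smul_eq_mul, Pi.zero_apply]
        rw [← hc0]
        refine Finset.sum_congr rfl fun j _ => ?_
        rw [mul_assoc, inv_mul_cancel₀ (hwA j).1.ne', mul_one]
      · have := congrFun hc1 j
        simp only [Finset.sum_apply, Pi.smul_apply, smul_eq_mul, Pi.zero_apply] at this ⊢
        rw [← this]
        refine Finset.sum_congr rfl fun l _ => ?_
        simp only [Fin.tail]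
        ring
    have hu0 : u = 0 := by
      have : M⁻¹.mulVec (M.mulVec u) = u := by
        rw [Matrix.mulVec_mulVec, Matrix.nonsing_inv_mul _ hu, Matrix.one_mulVec]
      rw [← this, hzero, Matrix.mulVec_zero]
    have hui := congrFun hu0 i
    simp only [hu', hi, if_true, Pi.zero_apply] at hui
    rcases mul_eq_zero.mp hui with h0 | h0
    · exact h0
    · exact absurd (inv_eq_zero.mp h0) (hwA i).1.ne'
  · apply Set.Subset.antisymm
    · intro x hx
      have hz : (Fin.cons 1 x : Fin (n + 1) → ℝ) ∈ coneSet K := by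
        refine ⟨by simp, ?_⟩
        show ((Fin.cons 1 x : Fin (n + 1) → ℝ) 0)⁻¹ • Fin.tail (Fin.cons 1 x : Fin (n + 1) → ℝ) ∈ K
        rw [Fin.cons_zero, Fin.tail_cons, inv_one, one_smul]
        exact hx
      have hu1 := hAB hz
      set u : Fin (n + 1) → ℝ := M⁻¹.mulVec (Fin.cons 1 x : Fin (n + 1) → ℝ) with hu'
      have hu2 : ∀ i, 0 ≤ u i := by
        intro i
        have := hu1 i
        rwa [sub_zero] at this
      have hz2 : (Fin.cons 1 x : Fin (n + 1) → ℝ) = ∑ i, u i • w i := by
        rw [← hsum, hu', Matrix.mulVec_mulVec, Matrix.mul_nonsing_inv _ hu, Matrix.one_mulVec]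
      have hone : ∑ i, u i * w i 0 = 1 := by
        have := congrFun hz2 0
        simp only [Fin.cons_zero, Finset.sum_apply, Pi.smul_apply, smul_eq_mul] at this
        exact this.symm
      have hx2 : x = ∑ i, (u i * w i 0) • ((w i 0)⁻¹ • Fin.tail (w i)) := by
        funext j
        have := congrFun hz2 j.succ
        simp only [Fin.cons_succ, Finset.sum_apply, Pi.smul_apply, smul_eq_mul] at this ⊢
        rw [this]
        refine Finset.sum_congr rfl fun l _ => ?_
        simp only [Fin.tail]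
        have := (hwA l).1.ne'
        field_simp
      rw [hx2]
      refine (convex_convexHull ℝ _).sum_mem (fun i _ => mul_nonneg (hu2 i) (hwA i).1.le) hone
        fun i _ => subset_convexHull ℝ _ ⟨i, rfl⟩
    · refine convexHull_min ?_ hK.2.1
      rintro _ ⟨i, rfl⟩
      exact (hwA i).2

end Claimed.Agent.R260
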