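/-
Row 260, package G (paper Section 7): volume of a convex body and the master integral formula for
the cone density.  Owner: helper170.
-/
import Claimed.Agent.R260.ConeDefs

set_option autoImplicit false

namespace Claimed.Agent.R260

open MeasureTheory Claims.C0428 Claims.C0429

variable {n : ℕ} {K : Set (Fin n → ℝ)}

/-- (G0) volume of a convex body. -/
theorem cone_vol_pos (hK : IsConvexBody K) : 0 < (volume K).toReal := by
  obtain ⟨hc, -, hne⟩ := hK
  refine ENNReal.toReal_pos ?_ hc.measure_lt_top.ne
  exact ((isOpen_interior.measure_pos volume hne).trans_le (measure_mono interior_subset)).ne'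

theorem cone_const_pos (hK : IsConvexBody K) : 0 < coneConst K :=
  mul_pos (by exact_mod_cast n.factorial_pos) (cone_vol_pos hK)

theorem cone_measurable_tail : Measurable (fun z : Fin (n + 1) → ℝ => Fin.tail z) :=
  measurable_pi_lambda _ fun i => measurable_pi_apply i.succ

theorem cone_measurableSet (hK : IsConvexBody K) : MeasurableSet (coneSet K) := by
  have h1 : MeasurableSet {z : Fin (n + 1) → ℝ | 0 < z 0} :=
    measurableSet_lt measurable_const (measurable_pi_apply 0)
  have h2 : Measurable (fun z : Fin (n + 1) → ℝ => (z 0)⁻¹ • Fin.tail z) :=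
    ((measurable_pi_apply 0).inv).smul cone_measurable_tail
  exact h1.inter (h2 hK.1.measurableSet)

theorem cone_measurable (hK : IsConvexBody K) : Measurable (coneDensity K) := by
  unfold coneDensity
  refine Measurable.indicator ?_ (cone_measurableSet hK)
  exact ((measurable_pi_apply 0).neg.exp).div_const _

theorem cone_mem_cons {t : ℝ} {y : Fin n → ℝ} :
    (Fin.cons t y : Fin (n + 1) → ℝ) ∈ coneSet K ↔ 0 < t ∧ t⁻¹ • y ∈ K := by
  simp [coneSet]

theorem cone_density_cons_of_nonpos {t : ℝ} (ht : t ≤ 0) (y : Fin n → ℝ) :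
    coneDensity K (Fin.cons t y) = 0 := by
  unfold coneDensity
  rw [Set.indicator_of_notMem]
  rw [cone_mem_cons]
  exact fun h => absurd h.1 (not_lt.mpr ht)

/-- the integrand on the slice at height `t > 0`. -/
theorem cone_slice {G : (Fin (n + 1) → ℝ) → ℝ} {a : ℕ} {P : (Fin n → ℝ) → ℝ}
    (hG : ∀ t : ℝ, 0 < t → ∀ x ∈ K, G (Fin.cons t (t • x)) = t ^ a * P x)
    {t : ℝ} (ht : 0 < t) (y : Fin n → ℝ) :
    G (Fin.cons t y) * coneDensity K (Fin.cons t y) =
      K.indicator (fun x => t ^ a * (Real.exp (-t) / coneConst K) * P x) (t⁻¹ • y) := by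
  unfold coneDensity
  by_cases h : t⁻¹ • y ∈ K
  · rw [Set.indicator_of_mem h, Set.indicator_of_mem (cone_mem_cons.mpr ⟨ht, h⟩)]
    have hy : y = t • (t⁻¹ • y) := by rw [smul_smul, mul_inv_cancel₀ ht.ne', one_smul]
    have := hG t ht _ h
    rw [← hy] at this
    rw [this]
    simp only [Fin.cons_zero]
    ring
  · rw [Set.indicator_of_notMem h, Set.indicator_of_notMem, mul_zero]
    rw [cone_mem_cons]
    exact fun h' => h h'.2

theorem cone_gamma_integrable (k : ℕ) :
    Integrable ((Set.Ioi (0 : ℝ)).indicator fun t => t ^ k * Real.exp (-t)) := by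
  rw [integrable_indicator_iff measurableSet_Ioi]
  have h := Real.GammaIntegral_convergent (s := (k : ℝ) + 1) (by positivity)
  refine h.congr_fun (fun t ht => ?_) measurableSet_Ioi
  simp only [add_sub_cancel_right, Real.rpow_natCast]
  ring

theorem cone_gamma_integral (k : ℕ) :
    ∫ t, (Set.Ioi (0 : ℝ)).indicator (fun t => t ^ k * Real.exp (-t)) t = (k.factorial : ℝ) := by
  rw [integral_indicator measurableSet_Ioi, ← Real.Gamma_nat_eq_factorial,
    Real.Gamma_eq_integral (by positivity)]
  refine setIntegral_congr_fun measurableSet_Ioi (fun t ht => ?_)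
  simp only [add_sub_cancel_right, Real.rpow_natCast]
  ring

theorem cone_inner_integrable (hK : IsConvexBody K) {G : (Fin (n + 1) → ℝ) → ℝ} {a : ℕ}
    {P : (Fin n → ℝ) → ℝ} (hP : IntegrableOn P K)
    (hG : ∀ t : ℝ, 0 < t → ∀ x ∈ K, G (Fin.cons t (t • x)) = t ^ a * P x) (t : ℝ) :
    Integrable (fun y : Fin n → ℝ => G (Fin.cons t y) * coneDensity K (Fin.cons t y)) := by
  rcases le_or_gt t 0 with ht | ht
  · simp only [cone_density_cons_of_nonpos ht, mul_zero]
    exact integrable_zero _ _ _
  · simp only [cone_slice hG ht]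
    have h1 : Integrable (K.indicator fun x => t ^ a * (Real.exp (-t) / coneConst K) * P x) :=
      IntegrableOn.integrable_indicator (Integrable.const_mul hP _) hK.1.measurableSet
    exact (integrable_comp_smul_iff volume _ (inv_ne_zero ht.ne')).mpr h1

theorem cone_inner (hK : IsConvexBody K) {G : (Fin (n + 1) → ℝ) → ℝ} {a : ℕ}
    {P : (Fin n → ℝ) → ℝ}
    (hG : ∀ t : ℝ, 0 < t → ∀ x ∈ K, G (Fin.cons t (t • x)) = t ^ a * P x) (t : ℝ) :
    ∫ y : Fin n → ℝ, G (Fin.cons t y) * coneDensity K (Fin.cons t y) =
      (Set.Ioi (0 : ℝ)).indicator (fun t => t ^ (n + a) * Real.exp (-t)) t *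
        ((coneConst K)⁻¹ * ∫ x in K, P x) := by
  rcases le_or_gt t 0 with ht | ht
  · simp only [cone_density_cons_of_nonpos ht, mul_zero, integral_zero]
    rw [Set.indicator_of_notMem (by simpa using ht), zero_mul]
  · simp only [cone_slice hG ht]
    rw [Measure.integral_comp_inv_smul, integral_indicator hK.1.measurableSet,
      integral_const_mul, Set.indicator_of_mem (Set.mem_Ioi.mpr ht), Module.finrank_fin_fun,
      abs_of_pos (pow_pos ht n), smul_eq_mul, pow_add]
    ring

/-- (G3) master integral formula: `y = t x`, Fubini, Gamma integral. -/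
theorem cone_integral (hK : IsConvexBody K) (G : (Fin (n + 1) → ℝ) → ℝ) (hGm : Measurable G)
    (a : ℕ) (P : (Fin n → ℝ) → ℝ) (hP : IntegrableOn P K)
    (hG : ∀ t : ℝ, 0 < t → ∀ x ∈ K, G (Fin.cons t (t • x)) = t ^ a * P x) :
    Integrable (fun z => G z * coneDensity K z) ∧
      ∫ z, G z * coneDensity K z =
        ((n + a).factorial : ℝ) / n.factorial * ((volume K).toReal⁻¹ * ∫ x in K, P x) := by
  have hc := cone_const_pos hK
  have hv := cone_vol_pos hK
  set H : (Fin (n + 1) → ℝ) → ℝ := fun z => G z * coneDensity K z with hH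
  have hHm : Measurable H := hGm.mul (cone_measurable hK)
  have mp := (volume_preserving_piFinSuccAbove (fun _ : Fin (n + 1) => ℝ) 0).symm
  set e := (MeasurableEquiv.piFinSuccAbove (fun _ : Fin (n + 1) => ℝ) 0).symm with he
  have hecons : ∀ p : ℝ × (Fin n → ℝ), e p = Fin.cons p.1 p.2 := by
    intro p
    simp [he, MeasurableEquiv.piFinSuccAbove_symm_apply, Fin.insertNthEquiv]
  have hnn : ∀ z, 0 ≤ coneDensity K z := by
    intro z
    unfold coneDensity
    exact Set.indicator_nonneg (fun z _ => div_nonneg (Real.exp_pos _).le hc.le) z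
  have hGabs : ∀ t : ℝ, 0 < t → ∀ x ∈ K, |G (Fin.cons t (t • x))| = t ^ a * |P x| := by
    intro t ht x hx
    rw [hG t ht x hx, abs_mul, abs_of_pos (pow_pos ht a)]
  have hint : Integrable (fun p : ℝ × (Fin n → ℝ) => H (e p)) (volume.prod volume) := by
    have hm : AEStronglyMeasurable (fun p : ℝ × (Fin n → ℝ) => H (e p)) (volume.prod volume) :=
      (hHm.comp e.measurable).aestronglyMeasurable
    rw [integrable_prod_iff hm]
    constructor
    · refine Filter.Eventually.of_forall fun t => ?_
      simp only [hecons, hH]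
      exact cone_inner_integrable hK hP hG t
    · have : (fun t : ℝ => ∫ y : Fin n → ℝ, ‖H (e (t, y))‖) = fun t =>
          (Set.Ioi (0 : ℝ)).indicator (fun t => t ^ (n + a) * Real.exp (-t)) t *
            ((coneConst K)⁻¹ * ∫ x in K, |P x|) := by
        funext t
        rw [← cone_inner hK (G := fun z => |G z|) (P := fun x => |P x|) hGabs t]
        refine integral_congr_ae (Filter.Eventually.of_forall fun y => ?_)
        simp only [hecons, hH, Real.norm_eq_abs, abs_mul, abs_of_nonneg (hnn _)]
      rw [this]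
      exact (cone_gamma_integrable (n + a)).mul_const _
  constructor
  · exact (mp.integrable_comp_emb e.measurableEmbedding).mp hint
  · rw [← mp.integral_comp' H, Measure.volume_eq_prod, integral_prod _ hint]
    simp only [hecons, hH]
    simp only [cone_inner hK hG]
    rw [integral_mul_const, cone_gamma_integral]
    unfold coneConst
    have hf : (n.factorial : ℝ) ≠ 0 := by exact_mod_cast n.factorial_ne_zero
    field_simp

end Claimed.Agent.R260
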