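/-
Row 260, package G (paper Section 7), leaf G11: over a simplex the cone density is an affine
exponential product.  Owner: helper213.
-/
import Claimed.Agent.R260.ConeInt

set_option autoImplicit false

namespace Claimed.Agent.R260

open MeasureTheory Claims.C0428 Claims.C0429

variable {n : ℕ}

/-- convex hull of a finite family, with weights on the whole index type -/
theorem coneEq_mem_convexHull_range {ι : Type*} [Fintype ι] {E : Type*} [AddCommGroup E]
    [Module ℝ E] (v : ι → E) (x : E) :
    x ∈ convexHull ℝ (Set.range v) ↔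
      ∃ w : ι → ℝ, (∀ i, 0 ≤ w i) ∧ ∑ i, w i = 1 ∧ ∑ i, w i • v i = x := by
  classical
  constructor
  · intro hx
    rw [convexHull_range_eq_exists_affineCombination] at hx
    obtain ⟨s, w, hw0, hw1, hx⟩ := hx
    rw [Finset.affineCombination_eq_linear_combination s v w hw1] at hx
    refine ⟨fun i => if i ∈ s then w i else 0, fun i => ?_, ?_, ?_⟩
    · by_cases hi : i ∈ s
      · simpa [hi] using hw0 i hi
      · simp [hi]
    · simpa [Finset.sum_ite_mem] using hw1
    · simpa [ite_smul, Finset.sum_ite_mem] using hx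
  · rintro ⟨w, hw0, hw1, hx⟩
    exact mem_convexHull_of_exists_fintype w v hw0 hw1 (fun i => Set.mem_range_self i) hx

/-- the matrix with columns `(1, v i)` -/
def coneEqMat (v : Fin (n + 1) → (Fin n → ℝ)) : Matrix (Fin (n + 1)) (Fin (n + 1)) ℝ :=
  Matrix.of fun j i => (Fin.cons 1 (v i) : Fin (n + 1) → ℝ) j

theorem coneEqMat_mulVec_zero (v : Fin (n + 1) → (Fin n → ℝ)) (u : Fin (n + 1) → ℝ) :
    (coneEqMat v).mulVec u 0 = ∑ i, u i := by
  simp [coneEqMat, Matrix.mulVec, dotProduct]

theorem coneEqMat_mulVec_tail (v : Fin (n + 1) → (Fin n → ℝ)) (u : Fin (n + 1) → ℝ) :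
    Fin.tail ((coneEqMat v).mulVec u) = ∑ i, u i • v i := by
  funext j
  simp [coneEqMat, Matrix.mulVec, dotProduct, Fin.tail, mul_comm]

theorem coneEqMat_det_ne_zero (v : Fin (n + 1) → (Fin n → ℝ)) (hv : AffineIndependent ℝ v) :
    (coneEqMat v).det ≠ 0 := by
  intro hdet
  obtain ⟨u, hu0, hu⟩ := Matrix.exists_mulVec_eq_zero_iff.2 hdet
  apply hu0
  have h0 : ∑ i, u i = 0 := by rw [← coneEqMat_mulVec_zero v u, hu]; rfl
  have h1 : ∑ i, u i • v i = 0 := by rw [← coneEqMat_mulVec_tail v u, hu]; rfl
  funext i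
  exact affineIndependent_iff.1 hv Finset.univ u h0 h1 i (Finset.mem_univ i)

/-- away from the apex, the cone over the simplex is the image of the closed orthant -/
theorem coneEq_mem_coneSet_iff (v : Fin (n + 1) → (Fin n → ℝ)) (hv : AffineIndependent ℝ v)
    (y : Fin (n + 1) → ℝ) (hy : y ≠ 0) :
    y ∈ coneSet (convexHull ℝ (Set.range v)) ↔ ∀ i, 0 ≤ ((coneEqMat v)⁻¹.mulVec y) i := by
  have hdet := coneEqMat_det_ne_zero v hv
  have hunit : IsUnit (coneEqMat v).det := isUnit_iff_ne_zero.2 hdet
  set u := (coneEqMat v)⁻¹.mulVec y with hu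
  have hMu : (coneEqMat v).mulVec u = y := by
    rw [hu, Matrix.mulVec_mulVec, Matrix.mul_nonsing_inv _ hunit, Matrix.one_mulVec]
  have hy0 : y 0 = ∑ i, u i := by rw [← hMu, coneEqMat_mulVec_zero]
  have hyt : Fin.tail y = ∑ i, u i • v i := by rw [← hMu, coneEqMat_mulVec_tail]
  constructor
  · rintro ⟨hpos, hmem⟩
    obtain ⟨w, hw0, hw1, hw⟩ := (coneEq_mem_convexHull_range v _).1 hmem
    have hyw : (coneEqMat v).mulVec (fun i => y 0 * w i) = y := by
      funext j
      refine Fin.cases ?_ (fun k => ?_) j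
      · rw [coneEqMat_mulVec_zero, ← Finset.mul_sum, hw1, mul_one]
      · have h1 := congrFun (coneEqMat_mulVec_tail v (fun i => y 0 * w i)) k
        have h2 : (∑ i, (y 0 * w i) • v i) = Fin.tail y := by
          simp_rw [mul_smul]
          rw [← Finset.smul_sum, hw, smul_smul, mul_inv_cancel₀ hpos.ne', one_smul]
        rw [h2] at h1
        exact h1
    have huw : u = fun i => y 0 * w i := by
      rw [hu, ← hyw, Matrix.mulVec_mulVec, Matrix.nonsing_inv_mul _ hunit, Matrix.one_mulVec, hyw]
    intro i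
    rw [huw]
    exact mul_nonneg hpos.le (hw0 i)
  · intro hnn
    have hune : u ≠ 0 := by
      intro h0
      apply hy
      rw [← hMu, h0, Matrix.mulVec_zero]
    have hpos : 0 < y 0 := by
      rw [hy0]
      obtain ⟨i, hi⟩ := Function.ne_iff.1 hune
      exact Finset.sum_pos' (fun i _ => hnn i) ⟨i, Finset.mem_univ i, lt_of_le_of_ne (hnn i) (Ne.symm hi)⟩
    refine ⟨hpos, (coneEq_mem_convexHull_range v _).2
      ⟨fun i => (y 0)⁻¹ * u i, fun i => mul_nonneg (inv_nonneg.2 hpos.le) (hnn i), ?_, ?_⟩⟩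
    · rw [← Finset.mul_sum, ← hy0, inv_mul_cancel₀ hpos.ne']
    · simp_rw [mul_smul]
      rw [← Finset.smul_sum, ← hyt]

theorem coneEq_prod_oneSided (u : Fin (n + 1) → ℝ) :
    ∏ i, oneSidedExpDensity (u i) = if ∀ i, 0 ≤ u i then Real.exp (-∑ i, u i) else 0 := by
  split_ifs with h
  · rw [← Finset.sum_neg_distrib, Real.exp_sum]
    refine Finset.prod_congr rfl fun i _ => ?_
    simp [oneSidedExpDensity, h i]
  · push Not at h
    obtain ⟨i, hi⟩ := h
    refine Finset.prod_eq_zero (Finset.mem_univ i) ?_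
    simp [oneSidedExpDensity, not_le.2 hi]

theorem coneEq_integral_oneSided : ∫ u : ℝ, oneSidedExpDensity u = 1 := by
  have h : (fun u : ℝ => oneSidedExpDensity u) =
      (Set.Ici (0 : ℝ)).indicator fun u => Real.exp (-u) := by
    funext u
    by_cases hu : 0 ≤ u
    · simp [oneSidedExpDensity, hu]
    · simp [oneSidedExpDensity, hu]
  rw [h, integral_indicator measurableSet_Ici, integral_Ici_eq_integral_Ioi,
    integral_exp_neg_Ioi_zero]

theorem coneEq_measurable_oneSided : Measurable oneSidedExpDensity := by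
  unfold oneSidedExpDensity
  exact Measurable.ite measurableSet_Ici (by fun_prop) measurable_const

/-- an affine exponential product density has integral one -/
theorem coneEq_integral_affineExp {m : ℕ} (M : Matrix (Fin m) (Fin m) ℝ) (hM : M.det ≠ 0)
    (b : Fin m → ℝ) : ∫ y, affineExpProductDensity M b y = 1 := by
  set g : (Fin m → ℝ) → ℝ := fun u => ∏ i, oneSidedExpDensity (u i) with hg
  have hgm : Measurable g :=
    Finset.measurable_prod _ fun i _ => coneEq_measurable_oneSided.comp (measurable_pi_apply i)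
  have hgint : ∫ u, g u = 1 := by
    rw [hg, integral_fintype_prod_volume_eq_prod (fun _ : Fin m => oneSidedExpDensity)]
    simp [coneEq_integral_oneSided]
  have hdN : (M⁻¹).det = (M.det)⁻¹ := by
    rw [Matrix.det_nonsing_inv, Ring.inverse_eq_inv']
  have hN : (M⁻¹).det ≠ 0 := by rw [hdN]; exact inv_ne_zero hM
  have hmap := Real.map_matrix_volume_pi_eq_smul_volume_pi hN
  rw [hdN, inv_inv] at hmap
  have h1 : ∫ y, g (M⁻¹.mulVec y) = |M.det| := by
    have h2 : ∫ u, g u ∂(Measure.map (Matrix.toLin' M⁻¹) volume) = ∫ y, g (M⁻¹.mulVec y) :=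
      integral_map (Matrix.toLin' M⁻¹).continuous_of_finiteDimensional.measurable.aemeasurable
        hgm.aestronglyMeasurable
    rw [← h2, hmap, integral_smul_measure, hgint, ENNReal.toReal_ofReal (abs_nonneg _)]
    simp
  have h3 : ∫ y, g (M⁻¹.mulVec (y - b)) = |M.det| := by
    rw [← h1]
    exact integral_sub_right_eq_self (fun y => g (M⁻¹.mulVec y)) b
  unfold affineExpProductDensity
  rw [integral_const_mul]
  have h4 : ∫ y, ∏ i, oneSidedExpDensity ((M⁻¹.mulVec (y - b)) i) = |M.det| := h3
  rw [h4, inv_mul_cancel₀ (abs_ne_zero.2 hM)]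

/-- (G11) over a simplex the cone density is an affine exponential product. -/
theorem coneEq_ae_of_simplex {K : Set (Fin n → ℝ)} (hK : IsConvexBody K) (hS : IsSimplexIn K) :
    ∃ (M : Matrix (Fin (n + 1)) (Fin (n + 1)) ℝ) (b : Fin (n + 1) → ℝ), M.det ≠ 0 ∧
      coneDensity K =ᵐ[volume] affineExpProductDensity M b := by
  obtain ⟨v, hv, hKv⟩ := hS
  have hdet := coneEqMat_det_ne_zero v hv
  refine ⟨coneEqMat v, 0, hdet, ?_⟩
  set M := coneEqMat v with hM
  set E : (Fin (n + 1) → ℝ) → ℝ := (coneSet K).indicator fun z => Real.exp (-(z 0)) with hE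
  have hunit : IsUnit M.det := isUnit_iff_ne_zero.2 hdet
  -- the two densities in terms of `E`
  have hcone : ∀ y, coneDensity K y = E y / coneConst K := by
    intro y
    by_cases hy : y ∈ coneSet K
    · simp [coneDensity, hE, hy]
    · simp [coneDensity, hE, hy]
  have hne : ∀ᵐ y : Fin (n + 1) → ℝ, y ≠ 0 := by
    rw [ae_iff]; simp
  have haff : ∀ y : Fin (n + 1) → ℝ, y ≠ 0 → affineExpProductDensity M 0 y = |M.det|⁻¹ * E y := by
    intro y hy
    unfold affineExpProductDensity
    rw [sub_zero, coneEq_prod_oneSided]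
    congr 1
    have hiff := coneEq_mem_coneSet_iff v hv y hy
    rw [← hKv] at hiff
    have hy0 : y 0 = ∑ i, (M⁻¹.mulVec y) i := by
      rw [← coneEqMat_mulVec_zero v, ← hM, Matrix.mulVec_mulVec, Matrix.mul_nonsing_inv _ hunit,
        Matrix.one_mulVec]
    by_cases hmem : y ∈ coneSet K
    · rw [if_pos (hiff.1 hmem), hE, Set.indicator_of_mem hmem, hy0]
    · rw [if_neg (fun h => hmem (hiff.2 h)), hE, Set.indicator_of_notMem hmem]
  -- both integrate to one
  have hI1 : (∫ y, E y) / coneConst K = 1 := by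
    have h := (cone_integral hK (fun _ => 1) measurable_const 0 (fun _ => 1)
      (integrableOn_const (hK.1.measure_lt_top.ne)) (by intros; simp)).2
    have hvol := cone_vol_pos hK
    have h2 : ∫ z, (1 : ℝ) * coneDensity K z = 1 := by
      rw [h]
      have hfac : ((n + 0).factorial : ℝ) / n.factorial = 1 := by
        rw [add_zero]; exact div_self (by positivity)
      rw [hfac, one_mul]
      simp only [integral_const, smul_eq_mul, mul_one, MeasurableSet.univ, measureReal_restrict_apply,
        Set.univ_inter]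
      exact inv_mul_cancel₀ hvol.ne'
    rw [← integral_div]
    simpa [hcone] using h2
  have hI2 : |M.det|⁻¹ * ∫ y, E y = 1 := by
    rw [← integral_const_mul, ← coneEq_integral_affineExp M hdet 0]
    refine integral_congr_ae ?_
    filter_upwards [hne] with y hy
    exact (haff y hy).symm
  have hc : coneConst K = |M.det| := by
    have hc0 : coneConst K ≠ 0 := by
      intro h0; rw [h0, div_zero] at hI1; exact zero_ne_one hI1
    have h1 : ∫ y, E y = coneConst K := by
      rwa [div_eq_one_iff_eq hc0] at hI1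
    have h2 : ∫ y, E y = |M.det| := by
      have := abs_ne_zero.2 hdet
      field_simp at hI2
      exact hI2
    rw [← h1, h2]
  filter_upwards [hne] with y hy
  rw [hcone, haff y hy, hc, div_eq_inv_mul]

end Claimed.Agent.R260
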