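/-
Row 260, package G (paper Section 7), leaf G2: the cone density is a log-concave probability
density.  Owner: helper128.
-/
import Claimed.Agent.R260.ConeInt

set_option autoImplicit false

namespace Claimed.Agent.R260

open MeasureTheory Claims.C0428 Claims.C0429

variable {n : ℕ} {K : Set (Fin n → ℝ)}

theorem coneLC_nonneg (hK : IsConvexBody K) (z : Fin (n + 1) → ℝ) : 0 ≤ coneDensity K z := by
  unfold coneDensity
  exact Set.indicator_nonneg (fun z _ => div_nonneg (Real.exp_pos _).le (cone_const_pos hK).le) z

theorem coneLC_support (hK : IsConvexBody K) : {z | 0 < coneDensity K z} = coneSet K := by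
  ext z
  simp only [Set.mem_ofPred_eq, coneDensity]
  by_cases hz : z ∈ coneSet K
  · rw [Set.indicator_of_mem hz]
    exact iff_of_true (div_pos (Real.exp_pos _) (cone_const_pos hK)) hz
  · rw [Set.indicator_of_notMem hz]
    exact iff_of_false (lt_irrefl 0) hz

theorem coneLC_integral (hK : IsConvexBody K) : ∫ z, coneDensity K z = 1 := by
  have h := (cone_integral hK (fun _ => 1) measurable_const 0 (fun _ => 1)
    (integrableOn_const hK.1.measure_lt_top.ne) (fun t _ x _ => by simp)).2
  simp only [one_mul, add_zero] at h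
  rw [h, setIntegral_const]
  have hv := cone_vol_pos hK
  have hf : (n.factorial : ℝ) ≠ 0 := by exact_mod_cast n.factorial_ne_zero
  simp only [smul_eq_mul, mul_one, Measure.real]
  rw [div_self hf, one_mul, inv_mul_cancel₀ hv.ne']

theorem coneLC_convex (hK : IsConvexBody K) : Convex ℝ (coneSet K) := by
  intro z hz w hw a b ha hb hab
  obtain ⟨hz0, hzK⟩ := hz
  obtain ⟨hw0, hwK⟩ := hw
  have hs : 0 < a * z 0 + b * w 0 := by
    rcases ha.eq_or_lt with rfl | ha'
    · have : b = 1 := by linarith
      subst this
      simpa using hw0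
    · have h1 : 0 < a * z 0 := mul_pos ha' hz0
      have h2 : 0 ≤ b * w 0 := mul_nonneg hb hw0.le
      linarith
  refine ⟨by simpa using hs, ?_⟩
  have h0 : (a • z + b • w) 0 = a * z 0 + b * w 0 := by simp
  rw [h0]
  set s := a * z 0 + b * w 0 with hsdef
  have hcomb : s⁻¹ • Fin.tail (a • z + b • w)
      = (a * z 0 / s) • ((z 0)⁻¹ • Fin.tail z) + (b * w 0 / s) • ((w 0)⁻¹ • Fin.tail w) := by
    funext i
    simp only [Fin.tail, Pi.smul_apply, Pi.add_apply, smul_eq_mul]
    field_simp
  rw [hcomb]
  refine hK.2.1 hzK hwK (by positivity) (by positivity) ?_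
  rw [← add_div, div_self hs.ne']

theorem coneLC_log (hK : IsConvexBody K) {z : Fin (n + 1) → ℝ} (hz : z ∈ coneSet K) :
    Real.log (coneDensity K z) = -(z 0) - Real.log (coneConst K) := by
  unfold coneDensity
  rw [Set.indicator_of_mem hz, Real.log_div (Real.exp_pos _).ne' (cone_const_pos hK).ne',
    Real.log_exp]

/-- (G2) the cone density is a log-concave probability density. -/
theorem coneLC_isLogConcave (hK : IsConvexBody K) : IsLogConcaveDensityOn (coneDensity K) := by
  refine ⟨cone_measurable hK, coneLC_nonneg hK, coneLC_integral hK, ?_, ?_⟩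
  · rw [coneLC_support hK]
    exact coneLC_convex hK
  · rw [coneLC_support hK]
    refine ⟨coneLC_convex hK, ?_⟩
    intro z hz w hw a b ha hb hab
    have hm := coneLC_convex hK hz hw ha hb hab
    simp only [coneLC_log hK hz, coneLC_log hK hw, coneLC_log hK hm, smul_eq_mul, Pi.add_apply,
      Pi.smul_apply]
    have : Real.log (coneConst K) = (a + b) * Real.log (coneConst K) := by rw [hab, one_mul]
    nlinarith [this]

end Claimed.Agent.R260
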