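/-
Row 260, package G (paper Section 7): entropy (G4) and covariance (G6) of the cone density, from
the master integral formula `cone_integral`.  Owner: helper223.
-/
import Claimed.Agent.R260.ConeInt

set_option autoImplicit false

namespace Claimed.Agent.R260

open MeasureTheory Claims.C0428 Claims.C0429

variable {n : ℕ} {K : Set (Fin n → ℝ)}

/-- Linearity of the integral for the four-term expansion of a covariance integrand. -/
theorem coneMom_lin {α : Type*} [MeasurableSpace α] (μ : Measure α) (A B C D : α → ℝ)
    (a b c : ℝ) (hA : Integrable A μ) (hB : Integrable B μ) (hC : Integrable C μ)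
    (hD : Integrable D μ) :
    ∫ x, (A x - b * B x - a * C x + c * D x) ∂μ =
      ∫ x, A x ∂μ - b * ∫ x, B x ∂μ - a * ∫ x, C x ∂μ + c * ∫ x, D x ∂μ := by
  have h1 : Integrable (fun x => A x - b * B x) μ := hA.sub (hB.const_mul b)
  have h2 : Integrable (fun x => A x - b * B x - a * C x) μ := h1.sub (hC.const_mul a)
  rw [integral_add h2 (hD.const_mul c), integral_sub h1 (hC.const_mul a),
    integral_sub hA (hB.const_mul b), integral_const_mul, integral_const_mul,
    integral_const_mul]

/-- Covariance = second moment minus product of the means. -/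
theorem coneMom_cov_expand {m : ℕ} (f : (Fin m → ℝ) → ℝ) (i j : Fin m)
    (h0 : Integrable f) (h1 : ∫ x, f x = 1)
    (hi : Integrable fun x => x i * f x) (hj : Integrable fun x => x j * f x)
    (hij : Integrable fun x => x i * x j * f x) :
    densityCov f i j = (∫ x, x i * x j * f x) - densityMean f i * densityMean f j := by
  have hmi : densityMean f i = ∫ x, x i * f x := rfl
  have hmj : densityMean f j = ∫ x, x j * f x := rfl
  unfold densityCov
  set a := densityMean f i with ha
  set b := densityMean f j with hb
  have hexp : ∀ x : Fin m → ℝ, (x i - a) * (x j - b) * f x =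
      x i * x j * f x - b * (x i * f x) - a * (x j * f x) + a * b * f x := by
    intro x; ring
  simp_rw [hexp]
  rw [coneMom_lin volume (fun x => x i * x j * f x) (fun x => x i * f x) (fun x => x j * f x) f
    a b (a * b) hij hi hj h0, h1, ← hmi, ← hmj]
  ring

theorem coneMom_measurableSet (hK : IsConvexBody K) : MeasurableSet K :=
  hK.1.measurableSet

theorem coneMom_integrableOn_of_continuous (hK : IsConvexBody K) {P : (Fin n → ℝ) → ℝ}
    (hP : Continuous P) : IntegrableOn P K :=
  hP.continuousOn.integrableOn_compact hK.1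

theorem coneMom_vol_ne_top (hK : IsConvexBody K) : volume K ≠ ⊤ :=
  hK.1.measure_lt_top.ne

theorem coneMom_setIntegral_one (hK : IsConvexBody K) :
    (volume K).toReal⁻¹ * ∫ _x in K, (1 : ℝ) = 1 := by
  have hv := cone_vol_pos hK
  rw [setIntegral_const]
  simp only [smul_eq_mul, mul_one]
  exact inv_mul_cancel₀ hv.ne'

/-- Body covariance = second moment minus product of the centroids. -/
theorem coneMom_bodyCov_expand (hK : IsConvexBody K) (i j : Fin n) :
    bodyCovariance K i j = (volume K).toReal⁻¹ * (∫ x in K, x i * x j) -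
      bodyCentroid K i * bodyCentroid K j := by
  have hv := cone_vol_pos hK
  have hci : bodyCentroid K i = (volume K).toReal⁻¹ * ∫ x in K, x i := rfl
  have hcj : bodyCentroid K j = (volume K).toReal⁻¹ * ∫ x in K, x j := rfl
  have h1 := coneMom_setIntegral_one hK
  have hIi : IntegrableOn (fun x : Fin n → ℝ => x i) K :=
    coneMom_integrableOn_of_continuous hK (continuous_apply i)
  have hIj : IntegrableOn (fun x : Fin n → ℝ => x j) K :=
    coneMom_integrableOn_of_continuous hK (continuous_apply j)
  have hIij : IntegrableOn (fun x : Fin n → ℝ => x i * x j) K :=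
    coneMom_integrableOn_of_continuous hK ((continuous_apply i).mul (continuous_apply j))
  have hI1 : IntegrableOn (fun _ : Fin n → ℝ => (1 : ℝ)) K :=
    coneMom_integrableOn_of_continuous hK continuous_const
  unfold bodyCovariance
  set a := bodyCentroid K i with ha
  set b := bodyCentroid K j with hb
  have hexp : ∀ x : Fin n → ℝ, (x i - a) * (x j - b) =
      x i * x j - b * x i - a * x j + a * b * 1 := by
    intro x; ring
  simp_rw [hexp]
  rw [coneMom_lin (volume.restrict K) (fun x => x i * x j) (fun x => x i) (fun x => x j)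
    (fun _ => (1 : ℝ)) a b (a * b) hIij hIi hIj hI1]
  generalize (∫ x in K, x i * x j) = Iij at *
  generalize (∫ x in K, x i) = Ii at *
  generalize (∫ x in K, x j) = Ij at *
  generalize (∫ _x in K, (1 : ℝ)) = I1 at *
  have e1 : (volume K).toReal⁻¹ * (Iij - b * Ii - a * Ij + a * b * I1) =
      (volume K).toReal⁻¹ * Iij - b * ((volume K).toReal⁻¹ * Ii) - a * ((volume K).toReal⁻¹ * Ij)
        + a * b * ((volume K).toReal⁻¹ * I1) := by ring
  rw [e1, h1, ← hci, ← hcj]
  ring

theorem coneMom_fact1 (n : ℕ) : ((n + 1).factorial : ℝ) / n.factorial = (n : ℝ) + 1 := by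
  have h : (n.factorial : ℝ) ≠ 0 := by exact_mod_cast n.factorial_ne_zero
  rw [Nat.factorial_succ]
  push_cast
  field_simp

theorem coneMom_fact2 (n : ℕ) :
    ((n + 2).factorial : ℝ) / n.factorial = ((n : ℝ) + 1) * ((n : ℝ) + 2) := by
  have h : (n.factorial : ℝ) ≠ 0 := by exact_mod_cast n.factorial_ne_zero
  rw [Nat.factorial_succ, Nat.factorial_succ]
  push_cast
  field_simp
  ring

/-- zeroth moment -/
theorem coneMom_m0 (hK : IsConvexBody K) :
    Integrable (coneDensity K) ∧ ∫ z, coneDensity K z = 1 := by
  have h := cone_integral hK (fun _ => (1 : ℝ)) measurable_const 0 (fun _ => (1 : ℝ))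
    (coneMom_integrableOn_of_continuous hK continuous_const) (by intro t _ x _; simp)
  simp only [one_mul, add_zero] at h
  refine ⟨h.1, ?_⟩
  rw [h.2, coneMom_setIntegral_one hK]
  have h : (n.factorial : ℝ) ≠ 0 := by exact_mod_cast n.factorial_ne_zero
  field_simp

/-- first moment, height -/
theorem coneMom_mt (hK : IsConvexBody K) :
    Integrable (fun z => z 0 * coneDensity K z) ∧ ∫ z, z 0 * coneDensity K z = (n : ℝ) + 1 := by
  have h := cone_integral hK (fun z => z 0) (measurable_pi_apply 0) 1 (fun _ => (1 : ℝ))
    (coneMom_integrableOn_of_continuous hK continuous_const) (by intro t _ x _; simp)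
  refine ⟨h.1, ?_⟩
  rw [h.2, coneMom_setIntegral_one hK, coneMom_fact1, mul_one]

/-- first moment, base -/
theorem coneMom_mx (hK : IsConvexBody K) (i : Fin n) :
    Integrable (fun z => z i.succ * coneDensity K z) ∧
      ∫ z, z i.succ * coneDensity K z = ((n : ℝ) + 1) * bodyCentroid K i := by
  have h := cone_integral hK (fun z => z i.succ) (measurable_pi_apply _) 1 (fun x => x i)
    (coneMom_integrableOn_of_continuous hK (continuous_apply i)) (by intro t _ x _; simp)
  refine ⟨h.1, ?_⟩
  rw [h.2, coneMom_fact1]
  rfl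

/-- second moment, height-height -/
theorem coneMom_mtt (hK : IsConvexBody K) :
    Integrable (fun z => z 0 * z 0 * coneDensity K z) ∧
      ∫ z, z 0 * z 0 * coneDensity K z = ((n : ℝ) + 1) * ((n : ℝ) + 2) := by
  have h := cone_integral hK (fun z => z 0 * z 0)
    ((measurable_pi_apply 0).mul (measurable_pi_apply 0)) 2 (fun _ => (1 : ℝ))
    (coneMom_integrableOn_of_continuous hK continuous_const)
    (by intro t _ x _; simp; ring)
  refine ⟨h.1, ?_⟩
  rw [h.2, coneMom_setIntegral_one hK, coneMom_fact2, mul_one]

/-- second moment, height-base -/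
theorem coneMom_mtx (hK : IsConvexBody K) (i : Fin n) :
    Integrable (fun z => z 0 * z i.succ * coneDensity K z) ∧
      ∫ z, z 0 * z i.succ * coneDensity K z =
        ((n : ℝ) + 1) * ((n : ℝ) + 2) * bodyCentroid K i := by
  have h := cone_integral hK (fun z => z 0 * z i.succ)
    ((measurable_pi_apply 0).mul (measurable_pi_apply _)) 2 (fun x => x i)
    (coneMom_integrableOn_of_continuous hK (continuous_apply i))
    (by intro t _ x _; simp; ring)
  refine ⟨h.1, ?_⟩
  rw [h.2, coneMom_fact2]
  rfl

/-- second moment, base-base -/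
theorem coneMom_mxx (hK : IsConvexBody K) (i j : Fin n) :
    Integrable (fun z => z i.succ * z j.succ * coneDensity K z) ∧
      ∫ z, z i.succ * z j.succ * coneDensity K z =
        ((n : ℝ) + 1) * ((n : ℝ) + 2) * ((volume K).toReal⁻¹ * ∫ x in K, x i * x j) := by
  have h := cone_integral hK (fun z => z i.succ * z j.succ)
    ((measurable_pi_apply _).mul (measurable_pi_apply _)) 2 (fun x => x i * x j)
    (coneMom_integrableOn_of_continuous hK ((continuous_apply i).mul (continuous_apply j)))
    (by intro t _ x _; simp; ring)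
  refine ⟨h.1, ?_⟩
  rw [h.2, coneMom_fact2]

theorem coneMom_mean0 (hK : IsConvexBody K) : densityMean (coneDensity K) 0 = (n : ℝ) + 1 :=
  (coneMom_mt hK).2

theorem coneMom_meanS (hK : IsConvexBody K) (i : Fin n) :
    densityMean (coneDensity K) i.succ = ((n : ℝ) + 1) * bodyCentroid K i :=
  (coneMom_mx hK i).2

/-- (G6) covariance of the cone density. -/
theorem coneMom_cov (hK : IsConvexBody K) :
    densityCov (coneDensity K) 0 0 = (n : ℝ) + 1 ∧
    (∀ j : Fin n, densityCov (coneDensity K) 0 j.succ = ((n : ℝ) + 1) * bodyCentroid K j) ∧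
    (∀ i : Fin n, densityCov (coneDensity K) i.succ 0 = ((n : ℝ) + 1) * bodyCentroid K i) ∧
    ∀ i j : Fin n, densityCov (coneDensity K) i.succ j.succ =
      ((n : ℝ) + 1) * ((n : ℝ) + 2) * bodyCovariance K i j +
        ((n : ℝ) + 1) * (bodyCentroid K i * bodyCentroid K j) := by
  obtain ⟨h0, h1⟩ := coneMom_m0 hK
  refine ⟨?_, ?_, ?_, ?_⟩
  · rw [coneMom_cov_expand _ 0 0 h0 h1 (coneMom_mt hK).1 (coneMom_mt hK).1 (coneMom_mtt hK).1,
      (coneMom_mtt hK).2, coneMom_mean0 hK]
    ring
  · intro j
    rw [coneMom_cov_expand _ 0 j.succ h0 h1 (coneMom_mt hK).1 (coneMom_mx hK j).1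
      (coneMom_mtx hK j).1, (coneMom_mtx hK j).2, coneMom_mean0 hK, coneMom_meanS hK]
    ring
  · intro i
    have hI : Integrable (fun z : Fin (n + 1) → ℝ => z i.succ * z 0 * coneDensity K z) := by
      refine (coneMom_mtx hK i).1.congr (Filter.Eventually.of_forall fun z => ?_)
      simp only []
      ring
    have hE : ∫ z : Fin (n + 1) → ℝ, z i.succ * z 0 * coneDensity K z =
        ∫ z : Fin (n + 1) → ℝ, z 0 * z i.succ * coneDensity K z := by
      refine integral_congr_ae (Filter.Eventually.of_forall fun z => ?_)
      simp only []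
      ring
    rw [coneMom_cov_expand _ i.succ 0 h0 h1 (coneMom_mx hK i).1 (coneMom_mt hK).1 hI, hE,
      (coneMom_mtx hK i).2, coneMom_mean0 hK, coneMom_meanS hK]
    ring
  · intro i j
    rw [coneMom_cov_expand _ i.succ j.succ h0 h1 (coneMom_mx hK i).1 (coneMom_mx hK j).1
      (coneMom_mxx hK i j).1, (coneMom_mxx hK i j).2, coneMom_meanS hK, coneMom_meanS hK,
      coneMom_bodyCov_expand hK i j]
    ring

theorem coneMom_const_pos (hK : IsConvexBody K) : 0 < coneConst K := by
  have hv := cone_vol_pos hK
  unfold coneConst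
  positivity

/-- (G4) entropy of the cone density. -/
theorem coneMom_entropy (hK : IsConvexBody K) :
    diffEntropy (coneDensity K) = (n : ℝ) + 1 + Real.log (coneConst K) := by
  obtain ⟨h0, h1⟩ := coneMom_m0 hK
  obtain ⟨ht, ht1⟩ := coneMom_mt hK
  have hc := coneMom_const_pos hK
  have hpt : ∀ z : Fin (n + 1) → ℝ, coneDensity K z * Real.log (coneDensity K z) =
      -(z 0 * coneDensity K z) - Real.log (coneConst K) * coneDensity K z := by
    intro z
    by_cases hz : z ∈ coneSet K
    · have : coneDensity K z = Real.exp (-(z 0)) / coneConst K := by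
        unfold coneDensity
        rw [Set.indicator_of_mem hz]
      rw [this, Real.log_div (Real.exp_pos _).ne' hc.ne', Real.log_exp]
      ring
    · have : coneDensity K z = 0 := by
        unfold coneDensity
        rw [Set.indicator_of_notMem hz]
      rw [this]
      simp
  unfold diffEntropy
  simp_rw [hpt]
  have htn : Integrable (fun z : Fin (n + 1) → ℝ => -(z 0 * coneDensity K z)) := ht.neg
  rw [integral_sub htn (h0.const_mul _), integral_neg, integral_const_mul, h1, ht1]
  ring

end Claimed.Agent.R260
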