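/-
Row 260, package G (paper Section 7), leaf G8: the covariance matrix of a convex body is positive
definite.  Owner: helper128.
-/
import Claimed.Agent.R260.ConeDefs

set_option autoImplicit false

namespace Claimed.Agent.R260

open MeasureTheory Claims.C0428

variable {n : ℕ} {K : Set (Fin n → ℝ)}

theorem conePD_vol_pos (hK : IsConvexBody K) : 0 < (volume K).toReal := by
  obtain ⟨hc, -, hi⟩ := hK
  refine ENNReal.toReal_pos ?_ hc.measure_lt_top.ne
  exact ((isOpen_interior.measure_pos volume hi).trans_le (measure_mono interior_subset)).ne'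

theorem conePD_integrableOn (hK : IsConvexBody K) (c : Fin n → ℝ) (i j : Fin n) :
    IntegrableOn (fun x : Fin n → ℝ => (x i - c i) * (x j - c j)) K :=
  ContinuousOn.integrableOn_compact hK.1 (by fun_prop)

/-- the quadratic form of the covariance matrix. -/
theorem conePD_quad (hK : IsConvexBody K) (u : Fin n → ℝ) :
    star u ⬝ᵥ (bodyCovariance K).mulVec u
      = (volume K).toReal⁻¹ * ∫ x in K, (∑ i, u i * (x i - bodyCentroid K i)) ^ 2 := by
  set c := bodyCentroid K with hc
  have h1 : ∀ x : Fin n → ℝ, (∑ i, u i * (x i - c i)) ^ 2
      = ∑ i, ∑ j, u i * (u j * ((x i - c i) * (x j - c j))) := by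
    intro x
    rw [sq, Finset.sum_mul_sum]
    refine Finset.sum_congr rfl fun i _ => Finset.sum_congr rfl fun j _ => ?_
    ring
  simp only [h1]
  rw [integral_finsetSum _ fun i _ => integrable_finsetSum _ fun j _ =>
    ((conePD_integrableOn hK c i j).mul_const' _ |>.congr (by
      exact Filter.Eventually.of_forall fun x => by
        show (x i - c i) * (x j - c j) * (u i * u j) = u i * (u j * ((x i - c i) * (x j - c j)))
        ring))]
  simp only [dotProduct, Matrix.mulVec, star_trivial, Finset.mul_sum]
  refine Finset.sum_congr rfl fun i _ => ?_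
  rw [integral_finsetSum _ fun j _ =>
    ((conePD_integrableOn hK c i j).mul_const' _ |>.congr (by
      exact Filter.Eventually.of_forall fun x => by
        show (x i - c i) * (x j - c j) * (u i * u j) = u i * (u j * ((x i - c i) * (x j - c j)))
        ring))]
  rw [Finset.mul_sum]
  refine Finset.sum_congr rfl fun j _ => ?_
  rw [integral_const_mul, integral_const_mul]
  unfold bodyCovariance
  rw [← hc]
  ring

theorem conePD_posDef (hK : IsConvexBody K) : (bodyCovariance K).PosDef := by
  refine Matrix.PosDef.of_dotProduct_mulVec_pos ?_ ?_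
  · ext i j
    simp only [Matrix.conjTranspose_apply, star_trivial, bodyCovariance]
    congr 2
    funext x
    ring
  · intro u hu
    rw [conePD_quad hK u]
    refine mul_pos (inv_pos.2 (conePD_vol_pos hK)) ?_
    set c := bodyCentroid K with hc
    set g : (Fin n → ℝ) → ℝ := fun x => ∑ i, u i * (x i - c i) with hg
    have hgc : Continuous g := by fun_prop
    rw [setIntegral_pos_iff_support_of_nonneg_ae
      (Filter.Eventually.of_forall fun x => sq_nonneg (g x))
      (ContinuousOn.integrableOn_compact hK.1 (by fun_prop))]
    -- an open nonempty subset of the support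
    have hopen : IsOpen (interior K ∩ {x | g x ≠ 0}) :=
      isOpen_interior.inter (isOpen_ne_fun hgc continuous_const)
    have hne : (interior K ∩ {x | g x ≠ 0}).Nonempty := by
      obtain ⟨x0, hx0⟩ := hK.2.2
      by_cases h0 : g x0 = 0
      · -- move in the direction `u`
        have hcont : Continuous fun ε : ℝ => x0 + ε • u := by fun_prop
        have hmem : ∀ᶠ ε : ℝ in nhds 0, x0 + ε • u ∈ interior K := by
          apply hcont.continuousAt.eventually_mem
          simpa using isOpen_interior.mem_nhds hx0
        have hpos : ∀ᶠ ε : ℝ in nhdsWithin 0 (Set.Ioi 0), x0 + ε • u ∈ interior K :=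
          hmem.filter_mono nhdsWithin_le_nhds
        obtain ⟨ε, hε1, hε2⟩ := (hpos.and self_mem_nhdsWithin).exists
        refine ⟨x0 + ε • u, hε1, ?_⟩
        have hsum : 0 < ∑ i, u i * u i := by
          obtain ⟨i, hi⟩ := Function.ne_iff.1 hu
          exact Finset.sum_pos' (fun i _ => mul_self_nonneg _)
            ⟨i, Finset.mem_univ i, mul_self_pos.2 hi⟩
        have hval : g (x0 + ε • u) = g x0 + ε * ∑ i, u i * u i := by
          simp only [hg, Pi.add_apply, Pi.smul_apply, smul_eq_mul, Finset.mul_sum,
            ← Finset.sum_add_distrib]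
          refine Finset.sum_congr rfl fun i _ => ?_
          ring
        show g (x0 + ε • u) ≠ 0
        rw [hval, h0, zero_add]
        exact (mul_pos hε2 hsum).ne'
      · exact ⟨x0, hx0, h0⟩
    refine (hopen.measure_pos volume hne).trans_le (measure_mono ?_)
    rintro x ⟨hx1, hx2⟩
    exact ⟨pow_ne_zero 2 hx2, interior_subset hx1⟩

/-- (G8) the covariance matrix of a convex body has positive determinant. -/
theorem conePD_det_pos (hK : IsConvexBody K) : 0 < (bodyCovariance K).det :=
  (conePD_posDef hK).det_pos

end Claimed.Agent.R260
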