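/-
Row 260, package G (paper Section 7), leaf G9: `rpow` algebra for the isotropic constant of the
simplex.  Owner: helper128.
-/
import Claimed.Agent.R260.ConeDefs

set_option autoImplicit false

namespace Claimed.Agent.R260

open Claims.C0428

theorem coneRpow_root_pow {n : ℕ} (hn : 1 ≤ n) {x : ℝ} (hx : 0 ≤ x) :
    (x ^ ((1 : ℝ) / (2 * n))) ^ (2 * n) = x := by
  have hn' : (n : ℝ) ≠ 0 := by positivity
  rw [← Real.rpow_natCast, ← Real.rpow_mul hx]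
  have : (1 : ℝ) / (2 * n) * ((2 * n : ℕ) : ℝ) = 1 := by
    push_cast
    field_simp
  rw [this, Real.rpow_one]

theorem coneRpow_simplex_pow {n : ℕ} (hn : 1 ≤ n) :
    simplexIsotropicConstant n ^ (2 * n)
      = (n.factorial : ℝ) ^ 2 / (((n : ℝ) + 1) ^ (n + 1) * ((n : ℝ) + 2) ^ n) := by
  have hn' : (n : ℝ) ≠ 0 := by positivity
  have hf : (0 : ℝ) ≤ (n.factorial : ℝ) := by positivity
  have h1 : (0 : ℝ) ≤ (n : ℝ) + 1 := by positivity
  have h2 : (0 : ℝ) ≤ (n : ℝ) + 2 := by positivity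
  unfold simplexIsotropicConstant
  rw [div_pow, mul_pow]
  have e1 : ((n.factorial : ℝ) ^ ((1 : ℝ) / n)) ^ (2 * n) = (n.factorial : ℝ) ^ 2 := by
    rw [← Real.rpow_natCast, ← Real.rpow_mul hf]
    have : (1 : ℝ) / n * ((2 * n : ℕ) : ℝ) = ((2 : ℕ) : ℝ) := by
      push_cast
      field_simp
    rw [this, Real.rpow_natCast]
  have e2 : (((n : ℝ) + 1) ^ (((n : ℝ) + 1) / (2 * n))) ^ (2 * n) = ((n : ℝ) + 1) ^ (n + 1) := by
    rw [← Real.rpow_natCast, ← Real.rpow_mul h1]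
    have : ((n : ℝ) + 1) / (2 * n) * ((2 * n : ℕ) : ℝ) = ((n + 1 : ℕ) : ℝ) := by
      push_cast
      field_simp
    rw [this, Real.rpow_natCast]
  have e3 : Real.sqrt ((n : ℝ) + 2) ^ (2 * n) = ((n : ℝ) + 2) ^ n := by
    rw [pow_mul, Real.sq_sqrt h2]
  rw [e1, e2, e3]

theorem coneRpow_simplex_nonneg (n : ℕ) : 0 ≤ simplexIsotropicConstant n := by
  unfold simplexIsotropicConstant
  positivity

/-- (G9) `rpow` algebra. -/
theorem coneRpow_iff {n : ℕ} (hn : 1 ≤ n) {D v : ℝ} (hD : 0 < D) (hv : 0 < v) :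
    ((D / v ^ 2) ^ ((1 : ℝ) / (2 * n)) ≤ simplexIsotropicConstant n ↔
      ((n : ℝ) + 1) ^ (n + 1) * ((n : ℝ) + 2) ^ n * D ≤ ((n.factorial : ℝ) * v) ^ 2) ∧
    ((D / v ^ 2) ^ ((1 : ℝ) / (2 * n)) = simplexIsotropicConstant n ↔
      ((n : ℝ) + 1) ^ (n + 1) * ((n : ℝ) + 2) ^ n * D = ((n.factorial : ℝ) * v) ^ 2) := by
  have h2n : 2 * n ≠ 0 := by omega
  have hx : 0 ≤ D / v ^ 2 := by positivity
  have hl : 0 ≤ (D / v ^ 2) ^ ((1 : ℝ) / (2 * n)) := Real.rpow_nonneg hx _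
  have hr := coneRpow_simplex_nonneg n
  have hP : (0 : ℝ) < ((n : ℝ) + 1) ^ (n + 1) * ((n : ℝ) + 2) ^ n := by positivity
  have hv2 : (0 : ℝ) < v ^ 2 := by positivity
  constructor
  · rw [← pow_le_pow_iff_left₀ hl hr h2n, coneRpow_root_pow hn hx, coneRpow_simplex_pow hn,
      div_le_div_iff₀ hv2 hP, mul_pow]
    constructor <;> intro h <;> linarith
  · rw [← pow_left_inj₀ hl hr h2n, coneRpow_root_pow hn hx, coneRpow_simplex_pow hn,
      div_eq_div_iff hv2.ne' hP.ne', mul_pow]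
    constructor <;> intro h <;> linarith

end Claimed.Agent.R260
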