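/-
Row 260, package T1 (owner helper220).  File OTClass: the derivative-free class
`otQC a b f`  ("a I ≤ D² f ≤ b I") on a finite-dimensional real inner product space `E`
(use it with `E = EuclideanSpace ℝ (Fin m)`) and its basic calculus.  Sorry-free.
-/
import Mathlib

set_option autoImplicit false

namespace Claimed.Agent.R260

open MeasureTheory Set Filter Topology
open scoped InnerProductSpace

variable {E : Type*} [NormedAddCommGroup E] [InnerProductSpace ℝ E]

/-- `a I ≤ D² f ≤ b I`, stated without derivatives. -/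
def otQC (a b : ℝ) (f : E → ℝ) : Prop :=
  ConvexOn ℝ univ (fun x => f x - a / 2 * ‖x‖ ^ 2) ∧
    ConvexOn ℝ univ (fun x => b / 2 * ‖x‖ ^ 2 - f x)

variable {a b : ℝ} {f : E → ℝ}

theorem ot_convexOn_sq {c : ℝ} (hc : 0 ≤ c) : ConvexOn ℝ univ (fun x : E => c * ‖x‖ ^ 2) := by
  have h1 : ConvexOn ℝ univ (fun x : E => ‖x‖ ^ 2) := by
    have := (convexOn_norm (convex_univ (𝕜 := ℝ) (E := E))).pow (fun x _ => norm_nonneg x) 2
    exact this
  exact h1.smul hc

theorem otQC.mono {a' b' : ℝ} (h : otQC a b f) (ha : a' ≤ a) (hb : b ≤ b') : otQC a' b' f := by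
  constructor
  · have := h.1.add (ot_convexOn_sq (E := E) (c := (a - a') / 2) (by linarith))
    refine this.congr ?_ 
    intro x _
    simp only [Pi.add_apply]
    ring
  · have := h.2.add (ot_convexOn_sq (E := E) (c := (b' - b) / 2) (by linarith))
    refine this.congr ?_ 
    intro x _
    simp only [Pi.add_apply]
    ring

theorem otQC_sq (c : ℝ) : otQC c c (fun x : E => c / 2 * ‖x‖ ^ 2) := by
  constructor
  · simpa using convexOn_const (0:ℝ) (convex_univ (𝕜 := ℝ) (E := E))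
  · simpa using convexOn_const (0:ℝ) (convex_univ (𝕜 := ℝ) (E := E))

theorem otQC.add_const (h : otQC a b f) (c : ℝ) : otQC a b (fun x => f x + c) := by
  constructor
  · have := h.1.add (convexOn_const c (convex_univ (𝕜 := ℝ) (E := E)))
    refine this.congr ?_
    intro x _
    simp only [Pi.add_apply]
    ring
  · have := h.2.add (convexOn_const (-c) (convex_univ (𝕜 := ℝ) (E := E)))
    refine this.congr ?_
    intro x _
    simp only [Pi.add_apply]
    ring

theorem otQC.convexOn (h : otQC a b f) (ha : 0 ≤ a) : ConvexOn ℝ univ f := by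
  have := h.1.add (ot_convexOn_sq (E := E) (c := a / 2) (by linarith))
  refine this.congr ?_
  intro x _
  simp only [Pi.add_apply]
  ring

/-- if `⟪w, v⟫ ≤ K ‖v‖²` for all `v` then `w = 0` -/
theorem ot_eq_zero_of_inner_le {w : E} {K : ℝ} (h : ∀ v : E, ⟪w, v⟫_ℝ ≤ K * ‖v‖ ^ 2) : w = 0 := by
  have hs : (0:ℝ) < 1 / (2 * (|K| + 1)) := by positivity
  set s : ℝ := 1 / (2 * (|K| + 1)) with hsdef
  have h1 := h (s • w)
  rw [inner_smul_right, norm_smul, mul_pow, real_inner_self_eq_norm_sq, Real.norm_eq_abs,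
    sq_abs] at h1
  have h2 : K * s ≤ 1 / 2 := by
    have : K ≤ |K| + 1 := by linarith [le_abs_self K]
    rw [hsdef]
    rw [mul_one_div, div_le_iff₀ (by positivity)]
    linarith
  have h3 : s * ‖w‖ ^ 2 ≤ s * (1 / 2 * ‖w‖ ^ 2) := by
    calc s * ‖w‖ ^ 2 ≤ K * (s ^ 2 * ‖w‖ ^ 2) := h1
      _ = s * (K * s * ‖w‖ ^ 2) := by ring
      _ ≤ s * (1 / 2 * ‖w‖ ^ 2) := by
        apply mul_le_mul_of_nonneg_left _ hs.le
        exact mul_le_mul_of_nonneg_right h2 (by positivity)
  have h4 : ‖w‖ ^ 2 ≤ 1 / 2 * ‖w‖ ^ 2 := le_of_mul_le_mul_left h3 hs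
  have h5 : ‖w‖ ^ 2 ≤ 0 := by linarith
  have h6 : ‖w‖ = 0 := by
    have := sq_nonneg ‖w‖
    exact pow_eq_zero_iff (two_ne_zero) |>.1 (le_antisymm h5 this)
  exact norm_eq_zero.1 h6

theorem ot_norm_sq_sub (x y : E) : ‖y‖ ^ 2 - ‖x‖ ^ 2 = 2 * ⟪x, y - x⟫_ℝ + ‖y - x‖ ^ 2 := by
  have : y = x + (y - x) := by abel
  conv_lhs => rw [this]
  rw [norm_add_sq_real]
  ring

variable [FiniteDimensional ℝ E]

theorem ot_convexOn_continuous {g : E → ℝ} (hg : ConvexOn ℝ univ g) : Continuous g := by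
  rw [← continuousOn_univ]
  exact hg.continuousOn isOpen_univ

theorem otQC.continuous (h : otQC a b f) : Continuous f := by
  have h1 := ot_convexOn_continuous h.1
  have h2 : Continuous (fun x : E => a / 2 * ‖x‖ ^ 2) := by fun_prop
  have := h1.add h2
  refine this.congr ?_
  intro x
  simp

/-- existence of a subgradient of a finite convex function -/
theorem ot_exists_subgradient {g : E → ℝ} (hg : ConvexOn ℝ univ g) (x : E) :
    ∃ p : E, ∀ y, g x + ⟪p, y - x⟫_ℝ ≤ g y := by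
  have hc := ot_convexOn_continuous hg
  set s : Set (E × ℝ) := {q | g q.1 < q.2} with hs
  have hso : IsOpen s := isOpen_lt (hc.comp continuous_fst) continuous_snd
  have hsc : Convex ℝ s := by
    have := hg.convex_strict_epigraph
    convert this using 1
    ext q
    simp [hs]
  have hx : (x, g x) ∉ s := by simp [hs]
  obtain ⟨L, hL⟩ := geometric_hahn_banach_open_point hsc hso hx
  set κ : ℝ := L (0, 1) with hκ
  set ℓ : E →L[ℝ] ℝ := L.comp (ContinuousLinearMap.inl ℝ E ℝ) with hℓ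
  have hdec : ∀ (y : E) (t : ℝ), L (y, t) = ℓ y + κ * t := by
    intro y t
    have : (y, t) = (y, (0:ℝ)) + t • ((0:E), (1:ℝ)) := by simp
    rw [this, map_add, map_smul]
    simp [hℓ, hκ, mul_comm]
  have hκneg : κ < 0 := by
    have := hL (x, g x + 1) (by simp [hs])
    rw [hdec, hdec] at this
    linarith
  have hmain : ∀ y, ℓ y + κ * g y ≤ ℓ x + κ * g x := by
    intro y
    have h1 : ∀ t, g y < t → ℓ y + κ * t < ℓ x + κ * g x := by
      intro t ht
      have := hL (y, t) (by simpa [hs] using ht)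
      rwa [hdec, hdec] at this
    have h2 : Tendsto (fun t : ℝ => ℓ y + κ * t) (𝓝[>] (g y)) (𝓝 (ℓ y + κ * g y)) := by
      apply Tendsto.mono_left _ nhdsWithin_le_nhds
      exact (continuous_const.add (continuous_const.mul continuous_id)).tendsto _
    refine le_of_tendsto h2 ?_
    filter_upwards [self_mem_nhdsWithin] with t ht
    exact (h1 t ht).le
  refine ⟨(InnerProductSpace.toDual ℝ E).symm ((-κ)⁻¹ • ℓ), fun y => ?_⟩
  rw [InnerProductSpace.toDual_symm_apply]
  simp only [smul_apply, smul_eq_mul, map_sub]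
  have h3 := hmain y
  have hk : 0 < -κ := by linarith
  set c : ℝ := (-κ)⁻¹ with hcdef
  have hc0 : 0 < c := inv_pos.2 hk
  have hck : c * κ = -1 := by
    have hne : κ ≠ 0 := ne_of_lt hκneg
    rw [hcdef, inv_neg, neg_mul, inv_mul_cancel₀ hne]
  have h4 := mul_le_mul_of_nonneg_left h3 hc0.le
  have h5 : c * (ℓ y + κ * g y) = c * ℓ y - g y := by
    rw [mul_add, ← mul_assoc, hck]; ring
  have h6 : c * (ℓ x + κ * g x) = c * ℓ x - g x := by
    rw [mul_add, ← mul_assoc, hck]; ring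
  rw [h5, h6] at h4
  linarith

/-- the key lemma: a two-sided quadratic support at every point -/
theorem otQC.exists_support (h : otQC a b f) (x : E) :
    ∃ p : E, ∀ y, f x + ⟪p, y - x⟫_ℝ + a / 2 * ‖y - x‖ ^ 2 ≤ f y ∧
      f y ≤ f x + ⟪p, y - x⟫_ℝ + b / 2 * ‖y - x‖ ^ 2 := by
  obtain ⟨p₁, hp₁⟩ := ot_exists_subgradient h.1 x
  obtain ⟨p₂, hp₂⟩ := ot_exists_subgradient h.2 x
  have hlow : ∀ y, f x + ⟪p₁ + a • x, y - x⟫_ℝ + a / 2 * ‖y - x‖ ^ 2 ≤ f y := by
    intro y
    have h1 := hp₁ y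
    have h2 := ot_norm_sq_sub x y
    have h3 : a / 2 * (‖y‖ ^ 2 - ‖x‖ ^ 2) = a / 2 * (2 * ⟪x, y - x⟫_ℝ + ‖y - x‖ ^ 2) := by rw [h2]
    rw [inner_add_left, inner_smul_left]
    simp only [conj_trivial]
    linarith
  have hup : ∀ y, f y ≤ f x + ⟪b • x - p₂, y - x⟫_ℝ + b / 2 * ‖y - x‖ ^ 2 := by
    intro y
    have h1 := hp₂ y
    have h2 := ot_norm_sq_sub x y
    have h3 : b / 2 * (‖y‖ ^ 2 - ‖x‖ ^ 2) = b / 2 * (2 * ⟪x, y - x⟫_ℝ + ‖y - x‖ ^ 2) := by rw [h2]
    rw [inner_sub_left, inner_smul_left]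
    simp only [conj_trivial]
    linarith
  have heq : (p₁ + a • x) - (b • x - p₂) = 0 := by
    apply ot_eq_zero_of_inner_le (K := (b - a) / 2)
    intro v
    have h1 := hlow (x + v)
    have h2 := hup (x + v)
    simp only [add_sub_cancel_left] at h1 h2
    rw [inner_sub_left]
    linarith
  have heq' : b • x - p₂ = p₁ + a • x := (sub_eq_zero.1 heq).symm
  refine ⟨p₁ + a • x, fun y => ⟨hlow y, ?_⟩⟩
  rw [← heq']
  exact hup y

theorem ot_hasGradientAt_of_support {p x : E}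
    (hp : ∀ y, f x + ⟪p, y - x⟫_ℝ + a / 2 * ‖y - x‖ ^ 2 ≤ f y ∧
      f y ≤ f x + ⟪p, y - x⟫_ℝ + b / 2 * ‖y - x‖ ^ 2) : HasGradientAt f p x := by
  rw [hasGradientAt_iff_isLittleO, Asymptotics.isLittleO_iff]
  intro c hc
  set M : ℝ := |a| + |b| + 1 with hM
  have hMpos : 0 < M := by positivity
  have hball : Metric.ball x (c / M) ∈ 𝓝 x := Metric.ball_mem_nhds x (by positivity)
  filter_upwards [hball] with y hy
  have hy' : ‖y - x‖ < c / M := by simpa [dist_eq_norm] using hy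
  obtain ⟨h1, h2⟩ := hp y
  have hn := norm_nonneg (y - x)
  have hsq : ‖y - x‖ ^ 2 ≤ c / M * ‖y - x‖ := by
    rw [sq]; exact mul_le_mul_of_nonneg_right hy'.le hn
  have hsq0 : 0 ≤ ‖y - x‖ ^ 2 := by positivity
  have hb1 : b / 2 * ‖y - x‖ ^ 2 ≤ M * ‖y - x‖ ^ 2 := by
    apply mul_le_mul_of_nonneg_right _ hsq0
    have := le_abs_self b; have := abs_nonneg a; have := abs_nonneg b
    rw [hM]; linarith
  have ha1 : -(M * ‖y - x‖ ^ 2) ≤ a / 2 * ‖y - x‖ ^ 2 := by
    rw [← neg_mul]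
    apply mul_le_mul_of_nonneg_right _ hsq0
    have := neg_abs_le a; have := abs_nonneg a; have := abs_nonneg b
    rw [hM]; linarith
  have hM2 : M * ‖y - x‖ ^ 2 ≤ c * ‖y - x‖ := by
    calc M * ‖y - x‖ ^ 2 ≤ M * (c / M * ‖y - x‖) := mul_le_mul_of_nonneg_left hsq hMpos.le
      _ = c * ‖y - x‖ := by field_simp
  rw [Real.norm_eq_abs, abs_le]
  constructor <;> linarith

theorem otQC.hasGradientAt (h : otQC a b f) (x : E) : HasGradientAt f (gradient f x) x := by
  obtain ⟨p, hp⟩ := h.exists_support x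
  have := ot_hasGradientAt_of_support hp
  rwa [this.gradient]

theorem otQC.differentiable (h : otQC a b f) : Differentiable ℝ f :=
  fun x => (h.hasGradientAt x).differentiableAt

theorem otQC.lower (h : otQC a b f) (x y : E) :
    f x + ⟪gradient f x, y - x⟫_ℝ + a / 2 * ‖y - x‖ ^ 2 ≤ f y := by
  obtain ⟨p, hp⟩ := h.exists_support x
  rw [(ot_hasGradientAt_of_support hp).gradient]
  exact (hp y).1

theorem otQC.upper (h : otQC a b f) (x y : E) :
    f y ≤ f x + ⟪gradient f x, y - x⟫_ℝ + b / 2 * ‖y - x‖ ^ 2 := by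
  obtain ⟨p, hp⟩ := h.exists_support x
  rw [(ot_hasGradientAt_of_support hp).gradient]
  exact (hp y).2

/-- a subgradient of a function of the class is the gradient -/
theorem otQC.eq_gradient_of_subgradient (h : otQC a b f) {x p : E}
    (hp : ∀ y, f x + ⟪p, y - x⟫_ℝ ≤ f y) : p = gradient f x := by
  rw [← sub_eq_zero]
  apply ot_eq_zero_of_inner_le (K := b / 2)
  intro v
  have h1 := hp (x + v)
  have h2 := h.upper x (x + v)
  simp only [add_sub_cancel_left] at h1 h2
  rw [inner_sub_left]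
  linarith

theorem otQC.grad_mono_lower (h : otQC a b f) (x y : E) :
    a * ‖x - y‖ ^ 2 ≤ ⟪gradient f x - gradient f y, x - y⟫_ℝ := by
  have h1 := h.lower x y
  have h2 := h.lower y x
  have h3 : ‖y - x‖ = ‖x - y‖ := norm_sub_rev y x
  have h4 : ⟪gradient f x, y - x⟫_ℝ = - ⟪gradient f x, x - y⟫_ℝ := by
    rw [← inner_neg_right, neg_sub]
  rw [inner_sub_left]
  rw [h3, h4] at h1
  linarith

theorem otQC.grad_mono_upper (h : otQC a b f) (x y : E) :
    ⟪gradient f x - gradient f y, x - y⟫_ℝ ≤ b * ‖x - y‖ ^ 2 := by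
  have h1 := h.upper x y
  have h2 := h.upper y x
  have h3 : ‖y - x‖ = ‖x - y‖ := norm_sub_rev y x
  have h4 : ⟪gradient f x, y - x⟫_ℝ = - ⟪gradient f x, x - y⟫_ℝ := by
    rw [← inner_neg_right, neg_sub]
  rw [inner_sub_left]
  rw [h3, h4] at h1
  linarith

/-- auxiliary inequality for Baillon–Haddad -/
theorem otQC.bh_aux (h : otQC a b f) (ha : 0 ≤ a) (x y : E) (s : ℝ) :
    s * ‖gradient f y - gradient f x‖ ^ 2 - b * s ^ 2 / 2 * ‖gradient f y - gradient f x‖ ^ 2 ≤
      f y - f x - ⟪gradient f x, y - x⟫_ℝ := by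
  set w := gradient f y - gradient f x with hw
  have h1 := h.lower x (y - s • w)
  have h2 := h.upper y (y - s • w)
  have h3 : y - s • w - y = -(s • w) := by abel
  have h4 : y - s • w - x = (y - x) - s • w := by abel
  have h5 : 0 ≤ a / 2 * ‖y - s • w - x‖ ^ 2 := by positivity
  rw [h3, inner_neg_right, inner_smul_right, norm_neg, norm_smul, mul_pow, Real.norm_eq_abs,
    sq_abs] at h2
  rw [h4, inner_sub_right, inner_smul_right] at h1
  rw [h4] at h5
  have h6 : ‖w‖ ^ 2 = ⟪gradient f y, w⟫_ℝ - ⟪gradient f x, w⟫_ℝ := by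
    rw [← inner_sub_left, ← hw, real_inner_self_eq_norm_sq]
  have h7 : s * ‖w‖ ^ 2 = s * ⟪gradient f y, w⟫_ℝ - s * ⟪gradient f x, w⟫_ℝ := by
    rw [h6]; ring
  linarith

/-- Baillon–Haddad: convex + `b`-semiconcave ⇒ the gradient is `b`-Lipschitz -/
theorem otQC.grad_lipschitz (h : otQC a b f) (ha : 0 ≤ a) (x y : E) :
    ‖gradient f x - gradient f y‖ ≤ b * ‖x - y‖ := by
  set w := gradient f y - gradient f x with hw
  have hwn : ‖gradient f x - gradient f y‖ = ‖w‖ := by rw [hw, norm_sub_rev]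
  have hkey : ∀ s : ℝ, 2 * s * ‖w‖ ^ 2 - b * s ^ 2 * ‖w‖ ^ 2 ≤ ‖w‖ * ‖x - y‖ := by
    intro s
    have h1 := h.bh_aux ha x y s
    have h2 := h.bh_aux ha y x s
    have h3 : ‖gradient f x - gradient f y‖ = ‖w‖ := hwn
    rw [h3] at h2
    rw [← hw] at h1
    have h4 : ⟪w, y - x⟫_ℝ ≤ ‖w‖ * ‖x - y‖ := by
      rw [norm_sub_rev x y]; exact real_inner_le_norm _ _
    have h5 : ⟪w, y - x⟫_ℝ = ⟪gradient f y, y - x⟫_ℝ - ⟪gradient f x, y - x⟫_ℝ := by
      rw [hw, inner_sub_left]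
    have h6 : ⟪gradient f y, x - y⟫_ℝ = - ⟪gradient f y, y - x⟫_ℝ := by
      rw [← inner_neg_right, neg_sub]
    rw [h6] at h2
    linarith
  have hmono : 0 ≤ b * ‖x - y‖ ^ 2 := by
    have h1 := h.grad_mono_lower x y
    have h2 := h.grad_mono_upper x y
    have : 0 ≤ a * ‖x - y‖ ^ 2 := by positivity
    linarith
  rw [hwn]
  have hw0 := norm_nonneg w
  have hxy0 := norm_nonneg (x - y)
  rcases lt_or_ge 0 b with hb | hb
  · have h1 := hkey (1 / b)
    have h2 : 2 * (1 / b) * ‖w‖ ^ 2 - b * (1 / b) ^ 2 * ‖w‖ ^ 2 = ‖w‖ * (‖w‖ / b) := by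
      field_simp
      ring
    rw [h2] at h1
    rcases eq_or_lt_of_le hw0 with h0 | h0
    · rw [← h0]; positivity
    · have h3 : ‖w‖ / b ≤ ‖x - y‖ := le_of_mul_le_mul_left h1 h0
      rwa [div_le_iff₀ hb, mul_comm] at h3
  · -- `b ≤ 0`: then `w = 0` and `b ‖x-y‖ = 0`
    have hwz : ‖w‖ = 0 := by
      by_contra hne
      have hpos : 0 < ‖w‖ := lt_of_le_of_ne hw0 (Ne.symm hne)
      have h1 := hkey ((‖x - y‖ + 1) / ‖w‖)
      have h2 : 0 ≤ -(b * ((‖x - y‖ + 1) / ‖w‖) ^ 2 * ‖w‖ ^ 2) := by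
        have : 0 ≤ (-b) * (((‖x - y‖ + 1) / ‖w‖) ^ 2 * ‖w‖ ^ 2) :=
          mul_nonneg (by linarith) (by positivity)
        linarith
      have h3 : 2 * ((‖x - y‖ + 1) / ‖w‖) * ‖w‖ ^ 2 = 2 * (‖x - y‖ + 1) * ‖w‖ := by
        field_simp
      rw [h3] at h1
      nlinarith
    rw [hwz]
    rcases eq_or_lt_of_le hxy0 with h0 | h0
    · rw [← h0]; simp
    · have : 0 ≤ b := by
        by_contra hbn
        have hbn' : b < 0 := not_le.1 hbn
        have : b * ‖x - y‖ ^ 2 < 0 := mul_neg_of_neg_of_pos hbn' (by positivity)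
        linarith
      positivity

theorem otQC.grad_continuous (h : otQC a b f) (ha : 0 ≤ a) : Continuous (gradient f) := by
  have hL : LipschitzWith (Real.toNNReal |b|) (gradient f) := by
    apply LipschitzWith.of_dist_le_mul
    intro x y
    rw [dist_eq_norm, dist_eq_norm, Real.coe_toNNReal _ (abs_nonneg b)]
    exact (h.grad_lipschitz ha x y).trans
      (mul_le_mul_of_nonneg_right (le_abs_self b) (norm_nonneg _))
  exact hL.continuous

theorem otQC.grad_antilipschitz (h : otQC a b f) (x y : E) :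
    a * ‖x - y‖ ≤ ‖gradient f x - gradient f y‖ := by
  have h1 := h.grad_mono_lower x y
  have h2 : ⟪gradient f x - gradient f y, x - y⟫_ℝ ≤ ‖gradient f x - gradient f y‖ * ‖x - y‖ :=
    real_inner_le_norm _ _
  rcases eq_or_lt_of_le (norm_nonneg (x - y)) with h0 | h0
  · rw [← h0]; simp
  · have h3 : (a * ‖x - y‖) * ‖x - y‖ ≤ ‖gradient f x - gradient f y‖ * ‖x - y‖ := by
      calc (a * ‖x - y‖) * ‖x - y‖ = a * ‖x - y‖ ^ 2 := by ring
        _ ≤ _ := h1.trans h2
    exact le_of_mul_le_mul_right h3 h0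

theorem otQC.grad_injective (h : otQC a b f) (ha : 0 < a) : Function.Injective (gradient f) := by
  intro x y hxy
  have h1 := h.grad_antilipschitz x y
  rw [hxy, sub_self, norm_zero] at h1
  have h2 : ‖x - y‖ ≤ 0 := by
    by_contra hne
    have : 0 < a * ‖x - y‖ := mul_pos ha (not_le.1 hne)
    linarith
  exact sub_eq_zero.1 (norm_le_zero_iff.1 h2)

/-- minimise `f - ⟪·, y⟫` -/
theorem otQC.grad_surjective (h : otQC a b f) (ha : 0 < a) : Function.Surjective (gradient f) := by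
  intro y
  set F : E → ℝ := fun x => f x - ⟪y, x⟫_ℝ with hF
  have hFc : Continuous F := h.continuous.sub (continuous_const.inner continuous_id)
  set K : ℝ := ‖gradient f 0 - y‖ with hK
  set R : ℝ := 2 * K / a + 1 with hR
  have hR0 : 0 ≤ R := by positivity
  obtain ⟨x₀, hx₀, hmin⟩ := (isCompact_closedBall (0 : E) R).exists_isMinOn
    ⟨0, Metric.mem_closedBall_self hR0⟩ hFc.continuousOn
  have hglob : ∀ x, F x₀ ≤ F x := by
    intro x
    by_cases hx : x ∈ Metric.closedBall (0 : E) R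
    · exact hmin hx
    · have hxn : R < ‖x‖ := by simpa [Metric.mem_closedBall, dist_zero_right] using hx
      have h0 : F x₀ ≤ F 0 := hmin (Metric.mem_closedBall_self hR0)
      have h1 := h.lower 0 x
      simp only [sub_zero] at h1
      have h2 : -(K * ‖x‖) ≤ ⟪gradient f 0 - y, x⟫_ℝ := by
        have := abs_real_inner_le_norm (gradient f 0 - y) x
        exact (abs_le.1 this).1 |>.trans' (by rw [hK])
      have h3 : F 0 = f 0 := by simp [hF]
      have h4 : F x = f x - ⟪y, x⟫_ℝ := rfl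
      rw [inner_sub_left] at h2
      have h5 : K * ‖x‖ ≤ a / 2 * ‖x‖ ^ 2 := by
        have h6 : 2 * K / a < ‖x‖ := by rw [hR] at hxn; linarith
        rw [div_lt_iff₀ ha] at h6
        have hxn0 : 0 ≤ ‖x‖ := norm_nonneg x
        nlinarith
      linarith
  refine ⟨x₀, ?_⟩
  symm
  apply h.eq_gradient_of_subgradient
  intro z
  have := hglob z
  simp only [hF] at this
  rw [inner_sub_right]
  linarith

/-- growth bound used for integrability -/
theorem otQC.abs_le (h : otQC a b f) (ha : 0 ≤ a) (x : E) :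
    |f x| ≤ |f 0| + ‖gradient f 0‖ * ‖x‖ + b / 2 * ‖x‖ ^ 2 := by
  have h1 := h.lower 0 x
  have h2 := h.upper 0 x
  simp only [sub_zero] at h1 h2
  have h3 := _root_.abs_le.1 (abs_real_inner_le_norm (gradient f 0) x)
  have h4 : 0 ≤ a / 2 * ‖x‖ ^ 2 := by positivity
  have h5 := le_abs_self (f 0)
  have h6 := neg_abs_le (f 0)
  rw [_root_.abs_le]
  constructor <;> linarith [h3.1, h3.2]

end Claimed.Agent.R260
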