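/-
Row 260, package T1 (owner helper220; this file proved by helper89).  File OTMeas: the measures
`e^{-W} dx`, the Gaussian, moments and integrability of functions of the class `otQC`.
-/
import Claimed.Agent.R260.OTClass

set_option autoImplicit false
set_option linter.unusedSectionVars false

namespace Claimed.Agent.R260

open MeasureTheory Set Filter Topology
open scoped InnerProductSpace

variable {E : Type*} [NormedAddCommGroup E] [InnerProductSpace ℝ E] [FiniteDimensional ℝ E]
  [MeasurableSpace E] [BorelSpace E]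

/-- the measure `e^{-W} dx` -/
noncomputable def otMeas (W : E → ℝ) : Measure E :=
  volume.withDensity (fun x => ENNReal.ofReal (Real.exp (-W x)))

/-- the potential of the standard Gaussian -/
noncomputable def otW0 (x : E) : ℝ :=
  ‖x‖ ^ 2 / 2 + (Module.finrank ℝ E : ℝ) / 2 * Real.log (2 * Real.pi)

/-- the standard Gaussian measure of `E` -/
noncomputable def otGauss (E : Type*) [NormedAddCommGroup E] [InnerProductSpace ℝ E]
    [FiniteDimensional ℝ E] [MeasurableSpace E] [BorelSpace E] : Measure E :=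
  otMeas (otW0 : E → ℝ)

theorem otW0_QC : otQC 1 1 (otW0 : E → ℝ) := by
  have h := (otQC_sq (E := E) 1).add_const ((Module.finrank ℝ E : ℝ) / 2 * Real.log (2 * Real.pi))
  have e : (otW0 : E → ℝ) = fun x => 1 / 2 * ‖x‖ ^ 2
      + (Module.finrank ℝ E : ℝ) / 2 * Real.log (2 * Real.pi) := by
    funext x
    simp only [otW0]
    ring
  rw [e]
  exact h

/-- the normalising constant of the Gaussian -/
theorem otW0_exp_neg (x : E) :
    Real.exp (-otW0 x)
      = ((2 * Real.pi) ^ ((Module.finrank ℝ E : ℝ) / 2))⁻¹ * Real.exp (-(1 / 2) * ‖x‖ ^ 2) := by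
  have hpos : (0 : ℝ) < 2 * Real.pi := by positivity
  rw [Real.rpow_def_of_pos hpos, ← Real.exp_neg, ← Real.exp_add]
  congr 1
  simp only [otW0]
  ring

theorem otW0_integral : ∫ x : E, Real.exp (-otW0 x) = 1 := by
  have hpos : (0 : ℝ) < 2 * Real.pi := by positivity
  simp_rw [otW0_exp_neg]
  rw [integral_const_mul, GaussianFourier.integral_rexp_neg_mul_sq_norm (by norm_num : (0:ℝ) < 1/2)]
  have : Real.pi / (1 / 2) = 2 * Real.pi := by ring
  rw [this]
  exact inv_mul_cancel₀ (Real.rpow_pos_of_pos hpos _).ne'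

/-- integrability of a centred Gaussian density -/
theorem ot_integrable_exp_neg_mul_sq {b : ℝ} (hb : 0 < b) :
    Integrable (fun x : E => Real.exp (-b * ‖x‖ ^ 2)) := by
  by_contra hn
  have h1 := integral_undef hn
  rw [GaussianFourier.integral_rexp_neg_mul_sq_norm hb] at h1
  have : (0 : ℝ) < Real.pi / b := by positivity
  exact (Real.rpow_pos_of_pos this _).ne' h1

/-- pointwise Gaussian domination of `e^{-W}` -/
theorem otQC.exp_neg_le {c C : ℝ} {W : E → ℝ} (hW : otQC c C W) (hc : 0 < c) (x : E) :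
    Real.exp (-W x) ≤ Real.exp (-W 0 + ‖gradient W 0‖ ^ 2 / c) * Real.exp (-(c / 4) * ‖x‖ ^ 2) := by
  rw [← Real.exp_add]
  apply Real.exp_le_exp.2
  have h := hW.lower 0 x
  simp only [sub_zero] at h
  have h1 : -(‖gradient W 0‖ * ‖x‖) ≤ ⟪gradient W 0, x⟫_ℝ := by
    have := abs_real_inner_le_norm (gradient W 0) x
    exact (_root_.abs_le.1 this).1
  have h2 : ‖gradient W 0‖ * ‖x‖ ≤ ‖gradient W 0‖ ^ 2 / c + c / 4 * ‖x‖ ^ 2 := by
    have h3 : 0 ≤ (‖gradient W 0‖ - c / 2 * ‖x‖) ^ 2 / c := by positivity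
    have h4 : (‖gradient W 0‖ - c / 2 * ‖x‖) ^ 2 / c
        = ‖gradient W 0‖ ^ 2 / c + c / 4 * ‖x‖ ^ 2 - ‖gradient W 0‖ * ‖x‖ := by
      field_simp
      ring
    linarith
  linarith

/-- Gaussian domination: `e^{-W}` is integrable for `W` uniformly convex -/
theorem otQC.integrable_exp_neg {c C : ℝ} {W : E → ℝ} (hW : otQC c C W) (hc : 0 < c) :
    Integrable (fun x => Real.exp (-W x)) := by
  have hdom : Integrable (fun x : E => Real.exp (-W 0 + ‖gradient W 0‖ ^ 2 / c)
      * Real.exp (-(c / 4) * ‖x‖ ^ 2)) :=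
    (ot_integrable_exp_neg_mul_sq (E := E) (by positivity : 0 < c / 4)).const_mul _
  refine hdom.mono' ?_ (Eventually.of_forall fun x => ?_)
  · exact (Real.continuous_exp.comp hW.continuous.neg).aestronglyMeasurable
  · rw [Real.norm_eq_abs, abs_of_pos (Real.exp_pos _)]
    exact hW.exp_neg_le hc x

theorem ot_measurable_density {W : E → ℝ} (hW : Continuous W) :
    Measurable (fun x => ENNReal.ofReal (Real.exp (-W x))) :=
  (Real.continuous_exp.comp hW.neg).measurable.ennreal_ofReal

theorem otMeas_isProbabilityMeasure {W : E → ℝ} (hW : Continuous W)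
    (h1 : ∫ x, Real.exp (-W x) = 1) : IsProbabilityMeasure (otMeas W) := by
  have hint : Integrable (fun x => Real.exp (-W x)) := by
    by_contra hn
    rw [integral_undef hn] at h1
    exact zero_ne_one h1
  constructor
  rw [otMeas, withDensity_apply _ MeasurableSet.univ, Measure.restrict_univ,
    ← ofReal_integral_eq_lintegral_ofReal hint (Eventually.of_forall fun x => (Real.exp_pos _).le),
    h1, ENNReal.ofReal_one]

instance otGauss_isProbabilityMeasure : IsProbabilityMeasure (otGauss E) :=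
  otMeas_isProbabilityMeasure otW0_QC.continuous otW0_integral

theorem integral_otMeas {W : E → ℝ} (hW : Continuous W) (g : E → ℝ) :
    ∫ x, g x ∂(otMeas W) = ∫ x, g x * Real.exp (-W x) := by
  rw [otMeas, integral_withDensity_eq_integral_toReal_smul (ot_measurable_density hW)
    (Eventually.of_forall fun x => ENNReal.ofReal_lt_top)]
  refine integral_congr_ae (Eventually.of_forall fun x => ?_)
  simp only [ENNReal.toReal_ofReal (Real.exp_pos _).le, smul_eq_mul]
  ring

theorem integrable_otMeas_iff {W : E → ℝ} (hW : Continuous W) (g : E → ℝ) :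
    Integrable g (otMeas W) ↔ Integrable (fun x => g x * Real.exp (-W x)) := by
  rw [otMeas, integrable_withDensity_iff (ot_measurable_density hW)
    (Eventually.of_forall fun x => ENNReal.ofReal_lt_top)]
  simp only [ENNReal.toReal_ofReal (Real.exp_pos _).le]

theorem otMeas_absolutelyContinuous (W : E → ℝ) : otMeas W ≪ (volume : Measure E) :=
  withDensity_absolutelyContinuous _ _

theorem volume_absolutelyContinuous_otMeas {W : E → ℝ} (hW : Continuous W) :
    (volume : Measure E) ≪ otMeas W := by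
  refine withDensity_absolutelyContinuous' (ot_measurable_density hW).aemeasurable
    (Eventually.of_forall fun x => ?_)
  simp [Real.exp_pos]

theorem otMeas_pos_of_isOpen {W : E → ℝ} (hW : Continuous W) {U : Set E} (hU : IsOpen U)
    (hne : U.Nonempty) : 0 < otMeas W U := by
  rw [pos_iff_ne_zero]
  intro h0
  exact (hU.measure_pos volume hne).ne' (volume_absolutelyContinuous_otMeas hW h0)

/-- two continuous maps which agree a.e. for `e^{-W}dx` agree everywhere -/
theorem otMeas_eq_of_ae_eq {W : E → ℝ} (hW : Continuous W) {F : Type*} [TopologicalSpace F]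
    [T2Space F] {g₁ g₂ : E → F} (h₁ : Continuous g₁) (h₂ : Continuous g₂)
    (h : g₁ =ᵐ[otMeas W] g₂) : g₁ = g₂ := by
  have h' : g₁ =ᵐ[(volume : Measure E)] g₂ := (volume_absolutelyContinuous_otMeas hW).ae_le h
  exact (Continuous.ae_eq_iff_eq volume h₁ h₂).1 h'

/-- second moments -/
theorem otQC.integrable_norm_sq {c C : ℝ} {W : E → ℝ} (hW : otQC c C W) (hc : 0 < c) :
    Integrable (fun x => ‖x‖ ^ 2) (otMeas W) := by
  rw [integrable_otMeas_iff hW.continuous]
  have hdom : Integrable (fun x : E => (Real.exp (-W 0 + ‖gradient W 0‖ ^ 2 / c) * (8 / c))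
      * Real.exp (-(c / 8) * ‖x‖ ^ 2)) :=
    (ot_integrable_exp_neg_mul_sq (E := E) (by positivity : 0 < c / 8)).const_mul _
  refine hdom.mono' ?_ (Eventually.of_forall fun x => ?_)
  · exact ((continuous_norm.pow 2).mul
      (Real.continuous_exp.comp hW.continuous.neg)).aestronglyMeasurable
  · rw [Real.norm_eq_abs, abs_of_nonneg (by positivity)]
    have h1 := hW.exp_neg_le hc x
    have h2 : ‖x‖ ^ 2 ≤ 8 / c * Real.exp (c / 8 * ‖x‖ ^ 2) := by
      have h3 := Real.add_one_le_exp (c / 8 * ‖x‖ ^ 2)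
      have h4 : ‖x‖ ^ 2 = 8 / c * (c / 8 * ‖x‖ ^ 2) := by field_simp
      have h5 : (0 : ℝ) < 8 / c := by positivity
      calc ‖x‖ ^ 2 = 8 / c * (c / 8 * ‖x‖ ^ 2) := h4
        _ ≤ 8 / c * Real.exp (c / 8 * ‖x‖ ^ 2) := by
          apply mul_le_mul_of_nonneg_left _ h5.le
          linarith
    have h6 : Real.exp (c / 8 * ‖x‖ ^ 2) * Real.exp (-(c / 4) * ‖x‖ ^ 2)
        = Real.exp (-(c / 8) * ‖x‖ ^ 2) := by
      rw [← Real.exp_add]
      congr 1
      ring
    calc ‖x‖ ^ 2 * Real.exp (-W x)
        ≤ (8 / c * Real.exp (c / 8 * ‖x‖ ^ 2))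
          * (Real.exp (-W 0 + ‖gradient W 0‖ ^ 2 / c) * Real.exp (-(c / 4) * ‖x‖ ^ 2)) :=
          mul_le_mul h2 h1 (Real.exp_pos _).le (by positivity)
      _ = (Real.exp (-W 0 + ‖gradient W 0‖ ^ 2 / c) * (8 / c))
          * (Real.exp (c / 8 * ‖x‖ ^ 2) * Real.exp (-(c / 4) * ‖x‖ ^ 2)) := by ring
      _ = _ := by rw [h6]

theorem otGauss_integrable_norm_sq : Integrable (fun x : E => ‖x‖ ^ 2) (otGauss E) :=
  otW0_QC.integrable_norm_sq one_pos

theorem ot_integrable_norm {μ : Measure E} [IsFiniteMeasure μ]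
    (hμ : Integrable (fun x => ‖x‖ ^ 2) μ) : Integrable (fun x => ‖x‖) μ := by
  refine ((integrable_const (1 : ℝ)).add hμ).mono' continuous_norm.aestronglyMeasurable
    (Eventually.of_forall fun x => ?_)
  simp only [norm_norm, Pi.add_apply]
  nlinarith [sq_nonneg (‖x‖ - 1), norm_nonneg x]

/-- functions of the class are integrable for probability measures with second moments -/
theorem otQC.integrable {a b : ℝ} {f : E → ℝ} (h : otQC a b f) (ha : 0 ≤ a) {μ : Measure E}
    [IsFiniteMeasure μ] (hμ : Integrable (fun x => ‖x‖ ^ 2) μ) : Integrable f μ := by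
  have hdom : Integrable (fun x : E => |f 0| + ‖gradient f 0‖ * ‖x‖ + b / 2 * ‖x‖ ^ 2) μ :=
    ((integrable_const _).add ((ot_integrable_norm hμ).const_mul _)).add (hμ.const_mul _)
  refine hdom.mono' h.continuous.aestronglyMeasurable (Eventually.of_forall fun x => ?_)
  rw [Real.norm_eq_abs]
  exact h.abs_le ha x

/-- two finite measures which agree on bounded 1-Lipschitz functions are equal -/
theorem ot_measure_ext {μ ν : Measure E} [IsFiniteMeasure μ] [IsFiniteMeasure ν]
    (h : ∀ g : E → ℝ, (∀ y, |g y| ≤ 1) → LipschitzWith 1 g → ∫ y, g y ∂μ = ∫ y, g y ∂ν) :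
    μ = ν := by
  have key : ∀ F : Set E, IsClosed F → μ F = ν F := by
    intro F hF
    let fs : ℕ → BoundedContinuousFunction E NNReal :=
      fun n => thickenedIndicator (δ := (1 : ℝ) / (n + 1)) Nat.one_div_pos_of_nat F
    have hle : ∀ n x, fs n x ≤ 1 :=
      fun n x => thickenedIndicator_le_one Nat.one_div_pos_of_nat F x
    have hlim : Tendsto (fun n : ℕ => (fun x => fs n x)) atTop
        (𝓝 (indicator F fun _ => (1 : NNReal))) := by
      have key := thickenedIndicator_tendsto_indicator_closure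
              (δseq := fun (n : ℕ) => (1 : ℝ) / (n + 1))
              (fun _ => Nat.one_div_pos_of_nat) tendsto_one_div_add_atTop_nhds_zero_nat F
      rw [hF.closure_eq] at key
      exact key
    have obsμ := measure_of_cont_bdd_of_tendsto_indicator μ hF.measurableSet fs hle hlim
    have obsν := measure_of_cont_bdd_of_tendsto_indicator ν hF.measurableSet fs hle hlim
    have heq : ∀ n, ∫⁻ x, (fs n x : ENNReal) ∂μ = ∫⁻ x, (fs n x : ENNReal) ∂ν := by
      intro n
      apply (ENNReal.toReal_eq_toReal_iff' (BoundedContinuousFunction.lintegral_lt_top_of_nnreal μ (fs n)).ne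
        (BoundedContinuousFunction.lintegral_lt_top_of_nnreal ν (fs n)).ne).mp
      rw [BoundedContinuousFunction.toReal_lintegral_coe_eq_integral (fs n) μ,
        BoundedContinuousFunction.toReal_lintegral_coe_eq_integral (fs n) ν]
      have hδ : (0 : ℝ) < 1 / ((n : ℝ) + 1) := Nat.one_div_pos_of_nat
      have hδ1 : 1 / ((n : ℝ) + 1) ≤ 1 := by
        rw [div_le_one (by positivity)]
        have : (0 : ℝ) ≤ n := Nat.cast_nonneg n
        linarith
      have hg := h (fun y => 1 / ((n : ℝ) + 1) * (fs n y : ℝ)) ?_ ?_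
      · rw [integral_const_mul, integral_const_mul] at hg
        exact mul_left_cancel₀ hδ.ne' hg
      · intro y
        have h0 : (0 : ℝ) ≤ (fs n y : ℝ) := NNReal.coe_nonneg _
        have h1 : ((fs n y : NNReal) : ℝ) ≤ 1 := by exact_mod_cast hle n y
        rw [abs_of_nonneg (by positivity)]
        calc 1 / ((n : ℝ) + 1) * (fs n y : ℝ) ≤ 1 * 1 := mul_le_mul hδ1 h1 h0 zero_le_one
          _ = 1 := one_mul 1
      · have hL := lipschitzWith_thickenedIndicator (δ := (1 : ℝ) / (n + 1))
          Nat.one_div_pos_of_nat F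
        apply LipschitzWith.of_dist_le_mul
        intro x y
        have h3 : dist (fs n x) (fs n y) ≤ _ := hL.dist_le_mul x y
        rw [NNReal.dist_eq] at h3
        rw [Real.dist_eq]
        rw [← mul_sub, abs_mul, abs_of_pos hδ]
        simp only [NNReal.coe_one, one_mul]
        have h4 : (((1 / ((n : ℝ) + 1)).toNNReal⁻¹ : NNReal) : ℝ) = (1 / ((n : ℝ) + 1))⁻¹ := by
          rw [NNReal.coe_inv, Real.coe_toNNReal _ hδ.le]
        rw [h4] at h3
        calc 1 / ((n : ℝ) + 1) * |(fs n x : ℝ) - (fs n y : ℝ)|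
            ≤ 1 / ((n : ℝ) + 1) * ((1 / ((n : ℝ) + 1))⁻¹ * dist x y) :=
              mul_le_mul_of_nonneg_left h3 hδ.le
          _ = dist x y := by rw [← mul_assoc, mul_inv_cancel₀ hδ.ne', one_mul]
    simp_rw [heq] at obsμ
    exact tendsto_nhds_unique obsμ obsν
  apply ext_of_generate_finite _ ?_ isPiSystem_isClosed
  · exact fun F hF => key F hF
  · exact key _ isClosed_univ
  · rw [BorelSpace.measurable_eq (α := E), borel_eq_generateFrom_isClosed]

/-- `otGauss` is Mathlib's standard Gaussian (same characteristic function) -/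
theorem otGauss_eq_stdGaussian_gen : otGauss E = ProbabilityTheory.stdGaussian E := by
  apply Measure.ext_of_charFun
  ext t
  rw [ProbabilityTheory.charFun_stdGaussian, charFun_apply]
  have hpos : (0 : ℝ) < 2 * Real.pi := by positivity
  rw [otGauss, otMeas, integral_withDensity_eq_integral_toReal_smul
    (ot_measurable_density otW0_QC.continuous)
    (Eventually.of_forall fun x => ENNReal.ofReal_lt_top)]
  have e : ∀ x : E, (ENNReal.ofReal (Real.exp (-otW0 x))).toReal • Complex.exp (⟪x, t⟫_ℝ * Complex.I)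
      = ((((2 * Real.pi) ^ ((Module.finrank ℝ E : ℝ) / 2))⁻¹ : ℝ) : ℂ)
        * Complex.exp (-((1 / 2 : ℝ) : ℂ) * (‖x‖ : ℂ) ^ 2 + Complex.I * (⟪t, x⟫_ℝ : ℂ)) := by
    intro x
    rw [ENNReal.toReal_ofReal (Real.exp_pos _).le, otW0_exp_neg, Complex.real_smul,
      Complex.exp_add, real_inner_comm]
    push_cast
    rw [mul_comm Complex.I, mul_assoc]
  simp_rw [e]
  rw [integral_const_mul, GaussianFourier.integral_cexp_neg_mul_sq_norm_add (by simp)]
  have h1 : ((Real.pi : ℂ) / ((1 / 2 : ℝ) : ℂ)) ^ ((Module.finrank ℝ E : ℂ) / 2)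
      = (((2 * Real.pi) ^ ((Module.finrank ℝ E : ℝ) / 2) : ℝ) : ℂ) := by
    rw [Complex.ofReal_cpow hpos.le]
    push_cast
    congr 1
    ring
  have h2 : Complex.I ^ 2 * (‖t‖ : ℂ) ^ 2 / (4 * ((1 / 2 : ℝ) : ℂ)) = -(‖t‖ : ℂ) ^ 2 / 2 := by
    rw [Complex.I_sq]
    push_cast
    ring
  rw [h1, h2, ← mul_assoc, Complex.ofReal_inv, inv_mul_cancel₀, one_mul]
  exact_mod_cast (Real.rpow_pos_of_pos hpos _).ne'

theorem otGauss_eq_stdGaussian (m : ℕ) :
    otGauss (EuclideanSpace ℝ (Fin m)) = ProbabilityTheory.stdGaussian (EuclideanSpace ℝ (Fin m)) :=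
  otGauss_eq_stdGaussian_gen

end Claimed.Agent.R260
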