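/-
Row 260.  CORE: definitions of the interfaces between the packages of Sec 2-4.
Owner: helper194 (captain).  Nobody else edits this file.

  T : EE m → EE m      the transport map (gradient of the potential)
  A : EE m → Mat m     the reparametrised Jacobian, `DT = q(A)`
  Z r : EE m → Mat m   the weak derivative `∂_r A`
-/
import Claimed.Agent.R260.GKDefs
import Claimed.Agent.R260.MxDefs
import Claimed.Agent.R260.ScDefs2
import Claimed.Agent.R260.OTMeas
import Claimed.Agent.R260.LcDefs
import Claimed.Agent.R260.ApxDefs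

set_option autoImplicit false

namespace Claimed.Agent.R260

open MeasureTheory ProbabilityTheory Matrix
open scoped InnerProductSpace

variable {m : ℕ}

/-- The scalar functions of the paper, as the abstract record used by the matrix packages.
`Rw a a' = r(a,a') δ(a,a')²` is the separation weight of (2.21). -/
noncomputable def coreσ : MxScal where
  q := scQ
  k := scK
  b := scB
  l := scL
  Rw := fun a a' => scRw a a' * scDel a a' ^ 2

/-- The Jacobian matrix `(DT)_{ij} = ∂_j T_i` (junk `0` where `T_i` is not differentiable). -/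
noncomputable def coreJ (T : EE m → EE m) (x : EE m) : Mat m :=
  fun i j => pd j (fun y => T y i) x

/-- The covariance matrix of `T` under the Gaussian measure. -/
noncomputable def coreCov (T : EE m → EE m) : Mat m :=
  fun i j => ∫ x, (T x i - ∫ y, T y i ∂gam m) * (T x j - ∫ y, T y j ∂gam m) ∂gam m

/-- First chaos coefficients `X_r = E (x_r A)`. -/
noncomputable def coreX (A : EE m → Mat m) (r : Fin m) : Mat m :=
  fun i j => ∫ x, x r * A x i j ∂gam m

/-- `Y = A - ∑ x_r X_r`. -/
noncomputable def coreY (A : EE m → Mat m) (x : EE m) : Mat m :=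
  A x - ∑ r, x r • coreX A r

/-- The remainder of Theorem 3.1. -/
noncomputable def coreRem (A : EE m → Mat m) : ℝ :=
  (1 / 500) * ∫ x, mxSq (coreY A x) ∂gam m
    + (1 / 1000) * ∑ i, scOmega (mxEig (mxB (coreX A)) i)

/-- `τ(A² - 2 t(A))`, the transport part of the deficit (3.3). -/
noncomputable def coreDef (A : EE m → Mat m) : ℝ :=
  ∫ x, ((A x * A x).trace - 2 * (mxFun scT (A x)).trace) ∂gam m

/-- The linear map of `EE m` with matrix `P`. -/
noncomputable def coreLin (P : Mat m) (y : EE m) : EE m := WithLp.toLp 2 (P *ᵥ WithLp.ofLp y)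

/-- The potential of the image of `e^{-V} dy` under `coreLin P` (`P` positive definite). -/
noncomputable def corePush (P : Mat m) (V : EE m → ℝ) (y : EE m) : ℝ :=
  V (coreLin P⁻¹ y) + Real.log P.det

/-- **Regularity part of the interface Sec 2 → Sec 3.** -/
structure CorePre (T : EE m → EE m) (A : EE m → Mat m) (Z : Fin m → EE m → Mat m) : Prop where
  T_lip : ∃ K : NNReal, LipschitzWith K T
  A_symm : ∀ x, (A x).IsSymm
  A_meas : ∀ i j, Measurable (fun x => A x i j)
  A_bdd : ∃ C : ℝ, ∀ x i j, |A x i j| ≤ C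
  A_gh1 : ∀ i j, GH1 (fun x => A x i j) (fun r x => Z r x i j)
  Z_symm : ∀ᵐ x ∂gam m, ∀ r, (Z r x).IsSymm
  jac : ∀ᵐ x ∂gam m, coreJ T x = mxFun scQ (A x)

/-- **Prop 2.5 (matrix surplus)** in the form consumed by Sec 3: the separation surplus
`mxCsep` is never integrated; `Ξ` is the integrand on the right of (2.19). -/
def CoreSurplus (A : EE m → Mat m) (Z : Fin m → EE m → Mat m) : Prop :=
  ∃ Ξ : EE m → ℝ, Integrable Ξ (gam m) ∧
    ∫ x, Ξ x ∂gam m ≤ ∫ x, (mxFun scK (A x) * mxFun scK (A x)).trace ∂gam m ∧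
    ∀ᵐ x ∂gam m, ∑ r, mxSq (Z r x) - ∑ r, mxSq (mxK coreσ (A x) (Z r x))
      + mxCsep coreσ (A x) (fun r => Z r x) ≤ Ξ x

/-- **Output of package TR** for a potential `φ` with `(∇φ)_# γ = e^{-W}`. -/
structure TrOut (W φ : EE m → ℝ) (lam Lam : ℝ) : Prop where
  J_symm : ∀ᵐ x ∂gam m, (coreJ (gradient φ) x).IsSymm
  J_spec : ∀ᵐ x ∂gam m, ∀ i, mxEig (coreJ (gradient φ) x) i ∈ Set.Icc lam Lam
  J_gh1 : ∃ Θ : Fin m → EE m → Mat m,
    ∀ i j, GH1 (fun x => coreJ (gradient φ) x i j) (fun r x => Θ r x i j)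
  /-- T2: the Monge-Ampere equation a.e. -/
  ma : ∀ᵐ x ∂gam m, W (gradient φ x)
    = Real.log (coreJ (gradient φ) x).det + ‖x‖ ^ 2 / 2 + (m : ℝ) / 2 * Real.log (2 * Real.pi)
  /-- T3 = (W): first variation identity. -/
  weak : ∀ (k : Fin m) (ζ : EE m → ℝ) (K : NNReal), LipschitzWith K ζ →
    ∫ x, ∑ l, (coreJ (gradient φ) x)⁻¹ k l * pd l ζ x ∂gam m
      = ∫ x, ζ x * gradient W (gradient φ x) k ∂gam m

/-- **Output of Sec 2-4** on `EE m` (paper Prop 2.3 + Thm 3.1 with remainder). -/
structure CoreOut (V : EE m → ℝ) (P : Mat m) (T : EE m → EE m) (A : EE m → Mat m) : Prop where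
  P_pd : P.PosDef
  T_lip : ∃ K : NNReal, LipschitzWith K T
  A_symm : ∀ x, (A x).IsSymm
  A_meas : ∀ i j, Measurable (fun x => A x i j)
  A_bdd : ∃ C : ℝ, ∀ x i j, |A x i j| ≤ C
  jac : ∀ᵐ x ∂gam m, coreJ T x = mxFun scQ (A x)
  push : (gam m).map T = (otMeas V).map (coreLin P)
  rem : coreRem A ≤ 2 * lcGap (densOf V)

theorem coreDefs_eqns_cite : True := by
  have := @coreσ.eq_1
  have := @coreJ.eq_1
  have := @coreCov.eq_1
  have := @coreX.eq_1
  have := @coreY.eq_1
  have := @coreRem.eq_1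
  have := @coreDef.eq_1
  have := @coreLin.eq_1
  have := @corePush.eq_1
  have := @CoreSurplus.eq_1
  trivial

end Claimed.Agent.R260
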