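/-
Row 260, package LC = IFACE + AFF.  Owner: helper235.
Bridges between `EE m` (analysis) and `Fin m → ℝ` (frozen definitions): potentials of the class
`NicePot`, the density `densOf V`, and mean / covariance / entropy of `densOf V` as expectations
of a transport map `T` with `μ.map T = e^{-V} dx`.
-/
import Claimed.Agent.R260.ApxDefs
import Claimed.Agent.R260.LcMain

set_option autoImplicit false

namespace Claimed.Agent.R260

open MeasureTheory Set Filter Topology
open Claims.C0429

variable {m : ℕ}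

theorem lc_convexOn_normSq (c : ℝ) (hc : 0 ≤ c) :
    ConvexOn ℝ univ (fun x : EE m => c / 2 * ‖x‖ ^ 2) := by
  have h : ConvexOn ℝ univ (fun x : EE m => ‖x‖ ^ 2) := by
    have := (convexOn_univ_norm (E := EE m)).pow (fun _ _ => norm_nonneg _) 2
    exact this
  exact (h.smul (by positivity : (0:ℝ) ≤ c / 2))

theorem lc_QC_convex {V : EE m → ℝ} {c C : ℝ} (hc : 0 ≤ c) (h : QC c C V) : ConvexOn ℝ univ V := by
  have := h.1.add (lc_convexOn_normSq (m := m) c hc)
  refine this.congr ?_
  intro x _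
  simp

theorem lc_QC_continuous {V : EE m → ℝ} {c C : ℝ} (hc : 0 ≤ c) (h : QC c C V) : Continuous V := by
  have := (lc_QC_convex hc h).continuousOn isOpen_univ
  exact continuousOn_univ.1 this

theorem lc_nicePot_logConcave {V : EE m → ℝ} (hV : NicePot V) :
    IsLogConcaveDensityOn (densOf V) := by
  obtain ⟨⟨c, C, hc, hQ⟩, hint⟩ := hV
  have hcont := lc_QC_continuous hc.le hQ
  have hpos : {x : Fin m → ℝ | 0 < densOf V x} = univ := by
    ext x; simp [densOf, Real.exp_pos]
  refine ⟨?_, fun x => (Real.exp_pos _).le, ?_, ?_, ?_⟩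
  · unfold densOf
    have : Continuous (fun x : Fin m → ℝ => Real.exp (-V (WithLp.toLp 2 x))) := by fun_prop
    exact this.measurable
  · rw [apx_integral_toE]
    simpa [densOf] using hint
  · rw [hpos]; exact convex_univ
  · rw [hpos]
    have h1 : ConvexOn ℝ univ (fun x : Fin m → ℝ => V (WithLp.toLp 2 x)) :=
      (lc_QC_convex hc.le hQ).comp_linearMap (WithLp.linearEquiv 2 ℝ (Fin m → ℝ)).symm.toLinearMap
    have h2 := h1.neg
    refine h2.congr ?_
    intro x _
    simp [densOf]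

theorem lc_integral_withDensity {V : EE m → ℝ} (hV : Measurable V) (F : EE m → ℝ) :
    ∫ y, F y ∂(volume.withDensity (fun x : EE m => ENNReal.ofReal (Real.exp (-V x))))
      = ∫ y, F y * Real.exp (-V y) := by
  rw [integral_withDensity_eq_integral_toReal_smul (by fun_prop)
    (Eventually.of_forall fun x => ENNReal.ofReal_lt_top)]
  refine integral_congr_ae (Eventually.of_forall fun x => ?_)
  simp only [smul_eq_mul]
  rw [ENNReal.toReal_ofReal (Real.exp_pos _).le, mul_comm]

theorem lc_integral_densOf (V : EE m → ℝ) (F : (Fin m → ℝ) → ℝ) :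
    ∫ x, F x * densOf V x = ∫ y : EE m, F (WithLp.ofLp y) * Real.exp (-V y) := by
  rw [apx_integral_toE]
  simp [densOf]

theorem lc_aemeasurable_of_map {V : EE m → ℝ} (hV : Measurable V) (h1 : ∫ x, Real.exp (-V x) = 1)
    {μ : Measure (EE m)} {T : EE m → EE m}
    (hT : μ.map T = volume.withDensity (fun x : EE m => ENNReal.ofReal (Real.exp (-V x)))) :
    AEMeasurable T μ := by
  by_contra hne
  rw [Measure.map_of_not_aemeasurable hne] at hT
  have := lc_integral_withDensity hV (fun _ => 1)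
  rw [← hT] at this
  simp [h1] at this

/-- transfer of integrals: `E F(T) = ∫ F e^{-V}`. -/
theorem lc_integral_of_map {V : EE m → ℝ} (hV : Measurable V) (h1 : ∫ x, Real.exp (-V x) = 1)
    {μ : Measure (EE m)} {T : EE m → EE m}
    (hT : μ.map T = volume.withDensity (fun x : EE m => ENNReal.ofReal (Real.exp (-V x))))
    {F : EE m → ℝ} (hF : Measurable F) :
    ∫ x, F (T x) ∂μ = ∫ y, F y * Real.exp (-V y) := by
  rw [← lc_integral_withDensity hV, ← hT,
    integral_map (lc_aemeasurable_of_map hV h1 hT) hF.aestronglyMeasurable]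

theorem lc_mean_of_map {V : EE m → ℝ} (hV : Measurable V) (h1 : ∫ x, Real.exp (-V x) = 1)
    {μ : Measure (EE m)} {T : EE m → EE m}
    (hT : μ.map T = volume.withDensity (fun x : EE m => ENNReal.ofReal (Real.exp (-V x))))
    (i : Fin m) : densityMean (densOf V) i = ∫ x, T x i ∂μ := by
  unfold densityMean
  rw [lc_integral_densOf V (fun x => x i),
    lc_integral_of_map hV h1 hT (F := fun y => y i) (by fun_prop)]

theorem lc_cov_of_map {V : EE m → ℝ} (hV : Measurable V) (h1 : ∫ x, Real.exp (-V x) = 1)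
    {μ : Measure (EE m)} {T : EE m → EE m}
    (hT : μ.map T = volume.withDensity (fun x : EE m => ENNReal.ofReal (Real.exp (-V x))))
    (i k : Fin m) :
    densityCov (densOf V) i k = ∫ x, (T x i - ∫ z, T z i ∂μ) * (T x k - ∫ z, T z k ∂μ) ∂μ := by
  unfold densityCov
  rw [lc_mean_of_map hV h1 hT i, lc_mean_of_map hV h1 hT k]
  rw [lc_integral_densOf V (fun x => (x i - ∫ z, T z i ∂μ) * (x k - ∫ z, T z k ∂μ)),
    lc_integral_of_map hV h1 hT
      (F := fun y => (y i - ∫ z, T z i ∂μ) * (y k - ∫ z, T z k ∂μ)) (by fun_prop)]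

theorem lc_entropy_densOf (V : EE m → ℝ) :
    diffEntropy (densOf V) = ∫ y : EE m, V y * Real.exp (-V y) := by
  unfold diffEntropy
  rw [apx_integral_toE, ← integral_neg]
  refine integral_congr_ae (Eventually.of_forall fun y => ?_)
  simp [densOf]
  ring

theorem lc_entropy_of_map {V : EE m → ℝ} (hV : Measurable V) (h1 : ∫ x, Real.exp (-V x) = 1)
    {μ : Measure (EE m)} {T : EE m → EE m}
    (hT : μ.map T = volume.withDensity (fun x : EE m => ENNReal.ofReal (Real.exp (-V x)))) :
    diffEntropy (densOf V) = ∫ x, V (T x) ∂μ := by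
  rw [lc_entropy_densOf, lc_integral_of_map hV h1 hT hV]

/-! ### The facts on one log-concave density, in the form used by `ApxMain.lean` -/

theorem lc_integrable_weight {f : (Fin m → ℝ) → ℝ} (hf : IsLogConcaveDensityOn f)
    {p : (Fin m → ℝ) → ℝ} (hp : Measurable p) {c : ℝ}
    (hpc : ∀ x, |p x| ≤ c * (1 + ∑ i, x i ^ 2)) : Integrable (fun x => p x * f x) := by
  obtain ⟨a, b, ha, hb⟩ := lc_exp_decay hf
  refine lc_integrable_weight_of_le hf.1 hf.2.1 ha hb hp (c := |c| * ((m : ℝ) + 1)) (k := 2) ?_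
  intro x
  have h1 : ∑ i, x i ^ 2 ≤ (m : ℝ) * ‖x‖ ^ 2 := by
    have : ∀ i ∈ Finset.univ, x i ^ 2 ≤ ‖x‖ ^ 2 := by
      intro i _
      have := norm_le_pi_norm x i
      rw [Real.norm_eq_abs] at this
      calc x i ^ 2 = |x i| ^ 2 := (sq_abs _).symm
        _ ≤ ‖x‖ ^ 2 := by gcongr
    calc ∑ i, x i ^ 2 ≤ ∑ _i : Fin m, ‖x‖ ^ 2 := Finset.sum_le_sum this
      _ = (m : ℝ) * ‖x‖ ^ 2 := by simp
  have h0 : 0 ≤ ∑ i, x i ^ 2 := Finset.sum_nonneg fun i _ => sq_nonneg _
  have hn := norm_nonneg x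
  have hm : (0 : ℝ) ≤ m := Nat.cast_nonneg m
  calc |p x| ≤ c * (1 + ∑ i, x i ^ 2) := hpc x
    _ ≤ |c| * (1 + ∑ i, x i ^ 2) := by gcongr; exact le_abs_self c
    _ ≤ |c| * (((m : ℝ) + 1) * (1 + ‖x‖) ^ 2) := by
        gcongr
        nlinarith [mul_nonneg hm hn, mul_nonneg hm (sq_nonneg ‖x‖)]
    _ = |c| * ((m : ℝ) + 1) * (1 + ‖x‖) ^ 2 := by ring

theorem lc_integrable_entropy {f : (Fin m → ℝ) → ℝ} (hf : IsLogConcaveDensityOn f) :
    Integrable (fun x => f x * Real.log (f x)) := (lc_mom hf).intE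

theorem lc_cov_posDef_of_logConcave {f : (Fin m → ℝ) → ℝ} (hf : IsLogConcaveDensityOn f) :
    (densityCov f).PosDef := lc_cov_posDef (lc_mom hf)

end Claimed.Agent.R260
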