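/-
Row 260, scalar foundation, file 2: calculus of the Gaussian tail, the ODE identities
`q' = q d`, `t' = q`, `k' = b`, `b' = l`, `l' = scL1` and Lemma 2.1 (`tr:q-properties`).
Owner: helper104.
-/
import Claimed.Agent.R260.ScDefs

namespace Claimed.Agent.R260

open MeasureTheory Set Filter Topology

/-! ### the weight -/

lemma scW_pos (x : ℝ) : 0 < scW x := Real.exp_pos _

lemma scW_eq (x : ℝ) : scW x = Real.exp (-(1/2 : ℝ) * x ^ 2) := by
  unfold scW; congr 1; ring

lemma scW_continuous : Continuous scW := by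
  unfold scW; fun_prop

lemma scW_integrable : Integrable scW := by
  have := integrable_exp_neg_mul_sq (b := 1/2) (by norm_num)
  refine this.congr (Eventually.of_forall fun x => ?_)
  simp only [scW_eq]

lemma hasDerivAt_scW (a : ℝ) : HasDerivAt scW (-a * scW a) a := by
  unfold scW
  have h : HasDerivAt (fun x : ℝ => -(x ^ 2) / 2) (-a) a := by
    have h0 : HasDerivAt (fun x : ℝ => x ^ 2) (2 * a) a := by simpa using hasDerivAt_pow 2 a
    exact (h0.fun_neg.div_const 2).congr_deriv (by ring)
  exact h.exp.congr_deriv (by ring)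

lemma scW_mul_integrable : Integrable (fun x => x * scW x) := by
  have := integrable_mul_exp_neg_mul_sq (b := 1/2) (by norm_num)
  refine this.congr (Eventually.of_forall fun x => ?_)
  simp only [scW_eq]

lemma scW_sq_mul_integrable : Integrable (fun x => x ^ 2 * scW x) := by
  have := integrable_rpow_mul_exp_neg_mul_sq (b := 1/2) (by norm_num) (s := 2) (by norm_num)
  refine this.congr (Eventually.of_forall fun x => ?_)
  simp only [scW_eq]
  norm_num

lemma scW_neg (x : ℝ) : scW (-x) = scW x := by simp [scW]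

lemma scW_tendsto_atTop : Tendsto scW atTop (𝓝 0) := by
  unfold scW
  apply Real.tendsto_exp_atBot.comp
  have : Tendsto (fun x : ℝ => x ^ 2 / 2) atTop atTop :=
    (tendsto_pow_atTop (by norm_num)).atTop_div_const (by norm_num)
  have h2 := tendsto_neg_atTop_atBot.comp this
  refine h2.congr fun x => ?_
  simp [neg_div]

/-- `x^n e^{-x²/2} → 0`. -/
lemma sc_pow_mul_scW_tendsto (n : ℕ) : Tendsto (fun x => x ^ n * scW x) atTop (𝓝 0) := by
  -- `e^{-x²/2} ≤ e^{-x}·e^{1/2}`
  have h1 : Tendsto (fun x : ℝ => Real.exp (1/2) * (x ^ n * Real.exp (-x))) atTop (𝓝 0) := by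
    simpa using (Real.tendsto_pow_mul_exp_neg_atTop_nhds_zero n).const_mul (Real.exp (1/2))
  refine squeeze_zero' ?_ ?_ h1
  · filter_upwards [eventually_ge_atTop 0] with x hx
    exact mul_nonneg (pow_nonneg hx n) (scW_pos x).le
  · filter_upwards [eventually_ge_atTop 0] with x hx
    have : scW x ≤ Real.exp (1/2) * Real.exp (-x) := by
      unfold scW
      rw [← Real.exp_add]
      apply Real.exp_le_exp.mpr
      nlinarith [sq_nonneg (x - 1)]
    calc x ^ n * scW x ≤ x ^ n * (Real.exp (1/2) * Real.exp (-x)) :=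
          mul_le_mul_of_nonneg_left this (pow_nonneg hx n)
      _ = Real.exp (1/2) * (x ^ n * Real.exp (-x)) := by ring

/-! ### the tail -/

lemma scTail_pos (a : ℝ) : 0 < scTail a := by
  unfold scTail
  rw [setIntegral_pos_iff_support_of_nonneg_ae (Eventually.of_forall fun x => (scW_pos x).le)
    scW_integrable.integrableOn]
  have : Function.support scW = univ := by
    ext x; simp [(scW_pos x).ne']
  simp [this]

lemma scTail_eq_sub (a : ℝ) : scTail a = scTail 0 - ∫ x in (0:ℝ)..a, scW x := by
  unfold scTail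
  rw [← intervalIntegral.integral_Ioi_sub_Ioi' scW_integrable.integrableOn
    scW_integrable.integrableOn]
  ring

lemma hasDerivAt_scTail (a : ℝ) : HasDerivAt scTail (-scW a) a := by
  have h1 : HasDerivAt (fun u => ∫ x in (0:ℝ)..u, scW x) (scW a) a :=
    intervalIntegral.integral_hasDerivAt_right (scW_continuous.intervalIntegrable _ _)
      (scW_continuous.stronglyMeasurableAtFilter _ _) scW_continuous.continuousAt
  have h2 := h1.const_sub (scTail 0)
  have : scTail = fun u => scTail 0 - ∫ x in (0:ℝ)..u, scW x := funext scTail_eq_sub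
  rw [this]; exact h2

lemma scTail_tendsto_atTop : Tendsto scTail atTop (𝓝 0) := by
  have h := intervalIntegral_tendsto_integral_Ioi (f := scW) (μ := volume) 0
    scW_integrable.integrableOn tendsto_id
  have h2 : Tendsto (fun a => scTail 0 - ∫ x in (0:ℝ)..a, scW x) atTop (𝓝 (scTail 0 - scTail 0)) :=
    tendsto_const_nhds.sub h
  rw [sub_self] at h2
  exact h2.congr fun a => (scTail_eq_sub a).symm

/-- total mass `∫ e^{-x²/2} = √(2π)`. -/
lemma sc_integral_scW : ∫ x, scW x = Real.sqrt (2 * Real.pi) := by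
  have := integral_gaussian (1/2)
  rw [show Real.pi / (1/2) = 2 * Real.pi by ring] at this
  rw [← this]
  exact integral_congr_ae (Eventually.of_forall fun x => scW_eq x)

/-- reflection: `Φ(a) + Φ(-a) = 1`. -/
lemma scTail_add_neg (a : ℝ) : scTail a + scTail (-a) = Real.sqrt (2 * Real.pi) := by
  have h1 : scTail (-a) = ∫ x in Iic a, scW x := by
    unfold scTail
    have := integral_comp_neg_Iic (E := ℝ) a scW
    rw [← this]
    simp only [scW_neg]
  rw [h1, ← sc_integral_scW, add_comm]
  exact intervalIntegral.integral_Iic_add_Ioi scW_integrable.integrableOn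
    scW_integrable.integrableOn

lemma scTail_lt (a : ℝ) : scTail a < Real.sqrt (2 * Real.pi) := by
  have := scTail_add_neg a
  have := scTail_pos (-a)
  linarith

/-- generic tool: a differentiable function with negative derivative that tends to `0` at `+∞`
is positive. -/
lemma sc_pos_of_deriv_neg {f f' : ℝ → ℝ} (hf : ∀ x, HasDerivAt f (f' x) x)
    (hf' : ∀ x, f' x < 0) (hlim : Tendsto f atTop (𝓝 0)) (a : ℝ) : 0 < f a := by
  have hanti : StrictAnti f := strictAnti_of_hasDerivAt_neg hf hf'
  have h1 : 0 ≤ f (a + 1) :=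
    le_of_tendsto hlim ((eventually_ge_atTop (a + 1)).mono fun x hx => hanti.antitone hx)
  have h2 : f (a + 1) < f a := hanti (by linarith)
  linarith

/-- first moment: `∫_a^∞ x e^{-x²/2} dx = e^{-a²/2}`. -/
lemma sc_integral_mul (a : ℝ) : ∫ x in Ioi a, x * scW x = scW a := by
  have h := integral_Ioi_of_hasDerivAt_of_tendsto' (a := a) (f := fun x => -scW x)
    (f' := fun x => x * scW x) (m := 0)
    (fun x _ => (hasDerivAt_scW x).fun_neg.congr_deriv (by ring))
    scW_mul_integrable.integrableOn
    (by simpa using scW_tendsto_atTop.neg)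
  rw [h]; ring

/-- `E₁(a) = ∫_a^∞ (x-a) e^{-x²/2} dx = e^{-a²/2} - a Tail(a) > 0`. -/
lemma sc_E1_pos (a : ℝ) : 0 < scW a - a * scTail a := by
  have h1 : ∫ x in Ioi a, (x - a) * scW x = scW a - a * scTail a := by
    have : ∀ x, (x - a) * scW x = x * scW x - a * scW x := fun x => by ring
    simp only [this]
    rw [integral_sub scW_mul_integrable.integrableOn (scW_integrable.const_mul a).integrableOn,
      sc_integral_mul, integral_const_mul]
    rfl
  rw [← h1]
  have hint : IntegrableOn (fun x => (x - a) * scW x) (Ioi a) := by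
    have : (fun x => (x - a) * scW x) = fun x => x * scW x - a * scW x := by
      funext x; ring
    rw [this]
    exact (scW_mul_integrable.sub (scW_integrable.const_mul a)).integrableOn
  rw [setIntegral_pos_iff_support_of_nonneg_ae _ hint]
  · have : Ioi a ⊆ Function.support (fun x => (x - a) * scW x) ∩ Ioi a := by
      intro x hx
      refine ⟨?_, hx⟩
      have hx' : 0 < x - a := sub_pos.mpr hx
      exact (mul_pos hx' (scW_pos x)).ne'
    refine lt_of_lt_of_le ?_ (measure_mono this)
    simp
  · rw [EventuallyLE, ae_restrict_iff' measurableSet_Ioi]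
    refine Eventually.of_forall fun x hx => ?_
    have hx' : 0 < x - a := sub_pos.mpr hx
    exact (mul_pos hx' (scW_pos x)).le

/-! ### `q`, `d`, `t` -/

lemma scQ_pos (a : ℝ) : 0 < scQ a := div_pos (scW_pos a) (scTail_pos a)

lemma scW_eq_scQ_mul (a : ℝ) : scW a = scQ a * scTail a := by
  unfold scQ; field_simp [(scTail_pos a).ne']

/-- Lemma 2.1: `d > 0`. -/
lemma scD_pos (a : ℝ) : 0 < scD a := by
  have h := sc_E1_pos a
  rw [scW_eq_scQ_mul] at h
  have : 0 < (scQ a - a) * scTail a := by linarith [h]
  exact (pos_iff_pos_of_mul_pos this).mpr (scTail_pos a)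

lemma scQ_gt (a : ℝ) : a < scQ a := by have := scD_pos a; unfold scD at this; linarith

lemma hasDerivAt_scQ (a : ℝ) : HasDerivAt scQ (scQ a * scD a) a := by
  have h := (hasDerivAt_scW a).fun_div (hasDerivAt_scTail a) (scTail_pos a).ne'
  refine h.congr_deriv ?_
  have hT := (scTail_pos a).ne'
  unfold scD scQ
  field_simp
  ring

lemma hasDerivAt_scD (a : ℝ) : HasDerivAt scD (scQ a * scD a - 1) a :=
  (hasDerivAt_scQ a).fun_sub (hasDerivAt_id' a)

lemma hasDerivAt_scT (a : ℝ) : HasDerivAt scT (scQ a) a := by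
  have hs : (0:ℝ) < Real.sqrt (2 * Real.pi) := Real.sqrt_pos.mpr (by positivity)
  have h := (((hasDerivAt_scTail a).div_const (Real.sqrt (2 * Real.pi))).log
    (div_pos (scTail_pos a) hs).ne').fun_neg
  refine h.congr_deriv ?_
  have hT := (scTail_pos a).ne'
  unfold scQ
  field_simp

lemma scT_pos (a : ℝ) : 0 < scT a := by
  have hs : (0:ℝ) < Real.sqrt (2 * Real.pi) := Real.sqrt_pos.mpr (by positivity)
  unfold scT
  rw [neg_pos]
  exact Real.log_neg (div_pos (scTail_pos a) hs) ((div_lt_one hs).mpr (scTail_lt a))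

lemma scK_pos (a : ℝ) : 0 < scK a := div_pos (scT_pos a) (scQ_pos a)

lemma hasDerivAt_scK (a : ℝ) : HasDerivAt scK (scB a) a := by
  have h := (hasDerivAt_scT a).fun_div (hasDerivAt_scQ a) (scQ_pos a).ne'
  refine h.congr_deriv ?_
  have hq := (scQ_pos a).ne'
  unfold scB scK
  field_simp

lemma hasDerivAt_scB (a : ℝ) : HasDerivAt scB (scL a) a := by
  have h := ((hasDerivAt_scK a).fun_mul (hasDerivAt_scD a)).const_sub 1
  refine h.congr_deriv ?_
  unfold scL scB scD
  ring

lemma hasDerivAt_scL (a : ℝ) : HasDerivAt scL (scL1 a) a := by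
  have h := ((hasDerivAt_scK a).fun_sub (hasDerivAt_scQ a)).fun_add
    ((hasDerivAt_id' a).fun_mul (hasDerivAt_scB a))
  refine h.congr_deriv ?_
  unfold scL1
  ring

/-- `q - k = a b - l` -/
lemma scQ_sub_scK (a : ℝ) : scQ a - scK a = a * scB a - scL a := by
  unfold scL; ring

end Claimed.Agent.R260
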