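/-
Row 260, scalar foundation, file 3: Lemma 2.1 (`tr:q-properties`):
`d > 0` (in ScBasic), `0 < q' < 1`, `q'' ≥ 0`, `0 < 1 - q d ≤ d²`, `q` is an increasing bijection
`ℝ → (0,∞)`; the inverse function `scQinv`.

Proof method (differs from the paper: no probability, no double integrals): each quantity,
multiplied by a suitable power of the tail, has a negative derivative and tends to `0` at `+∞`.
Owner: helper104.
-/
import Claimed.Agent.R260.ScBasic

namespace Claimed.Agent.R260

open MeasureTheory Set Filter Topology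

/-- `a Tail(a) → 0`. -/
lemma sc_mul_scTail_tendsto : Tendsto (fun a => a * scTail a) atTop (𝓝 0) := by
  refine squeeze_zero' ?_ ?_ scW_tendsto_atTop
  · filter_upwards [eventually_ge_atTop 0] with a ha
    exact mul_nonneg ha (scTail_pos a).le
  · filter_upwards with a
    linarith [sc_E1_pos a]

/-- `a² Tail(a) → 0`. -/
lemma sc_sq_mul_scTail_tendsto : Tendsto (fun a => a ^ 2 * scTail a) atTop (𝓝 0) := by
  have h := sc_pow_mul_scW_tendsto 1
  refine squeeze_zero' ?_ ?_ h
  · filter_upwards with a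
    exact mul_nonneg (sq_nonneg a) (scTail_pos a).le
  · filter_upwards [eventually_ge_atTop 0] with a ha
    nlinarith [sc_E1_pos a]

/-- `E₂(a) = ∫_a^∞ (x-a)² e^{-x²/2} dx = (1+a²) Tail(a) - a e^{-a²/2} > 0`. -/
lemma sc_E2_pos (a : ℝ) : 0 < (1 + a ^ 2) * scTail a - a * scW a := by
  refine sc_pos_of_deriv_neg (f := fun a => (1 + a ^ 2) * scTail a - a * scW a)
    (f' := fun a => -2 * (scW a - a * scTail a)) (fun x => ?_) (fun x => ?_) ?_ a
  · have h0 : HasDerivAt (fun x : ℝ => 1 + x ^ 2) (2 * x) x := by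
      simpa using (hasDerivAt_pow 2 x).const_add 1
    have h := (h0.fun_mul (hasDerivAt_scTail x)).fun_sub
      ((hasDerivAt_id' x).fun_mul (hasDerivAt_scW x))
    exact h.congr_deriv (by ring)
  · nlinarith [sc_E1_pos x]
  · have h := (scTail_tendsto_atTop.add sc_sq_mul_scTail_tendsto).sub (sc_pow_mul_scW_tendsto 1)
    simp only [add_zero, sub_zero] at h
    refine h.congr fun x => ?_
    ring

/-- the variance functional `Tail² + a W Tail - W² > 0`. -/
lemma sc_V_pos (a : ℝ) : 0 < scTail a ^ 2 + a * scW a * scTail a - scW a ^ 2 := by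
  refine sc_pos_of_deriv_neg (f := fun a => scTail a ^ 2 + a * scW a * scTail a - scW a ^ 2)
    (f' := fun a => -scW a * ((1 + a ^ 2) * scTail a - a * scW a)) (fun x => ?_) (fun x => ?_) ?_ a
  · have h := (((hasDerivAt_scTail x).fun_pow 2).fun_add
      (((hasDerivAt_id' x).fun_mul (hasDerivAt_scW x)).fun_mul (hasDerivAt_scTail x))).fun_sub
      ((hasDerivAt_scW x).fun_pow 2)
    refine h.congr_deriv ?_
    simp only [Nat.cast_ofNat, Nat.add_one_sub_one, pow_one]
    ring
  · have := mul_pos (scW_pos x) (sc_E2_pos x)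
    linarith
  · have h := ((scTail_tendsto_atTop.pow 2).add
      ((sc_pow_mul_scW_tendsto 1).mul scTail_tendsto_atTop)).sub (scW_tendsto_atTop.pow 2)
    simp only [ne_eq, OfNat.ofNat_ne_zero, not_false_eq_true, zero_pow, mul_zero, add_zero,
      sub_zero] at h
    refine h.congr fun x => ?_
    ring

/-- Lemma 2.1: `q' = q d < 1` (positivity of the variance of the Gaussian excess). -/
lemma scQ_mul_scD_lt_one (a : ℝ) : scQ a * scD a < 1 := by
  have hT := scTail_pos a
  have h := sc_V_pos a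
  rw [scW_eq_scQ_mul] at h
  have h2 : 0 < (1 - scQ a * scD a) * scTail a ^ 2 := by
    unfold scD; nlinarith [h]
  have := (pos_iff_pos_of_mul_pos h2).mpr (pow_pos hT 2)
  linarith

lemma scQ_mul_scD_pos (a : ℝ) : 0 < scQ a * scD a := mul_pos (scQ_pos a) (scD_pos a)

/-- `1 - a d > 0` (second moment of the Gaussian excess). -/
lemma sc_one_sub_mul_scD_pos (a : ℝ) : 0 < 1 - a * scD a := by
  have hT := scTail_pos a
  have h := sc_E2_pos a
  rw [scW_eq_scQ_mul] at h
  have h2 : 0 < (1 - a * scD a) * scTail a := by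
    unfold scD; nlinarith [h]
  exact (pos_iff_pos_of_mul_pos h2).mpr hT

/-- the functional `W(a) = 2 W - 3 a Tail + (a²-1) Tail²/W`, equal to `(d²+qd-1) Tail²/W`. -/
lemma sc_G_pos (a : ℝ) :
    0 < 2 * scW a - 3 * (a * scTail a) + (a ^ 2 - 1) * scTail a ^ 2 / scW a := by
  refine sc_pos_of_deriv_neg
    (f := fun a => 2 * scW a - 3 * (a * scTail a) + (a ^ 2 - 1) * scTail a ^ 2 / scW a)
    (f' := fun a => -((scW a - a * scTail a) * ((1 + a ^ 2) * scTail a - a * scW a) / scW a))
    (fun x => ?_) (fun x => ?_) ?_ a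
  · have h0 : HasDerivAt (fun x : ℝ => x ^ 2 - 1) (2 * x) x := by
      simpa using (hasDerivAt_pow 2 x).sub_const 1
    have h := (((hasDerivAt_scW x).const_mul 2).fun_sub
      (((hasDerivAt_id' x).fun_mul (hasDerivAt_scTail x)).const_mul 3)).fun_add
      ((h0.fun_mul ((hasDerivAt_scTail x).fun_pow 2)).fun_div (hasDerivAt_scW x) (scW_pos x).ne')
    refine h.congr_deriv ?_
    have hW := (scW_pos x).ne'
    simp only [Nat.cast_ofNat, Nat.add_one_sub_one, pow_one]
    field_simp
    ring
  · have := div_pos (mul_pos (sc_E1_pos x) (sc_E2_pos x)) (scW_pos x)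
    linarith
  · have h3 : Tendsto (fun a => (a ^ 2 - 1) * scTail a ^ 2 / scW a) atTop (𝓝 0) := by
      refine squeeze_zero' ?_ ?_ sc_mul_scTail_tendsto
      · filter_upwards [eventually_ge_atTop 1] with x hx
        have : 0 ≤ x ^ 2 - 1 := by nlinarith
        exact div_nonneg (mul_nonneg this (sq_nonneg _)) (scW_pos x).le
      · filter_upwards [eventually_ge_atTop 1] with x hx
        rw [div_le_iff₀ (scW_pos x)]
        have h1 := sc_E1_pos x
        have hT := scTail_pos x
        have hxT : 0 ≤ x * scTail x := by positivity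
        nlinarith [mul_nonneg hxT h1.le, sq_nonneg (scTail x)]
    have h := ((scW_tendsto_atTop.const_mul 2).sub (sc_mul_scTail_tendsto.const_mul 3)).add h3
    simpa using h

/-- Lemma 2.1: `1 - q d < d²` (strict form of the excess-variance bound). -/
lemma sc_one_sub_lt_sq (a : ℝ) : 1 - scQ a * scD a < scD a ^ 2 := by
  have hT := scTail_pos a
  have hW := scW_pos a
  have h := sc_G_pos a
  have h1 : 0 < (2 * scW a - 3 * (a * scTail a) + (a ^ 2 - 1) * scTail a ^ 2 / scW a) * scW a :=
    mul_pos h hW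
  have h2 : (2 * scW a - 3 * (a * scTail a) + (a ^ 2 - 1) * scTail a ^ 2 / scW a) * scW a
      = 2 * scW a ^ 2 - 3 * a * scTail a * scW a + (a ^ 2 - 1) * scTail a ^ 2 := by
    field_simp
  rw [h2, scW_eq_scQ_mul] at h1
  have h3 : 0 < (scD a ^ 2 + scQ a * scD a - 1) * scTail a ^ 2 := by
    unfold scD; nlinarith [h1]
  have := (pos_iff_pos_of_mul_pos h3).mpr (pow_pos hT 2)
  linarith

lemma sc_one_sub_le_sq (a : ℝ) : 1 - scQ a * scD a ≤ scD a ^ 2 := (sc_one_sub_lt_sq a).le

/-- second derivative of `q`. -/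
lemma hasDerivAt_scQ_mul_scD (a : ℝ) :
    HasDerivAt (fun x => scQ x * scD x) (scQ a * (scD a ^ 2 + scQ a * scD a - 1)) a :=
  ((hasDerivAt_scQ a).fun_mul (hasDerivAt_scD a)).congr_deriv (by ring)

lemma scQ_second_deriv_pos (a : ℝ) : 0 < scQ a * (scD a ^ 2 + scQ a * scD a - 1) :=
  mul_pos (scQ_pos a) (by linarith [sc_one_sub_lt_sq a])

lemma scQ_strictMono : StrictMono scQ :=
  strictMono_of_hasDerivAt_pos hasDerivAt_scQ scQ_mul_scD_pos

lemma scQ_continuous : Continuous scQ :=
  continuous_iff_continuousAt.mpr fun a => (hasDerivAt_scQ a).continuousAt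

lemma scD_strictAnti : StrictAnti scD :=
  strictAnti_of_hasDerivAt_neg hasDerivAt_scD fun a => by linarith [scQ_mul_scD_lt_one a]

lemma scQ_convexOn : ConvexOn ℝ univ scQ := by
  have hmono : Monotone (deriv scQ) := by
    have : deriv scQ = fun x => scQ x * scD x := funext fun x => (hasDerivAt_scQ x).deriv
    rw [this]
    exact (strictMono_of_hasDerivAt_pos hasDerivAt_scQ_mul_scD scQ_second_deriv_pos).monotone
  exact hmono.convexOn_univ_of_deriv fun x => (hasDerivAt_scQ x).differentiableAt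

lemma scQ_tendsto_atTop : Tendsto scQ atTop atTop :=
  tendsto_atTop_mono (fun a => (scQ_gt a).le) tendsto_id

lemma scW_tendsto_atBot : Tendsto scW atBot (𝓝 0) := by
  have := scW_tendsto_atTop.comp tendsto_neg_atBot_atTop
  refine this.congr fun x => ?_
  simp [scW_neg]

lemma scTail_strictAnti : StrictAnti scTail :=
  strictAnti_of_hasDerivAt_neg hasDerivAt_scTail fun a => by linarith [scW_pos a]

lemma scQ_tendsto_atBot : Tendsto scQ atBot (𝓝 0) := by
  have h : Tendsto (fun a => scW a / scTail 0) atBot (𝓝 0) := by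
    simpa using scW_tendsto_atBot.div_const (scTail 0)
  refine squeeze_zero' ?_ ?_ h
  · filter_upwards with a using (scQ_pos a).le
  · filter_upwards [eventually_le_atBot 0] with a ha
    unfold scQ
    exact div_le_div_of_nonneg_left (scW_pos a).le (scTail_pos 0) (scTail_strictAnti.antitone ha)

/-- Lemma 2.1: `q` is onto `(0,∞)`. -/
lemma scQ_surjOn : SurjOn scQ univ (Ioi 0) := by
  intro y hy
  have hy' : (0:ℝ) < y := hy
  obtain ⟨a1, ha1⟩ := ((scQ_tendsto_atBot.eventually (gt_mem_nhds hy')).exists)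
  obtain ⟨a2, ha2⟩ := ((scQ_tendsto_atTop.eventually (eventually_gt_atTop y)).exists)
  have hle : a1 ≤ a2 := by
    by_contra hcon
    have := scQ_strictMono (not_le.mp hcon)
    linarith
  obtain ⟨x, _, hx⟩ := intermediate_value_Icc hle scQ_continuous.continuousOn
    (show y ∈ Icc (scQ a1) (scQ a2) from ⟨ha1.le, ha2.le⟩)
  exact ⟨x, mem_univ _, hx⟩

lemma scQ_range : range scQ = Ioi 0 := by
  apply Subset.antisymm
  · rintro _ ⟨a, rfl⟩; exact scQ_pos a
  · intro y hy
    obtain ⟨x, _, hx⟩ := scQ_surjOn hy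
    exact ⟨x, hx⟩

/-- the inverse function `q⁻¹ : (0,∞) → ℝ` (junk value outside). -/
noncomputable def scQinv (y : ℝ) : ℝ := Function.invFun scQ y

lemma scQinv_scQ (a : ℝ) : scQinv (scQ a) = a :=
  Function.leftInverse_invFun scQ_strictMono.injective a

lemma scQ_scQinv {y : ℝ} (hy : 0 < y) : scQ (scQinv y) = y := by
  obtain ⟨x, _, hx⟩ := scQ_surjOn (show y ∈ Ioi (0:ℝ) from hy)
  rw [← hx, scQinv_scQ]

lemma scQinv_strictMonoOn : StrictMonoOn scQinv (Ioi 0) := by
  intro x hx y hy hxy
  by_contra hcon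
  have := scQ_strictMono.monotone (not_lt.mp hcon)
  rw [scQ_scQinv hx, scQ_scQinv hy] at this
  linarith

/-- derivative of `q⁻¹`. -/
lemma hasDerivAt_scQinv {y : ℝ} (hy : 0 < y) :
    HasDerivAt scQinv (y * scD (scQinv y))⁻¹ y := by
  have hcont : ContinuousAt scQinv y := by
    refine scQinv_strictMonoOn.continuousAt_of_image_mem_nhds (Ioi_mem_nhds hy) ?_
    have : scQinv '' Ioi 0 = univ := by
      ext a
      simp only [mem_image, mem_Ioi, mem_univ, iff_true]
      exact ⟨scQ a, scQ_pos a, scQinv_scQ a⟩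
    rw [this]; exact univ_mem
  have h := HasDerivAt.of_local_left_inverse (f := scQ) (g := scQinv) (a := y)
    (f' := y * scD (scQinv y)) hcont
    (by have := hasDerivAt_scQ (scQinv y); rwa [scQ_scQinv hy] at this)
    (mul_pos hy (scD_pos _)).ne'
    (by filter_upwards [Ioi_mem_nhds hy] with z hz using scQ_scQinv hz)
  exact h

end Claimed.Agent.R260
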