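/-
Row 260, scalar foundation, file 4: further calculus facts on `scTail, scQ, scT, scD, scK, scB, scL,
scF` (algebraic identities, derivatives of `f`, `f'`, `log q`, smoothness, values at `0`, Lipschitz
bound, limits of `t`, link with Mathlib's `gaussianReal`, law of `t(G)`).
Owner: helper104.
-/
import Claimed.Agent.R260.ScLemma21

set_option autoImplicit false

namespace Claimed.Agent.R260

open MeasureTheory Set Filter Topology
open scoped ContDiff

theorem sc_sqrt_two_pi_pos : 0 < Real.sqrt (2 * Real.pi) := Real.sqrt_pos.mpr (by positivity)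

theorem scT_eq (a : ℝ) : scT a = Real.log (Real.sqrt (2 * Real.pi)) - Real.log (scTail a) := by
  unfold scT
  rw [Real.log_div (scTail_pos a).ne' sc_sqrt_two_pi_pos.ne']
  ring

theorem scTail_zero : scTail 0 = Real.sqrt (2 * Real.pi) / 2 := by
  have := scTail_add_neg 0
  rw [neg_zero] at this
  linarith

/-- link with Mathlib's Gaussian: `Φ(-a) = scTail a / √(2π)`. -/
theorem sc_gaussianReal_Ioi (a : ℝ) :
    (ProbabilityTheory.gaussianReal 0 1 (Ioi a)).toReal = scTail a / Real.sqrt (2 * Real.pi) := by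
  rw [ProbabilityTheory.gaussianReal_apply_eq_integral 0 one_ne_zero]
  rw [ENNReal.toReal_ofReal (by
    apply setIntegral_nonneg measurableSet_Ioi
    intro x _
    exact ProbabilityTheory.gaussianPDFReal_nonneg _ _ _)]
  unfold scTail scW
  rw [div_eq_inv_mul, ← integral_const_mul]
  congr 1
  funext x
  simp only [ProbabilityTheory.gaussianPDFReal, NNReal.coe_one, mul_one, sub_zero]

/-! ### algebraic identities -/

theorem scQ_mul_scK (a : ℝ) : scQ a * scK a = scT a := by
  unfold scK; field_simp [(scQ_pos a).ne']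

/-- `log q = -a²/2 - ½ log(2π) + t`. -/
theorem sc_log_scQ (a : ℝ) :
    Real.log (scQ a) = -a ^ 2 / 2 - Real.log (Real.sqrt (2 * Real.pi)) + scT a := by
  rw [scT_eq]
  unfold scQ scW
  rw [Real.log_div (Real.exp_pos _).ne' (scTail_pos a).ne', Real.log_exp]
  ring

/-- `a f - f' = 2 t - k² - b² - 1`. -/
theorem sc_af_sub_fp (a : ℝ) :
    a * scF a - scF1 a = 2 * scT a - scK a ^ 2 - scB a ^ 2 - 1 := by
  rw [← scQ_mul_scK]
  unfold scF scF1 scL
  have hb : scB a = 1 - scK a * (scQ a - a) := rfl
  generalize scB a = B at *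
  subst hb
  ring

/-- `p = b + k l - l²/α`. -/
theorem scP_eq (a : ℝ) : scP a = scB a + scK a * scL a - (40 / 3) * scL a ^ 2 := by
  unfold scP scF1 scα; ring

/-- `e = b - b² + k l - 2 l²/α`. -/
theorem scE_eq (a : ℝ) :
    scE a = scB a - scB a ^ 2 + scK a * scL a - (80 / 3) * scL a ^ 2 := by
  unfold scE scF1 scα; ring

theorem scH0_eq (a : ℝ) :
    scH0 a = scK a * (scB a - 1 / 2) - (80 / 3) * (scB a - 7 / 25) * scL a := by
  unfold scH0 scF scc scβ scα; ring

/-- `𝖤 = p + b(.75 - b) - l²/α`. -/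
theorem scEE_eq (a : ℝ) :
    scEE a = scP a + scB a * (3 / 4 - scB a) - (40 / 3) * scL a ^ 2 := by
  unfold scEE scE scP scF1 scγ scα; ring

/-! ### derivatives -/

theorem hasDerivAt_scF (a : ℝ) : HasDerivAt scF (scF1 a) a := by
  have h := (hasDerivAt_scK a).fun_mul ((hasDerivAt_scB a).const_add 1)
  exact h.congr_deriv (by unfold scF1; ring)

/-- `f'' = l (1 + 3 b) + k l'` (`= l h_*` where `l ≠ 0`). -/
theorem hasDerivAt_scF1 (a : ℝ) :
    HasDerivAt scF1 (scL a * (1 + 3 * scB a) + scK a * scL1 a) a := by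
  have h := ((hasDerivAt_scB a).fun_mul ((hasDerivAt_scB a).const_add 1)).fun_add
    ((hasDerivAt_scK a).fun_mul (hasDerivAt_scL a))
  exact h.congr_deriv (by ring)

/-- `(log q)' = d`. -/
theorem hasDerivAt_log_scQ (a : ℝ) : HasDerivAt (fun x => Real.log (scQ x)) (scD a) a := by
  have h := (hasDerivAt_scQ a).log (scQ_pos a).ne'
  exact h.congr_deriv (by field_simp [(scQ_pos a).ne'])

/-! ### smoothness (`C^∞`; NB `⊤ : WithTop ℕ∞` would mean analytic) -/

theorem contDiff_scW : ContDiff ℝ ∞ scW := by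
  unfold scW; fun_prop

theorem contDiff_scTail : ContDiff ℝ ∞ scTail := by
  rw [contDiff_infty_iff_deriv]
  refine ⟨fun a => (hasDerivAt_scTail a).differentiableAt, ?_⟩
  have : deriv scTail = fun a => -scW a := funext fun a => (hasDerivAt_scTail a).deriv
  rw [this]
  exact contDiff_scW.neg

theorem contDiff_scQ : ContDiff ℝ ∞ scQ := by
  unfold scQ
  exact contDiff_scW.div contDiff_scTail fun a => (scTail_pos a).ne'

theorem contDiff_scT : ContDiff ℝ ∞ scT := by
  have : scT = fun a => Real.log (Real.sqrt (2 * Real.pi)) - Real.log (scTail a) := funext scT_eq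
  rw [this]
  exact contDiff_const.sub (contDiff_scTail.log fun a => (scTail_pos a).ne')

theorem contDiff_scD : ContDiff ℝ ∞ scD := by
  unfold scD
  exact contDiff_scQ.sub contDiff_id

theorem contDiff_scK : ContDiff ℝ ∞ scK := by
  unfold scK
  exact contDiff_scT.div contDiff_scQ fun a => (scQ_pos a).ne'

theorem contDiff_scB : ContDiff ℝ ∞ scB := by
  unfold scB
  exact contDiff_const.sub (contDiff_scK.mul contDiff_scD)

theorem contDiff_scL : ContDiff ℝ ∞ scL := by
  unfold scL
  exact (contDiff_scK.sub contDiff_scQ).add (contDiff_id.mul contDiff_scB)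

theorem contDiff_scF : ContDiff ℝ ∞ scF := by
  unfold scF
  exact contDiff_scK.mul (contDiff_const.add contDiff_scB)

theorem hasDerivAt_scQinv' {y : ℝ} (hy : 0 < y) :
    HasDerivAt scQinv (1 / (y * scD (scQinv y))) y := by
  have := hasDerivAt_scQinv hy
  rw [one_div]; exact this

theorem contDiffOn_scQinv : ContDiffOn ℝ ∞ scQinv (Ioi 0) := by
  rw [contDiffOn_infty]
  intro n
  induction n with
  | zero =>
    rw [Nat.cast_zero, contDiffOn_zero]
    exact fun y hy => (hasDerivAt_scQinv' hy).continuousAt.continuousWithinAt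
  | succ n ih =>
    rw [Nat.cast_succ, contDiffOn_succ_iff_deriv_of_isOpen isOpen_Ioi]
    refine ⟨fun y hy => (hasDerivAt_scQinv' hy).differentiableAt.differentiableWithinAt,
      fun h => absurd h (by simp), ?_⟩
    have hcongr : ∀ y ∈ Ioi (0:ℝ), deriv scQinv y = 1 / (y * scD (scQinv y)) :=
      fun y hy => (hasDerivAt_scQinv' hy).deriv
    refine ContDiffOn.congr ?_ hcongr
    refine contDiffOn_const.div (contDiffOn_id.mul ?_) ?_
    · exact (contDiff_scD.of_le (by exact_mod_cast le_top)).comp_contDiffOn ih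
    · intro y hy
      exact (mul_pos hy (scD_pos _)).ne'

/-! ### consequences of Lemma 2.1 -/

/-- `log q` is concave (`(log q)'' = q d - 1 < 0`). -/
theorem sc_log_scQ_concave : ConcaveOn ℝ univ (fun a => Real.log (scQ a)) := by
  have hanti : Antitone (deriv fun a => Real.log (scQ a)) := by
    have : (deriv fun a => Real.log (scQ a)) = scD := funext fun x => (hasDerivAt_log_scQ x).deriv
    rw [this]
    exact scD_strictAnti.antitone
  exact hanti.concaveOn_univ_of_deriv fun x => (hasDerivAt_log_scQ x).differentiableAt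

/-- `q` is 1-Lipschitz. -/
theorem scQ_sub_le {a a' : ℝ} (h : a ≤ a') : scQ a' - scQ a ≤ a' - a := by
  have := scD_strictAnti.antitone h
  unfold scD at this
  linarith

theorem abs_scQ_sub_le (a a' : ℝ) : |scQ a - scQ a'| ≤ |a - a'| := by
  rcases le_total a a' with h | h
  · have h1 := scQ_sub_le h
    have h2 := scQ_strictMono.monotone h
    rw [abs_of_nonpos (by linarith), abs_of_nonpos (by linarith)]
    linarith
  · have h1 := scQ_sub_le h
    have h2 := scQ_strictMono.monotone h
    rw [abs_of_nonneg (by linarith), abs_of_nonneg (by linarith)]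
    exact h1

theorem scQ_zero : scQ 0 = Real.sqrt (2 / Real.pi) := by
  have hpi := Real.pi_pos
  unfold scQ scW
  rw [scTail_zero]
  simp only [ne_eq, OfNat.ofNat_ne_zero, not_false_eq_true, zero_pow, neg_zero, zero_div,
    Real.exp_zero]
  have hs := sc_sqrt_two_pi_pos
  symm
  rw [Real.sqrt_eq_iff_mul_self_eq (by positivity) (by positivity)]
  have hsq : Real.sqrt (2 * Real.pi) * Real.sqrt (2 * Real.pi) = 2 * Real.pi :=
    Real.mul_self_sqrt (by positivity)
  field_simp
  nlinarith [hsq]

/-- `q'(0) = 2/π`. -/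
theorem scQ_mul_scD_zero : scQ 0 * scD 0 = 2 / Real.pi := by
  unfold scD
  rw [sub_zero, scQ_zero]
  exact Real.mul_self_sqrt (by positivity)

/-- for `a > 0`: `d a < 1/a`. -/
theorem scD_lt_inv {a : ℝ} (ha : 0 < a) : scD a < 1 / a := by
  rw [lt_div_iff₀ ha]
  have h1 := scQ_mul_scD_lt_one a
  have h2 := scQ_gt a
  have h3 := scD_pos a
  nlinarith

/-- `d a > -a` (trivially, `q > 0`). -/
theorem neg_lt_scD (a : ℝ) : -a < scD a := by
  have := scQ_pos a
  unfold scD; linarith

/-! ### the map `t` -/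

theorem scT_strictMono : StrictMono scT :=
  strictMono_of_hasDerivAt_pos hasDerivAt_scT scQ_pos

theorem scTail_tendsto_atBot : Tendsto scTail atBot (𝓝 (Real.sqrt (2 * Real.pi))) := by
  have h : Tendsto (fun a => Real.sqrt (2 * Real.pi) - scTail (-a)) atBot
      (𝓝 (Real.sqrt (2 * Real.pi) - 0)) :=
    tendsto_const_nhds.sub (scTail_tendsto_atTop.comp tendsto_neg_atBot_atTop)
  rw [sub_zero] at h
  refine h.congr fun a => ?_
  have := scTail_add_neg a
  linarith

theorem scT_tendsto_atBot : Tendsto scT atBot (𝓝 0) := by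
  have h : Tendsto (fun a => Real.log (Real.sqrt (2 * Real.pi)) - Real.log (scTail a)) atBot
      (𝓝 (Real.log (Real.sqrt (2 * Real.pi)) - Real.log (Real.sqrt (2 * Real.pi)))) :=
    tendsto_const_nhds.sub (scTail_tendsto_atBot.log sc_sqrt_two_pi_pos.ne')
  rw [sub_self] at h
  exact h.congr fun a => (scT_eq a).symm

theorem scT_tendsto_atTop : Tendsto scT atTop atTop := by
  have h1 : Tendsto scTail atTop (𝓝[>] 0) :=
    tendsto_nhdsWithin_iff.mpr ⟨scTail_tendsto_atTop, Eventually.of_forall scTail_pos⟩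
  have h2 : Tendsto (fun a => Real.log (scTail a)) atTop atBot :=
    Real.tendsto_log_nhdsGT_zero.comp h1
  have h3 : Tendsto (fun a => -Real.log (scTail a)) atTop atTop := tendsto_neg_atBot_atTop.comp h2
  have h4 := tendsto_atTop_add_const_left atTop (Real.log (Real.sqrt (2 * Real.pi))) h3
  refine h4.congr fun a => ?_
  rw [scT_eq]; ring

theorem scT_continuous : Continuous scT :=
  continuous_iff_continuousAt.mpr fun a => (hasDerivAt_scT a).continuousAt

/-- `e^{-t(a)} = Φ(-a)`. -/
theorem sc_exp_neg_scT (a : ℝ) : Real.exp (-scT a) = scTail a / Real.sqrt (2 * Real.pi) := by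
  rw [scT_eq, neg_sub, Real.exp_sub, Real.exp_log (scTail_pos a),
    Real.exp_log sc_sqrt_two_pi_pos]

theorem scT_surj {u : ℝ} (hu : 0 < u) : ∃ a, scT a = u := by
  obtain ⟨a1, ha1⟩ := ((scT_tendsto_atBot.eventually (gt_mem_nhds hu)).exists)
  obtain ⟨a2, ha2⟩ := ((scT_tendsto_atTop.eventually (eventually_gt_atTop u)).exists)
  have hle : a1 ≤ a2 := by
    by_contra hcon
    have := scT_strictMono (not_le.mp hcon)
    linarith
  obtain ⟨x, _, hx⟩ := intermediate_value_Icc hle scT_continuous.continuousOn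
    (show u ∈ Icc (scT a1) (scT a2) from ⟨ha1.le, ha2.le⟩)
  exact ⟨x, hx⟩

/-- the law of `t(G)` is the exponential law: `P(t(G) > u) = e^{-u}` for `u ≥ 0`. -/
theorem sc_gaussian_scT_tail {u : ℝ} (hu : 0 ≤ u) :
    (ProbabilityTheory.gaussianReal 0 1 {x | u < scT x}).toReal = Real.exp (-u) := by
  rcases hu.eq_or_lt with rfl | hu
  · have : {x | 0 < scT x} = univ := by
      ext x; simp [scT_pos x]
    rw [this]
    simp
  · obtain ⟨a, ha⟩ := scT_surj hu
    have : {x | u < scT x} = Ioi a := by
      ext x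
      show u < scT x ↔ a < x
      rw [← ha]
      exact scT_strictMono.lt_iff_lt
    rw [this, sc_gaussianReal_Ioi, ← ha, sc_exp_neg_scT]

end Claimed.Agent.R260
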