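/-
Row 260.  Leaf CORE-entropy (helper83): the deficit identity (3.3).
-/
import Claimed.Agent.R260.CoreDefs
import Claimed.Agent.R260.LcBridge
import Claimed.Agent.R260.MxFunB
import Claimed.Agent.R260.ScBasic2
import Claimed.Agent.R260.GKIbp

set_option autoImplicit false

namespace Claimed.Agent.R260

open MeasureTheory ProbabilityTheory Matrix
open scoped InnerProductSpace

variable {m : ℕ}

theorem coreE_C1P_coord (r : Fin m) : C1P (fun x : EE m => x r) := by
  have e : (fun x : EE m => x r) = (EuclideanSpace.proj r : EE m →L[ℝ] ℝ) := by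
    ext x; rfl
  refine C1L.toC1P ⟨?_, ‖(EuclideanSpace.proj r : EE m →L[ℝ] ℝ)‖, fun x => ?_⟩
  · rw [e]; exact ContinuousLinearMap.contDiff _
  · rw [e, ContinuousLinearMap.fderiv]

theorem coreE_integrable_coord_sq (r : Fin m) : Integrable (fun x : EE m => x r * x r) (gam m) :=
  ((gk_PG_coord r).mul (gk_PG_coord r)).integrable

theorem coreE_integral_coord_sq (r : Fin m) : ∫ x : EE m, x r * x r ∂gam m = 1 := by
  rw [gk_ibp (coreE_C1P_coord r) r]
  simp_rw [gk_pd_coord]
  simp

theorem coreE_norm_sq (x : EE m) : ‖x‖ ^ 2 = ∑ r, x r * x r := by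
  rw [EuclideanSpace.real_norm_sq_eq]
  refine Finset.sum_congr rfl fun r _ => ?_
  ring

theorem coreE_integrable_norm_sq : Integrable (fun x : EE m => ‖x‖ ^ 2) (gam m) := by
  simp_rw [coreE_norm_sq]
  exact integrable_finsetSum _ fun r _ => coreE_integrable_coord_sq r

theorem coreE_integral_norm_sq : ∫ x : EE m, ‖x‖ ^ 2 ∂gam m = m := by
  simp_rw [coreE_norm_sq]
  rw [integral_finsetSum _ fun r _ => coreE_integrable_coord_sq r]
  simp_rw [coreE_integral_coord_sq]
  simp

/-- `log det q(A) = -tr(A²)/2 - (m/2) log(2π) + tr t(A)`. -/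
theorem coreE_log_det {A : Mat m} (hA : A.IsSymm) :
    Real.log (mxFun scQ A).det
      = -(A * A).trace / 2 - (m : ℝ) / 2 * Real.log (2 * Real.pi) + (mxFun scT A).trace := by
  have h1 : (A * A).trace = ∑ i, mxEig A i ^ 2 := by
    rw [← pow_two, ← mxFun_pow hA 2, mxFun_trace]
  rw [mxFun_det, Real.log_prod (fun i _ => (scQ_pos _).ne'), h1, mxFun_trace]
  simp_rw [sc_log_scQ]
  rw [Finset.sum_add_distrib, Finset.sum_sub_distrib, Real.log_sqrt (by positivity)]
  simp only [Finset.sum_const, Finset.card_univ, Fintype.card_fin, nsmul_eq_mul]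
  rw [← Finset.sum_div, Finset.sum_neg_distrib]
  ring

/-- the deficit identity (3.3). -/
theorem coreE_entropy {W : EE m → ℝ} (hW : NicePot W) {T : EE m → EE m} {A : EE m → Mat m}
    {Z : Fin m → EE m → Mat m} (hpre : CorePre T A Z) (hmap : (gam m).map T = otMeas W)
    (hma : ∀ᵐ x ∂gam m, W (T x)
      = Real.log (coreJ T x).det + ‖x‖ ^ 2 / 2 + (m : ℝ) / 2 * Real.log (2 * Real.pi)) :
    2 * lcGap (densOf W) = -(coreDef A + Real.log (coreCov T).det + m) := by
  obtain ⟨⟨c, C, hc, hQ⟩, h1⟩ := hW
  have hQ' : otQC c C W := hQ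
  have hWc : Continuous W := hQ'.continuous
  have hWm : Measurable W := hWc.measurable
  have hmap' : (gam m).map T
      = volume.withDensity (fun x : EE m => ENNReal.ofReal (Real.exp (-W x))) := hmap
  have hent := lc_entropy_of_map hWm h1 hmap'
  have hcov : Claims.C0429.densityCov (densOf W) = coreCov T := by
    ext i k
    exact lc_cov_of_map hWm h1 hmap' i k
  have hTm : AEMeasurable T (gam m) := lc_aemeasurable_of_map hWm h1 hmap'
  have hprob : IsProbabilityMeasure (otMeas W) := otMeas_isProbabilityMeasure hWc h1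
  have hWint : Integrable W (otMeas W) := hQ'.integrable hc.le (hQ'.integrable_norm_sq hc)
  have hWT : Integrable (fun x => W (T x)) (gam m) := by
    rw [← hmap] at hWint
    exact (integrable_map_measure hWc.aestronglyMeasurable hTm).1 hWint
  have hpt : ∀ᵐ x ∂gam m, (A x * A x).trace - 2 * (mxFun scT (A x)).trace
      = ‖x‖ ^ 2 - 2 * W (T x) := by
    filter_upwards [hma, hpre.jac] with x hx hj
    rw [hx, hj, coreE_log_det (hpre.A_symm x)]
    ring
  have hdef : coreDef A = m - 2 * Claims.C0429.diffEntropy (densOf W) := by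
    unfold coreDef
    rw [integral_congr_ae hpt, integral_sub coreE_integrable_norm_sq (hWT.const_mul 2),
      coreE_integral_norm_sq, integral_const_mul, hent]
  unfold lcGap
  rw [hcov, hdef]
  ring

end Claimed.Agent.R260
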