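/-
Row 260.  Leaf CORE-N (helper83): `N = ∇W ∘ ∇φ` is Lipschitz and monotone along `T = ∇φ`.
-/
import Claimed.Agent.R260.Defs
import Claimed.Agent.R260.OTClass

set_option autoImplicit false

namespace Claimed.Agent.R260

open MeasureTheory ProbabilityTheory Matrix
open scoped InnerProductSpace

variable {m : ℕ}

theorem coreN_main {W φ : EE m → ℝ} {lam Lam : ℝ} (hW : NicePot W) (hlam : 0 < lam)
    (hφ : QC lam Lam φ) :
    (∃ K : NNReal, LipschitzWith K (fun x => gradient W (gradient φ x))) ∧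
      ∀ x y, 0 ≤ ⟪gradient W (gradient φ x) - gradient W (gradient φ y),
        gradient φ x - gradient φ y⟫_ℝ := by
  obtain ⟨⟨c, C, hc, hQ⟩, -⟩ := hW
  have hW' : otQC c C W := hQ
  have hφ' : otQC lam Lam φ := hφ
  constructor
  · refine ⟨Real.toNNReal C * Real.toNNReal Lam, LipschitzWith.of_dist_le_mul fun x y => ?_⟩
    rw [dist_eq_norm, dist_eq_norm]
    have h1 := hW'.grad_lipschitz hc.le (gradient φ x) (gradient φ y)
    have h2 := hφ'.grad_lipschitz hlam.le x y
    have h3 : C ≤ (Real.toNNReal C : ℝ) := Real.le_coe_toNNReal C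
    have h4 : Lam ≤ (Real.toNNReal Lam : ℝ) := Real.le_coe_toNNReal Lam
    have h5 : (0 : ℝ) ≤ (Real.toNNReal C : ℝ) := NNReal.coe_nonneg _
    calc ‖gradient W (gradient φ x) - gradient W (gradient φ y)‖
        ≤ C * ‖gradient φ x - gradient φ y‖ := h1
      _ ≤ (Real.toNNReal C : ℝ) * ‖gradient φ x - gradient φ y‖ :=
          mul_le_mul_of_nonneg_right h3 (norm_nonneg _)
      _ ≤ (Real.toNNReal C : ℝ) * ((Real.toNNReal Lam : ℝ) * ‖x - y‖) := by
          refine mul_le_mul_of_nonneg_left (h2.trans ?_) h5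
          exact mul_le_mul_of_nonneg_right h4 (norm_nonneg _)
      _ = ((Real.toNNReal C * Real.toNNReal Lam : NNReal) : ℝ) * ‖x - y‖ := by
          push_cast; ring
  · intro x y
    have h1 := hW'.grad_mono_lower (gradient φ x) (gradient φ y)
    have h2 : 0 ≤ c * ‖gradient φ x - gradient φ y‖ ^ 2 := by positivity
    linarith

end Claimed.Agent.R260
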