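/-
Row 260, package DK (owner helper184): the exports `core_pre` and `core_weakA` of `Core.lean`.
From the output of TR (`J = D²φ` symmetric with spectrum in `[lam,Lam]` a.e., entries in `GH1`) we
build the everywhere defined, measurable, symmetric, bounded field `A = q⁻¹(J)` with `A ∈ GH1`.
-/
import Claimed.Agent.R260.CoreDefs
import Claimed.Agent.R260.MxChain
import Claimed.Agent.R260.ScLemma21
import Claimed.Agent.R260.OTClass

set_option autoImplicit false

namespace Claimed.Agent.R260

open MeasureTheory ProbabilityTheory Matrix Set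
open scoped InnerProductSpace

variable {m : ℕ}

/-- symmetrisation -/
noncomputable def cpSym (M : Mx m) : Mx m := (1 / 2 : ℝ) • (M + Mᵀ)

/-- clamp to `[lo,hi]` -/
noncomputable def cpClamp (lo hi a : ℝ) : ℝ := max lo (min a hi)

/-- derivative of `scQinv` -/
noncomputable def cpQinv1 (y : ℝ) : ℝ := (y * scD (scQinv y))⁻¹

theorem corePre_eqns_cite : True := by
  have := @cpSym.eq_1
  have := @cpClamp.eq_1
  have := @cpQinv1.eq_1
  trivial

theorem cpSym_of_isSymm {M : Mx m} (h : M.IsSymm) : cpSym M = M := by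
  unfold cpSym
  rw [h.eq, ← two_smul ℝ M, smul_smul]
  norm_num

theorem cpClamp_mem {lo hi : ℝ} (h : lo ≤ hi) (a : ℝ) : cpClamp lo hi a ∈ Icc lo hi := by
  unfold cpClamp
  exact ⟨le_max_left _ _, max_le h (min_le_right _ _)⟩

theorem cpClamp_of_mem {lo hi a : ℝ} (h : a ∈ Icc lo hi) : cpClamp lo hi a = a := by
  unfold cpClamp
  rw [min_eq_left h.2, max_eq_right h.1]

theorem cpClamp_continuous (lo hi : ℝ) : Continuous (cpClamp lo hi) := by
  unfold cpClamp
  fun_prop

/-- measurability of a continuous matrix function of a measurable matrix field -/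
theorem cp_measurable_comp {Ω : Type*} [MeasurableSpace Ω] {g : Mx m → Mx m} (hg : Continuous g)
    {J : Ω → Mx m} (hJ : ∀ i j, Measurable fun w => J w i j) (i j : Fin m) :
    Measurable fun w => g (J w) i j := by
  have h1 : Continuous (fun M : Fin m → Fin m → ℝ => g (Matrix.of M) i j) :=
    (continuous_apply_apply i j).comp (hg.comp continuous_id')
  have h2 : Measurable (fun w => (fun a b => J w a b : Fin m → Fin m → ℝ)) :=
    measurable_pi_iff.mpr fun a => measurable_pi_iff.mpr fun b => hJ a b
  exact h1.measurable.comp h2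

theorem cp_coreJ_measurable (T : EE m → EE m) (i j : Fin m) :
    Measurable fun x => coreJ T x i j := by
  unfold coreJ pd
  exact measurable_fderiv_apply_const ℝ _ _

theorem cp_scQinv_continuousOn : ContinuousOn scQinv (Ioi 0) :=
  fun _ hy => (hasDerivAt_scQinv hy).continuousAt.continuousWithinAt

theorem cp_scD_continuous : Continuous scD :=
  continuous_iff_continuousAt.mpr fun a => (hasDerivAt_scD a).continuousAt

theorem cp_qinv1_continuousOn : ContinuousOn cpQinv1 (Ioi 0) := by
  unfold cpQinv1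
  refine ContinuousOn.inv₀ ?_ fun y hy => (mul_pos hy (scD_pos _)).ne'
  exact continuousOn_id.mul (cp_scD_continuous.comp_continuousOn cp_scQinv_continuousOn)

theorem cp_qinv_clamp_continuous {lo hi : ℝ} (hlo : 0 < lo) (h : lo ≤ hi) :
    Continuous fun a => scQinv (cpClamp lo hi a) := by
  refine cp_scQinv_continuousOn.comp_continuous (cpClamp_continuous lo hi) fun a => ?_
  exact lt_of_lt_of_le hlo (cpClamp_mem h a).1

/-- **DK export 1** = `core_pre` of `Core.lean`. -/
theorem corePre_main {W φ : EE m → ℝ} {lam Lam : ℝ} (hlam : 0 < lam) (hφ : QC lam Lam φ)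
    (htr : TrOut W φ lam Lam) :
    ∃ (A : EE m → Mat m) (Z : Fin m → EE m → Mat m), CorePre (gradient φ) A Z ∧
      ∀ᵐ x ∂gam m, A x = mxFun scQinv (coreJ (gradient φ) x) := by
  obtain ⟨Θ, hΘ⟩ := htr.J_gh1
  set T := gradient φ with hT
  set hi := max lam Lam with hhi
  have hlh : lam ≤ hi := le_max_left _ _
  -- the good version of `J`
  set Jh : EE m → Mx m := fun x => mxFun (cpClamp lam hi) (cpSym (coreJ T x)) with hJh
  have hJae : ∀ᵐ x ∂gam m, coreJ T x = Jh x := by
    filter_upwards [htr.J_symm, htr.J_spec] with x h1 h2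
    simp only [hJh]
    rw [cpSym_of_isSymm h1]
    have : mxFun (cpClamp lam hi) (coreJ T x) = mxFun (fun a => a) (coreJ T x) :=
      mxFun_congr fun i => cpClamp_of_mem ⟨(h2 i).1, (h2 i).2.trans (le_max_right _ _)⟩
    rw [this, mxFun_id h1]
  have hJspec : ∀ x i, mxEig (Jh x) i ∈ Icc lam hi := by
    intro x i
    obtain ⟨j, hj⟩ := mxEig_mxFun_mem (cpClamp lam hi) (cpSym (coreJ T x)) i
    rw [hj]
    exact cpClamp_mem hlh _
  have hJmeas : ∀ i j, Measurable fun x => Jh x i j :=
    cp_measurable_comp (mxFun_continuous (cpClamp_continuous lam hi)) (cp_coreJ_measurable T)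
  have hJsb : MxSymBd Jh :=
    ⟨fun x => mxFun_isSymm _ _, hJmeas, ⟨max |lam| |hi|, fun x i =>
      abs_le_max_abs_abs (hJspec x i).1 (hJspec x i).2⟩⟩
  have hJgh : MxGH1 Jh Θ :=
    MxGH1.congr_ae (F := coreJ T) (dF := Θ) hΘ hJae fun r => Filter.EventuallyEq.rfl
  have hpos : ∀ a ∈ Icc lam hi, (0 : ℝ) < a := fun a ha => lt_of_lt_of_le hlam ha.1
  -- chain rule
  have hchain : MxGH1 (fun x => mxFun scQinv (Jh x)) (fun r x => mxDK scQinv cpQinv1 (Jh x) (Θ r x)) :=
    mx_gh1_chain_on hJsb hJgh hJspec
      (fun a ha => (hasDerivAt_scQinv (hpos a ha)).hasDerivWithinAt)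
      (cp_qinv1_continuousOn.mono fun a ha => hpos a ha)
  refine ⟨fun x => mxFun scQinv (Jh x), fun r x => mxDK scQinv cpQinv1 (Jh x) (Θ r x), ?_, ?_⟩
  · refine ⟨?_, fun x => mxFun_isSymm _ _, ?_, ?_, hchain, ?_, ?_⟩
    · -- Lipschitz
      have hb : (0 : ℝ) ≤ max Lam 0 := le_max_right _ _
      refine ⟨⟨max Lam 0, hb⟩, LipschitzWith.of_dist_le_mul fun x y => ?_⟩
      rw [dist_eq_norm, dist_eq_norm]
      have h := otQC.grad_lipschitz (a := lam) (b := Lam) (f := φ) hφ hlam.le x y
      refine h.trans ?_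
      exact mul_le_mul_of_nonneg_right (le_max_left _ _) (norm_nonneg _)
    · -- measurability
      intro i j
      have h := cp_measurable_comp (mxFun_continuous (cp_qinv_clamp_continuous hlam hlh))
        (cp_coreJ_measurable T) i j
      have e : (fun x => mxFun scQinv (Jh x) i j)
          = fun x => mxFun (fun a => scQinv (cpClamp lam hi a))
            ((1 / 2 : ℝ) • (coreJ T x + (coreJ T x)ᵀ)) i j := by
        funext x
        simp only [hJh, cpSym]
        rw [mxFun_comp]
      rw [e]
      exact h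
    · -- boundedness
      refine ⟨max |scQinv lam| |scQinv hi|, fun x i j => ?_⟩
      refine mxFun_apply_abs_le (fun a => ?_) i j
      have ha := hJspec x a
      have h1 : scQinv lam ≤ scQinv (mxEig (Jh x) a) :=
        scQinv_strictMonoOn.monotoneOn (mem_Ioi.mpr hlam) (mem_Ioi.mpr (hpos _ ha)) ha.1
      have h2 : scQinv (mxEig (Jh x) a) ≤ scQinv hi :=
        scQinv_strictMonoOn.monotoneOn (mem_Ioi.mpr (hpos _ ha))
          (mem_Ioi.mpr (lt_of_lt_of_le hlam hlh)) ha.2
      exact abs_le_max_abs_abs h1 h2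
    · -- symmetry of `Z`
      have hsym : ∀ r i j, (fun x => Θ r x i j) =ᵐ[gam m] fun x => Θ r x j i := by
        intro r i j
        refine GH1.unique (hJgh i j) (hJgh j i) ?_ r
        refine Filter.Eventually.of_forall fun x => ?_
        exact ((mxFun_isSymm (cpClamp lam hi) (cpSym (coreJ T x))).apply i j).symm
      have hall : ∀ᵐ x ∂gam m, ∀ r i j, Θ r x i j = Θ r x j i := by
        rw [ae_all_iff]; intro r
        rw [ae_all_iff]; intro i
        rw [ae_all_iff]; intro j
        exact hsym r i j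
      filter_upwards [hall] with x hx r
      refine mxDK_isSymm _ _ _ ?_
      ext i j
      exact hx r j i
    · -- `J = q(A)`
      filter_upwards [hJae] with x hx
      rw [hx, mxFun_comp]
      have : mxFun (fun a => scQ (scQinv a)) (Jh x) = mxFun (fun a => a) (Jh x) :=
        mxFun_congr fun i => scQ_scQinv (hpos _ (hJspec x i))
      rw [this, mxFun_id (hJsb.symm x)]
  · filter_upwards [hJae] with x hx
    rw [hx]

/-- **DK export 2** = `core_weakA` of `Core.lean`. -/
theorem corePre_weakA {T : EE m → EE m} {A : EE m → Mat m} {Z : Fin m → EE m → Mat m}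
    (hpre : CorePre T A Z) :
    ∀ᵐ x ∂gam m, (coreJ T x)⁻¹ = mxFun (fun a => (scQ a)⁻¹) (A x) := by
  filter_upwards [hpre.jac] with x hx
  rw [hx]
  exact Matrix.inv_eq_right_inv (mxFun_mul_inv fun i => (scQ_pos _).ne')

end Claimed.Agent.R260
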