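/-
Row 260, exports `core_push_nicePot`, `core_push_map`, `core_push_gap`, `core_cov_posDef` of
`Core.lean` (package LC).  Owner: helper235.
-/
import Claimed.Agent.R260.CoreDefs
import Claimed.Agent.R260.LcBridge

set_option autoImplicit false

namespace Claimed.Agent.R260

open MeasureTheory ProbabilityTheory Matrix Set Filter Topology
open Claims.C0429

variable {m : ℕ}

/-! ### quadratic forms and the class `QC` under linear maps -/

theorem lcp_normSq_id (x y : EE m) (s t : ℝ) (hst : s + t = 1) :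
    ‖s • x + t • y‖ ^ 2 = s * ‖x‖ ^ 2 + t * ‖y‖ ^ 2 - s * t * ‖x - y‖ ^ 2 := by
  have ht : t = 1 - s := by linarith
  subst ht
  rw [norm_add_sq_real, norm_sub_sq_real, norm_smul, norm_smul, inner_smul_left, inner_smul_right,
    mul_pow, mul_pow, Real.norm_eq_abs, Real.norm_eq_abs, sq_abs, sq_abs]
  simp only [conj_trivial]
  ring

theorem lcp_convexOn_quad (L : EE m →ₗ[ℝ] EE m) (α β : ℝ)
    (h : ∀ y, 0 ≤ α * ‖L y‖ ^ 2 + β * ‖y‖ ^ 2) :
    ConvexOn ℝ univ (fun y => α * ‖L y‖ ^ 2 + β * ‖y‖ ^ 2) := by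
  refine ⟨convex_univ, fun x _ y _ s t hs ht hst => ?_⟩
  have hxy := h (x - y)
  rw [map_sub] at hxy
  simp only [map_add, map_smul, smul_eq_mul]
  rw [lcp_normSq_id _ _ s t hst, lcp_normSq_id _ _ s t hst]
  nlinarith [mul_nonneg (mul_nonneg hs ht) hxy]

theorem lcp_QC_comp {V : EE m → ℝ} {c C : ℝ} (hc : 0 < c) (h : QC c C V)
    (L Linv : EE m →ₗ[ℝ] EE m) (hinv : ∀ y, Linv (L y) = y) (k : ℝ) :
    ∃ c' C' : ℝ, 0 < c' ∧ QC c' C' (fun y => V (L y) + k) := by
  set κ := ‖LinearMap.toContinuousLinearMap Linv‖ + 1 with hκ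
  set κ' := ‖LinearMap.toContinuousLinearMap L‖ with hκ'
  have hκ0 : 0 < κ := by positivity
  have b1 : ∀ y, ‖y‖ ^ 2 ≤ κ ^ 2 * ‖L y‖ ^ 2 := by
    intro y
    have h1 : ‖y‖ ≤ κ * ‖L y‖ := by
      calc ‖y‖ = ‖LinearMap.toContinuousLinearMap Linv (L y)‖ := by
            rw [LinearMap.coe_toContinuousLinearMap', hinv]
        _ ≤ ‖LinearMap.toContinuousLinearMap Linv‖ * ‖L y‖ := ContinuousLinearMap.le_opNorm _ _
        _ ≤ κ * ‖L y‖ := by
            have := norm_nonneg (L y)
            rw [hκ]; nlinarith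
    calc ‖y‖ ^ 2 ≤ (κ * ‖L y‖) ^ 2 := by gcongr
      _ = _ := by ring
  have b2 : ∀ y, ‖L y‖ ^ 2 ≤ κ' ^ 2 * ‖y‖ ^ 2 := by
    intro y
    have h1 : ‖L y‖ ≤ κ' * ‖y‖ := by
      calc ‖L y‖ = ‖LinearMap.toContinuousLinearMap L y‖ := by
            rw [LinearMap.coe_toContinuousLinearMap']
        _ ≤ κ' * ‖y‖ := ContinuousLinearMap.le_opNorm _ _
    calc ‖L y‖ ^ 2 ≤ (κ' * ‖y‖) ^ 2 := by gcongr
      _ = _ := by ring
  refine ⟨c / κ ^ 2, max C 0 * κ' ^ 2, by positivity, ?_, ?_⟩
  · have q1 := lcp_convexOn_quad L (c / 2) (-(c / κ ^ 2 / 2)) (fun y => by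
      have := b1 y
      have h2 : c / κ ^ 2 * ‖y‖ ^ 2 ≤ c * ‖L y‖ ^ 2 := by
        rw [div_mul_eq_mul_div, div_le_iff₀ (by positivity)]
        nlinarith
      linarith)
    have := ((h.1.comp_linearMap L).add q1).add_const k
    simp only [preimage_univ] at this
    refine this.congr ?_
    intro y _
    simp only [Function.comp, Pi.add_apply]
    ring
  · have q2 := lcp_convexOn_quad L (-(C / 2)) (max C 0 * κ' ^ 2 / 2) (fun y => by
      have := b2 y
      have h0 : 0 ≤ max C 0 := le_max_right _ _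
      have h1 : C ≤ max C 0 := le_max_left _ _
      have h2 : C * ‖L y‖ ^ 2 ≤ max C 0 * κ' ^ 2 * ‖y‖ ^ 2 := by
        calc C * ‖L y‖ ^ 2 ≤ max C 0 * ‖L y‖ ^ 2 := by gcongr
          _ ≤ max C 0 * (κ' ^ 2 * ‖y‖ ^ 2) := by gcongr
          _ = _ := by ring
      linarith)
    have := ((h.2.comp_linearMap L).add q2).add_const (-k)
    simp only [preimage_univ] at this
    refine this.congr ?_
    intro y _
    simp only [Function.comp, Pi.add_apply]
    ring

/-! ### the linear map `coreLin P` -/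

theorem lcp_coreLin_eq (P : Mat m) (y : EE m) : coreLin P y = Matrix.toEuclideanLin P y := rfl

theorem lcp_coreLin_inv {P : Mat m} (hP : P.det ≠ 0) (y : EE m) :
    coreLin P (coreLin P⁻¹ y) = y := by
  simp only [coreLin, lc_mul_inv_mulVec hP]

theorem lcp_coreLin_inv' {P : Mat m} (hP : P.det ≠ 0) (y : EE m) :
    coreLin P⁻¹ (coreLin P y) = y := by
  simp only [coreLin, lc_inv_mul_mulVec hP]

theorem lcp_coreLin_continuous (P : Mat m) : Continuous (coreLin P) :=
  (Matrix.toEuclideanLin P).continuous_of_finiteDimensional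

theorem lcp_map_volume {P : Mat m} (hP : P.det ≠ 0) :
    Measure.map (coreLin P) (volume : Measure (EE m)) = ENNReal.ofReal |P.det⁻¹| • volume := by
  have hdet : LinearMap.det (Matrix.toEuclideanLin P) = P.det := by
    rw [Matrix.toEuclideanLin_eq_toLin_orthonormal, LinearMap.det_toLin]
  have := Measure.map_linearMap_addHaar_eq_smul_addHaar (volume : Measure (EE m))
    (f := Matrix.toEuclideanLin P) (by rw [hdet]; exact hP)
  rw [hdet] at this
  exact this

/-! ### the exports -/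

theorem lcp_densOf_push (V : EE m → ℝ) {P : Mat m} (hP : 0 < P.det) :
    densOf (corePush P V) = lcPush P 0 (densOf V) := by
  funext x
  simp only [densOf, corePush, lcPush, coreLin, sub_zero, abs_of_pos hP]
  rw [neg_add, Real.exp_add, Real.exp_neg (Real.log P.det), Real.exp_log hP, mul_comm]

theorem lcp_push_nicePot {V : EE m → ℝ} (hV : NicePot V) {P : Mat m} (hP : P.PosDef) :
    NicePot (corePush P V) := by
  have hdet := hP.det_pos
  obtain ⟨⟨c, C, hc, hQ⟩, hint⟩ := hV
  refine ⟨?_, ?_⟩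
  · exact lcp_QC_comp hc hQ (Matrix.toEuclideanLin P⁻¹) (Matrix.toEuclideanLin P)
      (fun y => lcp_coreLin_inv hdet.ne' y) (Real.log P.det)
  · have h1 : ∫ x, densOf (corePush P V) x = 1 := by
      rw [lcp_densOf_push V hdet]
      have := lc_integral_push hdet.ne' 0 (densOf V)
      unfold lcPush
      rw [this, apx_integral_toE]
      simpa [densOf] using hint
    rw [apx_integral_toE] at h1
    simpa [densOf] using h1

theorem lcp_push_map {V : EE m → ℝ} (hV : NicePot V) {P : Mat m} (hP : P.PosDef) :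
    otMeas (corePush P V) = (otMeas V).map (coreLin P) := by
  have hdet := hP.det_pos
  obtain ⟨⟨c, C, hc, hQ⟩, -⟩ := hV
  have hVc := lc_QC_continuous hc.le hQ
  have hm : Measurable (coreLin P) := (lcp_coreLin_continuous P).measurable
  have hm' : Measurable (coreLin P⁻¹) := (lcp_coreLin_continuous P⁻¹).measurable
  ext s hs
  rw [Measure.map_apply hm hs, otMeas, otMeas, withDensity_apply _ hs, withDensity_apply _ (hm hs)]
  have hg : Measurable (fun y : EE m => ENNReal.ofReal (Real.exp (-V (coreLin P⁻¹ y)))) :=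
    (((hVc.measurable.comp hm').neg).exp).ennreal_ofReal
  have h1 : ∫⁻ x in coreLin P ⁻¹' s, ENNReal.ofReal (Real.exp (-V x))
      = ∫⁻ y in s, ENNReal.ofReal (Real.exp (-V (coreLin P⁻¹ y)))
          ∂(Measure.map (coreLin P) volume) := by
    rw [setLIntegral_map hs hg hm]
    simp only [lcp_coreLin_inv' hdet.ne']
  rw [h1, lcp_map_volume hdet.ne', Measure.restrict_smul, lintegral_smul_measure, smul_eq_mul,
    ← lintegral_const_mul _ hg]
  refine lintegral_congr fun y => ?_
  rw [← ENNReal.ofReal_mul (abs_nonneg _)]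
  congr 1
  simp only [corePush]
  rw [neg_add, Real.exp_add, Real.exp_neg (Real.log P.det), Real.exp_log hdet,
    abs_of_pos (inv_pos.2 hdet), mul_comm]

theorem lcp_push_gap {V : EE m → ℝ} (hV : NicePot V) {P : Mat m} (hP : P.PosDef) :
    lcGap (densOf (corePush P V)) = lcGap (densOf V) := by
  rw [lcp_densOf_push V hP.det_pos]
  exact lc_gap_push (lc_mom (lc_nicePot_logConcave hV)) hP.det_pos.ne' 0

theorem lcp_coreCov_eq {W : EE m → ℝ} (hW : NicePot W) {T : EE m → EE m}
    (hmap : (gam m).map T = otMeas W) : coreCov T = densityCov (densOf W) := by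
  obtain ⟨⟨c, C, hc, hQ⟩, hint⟩ := hW
  have hWc := lc_QC_continuous hc.le hQ
  funext i k
  rw [lc_cov_of_map hWc.measurable hint hmap i k]
  rfl

theorem lcp_cov_posDef {W : EE m → ℝ} (hW : NicePot W) {T : EE m → EE m}
    (hmap : (gam m).map T = otMeas W) : (coreCov T).PosDef := by
  rw [lcp_coreCov_eq hW hmap]
  exact lc_cov_posDef (lc_mom (lc_nicePot_logConcave hW))

end Claimed.Agent.R260
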