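/-
Row 260, package SEC3 (paper Section 3, Theorem 3.1).  OWNER: helper191.

DESIGN.  All of Section 3 is ONE pointwise finite-dimensional inequality
(`M3Pt.start - sur ≤ Iend + d1 + c d2 + 2 d3 + 2 β d4`, file M3Point.lean) between explicit
trace expressions at a point `ω`, plus a few integral identities (`E d_i = 0`, norms), file M3Int.lean.
This file: the pointwise definitions.  No measure theory here.

A "point" consists of an orthonormal frame `U`, eigenvalues `a` (so `A = U diag(a) Uᵀ`),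
the constant symmetric matrices `X r = E[x_r A]`, the coordinates `ξ r = x_r`,
the derivative matrices `Z r = ∂_r A` and the auxiliary matrices `g r` (paper: `∂_r N⁻¹ Y`).
-/
import Claimed.Agent.R260.Defs

set_option autoImplicit false

namespace Claimed.Agent.R260

open Matrix

/-! ### constants of Section 3 -/
/-- `α = 3/40`. -/ noncomputable def m3α : ℝ := 3 / 40
/-- `s = 1/(1-α) = 40/37`. -/ noncomputable def m3s : ℝ := 40 / 37
/-- `β = 7/25`. -/ noncomputable def m3β : ℝ := 7 / 25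
/-- `c = 3/2`. -/ noncomputable def m3c : ℝ := 3 / 2
/-- `γ = c/2 = 3/4`. -/ noncomputable def m3γ : ℝ := 3 / 4
/-- `ε = 3/20`. -/ noncomputable def m3ε : ℝ := 3 / 20
/-- `κ = 49/100`. -/ noncomputable def m3κ : ℝ := 49 / 100

/-- Divided difference with an explicitly given derivative `v'` on the diagonal. -/
noncomputable def m3dq (v v' : ℝ → ℝ) (x y : ℝ) : ℝ :=
  if x = y then v' x else (v x - v y) / (x - y)

/-- The scalar functions of the paper, as abstract data (instantiated by package SC).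
`rw a₁ a₂` is the separation weight `r(a₁,a₂) δ(a₁,a₂)²` of (2.21)/(2.22). -/
structure M3Sc where
  q : ℝ → ℝ
  t : ℝ → ℝ
  k : ℝ → ℝ
  b : ℝ → ℝ
  l : ℝ → ℝ
  rw : ℝ → ℝ → ℝ

namespace M3Sc
variable (Sc : M3Sc)
/-- `f = k (1 + b)`. -/
def f (a : ℝ) : ℝ := Sc.k a * (1 + Sc.b a)
/-- `f' = b (1 + b) + k l`. -/
def f1 (a : ℝ) : ℝ := Sc.b a * (1 + Sc.b a) + Sc.k a * Sc.l a
/-- `p = f' - b² - l²/α`. -/
noncomputable def p (a : ℝ) : ℝ := Sc.f1 a - Sc.b a ^ 2 - Sc.l a ^ 2 / m3α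
/-- `e = f' - 2 b² - 2 l²/α`. -/
noncomputable def e (a : ℝ) : ℝ := Sc.f1 a - 2 * Sc.b a ^ 2 - 2 * Sc.l a ^ 2 / m3α
/-- `h₀ = f - c k - 2 (b - β) l / α`. -/
noncomputable def h0 (a : ℝ) : ℝ := Sc.f a - m3c * Sc.k a - 2 * (Sc.b a - m3β) * Sc.l a / m3α
/-- the `Y²`-multiplier of Prop 3.5 : `(b-β)² + α h₀² / (4 (1-ε-κ) p)`. -/
noncomputable def cy (a : ℝ) : ℝ :=
  (Sc.b a - m3β) ^ 2 + m3α * Sc.h0 a ^ 2 / (4 * (1 - m3ε - m3κ) * Sc.p a)
/-- `p^{-1/2}`. -/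
noncomputable def pis (a : ℝ) : ℝ := 1 / Real.sqrt (Sc.p a)
/-- secant increments at the second endpoint. -/
noncomputable def Δk (x y : ℝ) : ℝ := m3dq Sc.k Sc.b x y - Sc.b y
noncomputable def Δb (x y : ℝ) : ℝ := m3dq Sc.b Sc.l x y - Sc.l y
noncomputable def Δf (x y : ℝ) : ℝ := m3dq Sc.f Sc.f1 x y - Sc.f1 y
/-- `ψ_{ij}` of the paper. -/
noncomputable def ψ (x y : ℝ) : ℝ :=
  Sc.Δf x y - 2 * Sc.b y * Sc.Δk x y - 2 * Sc.l y / m3α * Sc.Δb x y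

/-- one endpoint expression of Prop 3.6 (endpoint `y`, other endpoint `x`). -/
noncomputable def endpt (x y G g Z : ℝ) : ℝ :=
  m3s * (G * Sc.b y + Z * Sc.Δk x y - m3β * g) ^ 2
    + (1 + m3s / 8) * (G * Sc.b y + Z * Sc.Δk x y - m3γ * g) ^ 2
    + m3γ ^ 2 * (m3s - 1) * g ^ 2
    + (G * Sc.l y + Z * Sc.Δb x y) ^ 2 / m3α
    + (G * Sc.e y + Z * Sc.ψ x y + m3c * g * Sc.b y) ^ 2 / (4 * (1 - m3ε) * Sc.p y)

/-- The algebraic identities between the scalar functions that Section 3 uses. -/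
structure Alg : Prop where
  qk : ∀ a, Sc.q a * Sc.k a = Sc.t a
  ql : ∀ a, Sc.q a - Sc.k a = a * Sc.b a - Sc.l a
  bk : ∀ a, Sc.b a = 1 - Sc.k a * (Sc.q a - a)
  ppos : ∀ a, 0 < Sc.p a

/-- Prop 3.6 (two-eigenvalue estimate), in the form used:
`Q(G, g - G/2) = .98 G² - 2.46 G g + 2.72 g²`. -/
def Pair : Prop :=
  ∀ x y G g Z : ℝ, (Sc.endpt x y G g Z + Sc.endpt y x G g Z) / 2 ≤
    98 / 100 * G ^ 2 - 246 / 100 * (G * g) + 272 / 100 * g ^ 2 + Sc.rw x y * Z ^ 2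
end M3Sc

/-! ### the constant matrices attached to `X` -/
section const
variable {m : ℕ} (X : Fin m → Mat m)
/-- `B = Σ X_r²`. -/
def m3B : Mat m := ∑ r, X r * X r
/-- `S = (I/s + α B)⁻¹`. -/
noncomputable def m3S : Mat m := (m3s⁻¹ • (1 : Mat m) + m3α • m3B X)⁻¹
/-- `T = S - I`. -/
noncomputable def m3T : Mat m := m3S X - 1
/-- `H = -T (B - I)`. -/
noncomputable def m3H : Mat m := -(m3T X * (m3B X - 1))
/-- `ρ = ε I + κ S / s`. -/
noncomputable def m3ρ : Mat m := m3ε • (1 : Mat m) + (m3κ / m3s) • m3S X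
end const

/-- `‖F‖_S² = tr (Fᵀ S F)` at a point. -/
def m3nS {m : ℕ} (S F : Mat m) : ℝ := (Fᵀ * S * F).trace

/-- The data of Section 3 at one point. -/
structure M3Pt (m : ℕ) where
  U : Mat m
  a : Fin m → ℝ
  X : Fin m → Mat m
  ξ : Fin m → ℝ
  Z : Fin m → Mat m
  g : Fin m → Mat m

namespace M3Pt
variable {m : ℕ} (P : M3Pt m) (Sc : M3Sc)

/-- orthonormal frame, symmetric data. -/
structure Ok : Prop where
  hU : P.Uᵀ * P.U = 1
  hX : ∀ r, (P.X r)ᵀ = P.X r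
  hZ : ∀ r, (P.Z r)ᵀ = P.Z r
  hg : ∀ r, (P.g r)ᵀ = P.g r

/-- `v(A) = U diag(v(a_i)) Uᵀ`. -/
def fn (v : ℝ → ℝ) : Mat m := P.U * diagonal (fun i => v (P.a i)) * P.Uᵀ
/-- `A`. -/
def A : Mat m := P.fn id
/-- a matrix in the frame `U`. -/
def inU (M : Mat m) : Mat m := P.Uᵀ * M * P.U
/-- `∂_r v(A)` (Daleckii–Krein): entries `v[a_i,a_j] (Z_r)_{ij}` in the frame. -/
noncomputable def dfn (v v' : ℝ → ℝ) (r : Fin m) : Mat m :=
  P.U * (of fun i j => m3dq v v' (P.a i) (P.a j) * P.inU (P.Z r) i j) * P.Uᵀ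
/-- `Y = A - Σ x_r X_r`. -/
def Y : Mat m := P.A - ∑ r, P.ξ r • P.X r
/-- `G_r = Z_r - X_r`. -/
def G (r : Fin m) : Mat m := P.Z r - P.X r
/-- `K_r = ∂_r k(A)`. -/
noncomputable def K (r : Fin m) : Mat m := P.dfn Sc.k Sc.b r
/-- `∂_r b(A)`. -/
noncomputable def dB (r : Fin m) : Mat m := P.dfn Sc.b Sc.l r
/-- `∂_r f(A)`. -/
noncomputable def dF (r : Fin m) : Mat m := P.dfn Sc.f Sc.f1 r
/-- `D_r = K_r - X_r b`. -/
noncomputable def D (r : Fin m) : Mat m := P.K Sc r - P.X r * P.fn Sc.b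
/-- `L_r = ∂_r b - X_r l`. -/
noncomputable def L (r : Fin m) : Mat m := P.dB Sc r - P.X r * P.fn Sc.l
/-- `M_r = G_r e + Z_r ∘ ψ + c g_r b`, written basis-free. -/
noncomputable def Mm (r : Fin m) : Mat m :=
  P.dF Sc r - P.X r * P.fn Sc.f1 - (2 : ℝ) • (P.D Sc r * P.fn Sc.b)
    - (2 / m3α) • (P.L Sc r * P.fn Sc.l) + m3c • (P.g r * P.fn Sc.b)
/-- `w_r = D_r - γ g_r`. -/
noncomputable def w (r : Fin m) : Mat m := P.D Sc r - m3γ • P.g r
/-- `v_r = D_r - β g_r`. -/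
noncomputable def v (r : Fin m) : Mat m := P.D Sc r - m3β • P.g r
/-- `F₀ = Y (b - β) + Σ X_r L_r`. -/
noncomputable def F0 : Mat m :=
  P.Y * (P.fn Sc.b - m3β • (1 : Mat m)) + ∑ r, P.X r * P.L Sc r
/-- `u = F₀ + (B - I) l`. -/
noncomputable def u : Mat m := P.F0 Sc + (m3B P.X - 1) * P.fn Sc.l

/-- integrand of the covariance bound (COV): `|k + u|_S² + Σ |X_r b + β g_r|_S²`. -/
noncomputable def Icov : ℝ :=
  m3nS (m3S P.X) (P.fn Sc.k + P.u Sc) +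
    ∑ r, m3nS (m3S P.X) (P.X r * P.fn Sc.b + m3β • P.g r)

/-- the eigenvalue-separation surplus integrand `Σ r_ij δ_ij² (Z_r)_ij²`. -/
def sep : ℝ := ∑ r, ∑ i, ∑ j, Sc.rw (P.a i) (P.a j) * P.inU (P.Z r) i j ^ 2

/-- pointwise lower bound delivered by Prop 2.5: `Σ|Z_r|² - Σ|K_r|² + sep`. -/
noncomputable def sur : ℝ :=
  ∑ r, frobSq (P.Z r) - ∑ r, frobSq (P.K Sc r) + P.sep Sc

/-- the start integrand: `tr(A² - 2t) + Icov + tr k²`. -/
noncomputable def start : ℝ :=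
  (P.A * P.A - (2 : ℝ) • P.fn Sc.t).trace + P.Icov Sc + (P.fn Sc.k * P.fn Sc.k).trace

/-- the end integrand. -/
noncomputable def Iend : ℝ :=
  (P.A * P.A).trace - ∑ r, frobSq (P.Z r) + (m3T P.X).trace
    - (m3H P.X * m3ρ P.X * P.fn Sc.p).trace + m3s * (P.Y * P.Y * P.fn Sc.cy).trace
    + 98 / 100 * ∑ r, frobSq (P.G r) - 246 / 100 * ∑ r, (P.G r * P.g r).trace
    + 272 / 100 * ∑ r, frobSq (P.g r)

/-- integration-by-parts defects (each has expectation `0`). -/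
noncomputable def d1 : ℝ :=
  ∑ r, (P.ξ r * (m3T P.X * P.X r * P.fn Sc.f).trace - (m3T P.X * P.X r * P.dF Sc r).trace)
noncomputable def d2 : ℝ :=
  (m3T P.X * P.Y * P.fn Sc.k).trace - ∑ r, (m3T P.X * P.g r * P.K Sc r).trace
noncomputable def d3 : ℝ :=
  ∑ r, ((P.K Sc r * m3S P.X * P.X r * P.fn Sc.b).trace
    + (P.fn Sc.k * m3S P.X * P.X r * P.dB Sc r).trace
    - P.ξ r * (P.fn Sc.k * m3S P.X * P.X r * P.fn Sc.b).trace)
noncomputable def d4 : ℝ :=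
  ∑ r, (P.K Sc r * m3S P.X * P.g r).trace - (P.fn Sc.k * m3S P.X * P.Y).trace

/-- `P_T = tr (T b B b - T B b²)`. -/
noncomputable def PT : ℝ :=
  (m3T P.X * P.fn Sc.b * m3B P.X * P.fn Sc.b - m3T P.X * m3B P.X * P.fn Sc.b * P.fn Sc.b).trace

/-- the right-hand side of Lemma 3.3 (pointwise integrand). -/
noncomputable def R33 : ℝ :=
  -(m3H P.X * P.fn Sc.p).trace
    + (m3T P.X * (P.Y * P.fn Sc.h0 + ∑ r, P.X r * P.Mm Sc r)).trace
    + m3nS (m3S P.X) (P.F0 Sc) + ∑ r, m3nS (m3S P.X) (P.v Sc r)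
    + m3γ ^ 2 * (m3T P.X * ∑ r, P.g r * P.g r).trace
    - P.PT Sc
    - 2 * ((m3T P.X * P.fn Sc.b - P.fn Sc.b * m3T P.X) * ∑ r, P.X r * P.w Sc r).trace
    - (m3T P.X * ∑ r, (P.w Sc r)ᵀ * P.w Sc r).trace

end M3Pt

end Claimed.Agent.R260
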