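/-
Row 260, package MX-C (owner: helper297): the constant matrices `B,S,T,H,ρ` of (3.9)-(3.11) and the
supporting plane of the log determinant.  Pure finite-dimensional linear algebra.
-/
import Claimed.Agent.R260.MxFunB

set_option autoImplicit false

namespace Claimed.Agent.R260

open Matrix
open scoped BigOperators

variable {m : ℕ} (X : Fin m → Mx m)

/-! ### eigenvalues as values of the quadratic form -/

/-- `a_i = vᵀ A v` for the `i`-th eigenvector `v = U e_i` -/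
theorem mxEig_eq_quad {A : Mx m} (hA : A.IsSymm) (i : Fin m) :
    mxEig A i = (mxU A *ᵥ Pi.single i 1) ⬝ᵥ (A *ᵥ (mxU A *ᵥ Pi.single i 1)) := by
  have h := mxFun_quad (fun a => a) A (mxU A *ᵥ Pi.single i 1)
  rw [mxFun_id hA] at h
  rw [h, Matrix.mulVec_mulVec, mxU_transpose_mul, Matrix.one_mulVec]
  simp [Pi.single_apply]

theorem mxU_mulVec_single_ne_zero (A : Mx m) (i : Fin m) :
    mxU A *ᵥ (Pi.single i 1 : Fin m → ℝ) ≠ 0 := by
  intro h0
  have h1 : (mxU A)ᵀ *ᵥ (mxU A *ᵥ (Pi.single i 1 : Fin m → ℝ)) = Pi.single i 1 := by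
    rw [Matrix.mulVec_mulVec, mxU_transpose_mul, Matrix.one_mulVec]
  rw [h0, Matrix.mulVec_zero] at h1
  have h2 := congrFun h1 i
  simp at h2

theorem mxEig_pos_of_posDef {A : Mx m} (hA : A.PosDef) (i : Fin m) : 0 < mxEig A i := by
  have hs : A.IsSymm := by
    have := hA.isHermitian
    unfold Matrix.IsHermitian at this
    rwa [Matrix.conjTranspose_eq_transpose_of_trivial] at this
  rw [mxEig_eq_quad hs i]
  have := hA.dotProduct_mulVec_pos (mxU_mulVec_single_ne_zero A i)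
  rwa [star_trivial] at this

/-! ### the matrix `B` -/

theorem mxB_isSymm (hX : ∀ r, (X r).IsSymm) : (mxB X).IsSymm := by
  unfold Matrix.IsSymm mxB
  rw [Matrix.transpose_sum]
  refine Finset.sum_congr rfl fun r _ => ?_
  rw [Matrix.transpose_mul, hX r]

theorem mxB_quad_nonneg (hX : ∀ r, (X r).IsSymm) (v : Fin m → ℝ) : 0 ≤ v ⬝ᵥ (mxB X *ᵥ v) := by
  unfold mxB
  rw [Matrix.sum_mulVec, dotProduct_sum]
  refine Finset.sum_nonneg fun r _ => ?_
  rw [← Matrix.mulVec_mulVec, Matrix.dotProduct_mulVec, ← Matrix.mulVec_transpose, hX r]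
  exact Finset.sum_nonneg fun i _ => mul_self_nonneg _

theorem mxB_eig_nonneg (hX : ∀ r, (X r).IsSymm) (i : Fin m) : 0 ≤ mxEig (mxB X) i := by
  rw [mxEig_eq_quad (mxB_isSymm X hX) i]
  exact mxB_quad_nonneg X hX _

/-- the scalar function `g(λ) = 1/s + α λ` is `≥ 1/s` on the spectrum of `B` -/
theorem mxB_g_ge (hX : ∀ r, (X r).IsSymm) (i : Fin m) :
    1 / cS ≤ 1 / cS + cAl * mxEig (mxB X) i := by
  have := mxB_eig_nonneg X hX i
  have h2 : (0 : ℝ) ≤ cAl := by unfold cAl; norm_num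
  nlinarith [mul_nonneg h2 this]

theorem mxB_g_pos (hX : ∀ r, (X r).IsSymm) (i : Fin m) :
    0 < 1 / cS + cAl * mxEig (mxB X) i :=
  lt_of_lt_of_le (by unfold cS; norm_num) (mxB_g_ge X hX i)

theorem mxB_g_eq_fun (hX : ∀ r, (X r).IsSymm) :
    (1 / cS) • (1 : Mx m) + cAl • mxB X = mxFun (fun lam => 1 / cS + cAl * lam) (mxB X) := by
  rw [mxFun_add, mxFun_const, mxFun_smul, mxFun_id (mxB_isSymm X hX)]

theorem mxB_sub_one_eq_fun (hX : ∀ r, (X r).IsSymm) :
    mxB X - 1 = mxFun (fun lam => lam - 1) (mxB X) := by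
  rw [mxFun_sub, mxFun_const, mxFun_id (mxB_isSymm X hX), one_smul]

/-- `S` as a function of `B` -/
theorem mxS_eq_fun (hX : ∀ r, (X r).IsSymm) :
    mxS X = mxFun (fun lam => (1 / cS + cAl * lam)⁻¹) (mxB X) := by
  unfold mxS
  rw [mxB_g_eq_fun X hX]
  exact Matrix.inv_eq_right_inv
    (mxFun_mul_inv (f := fun lam => 1 / cS + cAl * lam) fun i => (mxB_g_pos X hX i).ne')

theorem mxT_eq_fun (hX : ∀ r, (X r).IsSymm) :
    mxT X = mxFun (fun lam => (1 / cS + cAl * lam)⁻¹ - 1) (mxB X) := by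
  rw [mxT, mxS_eq_fun X hX, mxFun_sub, mxFun_const, one_smul]

theorem mxH_eq_fun (hX : ∀ r, (X r).IsSymm) :
    mxH X = mxFun (fun lam => cAl * (1 / cS + cAl * lam)⁻¹ * (lam - 1) ^ 2) (mxB X) := by
  have h1 : mxH X = mxFun (fun lam => (-1) * (((1 / cS + cAl * lam)⁻¹ - 1) * (lam - 1))) (mxB X) := by
    rw [mxH, mxT_eq_fun X hX, mxB_sub_one_eq_fun X hX, mxFun_smul, mxFun_mul, neg_one_smul]
  rw [h1]
  refine mxFun_congr fun i => ?_
  have hg := (mxB_g_pos X hX i).ne'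
  field_simp
  unfold cS cAl
  ring

theorem mxRho_eq_fun (hX : ∀ r, (X r).IsSymm) :
    mxRho X = mxFun (fun lam => cEp + cKa / cS * (1 / cS + cAl * lam)⁻¹) (mxB X) := by
  rw [mxRho, mxS_eq_fun X hX, mxFun_add, mxFun_const, mxFun_smul]

theorem mxS_inv_mul (hX : ∀ r, (X r).IsSymm) :
    ((1 / cS) • (1 : Mx m) + cAl • mxB X) * mxS X = 1 := by
  rw [mxS_eq_fun X hX, mxB_g_eq_fun X hX]
  exact mxFun_mul_inv (f := fun lam => 1 / cS + cAl * lam) fun i => (mxB_g_pos X hX i).ne'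

theorem mxS_mul_inv (hX : ∀ r, (X r).IsSymm) :
    mxS X * ((1 / cS) • (1 : Mx m) + cAl • mxB X) = 1 :=
  mul_eq_one_comm.mp (mxS_inv_mul X hX)

theorem mxS_isSymm (hX : ∀ r, (X r).IsSymm) : (mxS X).IsSymm := by
  rw [mxS_eq_fun X hX]
  exact mxFun_isSymm _ _

theorem mxT_isSymm (hX : ∀ r, (X r).IsSymm) : (mxT X).IsSymm := by
  rw [mxT_eq_fun X hX]
  exact mxFun_isSymm _ _

theorem mxH_isSymm (hX : ∀ r, (X r).IsSymm) : (mxH X).IsSymm := by
  rw [mxH_eq_fun X hX]
  exact mxFun_isSymm _ _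

theorem mxS_posDef (hX : ∀ r, (X r).IsSymm) : (mxS X).PosDef := by
  rw [mxS_eq_fun X hX]
  exact mxFun_posDef fun i => inv_pos.mpr (mxB_g_pos X hX i)

theorem mxS_comm_B (hX : ∀ r, (X r).IsSymm) : mxS X * mxB X = mxB X * mxS X := by
  have h := mxFun_commute (fun lam => (1 / cS + cAl * lam)⁻¹) (fun a => a) (mxB X)
  rwa [mxFun_id (mxB_isSymm X hX), ← mxS_eq_fun X hX] at h

/-- `T = -α S (B - I)` -/
theorem mxT_eq (hX : ∀ r, (X r).IsSymm) : mxT X = -(cAl • (mxS X * (mxB X - 1))) := by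
  have h1 : -(cAl • (mxS X * (mxB X - 1)))
      = mxFun (fun lam => (-1) * (cAl * ((1 / cS + cAl * lam)⁻¹ * (lam - 1)))) (mxB X) := by
    rw [mxFun_smul, mxFun_smul, mxFun_mul, ← mxS_eq_fun X hX, ← mxB_sub_one_eq_fun X hX,
      neg_one_smul]
  rw [h1, mxT_eq_fun X hX]
  refine mxFun_congr fun i => ?_
  have hg := (mxB_g_pos X hX i).ne'
  field_simp
  unfold cS cAl
  ring

/-- `H = α S (B - I)²` -/
theorem mxH_eq (hX : ∀ r, (X r).IsSymm) :
    mxH X = cAl • (mxS X * (mxB X - 1) * (mxB X - 1)) := by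
  have h1 : cAl • (mxS X * (mxB X - 1) * (mxB X - 1))
      = mxFun (fun lam => cAl * ((1 / cS + cAl * lam)⁻¹ * (lam - 1) * (lam - 1))) (mxB X) := by
    rw [mxFun_smul, mxFun_mul, mxFun_mul, ← mxS_eq_fun X hX, ← mxB_sub_one_eq_fun X hX]
  rw [h1, mxH_eq_fun X hX]
  refine mxFun_congr fun i => ?_
  ring

theorem mxH_posSemidef (hX : ∀ r, (X r).IsSymm) : (mxH X).PosSemidef := by
  rw [mxH_eq_fun X hX]
  refine mxFun_posSemidef fun i => ?_
  have hg := inv_pos.mpr (mxB_g_pos X hX i)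
  have h2 : (0 : ℝ) ≤ cAl := by unfold cAl; norm_num
  exact mul_nonneg (mul_nonneg h2 hg.le) (sq_nonneg _)

/-- `T² = α H S` -/
theorem mxT_sq (hX : ∀ r, (X r).IsSymm) : mxT X * mxT X = cAl • (mxH X * mxS X) := by
  have h1 : cAl • (mxH X * mxS X)
      = mxFun (fun lam => cAl * (cAl * (1 / cS + cAl * lam)⁻¹ * (lam - 1) ^ 2 *
          (1 / cS + cAl * lam)⁻¹)) (mxB X) := by
    rw [mxFun_smul, mxFun_mul, ← mxS_eq_fun X hX, ← mxH_eq_fun X hX]
  rw [h1, mxT_eq_fun X hX, ← mxFun_mul]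
  refine mxFun_congr fun i => ?_
  have hg := (mxB_g_pos X hX i).ne'
  field_simp
  unfold cS cAl
  ring

theorem mxSq_transpose (F : Mx m) : mxSq Fᵀ = mxSq F := by
  rw [mxSq, mxSq, Matrix.transpose_transpose, Matrix.trace_mul_comm]

/-- `S ≤ s I` -/
theorem mxSqS_le (hX : ∀ r, (X r).IsSymm) (F : Mx m) : mxSqS (mxS X) F ≤ cS * mxSq F := by
  have h := mxFun_trace_le (c := fun lam => (1 / cS + cAl * lam)⁻¹) (C := cS) (A := mxB X)
    (fun i => by
      have h1 := mxB_g_ge X hX i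
      have h2 : (0 : ℝ) < 1 / cS := by unfold cS; norm_num
      calc (1 / cS + cAl * mxEig (mxB X) i)⁻¹ ≤ (1 / cS)⁻¹ := inv_anti₀ h2 h1
        _ = cS := by rw [one_div, inv_inv]) Fᵀ
  rw [← mxS_eq_fun X hX, Matrix.transpose_transpose, mxSq_transpose] at h
  rw [mxSqS, Matrix.trace_mul_comm, ← Matrix.mul_assoc]
  exact h

/-- `T ≤ (s-1) I` tested on `g gᵀ`-type squares -/
theorem mxT_trace_le (hX : ∀ r, (X r).IsSymm) (F : Mx m) :
    Matrix.trace (mxT X * (F * Fᵀ)) ≤ (cS - 1) * mxSq F := by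
  have h := mxFun_trace_le (c := fun lam => (1 / cS + cAl * lam)⁻¹ - 1) (C := cS - 1) (A := mxB X)
    (fun i => by
      have h1 := mxB_g_ge X hX i
      have h2 : (0 : ℝ) < 1 / cS := by unfold cS; norm_num
      have h3 : (1 / cS + cAl * mxEig (mxB X) i)⁻¹ ≤ cS := by
        calc (1 / cS + cAl * mxEig (mxB X) i)⁻¹ ≤ (1 / cS)⁻¹ := inv_anti₀ h2 h1
          _ = cS := by rw [one_div, inv_inv]
      linarith) Fᵀ
  rw [← mxT_eq_fun X hX, Matrix.transpose_transpose, mxSq_transpose] at h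
  rw [Matrix.trace_mul_comm]
  exact h

/-- `log det S = ∑ log S(λ_i)` -/
theorem mxS_log_det (hX : ∀ r, (X r).IsSymm) :
    Real.log (mxS X).det = ∑ i, Real.log ((1 / cS + cAl * mxEig (mxB X) i)⁻¹) := by
  rw [mxS_eq_fun X hX, mxFun_det, Real.log_prod]
  exact fun i _ => (inv_pos.mpr (mxB_g_pos X hX i)).ne'

theorem mx_isSymm_of_posDef {A : Mx m} (hA : A.PosDef) : A.IsSymm := by
  have := hA.isHermitian
  unfold Matrix.IsHermitian at this
  rwa [Matrix.conjTranspose_eq_transpose_of_trivial] at this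

/-- `log det M ≤ tr M - m` for positive definite `M` -/
theorem mx_logdet_le_trace {M : Mx m} (hM : M.PosDef) :
    Real.log M.det ≤ Matrix.trace M - m := by
  have hs := mx_isSymm_of_posDef hM
  have hdet := mxFun_det (fun a => a) M
  have htr := mxFun_trace (fun a => a) M
  rw [mxFun_id hs] at hdet htr
  rw [hdet, htr, Real.log_prod fun i _ => (mxEig_pos_of_posDef hM i).ne']
  have h1 : ∑ i, Real.log (mxEig M i) ≤ ∑ i, (mxEig M i - 1) :=
    Finset.sum_le_sum fun i _ => Real.log_le_sub_one_of_pos (mxEig_pos_of_posDef hM i)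
  rw [Finset.sum_sub_distrib] at h1
  simpa using h1

/-- supporting plane of the log determinant: `log det C + m ≤ tr(S C) - log det S` -/
theorem mx_logdet_le {C S : Mx m} (hC : C.PosDef) (hS : S.PosDef) :
    Real.log C.det + m ≤ Matrix.trace (S * C) - Real.log S.det := by
  have hs := mx_isSymm_of_posDef hS
  set R := mxFun Real.sqrt S with hR
  have hRR : R * R = S := by
    rw [hR, ← mxFun_mul]
    conv_rhs => rw [← mxFun_id hs]
    exact mxFun_congr fun i => Real.mul_self_sqrt (mxEig_pos_of_posDef hS i).le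
  have hRs : Rᵀ = R := mxFun_isSymm _ _
  have hRinv : mxFun (fun a => (Real.sqrt a)⁻¹) S * R = 1 :=
    mul_eq_one_comm.mp (mxFun_mul_inv (f := Real.sqrt)
      fun i => (Real.sqrt_pos.mpr (mxEig_pos_of_posDef hS i)).ne')
  have hinj : Function.Injective R.mulVec := by
    intro v w hvw
    have := congrArg (fun u => mxFun (fun a => (Real.sqrt a)⁻¹) S *ᵥ u) hvw
    simpa only [Matrix.mulVec_mulVec, hRinv, Matrix.one_mulVec] using this
  have hM : (R * C * R).PosDef := by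
    have := hC.conjTranspose_mul_mul_same hinj
    rwa [Matrix.conjTranspose_eq_transpose_of_trivial, hRs] at this
  have h1 := mx_logdet_le_trace hM
  have hdet : (R * C * R).det = S.det * C.det := by
    rw [Matrix.det_mul, Matrix.det_mul, ← hRR, Matrix.det_mul]
    ring
  have htr : Matrix.trace (R * C * R) = Matrix.trace (S * C) := by
    rw [Matrix.trace_mul_comm, ← Matrix.mul_assoc, hRR]
  rw [hdet, htr, Real.log_mul hS.det_pos.ne' hC.det_pos.ne'] at h1
  linarith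

end Claimed.Agent.R260
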