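/-
Row 260, package SEC3: API of the constant matrices `B, S, T, H, ρ` (paper (3.9)-(3.11)).
OWNER: helper191.  Everything is obtained from the Mx library (`MxConst.lean`) through the bridges
`m3*_eq_mx`.
-/
import Claimed.Agent.R260.M3Defs
import Claimed.Agent.R260.MxConst

set_option autoImplicit false

namespace Claimed.Agent.R260

open Matrix

variable {m : ℕ} (X : Fin m → Mat m)

/-! ### bridges M3 ↔ Mx -/

theorem m3α_eq_mx : m3α = cAl := rfl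
theorem m3s_eq_mx : m3s = cS := rfl
theorem m3β_eq_mx : m3β = cBe := rfl
theorem m3c_eq_mx : m3c = cC := rfl
theorem m3γ_eq_mx : m3γ = cGa := rfl
theorem m3ε_eq_mx : m3ε = cEp := rfl
theorem m3κ_eq_mx : m3κ = cKa := rfl

theorem m3B_eq_mx : m3B X = mxB X := rfl

theorem m3S_eq_mx : m3S X = mxS X := by
  unfold m3S mxS
  rw [m3s_eq_mx, m3α_eq_mx, m3B_eq_mx, one_div]

theorem m3T_eq_mx : m3T X = mxT X := by
  unfold m3T mxT
  rw [m3S_eq_mx]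

theorem m3H_eq_mx : m3H X = mxH X := by
  unfold m3H mxH
  rw [m3T_eq_mx, m3B_eq_mx]

theorem m3ρ_eq_mx : m3ρ X = mxRho X := by
  unfold m3ρ mxRho
  rw [m3S_eq_mx, m3ε_eq_mx, m3κ_eq_mx, m3s_eq_mx]

theorem frobSq_eq_mxSq (F : Mat m) : frobSq F = mxSq F := by
  rw [mxSq_eq_sum]; rfl

theorem m3nS_eq_mx (S F : Mat m) : m3nS S F = mxSqS S F := rfl

theorem m3dq_eq_mx : m3dq = mxDD := rfl

/-! ### the API -/

theorem m3B_transpose (hX : ∀ r, (X r)ᵀ = X r) : (m3B X)ᵀ = m3B X :=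
  mxB_isSymm X hX

theorem m3S_mul_inv (hX : ∀ r, (X r)ᵀ = X r) :
    m3S X * (m3s⁻¹ • (1 : Mat m) + m3α • m3B X) = 1 := by
  have h := mxS_mul_inv X hX
  rwa [one_div, ← m3S_eq_mx] at h

theorem m3S_inv_mul (hX : ∀ r, (X r)ᵀ = X r) :
    (m3s⁻¹ • (1 : Mat m) + m3α • m3B X) * m3S X = 1 := by
  have h := mxS_inv_mul X hX
  rwa [one_div, ← m3S_eq_mx] at h

theorem m3S_transpose (hX : ∀ r, (X r)ᵀ = X r) : (m3S X)ᵀ = m3S X := by
  rw [m3S_eq_mx]; exact mxS_isSymm X hX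

theorem m3T_transpose (hX : ∀ r, (X r)ᵀ = X r) : (m3T X)ᵀ = m3T X := by
  rw [m3T_eq_mx]; exact mxT_isSymm X hX

theorem m3H_transpose (hX : ∀ r, (X r)ᵀ = X r) : (m3H X)ᵀ = m3H X := by
  rw [m3H_eq_mx]; exact mxH_isSymm X hX

theorem m3ρ_transpose (hX : ∀ r, (X r)ᵀ = X r) : (m3ρ X)ᵀ = m3ρ X := by
  unfold m3ρ
  rw [transpose_add, transpose_smul, transpose_smul, transpose_one, m3S_transpose X hX]

theorem m3S_comm_B (hX : ∀ r, (X r)ᵀ = X r) : m3S X * m3B X = m3B X * m3S X := by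
  rw [m3S_eq_mx]; exact mxS_comm_B X hX

theorem m3T_comm_B (hX : ∀ r, (X r)ᵀ = X r) : m3T X * m3B X = m3B X * m3T X := by
  unfold m3T
  rw [sub_mul, mul_sub, m3S_comm_B X hX, one_mul, mul_one]

/-- `T = -α S (B - I)`. -/
theorem m3T_eq (hX : ∀ r, (X r)ᵀ = X r) : m3T X = -(m3α • (m3S X * (m3B X - 1))) := by
  rw [m3T_eq_mx, m3S_eq_mx]; exact mxT_eq X hX

/-- `S (B - I) = -T/α`. -/
theorem m3S_mul_B_sub_one (hX : ∀ r, (X r)ᵀ = X r) :
    m3S X * (m3B X - 1) = -((1 / m3α) • m3T X) := by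
  rw [m3T_eq X hX, smul_neg, neg_neg, smul_smul]
  have : 1 / m3α * m3α = 1 := by unfold m3α; norm_num
  rw [this, one_smul]

/-- `H = α S (B - I)²`. -/
theorem m3H_eq (hX : ∀ r, (X r)ᵀ = X r) :
    m3H X = m3α • (m3S X * (m3B X - 1) * (m3B X - 1)) := by
  rw [m3H_eq_mx, m3S_eq_mx]; exact mxH_eq X hX

/-- `(B - I) S (B - I) = H/α`. -/
theorem m3_BSB (hX : ∀ r, (X r)ᵀ = X r) :
    (m3B X - 1) * m3S X * (m3B X - 1) = (1 / m3α) • m3H X := by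
  have hc : (m3B X - 1) * m3S X = m3S X * (m3B X - 1) := by
    rw [sub_mul, mul_sub, m3S_comm_B X hX, one_mul, mul_one]
  rw [hc, m3H_eq X hX, smul_smul]
  have : 1 / m3α * m3α = 1 := by unfold m3α; norm_num
  rw [this, one_smul]

/-- `T² = α H S`. -/
theorem m3T_sq (hX : ∀ r, (X r)ᵀ = X r) : m3T X * m3T X = m3α • (m3H X * m3S X) := by
  rw [m3T_eq_mx, m3H_eq_mx, m3S_eq_mx]; exact mxT_sq X hX

/-- The spectral form of `B, S, T, H, ρ` for ANY orthogonal diagonalisation of `B`. -/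
theorem m3_diag_of (hX : ∀ r, (X r)ᵀ = X r) (V : Mat m) (lam : Fin m → ℝ)
    (hV : Vᵀ * V = 1) (hB : m3B X = V * diagonal lam * Vᵀ) :
    (∀ i, 0 ≤ lam i) ∧
      m3S X = V * diagonal (fun i => (m3s⁻¹ + m3α * lam i)⁻¹) * Vᵀ ∧
      m3T X = V * diagonal (fun i => (m3s⁻¹ + m3α * lam i)⁻¹ - 1) * Vᵀ ∧
      m3H X = V * diagonal (fun i => m3α * (m3s⁻¹ + m3α * lam i)⁻¹ * (lam i - 1) ^ 2) * Vᵀ ∧
      m3ρ X = V * diagonal (fun i => m3ε + m3κ / m3s * (m3s⁻¹ + m3α * lam i)⁻¹) * Vᵀ := by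
  have hB' : mxB X = V * diagonal lam * Vᵀ := hB
  refine ⟨fun i => ?_, ?_, ?_, ?_, ?_⟩
  · -- `lam i = (V e_i)ᵀ B (V e_i) ≥ 0`
    have h := mxB_quad_nonneg X hX (fun k => V k i)
    have key : Vᵀ * mxB X * V = diagonal lam := by
      rw [hB']
      calc Vᵀ * (V * diagonal lam * Vᵀ) * V = (Vᵀ * V) * diagonal lam * (Vᵀ * V) := by
            simp only [Matrix.mul_assoc]
        _ = diagonal lam := by rw [hV, Matrix.one_mul, Matrix.mul_one]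
    have e : (fun k => V k i) ⬝ᵥ (mxB X *ᵥ (fun k => V k i)) = (Vᵀ * mxB X * V) i i := by
      simp only [Matrix.mul_apply, dotProduct, mulVec, Finset.sum_mul, Finset.mul_sum,
        transpose_apply]
      rw [Finset.sum_comm]
      refine Finset.sum_congr rfl fun a _ => Finset.sum_congr rfl fun b _ => ?_
      ring
    rw [e, key, diagonal_apply_eq] at h
    exact h
  · rw [m3S_eq_mx, mxS_eq_fun X hX, hB', mxFun_of_diag V hV]
    simp only [one_div]; rfl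
  · rw [m3T_eq_mx, mxT_eq_fun X hX, hB', mxFun_of_diag V hV]
    simp only [one_div]; rfl
  · rw [m3H_eq_mx, mxH_eq_fun X hX, hB', mxFun_of_diag V hV]
    simp only [one_div]; rfl
  · rw [m3ρ_eq_mx, mxRho_eq_fun X hX, hB', mxFun_of_diag V hV]
    simp only [one_div]; rfl

/-- Simultaneous diagonalisation of `B, S, T, H, ρ`. -/
theorem m3_diag (hX : ∀ r, (X r)ᵀ = X r) :
    ∃ (V : Mat m) (lam : Fin m → ℝ), Vᵀ * V = 1 ∧ V * Vᵀ = 1 ∧ (∀ i, 0 ≤ lam i) ∧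
      m3B X = V * diagonal lam * Vᵀ ∧
      m3S X = V * diagonal (fun i => (m3s⁻¹ + m3α * lam i)⁻¹) * Vᵀ ∧
      m3T X = V * diagonal (fun i => (m3s⁻¹ + m3α * lam i)⁻¹ - 1) * Vᵀ ∧
      m3H X = V * diagonal (fun i => m3α * (m3s⁻¹ + m3α * lam i)⁻¹ * (lam i - 1) ^ 2) * Vᵀ ∧
      m3ρ X = V * diagonal (fun i => m3ε + m3κ / m3s * (m3s⁻¹ + m3α * lam i)⁻¹) * Vᵀ := by
  have hB : m3B X = mxU (mxB X) * diagonal (mxEig (mxB X)) * (mxU (mxB X))ᵀ :=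
    mx_spectral (mxB_isSymm X hX)
  obtain ⟨h0, h1, h2, h3, h4⟩ := m3_diag_of X hX _ _ (mxU_transpose_mul _) hB
  exact ⟨_, _, mxU_transpose_mul _, mxU_mul_transpose _, h0, hB, h1, h2, h3, h4⟩

theorem m3S_posDef (hX : ∀ r, (X r)ᵀ = X r) : (m3S X).PosDef := by
  rw [m3S_eq_mx]; exact mxS_posDef X hX

end Claimed.Agent.R260
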