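/-
Row 260, package SEC3: API of the pointwise functional calculus `M3Pt.fn / inU / dfn`.
Statements by helper191; proofs by helper162 (owner of this file since subtask M3-SPEC).
-/
import Claimed.Agent.R260.M3Defs

set_option autoImplicit false

namespace Claimed.Agent.R260

open Matrix

variable {m : ℕ}

theorem frobSq_eq_trace (M : Mat m) : frobSq M = (Mᵀ * M).trace := by
  simp only [frobSq, Matrix.trace, Matrix.diag_apply, Matrix.mul_apply, Matrix.transpose_apply]
  rw [Finset.sum_comm]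
  exact Finset.sum_congr rfl fun j _ => Finset.sum_congr rfl fun i _ => by ring

theorem frobSq_nonneg (M : Mat m) : 0 ≤ frobSq M :=
  Finset.sum_nonneg fun _ _ => Finset.sum_nonneg fun _ _ => sq_nonneg _

theorem frobSq_transpose (M : Mat m) : frobSq Mᵀ = frobSq M := by
  simp only [frobSq, Matrix.transpose_apply]
  exact Finset.sum_comm

theorem m3dq_symm (v v' : ℝ → ℝ) (x y : ℝ) : m3dq v v' x y = m3dq v v' y x := by
  unfold m3dq
  by_cases h : x = y
  · subst h; rfl
  · have h' : ¬ y = x := fun e => h e.symm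
    rw [if_neg h, if_neg h']
    have h1 : x - y ≠ 0 := sub_ne_zero.mpr h
    have h2 : y - x ≠ 0 := sub_ne_zero.mpr h'
    field_simp
    ring

theorem m3dq_self (v v' : ℝ → ℝ) (x : ℝ) : m3dq v v' x x = v' x := by
  simp [m3dq]

theorem m3dq_of_ne (v v' : ℝ → ℝ) {x y : ℝ} (h : x ≠ y) :
    m3dq v v' x y = (v x - v y) / (x - y) := by
  simp [m3dq, h]

/-- `tr (M Mᵀ) = |M|_F²`. -/
theorem frobSq_eq_trace' (M : Mat m) : frobSq M = (M * Mᵀ).trace := by
  rw [frobSq_eq_trace, Matrix.trace_mul_comm]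

/-- for symmetric `M`: `tr (M M) = |M|_F²`. -/
theorem frobSq_eq_trace_of_symm {M : Mat m} (h : Mᵀ = M) : frobSq M = (M * M).trace := by
  conv_rhs => rw [← h]
  rw [h, frobSq_eq_trace, h]

namespace M3Pt
variable (P : M3Pt m)

theorem Ok.hU' {P : M3Pt m} (h : P.Ok) : P.U * P.Uᵀ = 1 :=
  mul_eq_one_comm.mp h.hU

theorem fn_transpose (v : ℝ → ℝ) : (P.fn v)ᵀ = P.fn v := by
  simp only [fn, Matrix.transpose_mul, Matrix.transpose_transpose, Matrix.diagonal_transpose,
    Matrix.mul_assoc]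

theorem fn_add (v w : ℝ → ℝ) : P.fn (fun a => v a + w a) = P.fn v + P.fn w := by
  simp only [fn]
  rw [← Matrix.add_mul, ← Matrix.mul_add, Matrix.diagonal_add]

theorem fn_sub (v w : ℝ → ℝ) : P.fn (fun a => v a - w a) = P.fn v - P.fn w := by
  simp only [fn]
  rw [← Matrix.sub_mul, ← Matrix.mul_sub, Matrix.diagonal_sub]

theorem fn_smul (c : ℝ) (v : ℝ → ℝ) : P.fn (fun a => c * v a) = c • P.fn v := by
  simp only [fn]
  have : (diagonal fun i => c * v (P.a i)) = c • diagonal (fun i => v (P.a i)) := by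
    rw [← Matrix.diagonal_smul]; rfl
  rw [this, Matrix.mul_smul, Matrix.smul_mul]

theorem fn_const (h : P.Ok) (c : ℝ) : P.fn (fun _ => c) = c • (1 : Mat m) := by
  simp only [fn]
  have : (diagonal fun _ : Fin m => c) = c • (1 : Mat m) := by
    rw [← Matrix.diagonal_one, ← Matrix.diagonal_smul]
    congr 1; funext i; simp
  rw [this, Matrix.mul_smul, Matrix.smul_mul, Matrix.mul_one, h.hU']

theorem fn_one (h : P.Ok) : P.fn (fun _ => 1) = (1 : Mat m) := by
  rw [P.fn_const h, one_smul]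

theorem fn_mul (h : P.Ok) (v w : ℝ → ℝ) : P.fn (fun a => v a * w a) = P.fn v * P.fn w := by
  simp only [fn]
  have e : P.U * diagonal (fun i => v (P.a i)) * P.Uᵀ * (P.U * diagonal (fun i => w (P.a i)) * P.Uᵀ)
      = P.U * (diagonal (fun i => v (P.a i)) * (P.Uᵀ * P.U) * diagonal (fun i => w (P.a i)))
        * P.Uᵀ := by
    simp only [Matrix.mul_assoc]
  rw [e, h.hU, Matrix.mul_one, Matrix.diagonal_mul_diagonal]

theorem fn_comm (h : P.Ok) (v w : ℝ → ℝ) : P.fn v * P.fn w = P.fn w * P.fn v := by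
  rw [← P.fn_mul h, ← P.fn_mul h]
  congr 1; funext a; ring

theorem A_mul_fn (h : P.Ok) (v : ℝ → ℝ) : P.A * P.fn v = P.fn (fun a => a * v a) := by
  rw [A, ← P.fn_mul h]; rfl

theorem A_transpose : P.Aᵀ = P.A := P.fn_transpose id

theorem Y_transpose (h : P.Ok) : P.Yᵀ = P.Y := by
  simp only [Y, Matrix.transpose_sub, Matrix.transpose_sum, Matrix.transpose_smul, h.hX,
    P.A_transpose]

theorem G_transpose (h : P.Ok) (r : Fin m) : (P.G r)ᵀ = P.G r := by
  simp only [G, Matrix.transpose_sub, h.hX, h.hZ]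

theorem A_eq : P.A = P.Y + ∑ r, P.ξ r • P.X r := by
  simp [Y]

theorem inU_add (M N : Mat m) : P.inU (M + N) = P.inU M + P.inU N := by
  simp only [inU, Matrix.mul_add, Matrix.add_mul]

theorem inU_sub (M N : Mat m) : P.inU (M - N) = P.inU M - P.inU N := by
  simp only [inU, Matrix.mul_sub, Matrix.sub_mul]

theorem inU_smul (c : ℝ) (M : Mat m) : P.inU (c • M) = c • P.inU M := by
  simp only [inU, Matrix.mul_smul, Matrix.smul_mul]

theorem inU_zero : P.inU (0 : Mat m) = 0 := by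
  simp only [inU, Matrix.mul_zero, Matrix.zero_mul]

theorem inU_neg (M : Mat m) : P.inU (-M) = -P.inU M := by
  simp only [inU, Matrix.mul_neg, Matrix.neg_mul]

theorem inU_sum {ι : Type*} (s : Finset ι) (M : ι → Mat m) :
    P.inU (∑ r ∈ s, M r) = ∑ r ∈ s, P.inU (M r) := by
  simp only [inU, Matrix.mul_sum, Matrix.sum_mul]

theorem inU_one (h : P.Ok) : P.inU (1 : Mat m) = 1 := by
  simp only [inU, Matrix.mul_one, h.hU]

theorem inU_mul (h : P.Ok) (M N : Mat m) : P.inU (M * N) = P.inU M * P.inU N := by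
  simp only [inU]
  have e : P.Uᵀ * M * P.U * (P.Uᵀ * N * P.U) = P.Uᵀ * (M * (P.U * P.Uᵀ) * N) * P.U := by
    simp only [Matrix.mul_assoc]
  rw [e, h.hU', Matrix.mul_one]

theorem inU_transpose (M : Mat m) : (P.inU M)ᵀ = P.inU Mᵀ := by
  simp only [inU, Matrix.transpose_mul, Matrix.transpose_transpose, Matrix.mul_assoc]

/-- a symmetric matrix is symmetric in the frame (entrywise form). -/
theorem inU_symm {M : Mat m} (hM : Mᵀ = M) (i j : Fin m) : P.inU M i j = P.inU M j i := by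
  have := P.inU_transpose M
  rw [hM] at this
  exact (congrFun (congrFun this j) i).symm ▸ rfl

/-- `Uᵀ (U N Uᵀ) U = N`. -/
theorem inU_conj (h : P.Ok) (N : Mat m) : P.inU (P.U * N * P.Uᵀ) = N := by
  simp only [inU]
  have e : P.Uᵀ * (P.U * N * P.Uᵀ) * P.U = (P.Uᵀ * P.U) * N * (P.Uᵀ * P.U) := by
    simp only [Matrix.mul_assoc]
  rw [e, h.hU, Matrix.one_mul, Matrix.mul_one]

/-- `U (Uᵀ M U) Uᵀ = M`. -/
theorem conj_inU (h : P.Ok) (M : Mat m) : P.U * P.inU M * P.Uᵀ = M := by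
  simp only [inU]
  have e : P.U * (P.Uᵀ * M * P.U) * P.Uᵀ = (P.U * P.Uᵀ) * M * (P.U * P.Uᵀ) := by
    simp only [Matrix.mul_assoc]
  rw [e, h.hU', Matrix.one_mul, Matrix.mul_one]

/-- `inU` is injective. -/
theorem inU_injective (h : P.Ok) {M N : Mat m} (e : P.inU M = P.inU N) : M = N := by
  rw [← P.conj_inU h M, ← P.conj_inU h N, e]

theorem inU_fn (h : P.Ok) (v : ℝ → ℝ) : P.inU (P.fn v) = diagonal (fun i => v (P.a i)) :=
  P.inU_conj h _

theorem inU_dfn (h : P.Ok) (v v' : ℝ → ℝ) (r : Fin m) :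
    P.inU (P.dfn v v' r) = of fun i j => m3dq v v' (P.a i) (P.a j) * P.inU (P.Z r) i j :=
  P.inU_conj h _

theorem trace_inU (h : P.Ok) (M : Mat m) : (P.inU M).trace = M.trace := by
  simp only [inU]
  rw [Matrix.trace_mul_comm, ← Matrix.mul_assoc, h.hU', Matrix.one_mul]

theorem frobSq_inU (h : P.Ok) (M : Mat m) : frobSq (P.inU M) = frobSq M := by
  rw [frobSq_eq_trace, frobSq_eq_trace, P.inU_transpose, ← P.inU_mul h, P.trace_inU h]

theorem dfn_transpose (h : P.Ok) (v v' : ℝ → ℝ) (r : Fin m) :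
    (P.dfn v v' r)ᵀ = P.dfn v v' r := by
  simp only [dfn, Matrix.transpose_mul, Matrix.transpose_transpose, Matrix.mul_assoc]
  congr 2
  ext i j
  simp only [Matrix.transpose_apply, Matrix.of_apply]
  rw [m3dq_symm, P.inU_symm (h.hZ r)]

/-- entries of `M * v(A)` in the frame. -/
theorem inU_mul_fn (h : P.Ok) (M : Mat m) (v : ℝ → ℝ) (i j : Fin m) :
    P.inU (M * P.fn v) i j = P.inU M i j * v (P.a j) := by
  rw [P.inU_mul h, P.inU_fn h, Matrix.mul_diagonal]

/-- entries of `v(A) * M` in the frame. -/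
theorem inU_fn_mul (h : P.Ok) (M : Mat m) (v : ℝ → ℝ) (i j : Fin m) :
    P.inU (P.fn v * M) i j = v (P.a i) * P.inU M i j := by
  rw [P.inU_mul h, P.inU_fn h, Matrix.diagonal_mul]

/-- `tr (M v(A)) = Σ v(a_i) (Uᵀ M U)_ii`. -/
theorem trace_mul_fn (h : P.Ok) (M : Mat m) (v : ℝ → ℝ) :
    (M * P.fn v).trace = ∑ i, P.inU M i i * v (P.a i) := by
  rw [← P.trace_inU h]
  simp only [Matrix.trace, Matrix.diag_apply, P.inU_mul_fn h]

/-- `tr v(A) = Σ v(a_i)`. -/
theorem trace_fn (h : P.Ok) (v : ℝ → ℝ) : (P.fn v).trace = ∑ i, v (P.a i) := by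
  rw [← P.trace_inU h, P.inU_fn h, Matrix.trace_diagonal]

/-- extensionality of the functional calculus. -/
theorem fn_congr {v w : ℝ → ℝ} (e : ∀ a, v a = w a) : P.fn v = P.fn w := by
  rw [funext e]

/-- `tr (M N)` in the frame, entrywise. -/
theorem trace_mul_inU (h : P.Ok) (M N : Mat m) :
    (M * N).trace = ∑ i, ∑ j, P.inU M i j * P.inU N j i := by
  rw [← P.trace_inU h, P.inU_mul h]
  simp only [Matrix.trace, Matrix.diag_apply, Matrix.mul_apply]

/-- `|M|_F²` in the frame, entrywise. -/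
theorem frobSq_eq_inU (h : P.Ok) (M : Mat m) : frobSq M = ∑ i, ∑ j, P.inU M i j ^ 2 := by
  rw [← P.frobSq_inU h]; rfl

end M3Pt

end Claimed.Agent.R260
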