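/-
Row 260, package SEC3, leaf M3-ICOV (helper220): the covariance integrand in the paper's form
(completion of Lemma 3.1), an exact pointwise identity.
-/
import Claimed.Agent.R260.M3Const
import Claimed.Agent.R260.M3Spec

set_option autoImplicit false

namespace Claimed.Agent.R260

open Matrix

variable {m : ℕ}

theorem m3x_nS_add {S : Mat m} (hS : Sᵀ = S) (F G : Mat m) :
    m3nS S (F + G) = m3nS S F + m3nS S G + 2 * (Fᵀ * S * G).trace := by
  unfold m3nS
  have h1 : (Gᵀ * S * F).trace = (Fᵀ * S * G).trace := by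
    rw [← trace_transpose (Gᵀ * S * F)]
    simp only [transpose_mul, transpose_transpose, hS, mul_assoc]
  rw [transpose_add]
  simp only [add_mul, mul_add, trace_add]
  rw [h1]
  ring

theorem m3x_nS_sub {S : Mat m} (hS : Sᵀ = S) (F G : Mat m) :
    m3nS S (F - G) = m3nS S F + m3nS S G - 2 * (Fᵀ * S * G).trace := by
  unfold m3nS
  have h1 : (Gᵀ * S * F).trace = (Fᵀ * S * G).trace := by
    rw [← trace_transpose (Gᵀ * S * F)]
    simp only [transpose_mul, transpose_transpose, hS, mul_assoc]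
  rw [transpose_sub]
  simp only [sub_mul, mul_sub, trace_sub]
  rw [h1]
  ring

namespace M3Pt

variable (P : M3Pt m) (Sc : M3Sc)

theorem m3x_u_eq : P.u Sc = P.Y * P.fn Sc.b - m3β • P.Y + ∑ r, P.X r * P.dB Sc r - P.fn Sc.l := by
  unfold M3Pt.u M3Pt.F0 M3Pt.L m3B
  simp only [mul_sub, Finset.sum_sub_distrib, sub_mul, one_mul, Finset.sum_mul, mul_smul_comm,
    mul_one, mul_assoc]
  abel

theorem m3x_Xb_eq (r : Fin m) :
    P.X r * P.fn Sc.b + m3β • P.g r = P.K Sc r - P.v Sc r := by
  unfold M3Pt.v M3Pt.D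
  abel

end M3Pt

/-- the covariance integrand in the paper's form (= `m3_Icov_eq` of M3Point.lean). -/
theorem m3x_Icov_eq (P : M3Pt m) (Sc : M3Sc) (hP : P.Ok) (hS : Sc.Alg) :
    P.Icov Sc = m3nS (m3S P.X) (P.u Sc) + ∑ r, m3nS (m3S P.X) (P.v Sc r)
      + (m3S P.X * ((2 : ℝ) • P.fn Sc.t - P.fn Sc.k * P.fn Sc.k - ∑ r, P.K Sc r * P.K Sc r)).trace
      + 2 * P.d3 Sc + 2 * m3β * P.d4 Sc := by
  have hST : (m3S P.X)ᵀ = m3S P.X := m3S_transpose P.X hP.hX
  set S := m3S P.X with hSdef
  set k := P.fn Sc.k with hk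
  set b := P.fn Sc.b with hb
  set l := P.fn Sc.l with hl
  set t := P.fn Sc.t with ht
  set q := P.fn Sc.q with hq
  have hkT : kᵀ = k := P.fn_transpose _
  have hKT : ∀ r, (P.K Sc r)ᵀ = P.K Sc r := fun r => P.dfn_transpose hP _ _ r
  -- first square
  have e1 : m3nS S (k + P.u Sc) = (S * (k * k)).trace + m3nS S (P.u Sc)
      + 2 * (k * S * P.u Sc).trace := by
    rw [m3x_nS_add hST, hkT]
    have : m3nS S k = (S * (k * k)).trace := by
      unfold m3nS
      rw [hkT, mul_assoc, trace_mul_comm, mul_assoc]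
    rw [this]
  -- second squares
  have e2 : ∀ r, m3nS S (P.X r * b + m3β • P.g r) = (S * (P.K Sc r * P.K Sc r)).trace
      + m3nS S (P.v Sc r) - 2 * (P.K Sc r * S * P.v Sc r).trace := by
    intro r
    rw [hb, P.m3x_Xb_eq Sc r, m3x_nS_sub hST, hKT]
    have : m3nS S (P.K Sc r) = (S * (P.K Sc r * P.K Sc r)).trace := by
      unfold m3nS
      rw [hKT, mul_assoc, trace_mul_comm, mul_assoc]
    rw [this]
  -- expansion of `tr (k S u)`
  have e3 : (k * S * P.u Sc).trace = (k * S * P.Y * b).trace - m3β * (k * S * P.Y).trace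
      + ∑ r, (k * S * P.X r * P.dB Sc r).trace - (k * S * l).trace := by
    rw [P.m3x_u_eq Sc]
    simp only [mul_sub, mul_add, trace_sub, trace_add, Finset.mul_sum, trace_sum, mul_smul_comm,
      trace_smul, smul_eq_mul, ← mul_assoc]
    rfl
  -- expansion of `tr (K S v)`
  have e4 : ∀ r, (P.K Sc r * S * P.v Sc r).trace = (S * (P.K Sc r * P.K Sc r)).trace
      - (P.K Sc r * S * P.X r * b).trace - m3β * (P.K Sc r * S * P.g r).trace := by
    intro r
    have h0 : (P.K Sc r * S * P.K Sc r).trace = (S * P.K Sc r * P.K Sc r).trace := by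
      rw [mul_assoc, trace_mul_comm]
    unfold M3Pt.v M3Pt.D
    simp only [mul_sub, trace_sub, mul_smul_comm, trace_smul, smul_eq_mul, ← mul_assoc]
    rw [h0]
  -- the scalar identities
  have e5 : (k * S * P.Y * b).trace + ∑ r, P.ξ r * (k * S * P.X r * b).trace
      = (k * S * (P.A * b)).trace := by
    rw [P.A_eq]
    simp only [add_mul, mul_add, trace_add, Finset.sum_mul, Finset.mul_sum, trace_sum,
      smul_mul_assoc, mul_smul_comm, trace_smul, smul_eq_mul, ← mul_assoc]
  have e6 : P.A * b - l = q - k := by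
    rw [hb, P.A_mul_fn hP, hl, ← P.fn_sub, hq, hk, ← P.fn_sub]
    congr 1
    funext a
    exact (hS.ql a).symm
  have e7 : (k * S * q).trace = (S * t).trace := by
    rw [mul_assoc, trace_mul_comm, mul_assoc]
    congr 2
    rw [hq, hk, ← P.fn_mul hP, ht]
    congr 1
    funext a
    exact hS.qk a
  have e8 : (k * S * (P.A * b)).trace - (k * S * l).trace = (S * t).trace - (S * (k * k)).trace := by
    rw [← trace_sub, ← mul_sub, e6, mul_sub, trace_sub, e7]
    congr 1
    rw [mul_assoc, trace_mul_comm, mul_assoc]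
  have e9 : (S * ((2 : ℝ) • t - k * k - ∑ r, P.K Sc r * P.K Sc r)).trace
      = 2 * (S * t).trace - (S * (k * k)).trace - ∑ r, (S * (P.K Sc r * P.K Sc r)).trace := by
    simp only [mul_sub, trace_sub, Finset.mul_sum, trace_sum, mul_smul_comm, trace_smul,
      smul_eq_mul]
  unfold M3Pt.Icov M3Pt.d3 M3Pt.d4
  rw [← hSdef, ← hk, ← hb, e1, e3, e9]
  simp only [e2, e4, Finset.sum_add_distrib, Finset.sum_sub_distrib, ← Finset.mul_sum]
  linarith

end Claimed.Agent.R260
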