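/-
Row 260, package SEC3, leaf M3-PAIR (helper220): the pairing step, Prop 3.6 applied entrywise in
the frame.
-/
import Claimed.Agent.R260.M3Spec

set_option autoImplicit false

namespace Claimed.Agent.R260

open Matrix

variable {m : ℕ}

namespace M3Pt

variable (P : M3Pt m) (Sc : M3Sc)

theorem m3x_inU_X (r : Fin m) (i j : Fin m) :
    P.inU (P.X r) i j = P.inU (P.Z r) i j - P.inU (P.G r) i j := by
  have : P.X r = P.Z r - P.G r := by simp [M3Pt.G]
  conv_lhs => rw [this]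
  rw [inU_sub]; rfl

theorem m3x_inU_D (h : P.Ok) (r i j : Fin m) :
    P.inU (P.D Sc r) i j =
      P.inU (P.G r) i j * Sc.b (P.a j) + P.inU (P.Z r) i j * Sc.Δk (P.a i) (P.a j) := by
  unfold M3Pt.D M3Pt.K
  rw [inU_sub, Matrix.sub_apply, inU_dfn P h, inU_mul_fn P h, m3x_inU_X]
  simp only [of_apply, M3Sc.Δk]
  ring

theorem m3x_inU_L (h : P.Ok) (r i j : Fin m) :
    P.inU (P.L Sc r) i j =
      P.inU (P.G r) i j * Sc.l (P.a j) + P.inU (P.Z r) i j * Sc.Δb (P.a i) (P.a j) := by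
  unfold M3Pt.L M3Pt.dB
  rw [inU_sub, Matrix.sub_apply, inU_dfn P h, inU_mul_fn P h, m3x_inU_X]
  simp only [of_apply, M3Sc.Δb]
  ring

theorem m3x_inU_Mm (h : P.Ok) (r i j : Fin m) :
    P.inU (P.Mm Sc r) i j =
      P.inU (P.G r) i j * Sc.e (P.a j) + P.inU (P.Z r) i j * Sc.ψ (P.a i) (P.a j)
        + m3c * P.inU (P.g r) i j * Sc.b (P.a j) := by
  unfold M3Pt.Mm M3Pt.dF
  rw [inU_add, inU_sub, inU_sub, inU_sub, inU_smul, inU_smul, inU_smul]
  simp only [Matrix.add_apply, Matrix.sub_apply, Matrix.smul_apply, smul_eq_mul]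
  rw [inU_dfn P h, inU_mul_fn P h, inU_mul_fn P h, inU_mul_fn P h, inU_mul_fn P h, m3x_inU_X,
    m3x_inU_D P Sc h, m3x_inU_L P Sc h]
  simp only [of_apply, M3Sc.ψ, M3Sc.e, M3Sc.Δf]
  ring

theorem m3x_inU_v (h : P.Ok) (r i j : Fin m) :
    P.inU (P.v Sc r) i j =
      P.inU (P.G r) i j * Sc.b (P.a j) + P.inU (P.Z r) i j * Sc.Δk (P.a i) (P.a j)
        - m3β * P.inU (P.g r) i j := by
  unfold M3Pt.v
  rw [inU_sub, inU_smul, Matrix.sub_apply, Matrix.smul_apply, smul_eq_mul, m3x_inU_D P Sc h]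

theorem m3x_inU_w (h : P.Ok) (r i j : Fin m) :
    P.inU (P.w Sc r) i j =
      P.inU (P.G r) i j * Sc.b (P.a j) + P.inU (P.Z r) i j * Sc.Δk (P.a i) (P.a j)
        - m3γ * P.inU (P.g r) i j := by
  unfold M3Pt.w
  rw [inU_sub, inU_smul, Matrix.sub_apply, Matrix.smul_apply, smul_eq_mul, m3x_inU_D P Sc h]

theorem m3x_frobSq (h : P.Ok) (M : Mat m) : frobSq M = ∑ i, ∑ j, P.inU M i j ^ 2 := by
  rw [← frobSq_inU P h M]; rfl

theorem m3x_inU_symm {M : Mat m} (hM : Mᵀ = M) (i j : Fin m) : P.inU M i j = P.inU M j i := by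
  have := inU_transpose P M
  rw [hM] at this
  have h2 := congrFun (congrFun this j) i
  simpa [Matrix.transpose_apply] using h2

theorem m3x_trace_mul (h : P.Ok) {M N : Mat m} (hN : Nᵀ = N) :
    (M * N).trace = ∑ i, ∑ j, P.inU M i j * P.inU N i j := by
  rw [← trace_inU P h (M * N), inU_mul P h, Matrix.trace]
  refine Finset.sum_congr rfl fun i _ => ?_
  rw [Matrix.diag_apply, Matrix.mul_apply]
  refine Finset.sum_congr rfl fun j _ => ?_
  rw [m3x_inU_symm P hN j i]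

/-- the contribution of one derivative index `r`, as a sum of endpoint expressions -/
theorem m3x_pair_r_eq (h : P.Ok) (hS : Sc.Alg) (r : Fin m) :
    m3s * frobSq (P.v Sc r) + (1 + m3s / 8) * frobSq (P.w Sc r)
      + m3γ ^ 2 * (m3s - 1) * frobSq (P.g r) + 1 / m3α * frobSq (P.L Sc r)
      + frobSq (P.Mm Sc r * P.fn Sc.pis) / (4 * (1 - m3ε))
    = ∑ i, ∑ j, Sc.endpt (P.a i) (P.a j) (P.inU (P.G r) i j) (P.inU (P.g r) i j)
        (P.inU (P.Z r) i j) := by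
  rw [m3x_frobSq P h (P.v Sc r), m3x_frobSq P h (P.w Sc r), m3x_frobSq P h (P.g r),
    m3x_frobSq P h (P.L Sc r), m3x_frobSq P h (P.Mm Sc r * P.fn Sc.pis)]
  simp only [Finset.mul_sum, Finset.sum_div, ← Finset.sum_add_distrib]
  refine Finset.sum_congr rfl fun i _ => Finset.sum_congr rfl fun j _ => ?_
  rw [m3x_inU_v P Sc h, m3x_inU_w P Sc h, m3x_inU_L P Sc h, inU_mul_fn P h, m3x_inU_Mm P Sc h]
  have hp := hS.ppos (P.a j)
  have hpis : Sc.pis (P.a j) ^ 2 = 1 / Sc.p (P.a j) := by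
    unfold M3Sc.pis
    rw [div_pow, one_pow, Real.sq_sqrt hp.le]
  unfold M3Sc.endpt
  rw [mul_pow, hpis]
  have hε : (4 : ℝ) * (1 - m3ε) ≠ 0 := by unfold m3ε; norm_num
  have hα : m3α ≠ 0 := by unfold m3α; norm_num
  field_simp

theorem m3x_pair_r (h : P.Ok) (hS : Sc.Alg) (hpair : Sc.Pair) (r : Fin m) :
    m3s * frobSq (P.v Sc r) + (1 + m3s / 8) * frobSq (P.w Sc r)
      + m3γ ^ 2 * (m3s - 1) * frobSq (P.g r) + 1 / m3α * frobSq (P.L Sc r)
      + frobSq (P.Mm Sc r * P.fn Sc.pis) / (4 * (1 - m3ε))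
    ≤ 98 / 100 * frobSq (P.G r) - 246 / 100 * (P.G r * P.g r).trace
      + 272 / 100 * frobSq (P.g r)
      + ∑ i, ∑ j, Sc.rw (P.a i) (P.a j) * P.inU (P.Z r) i j ^ 2 := by
  rw [m3x_pair_r_eq P Sc h hS r]
  set Gh := P.inU (P.G r) with hGh
  set gh := P.inU (P.g r) with hgh
  set Zh := P.inU (P.Z r) with hZh
  have hGs : ∀ i j, Gh i j = Gh j i := m3x_inU_symm P (G_transpose P h r)
  have hgs : ∀ i j, gh i j = gh j i := m3x_inU_symm P (h.hg r)
  have hZs : ∀ i j, Zh i j = Zh j i := m3x_inU_symm P (h.hZ r)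
  -- symmetrise
  have hsym : ∑ i, ∑ j, Sc.endpt (P.a i) (P.a j) (Gh i j) (gh i j) (Zh i j)
      = ∑ i, ∑ j, (Sc.endpt (P.a i) (P.a j) (Gh i j) (gh i j) (Zh i j)
          + Sc.endpt (P.a j) (P.a i) (Gh i j) (gh i j) (Zh i j)) / 2 := by
    have hswap : ∑ i, ∑ j, Sc.endpt (P.a j) (P.a i) (Gh i j) (gh i j) (Zh i j)
        = ∑ i, ∑ j, Sc.endpt (P.a i) (P.a j) (Gh i j) (gh i j) (Zh i j) := by
      rw [Finset.sum_comm]
      refine Finset.sum_congr rfl fun i _ => Finset.sum_congr rfl fun j _ => ?_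
      rw [hGs j i, hgs j i, hZs j i]
    simp only [add_div, Finset.sum_add_distrib, ← Finset.sum_div]
    rw [hswap]
    ring
  rw [hsym, m3x_frobSq P h (P.G r), m3x_frobSq P h (P.g r), m3x_trace_mul P h (h.hg r)]
  simp only [Finset.mul_sum, ← Finset.sum_add_distrib, ← Finset.sum_sub_distrib]
  refine Finset.sum_le_sum fun i _ => Finset.sum_le_sum fun j _ => ?_
  exact hpair (P.a i) (P.a j) (Gh i j) (gh i j) (Zh i j)

end M3Pt

/-- the pairing step: Prop 3.6 applied entrywise in the frame (= `m3_pair` of M3Point.lean). -/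
theorem m3x_pair (P : M3Pt m) (Sc : M3Sc) (hP : P.Ok) (hS : Sc.Alg) (hpair : Sc.Pair) :
    m3s * ∑ r, frobSq (P.v Sc r) + (1 + m3s / 8) * ∑ r, frobSq (P.w Sc r)
      + m3γ ^ 2 * (m3s - 1) * ∑ r, frobSq (P.g r) + 1 / m3α * ∑ r, frobSq (P.L Sc r)
      + (∑ r, frobSq (P.Mm Sc r * P.fn Sc.pis)) / (4 * (1 - m3ε))
    ≤ 98 / 100 * ∑ r, frobSq (P.G r) - 246 / 100 * ∑ r, (P.G r * P.g r).trace
      + 272 / 100 * ∑ r, frobSq (P.g r) + P.sep Sc := by
  have h := Finset.sum_le_sum (s := Finset.univ) fun r _ => M3Pt.m3x_pair_r P Sc hP hS hpair r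
  simp only [Finset.sum_add_distrib, Finset.sum_sub_distrib, ← Finset.mul_sum,
    ← Finset.sum_div] at h
  unfold M3Pt.sep
  exact h

end Claimed.Agent.R260
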