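/-
Row 260, package MX4: the block Cauchy-Schwarz bound (3.19) and the weighted completion of the
square (3.21).  POINTWISE: pure linear algebra.
Proofs: helper215.  No square roots: every step is an explicit completion of a square.
-/
import Claimed.Agent.R260.MxConst

set_option autoImplicit false

namespace Claimed.Agent.R260

open Matrix
open scoped BigOperators

variable {m : ℕ} (X : Fin m → Mx m)

/-- expansion of a Frobenius square -/
theorem mxc_sq_sub_smul (A P : Mx m) (c : ℝ) :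
    mxSq (A - c • P) = mxSq A - 2 * c * Matrix.trace (Aᵀ * P) + c ^ 2 * mxSq P := by
  unfold mxSq
  have h1 : Matrix.trace (Pᵀ * A) = Matrix.trace (Aᵀ * P) := by
    rw [← Matrix.trace_transpose, Matrix.transpose_mul, Matrix.transpose_transpose]
  simp only [Matrix.transpose_sub, Matrix.transpose_smul, Matrix.sub_mul, Matrix.mul_sub,
    Matrix.smul_mul, Matrix.mul_smul, Matrix.trace_sub, Matrix.trace_smul, smul_eq_mul, h1]
  ring

theorem mxc_sum_sq_mul (hX : ∀ r, (X r).IsSymm) (P : Mx m) :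
    ∑ r, mxSq (X r * P) = Matrix.trace (Pᵀ * mxB X * P) := by
  unfold mxSq mxB
  rw [Matrix.mul_sum, Matrix.sum_mul, Matrix.trace_sum]
  refine Finset.sum_congr rfl fun r _ => ?_
  rw [Matrix.transpose_mul, (hX r).eq]
  simp only [Matrix.mul_assoc]

theorem mxc_sum_ip_mul (hX : ∀ r, (X r).IsSymm) (L : Fin m → Mx m) (P : Mx m) :
    ∑ r, Matrix.trace ((L r)ᵀ * (X r * P)) = Matrix.trace ((∑ r, X r * L r)ᵀ * P) := by
  rw [Matrix.transpose_sum, Matrix.sum_mul, Matrix.trace_sum]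
  refine Finset.sum_congr rfl fun r _ => ?_
  rw [Matrix.transpose_mul, (hX r).eq]
  simp only [Matrix.mul_assoc]

/-- general block bound: if `S' ((1/s') I + α' ∑ X_r²) = I` then
`|a + ∑ X_r L_r|²_{S'} ≤ s' |a|² + |L|²/α'`. -/
theorem mx_block_gen (hX : ∀ r, (X r).IsSymm) {S' : Mx m} {s' al' : ℝ} (hs : 0 < s') (ha : 0 < al')
    (hS'symm : S'.IsSymm) (hS' : S' * ((1 / s') • (1 : Mx m) + al' • mxB X) = 1)
    (a : Mx m) (L : Fin m → Mx m) :
    mxSqS S' (a + ∑ r, X r * L r) ≤ s' * mxSq a + (1 / al') * ∑ r, mxSq (L r) := by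
  set F : Mx m := a + ∑ r, X r * L r with hF
  set P : Mx m := S' * F with hP
  have hS'' : ((1 / s') • (1 : Mx m) + al' • mxB X) * S' = 1 := mul_eq_one_comm.mp hS'
  have key : s' * mxSq a + (1 / al') * ∑ r, mxSq (L r) - mxSqS S' F
      = s' * mxSq (a - (1 / s') • P) + (1 / al') * ∑ r, mxSq (L r - al' • (X r * P)) := by
    simp only [mxc_sq_sub_smul, Finset.sum_add_distrib, Finset.sum_sub_distrib,
      ← Finset.mul_sum, mxc_sum_sq_mul X hX, mxc_sum_ip_mul X hX]
    have e1 : Matrix.trace (Pᵀ * F) = mxSqS S' F := by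
      rw [hP, Matrix.transpose_mul, hS'symm.eq]; rfl
    have e2 : Matrix.trace (Fᵀ * P) = mxSqS S' F := by
      rw [hP, ← Matrix.mul_assoc]; rfl
    have e3 : Matrix.trace (Fᵀ * P) = Matrix.trace (aᵀ * P)
        + Matrix.trace ((∑ r, X r * L r)ᵀ * P) := by
      rw [hF, Matrix.transpose_add, Matrix.add_mul, Matrix.trace_add]
    have e4 : (1 / s') * mxSq P + al' * Matrix.trace (Pᵀ * mxB X * P) = Matrix.trace (Pᵀ * F) := by
      have : F = ((1 / s') • (1 : Mx m) + al' • mxB X) * P := by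
        rw [hP, ← Matrix.mul_assoc, hS'', Matrix.one_mul]
      conv_rhs => rw [this]
      simp only [Matrix.add_mul, Matrix.mul_add, Matrix.smul_mul, Matrix.mul_smul, Matrix.one_mul,
        Matrix.trace_add, Matrix.trace_smul, smul_eq_mul, Matrix.mul_assoc]
      rfl
    field_simp
    field_simp at e4
    linear_combination (-2*al'*s') * e3 + (-al') * e4 + (2*al'*s') * e2 + (-al'*s') * e1
  have h1 : 0 ≤ s' * mxSq (a - (1 / s') • P) := mul_nonneg hs.le (mxSq_nonneg _)
  have h2 : 0 ≤ (1 / al') * ∑ r, mxSq (L r - al' • (X r * P)) :=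
    mul_nonneg (by positivity) (Finset.sum_nonneg fun r _ => mxSq_nonneg _)
  linarith

/-- **(3.19)** -/
theorem mx_block (hX : ∀ r, (X r).IsSymm) (a : Mx m) (L : Fin m → Mx m) :
    mxSqS (mxS X) (a + ∑ r, X r * L r) ≤ cS * mxSq a + (1 / cAl) * ∑ r, mxSq (L r) :=
  mx_block_gen X hX (by norm_num [cS]) (by norm_num [cAl]) (mxS_isSymm X hX) (mxS_mul_inv X hX) a L

theorem mxc_sqS_nonneg {S : Mx m} (hS : S.PosSemidef) (E : Mx m) : 0 ≤ mxSqS S E := by
  have h := (hS.conjTranspose_mul_mul_same E).trace_nonneg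
  rwa [Matrix.conjTranspose_eq_transpose_of_trivial] at h

/-- the scalar function `S(λ)` -/
noncomputable def mxcSig (lam : ℝ) : ℝ := (1 / cS + cAl * lam)⁻¹

/-- the scalar function of the modified dual matrix `S (1-ρ)⁻¹` -/
noncomputable def mxcSig2 (lam : ℝ) : ℝ :=
  ((1 - cEp - cKa) / cS + (1 - cEp) * cAl * lam)⁻¹

/-- the scalar function of `(B-1)(1-ρ)` -/
noncomputable def mxcW (lam : ℝ) : ℝ := (lam - 1) * (1 - (cEp + cKa / cS * mxcSig lam))

theorem mxc_scal1 {lam : ℝ} (h : 0 ≤ lam) :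
    cAl * (mxcW lam * mxcSig2 lam) = -(mxcSig lam - 1) := by
  unfold mxcW mxcSig2 mxcSig cAl cS cEp cKa
  have h1 : (1 / (40 / 37 : ℝ) + 3 / 40 * lam) ≠ 0 := by positivity
  have h2 : ((1 - 3 / 20 - 49 / 100 : ℝ) / (40 / 37) + (1 - 3 / 20) * (3 / 40) * lam) ≠ 0 := by
    positivity
  field_simp
  ring

theorem mxc_scal2 {lam : ℝ} (h : 0 ≤ lam) :
    cAl * (mxcW lam * mxcSig2 lam * mxcW lam)
      = cAl * mxcSig lam * (lam - 1) ^ 2 * (1 - (cEp + cKa / cS * mxcSig lam)) := by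
  have := mxc_scal1 h
  have h3 : -(mxcSig lam - 1) = cAl * mxcSig lam * (lam - 1) := by
    unfold mxcSig cAl cS
    have h1 : (1 / (40 / 37 : ℝ) + 3 / 40 * lam) ≠ 0 := by positivity
    field_simp
    ring
  calc cAl * (mxcW lam * mxcSig2 lam * mxcW lam)
      = (cAl * (mxcW lam * mxcSig2 lam)) * mxcW lam := by ring
    _ = (cAl * mxcSig lam * (lam - 1)) * mxcW lam := by rw [this, h3]
    _ = _ := by unfold mxcW; ring

theorem mxc_rel1 (hX : ∀ r, (X r).IsSymm) :
    cAl • (mxFun mxcW (mxB X) * mxFun mxcSig2 (mxB X)) = -mxT X := by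
  rw [mxT_eq_fun X hX, ← mxFun_mul, ← mxFun_smul, ← neg_one_smul ℝ (mxFun _ _), ← mxFun_smul]
  refine mxFun_congr fun i => ?_
  have := mxc_scal1 (mxB_eig_nonneg X hX i)
  unfold mxcSig at this
  rw [this]; ring

theorem mxc_rel2 (hX : ∀ r, (X r).IsSymm) :
    cAl • (mxFun mxcW (mxB X) * mxFun mxcSig2 (mxB X) * mxFun mxcW (mxB X))
      = mxH X * (1 - mxRho X) := by
  have h1 : (1 : Mx m) = mxFun (fun _ => (1:ℝ)) (mxB X) := by rw [mxFun_const, one_smul]
  rw [mxH_eq_fun X hX, mxRho_eq_fun X hX, h1, ← mxFun_sub, ← mxFun_mul, ← mxFun_mul,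
    ← mxFun_mul, ← mxFun_smul]
  refine mxFun_congr fun i => ?_
  have := mxc_scal2 (mxB_eig_nonneg X hX i)
  unfold mxcSig at this
  rw [this]

theorem mxc_rel3 (hX : ∀ r, (X r).IsSymm) :
    mxFun mxcSig2 (mxB X) * ((1 / (cS / (1 - cEp - cKa))) • (1 : Mx m)
      + ((1 - cEp) * cAl) • mxB X) = 1 := by
  have h1 : ((1 / (cS / (1 - cEp - cKa))) • (1 : Mx m) + ((1 - cEp) * cAl) • mxB X)
      = mxFun (fun lam => (1 - cEp - cKa) / cS + (1 - cEp) * cAl * lam) (mxB X) := by
    rw [mxFun_add, mxFun_const, mxFun_smul, mxFun_id (mxB_isSymm X hX)]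
    congr 2
    unfold cS cEp cKa; norm_num
  rw [h1, mxFun_commute]
  exact mxFun_mul_inv fun i => by
    have := mxB_eig_nonneg X hX i
    unfold cEp cKa cS cAl
    positivity

/-- **(3.21)** weighted completion of the square (pointwise).  `ph = p^{1/2}`, `pi = p^{-1/2}` are
symmetric matrices with `ph * pi = 1`; in the application `a = Y h₀`. -/
theorem mx_weighted_completion (hX : ∀ r, (X r).IsSymm) {ph pi : Mx m} (hph : ph.IsSymm)
    (hpi : pi.IsSymm) (hpp : ph * pi = 1) (a : Mx m) (M : Fin m → Mx m) :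
    Matrix.trace (mxT X * (a + ∑ r, X r * M r))
      ≤ Matrix.trace (mxH X * (1 - mxRho X) * (ph * ph))
        + (1 / (4 * (1 - cEp))) * ∑ r, mxSq (M r * pi)
        + (cAl * cS / (4 * (1 - cEp - cKa))) * mxSq (a * pi) := by
  have hev := mxB_eig_nonneg X hX
  have r1 := mxc_rel1 X hX
  have r2 := mxc_rel2 X hX
  have r3 := mxc_rel3 X hX
  have hS2s : (mxFun mxcSig2 (mxB X)).IsSymm := mxFun_isSymm _ _
  have hWs : (mxFun mxcW (mxB X)).IsSymm := mxFun_isSymm _ _
  have hcomm : mxFun mxcSig2 (mxB X) * mxFun mxcW (mxB X)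
      = mxFun mxcW (mxB X) * mxFun mxcSig2 (mxB X) := mxFun_commute _ _ _
  have hS2p : (mxFun mxcSig2 (mxB X)).PosSemidef := mxFun_posSemidef fun i => by
    have := hev i
    unfold mxcSig2 cEp cKa cS cAl
    positivity
  generalize mxFun mxcSig2 (mxB X) = S2 at *
  generalize mxFun mxcW (mxB X) = W at *
  have hpp' : pi * ph = 1 := mul_eq_one_comm.mp hpp
  have hblock := mx_block_gen X hX (S' := S2) (s' := cS / (1 - cEp - cKa)) (al' := (1 - cEp) * cAl)
    (by norm_num [cS, cEp, cKa]) (by norm_num [cEp, cAl]) hS2s r3 (a * pi) (fun r => M r * pi)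
  have hG' : (a + ∑ r, X r * M r) * pi = a * pi + ∑ r, X r * (M r * pi) := by
    rw [Matrix.add_mul, Matrix.sum_mul]
    simp only [Matrix.mul_assoc]
  rw [← hG'] at hblock
  generalize (a + ∑ r, X r * M r) = F at *
  have hTF : Matrix.trace (mxT X * F) = Matrix.trace (mxT X * (F * pi) * ph) := by
    rw [Matrix.mul_assoc, Matrix.mul_assoc, hpp', Matrix.mul_one]
  generalize F * pi = G at *
  -- completion of the square
  have hEpos := mxc_sqS_nonneg hS2p (W * ph + (1 / 2 : ℝ) • G)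
  have hexp : cAl * mxSqS S2 (W * ph + (1 / 2 : ℝ) • G)
      = Matrix.trace (mxH X * (1 - mxRho X) * (ph * ph))
      - Matrix.trace (mxT X * G * ph) + cAl / 4 * mxSqS S2 G := by
    rw [← r2]
    have e1 : Matrix.trace (mxT X * G * ph) = - (cAl * Matrix.trace (W * S2 * G * ph)) := by
      have : mxT X = -(cAl • (W * S2)) := by rw [r1, neg_neg]
      rw [this]
      simp only [Matrix.neg_mul, Matrix.smul_mul, Matrix.trace_neg, Matrix.trace_smul, smul_eq_mul]
    have e2 : Matrix.trace (ph * W * S2 * G) = Matrix.trace (W * S2 * G * ph) := by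
      rw [Matrix.trace_mul_comm (W * S2 * G) ph]
      simp only [Matrix.mul_assoc]
    have e3 : Matrix.trace (Gᵀ * S2 * W * ph) = Matrix.trace (W * S2 * G * ph) := by
      rw [← e2, ← Matrix.trace_transpose]
      simp only [Matrix.transpose_mul, Matrix.transpose_transpose, hph.eq, hWs.eq, hS2s.eq,
        Matrix.mul_assoc]
    have e4 : Matrix.trace (ph * W * S2 * W * ph) = Matrix.trace (W * S2 * W * (ph * ph)) := by
      rw [Matrix.trace_mul_comm _ ph, Matrix.trace_mul_comm (W * S2 * W) (ph * ph)]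
      simp only [Matrix.mul_assoc]
    rw [e1]
    unfold mxSqS
    simp only [Matrix.transpose_add, Matrix.transpose_mul, Matrix.transpose_smul, hph.eq, hWs.eq,
      Matrix.add_mul, Matrix.mul_add, Matrix.smul_mul, Matrix.mul_smul, Matrix.trace_add,
      Matrix.trace_smul, smul_eq_mul, ← Matrix.mul_assoc, e2, e3, e4]
    ring
  have hal : (0:ℝ) < cAl := by norm_num [cAl]
  have h5 : cAl / 4 * mxSqS S2 G ≤ (1 / (4 * (1 - cEp))) * ∑ r, mxSq (M r * pi)
        + (cAl * cS / (4 * (1 - cEp - cKa))) * mxSq (a * pi) := by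
    have := mul_le_mul_of_nonneg_left hblock (by positivity : (0:ℝ) ≤ cAl / 4)
    refine this.trans (le_of_eq ?_)
    unfold cAl cS cEp cKa
    ring
  have h6 : 0 ≤ cAl * mxSqS S2 (W * ph + (1 / 2 : ℝ) • G) := mul_nonneg hal.le hEpos
  rw [hTF]
  linarith

end Claimed.Agent.R260
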