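/-
Row 260, package MX3: Lemma 3.4 (commutator estimate).  POINTWISE: pure linear algebra.
Proof: helper215.  Complete the square in `w` with the weight `S + s/8`; what remains is
`tr(B K (S+s/8)⁻¹ Kᵀ) ≤ P_T`, `K = [T,b]`, checked entrywise in the eigenbasis of `B`.
-/
import Claimed.Agent.R260.MxBlock

set_option autoImplicit false

namespace Claimed.Agent.R260

open Matrix
open scoped BigOperators

variable {m : ℕ} (X : Fin m → Mx m)

/-- `P_T = tr(T b B b - T B b²)` -/
noncomputable def mxPT (b : Mx m) : ℝ :=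
  Matrix.trace (mxT X * b * mxB X * b - mxT X * mxB X * b * b)

/-- scalar inequality behind Lemma 3.4 (in the variables `u = S/s`) -/
theorem mxc_scal_uv {a c : ℝ} (ha : 0 < a) (hc : 0 < c) :
    0 ≤ 1 / 64 - 3 / 4 * (a * c) + a * c * (a + c) := by
  by_cases h : 3 / 4 ≤ a + c
  · have : 0 ≤ a * c * (a + c - 3 / 4) := by
      have := mul_pos ha hc
      have h' : 0 ≤ a + c - 3 / 4 := by linarith
      positivity
    nlinarith
  · rw [not_le] at h
    have h1 : 0 ≤ ((a + c) ^ 2 / 4 - a * c) * (3 / 4 - (a + c)) := by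
      apply mul_nonneg
      · nlinarith [sq_nonneg (a - c)]
      · linarith
    have h2 : 0 ≤ (a + c - 1 / 2) ^ 2 * (a + c + 1 / 4) := by positivity
    nlinarith

/-- trace of `diag f * P * diag g * Q` -/
theorem mxc_trace_diag (f g : Fin m → ℝ) (P Q : Mx m) :
    Matrix.trace (Matrix.diagonal f * P * Matrix.diagonal g * Q)
      = ∑ i, ∑ j, f i * P i j * g j * Q j i := by
  unfold Matrix.trace
  refine Finset.sum_congr rfl fun i _ => ?_
  rw [Matrix.diag_apply, Matrix.mul_apply]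
  refine Finset.sum_congr rfl fun j _ => ?_
  rw [Matrix.mul_diagonal, Matrix.diagonal_mul]

/-- the pair inequality in terms of `λ` -/
theorem mxc_scal_pair {l1 l2 : ℝ} (h1 : 0 ≤ l1) (h2 : 0 ≤ l2) :
    (l1 * (mxcSig l2 + cS / 8)⁻¹ + l2 * (mxcSig l1 + cS / 8)⁻¹) * (mxcSig l1 - mxcSig l2) ^ 2
      ≤ (mxcSig l1 - mxcSig l2) * (l2 - l1) := by
  have key : ∀ l : ℝ, 0 ≤ l → ∃ a : ℝ, 0 < a ∧ mxcSig l = cS * a ∧ l = (1 - a) / (cAl * cS * a) := by
    intro l hl
    refine ⟨mxcSig l / cS, ?_, ?_, ?_⟩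
    · unfold mxcSig cS cAl; positivity
    · unfold cS; field_simp
    · unfold mxcSig cS cAl
      have : (1 / (40 / 37 : ℝ) + 3 / 40 * l) ≠ 0 := by positivity
      field_simp
      ring
  obtain ⟨a, ha, e1, e1'⟩ := key l1 h1
  obtain ⟨c, hc, e2, e2'⟩ := key l2 h2
  rw [e1, e2]
  rw [e1', e2']
  have hq := mxc_scal_uv ha hc
  have hid : (cS * a - cS * c) * ((1 - c) / (cAl * cS * c) - (1 - a) / (cAl * cS * a))
      - ((1 - a) / (cAl * cS * a) * (cS * c + cS / 8)⁻¹
        + (1 - c) / (cAl * cS * c) * (cS * a + cS / 8)⁻¹) * (cS * a - cS * c) ^ 2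
      = (a - c) ^ 2 * (1 / 64 - 3 / 4 * (a * c) + a * c * (a + c))
        / (cAl * a * c * (a + 1 / 8) * (c + 1 / 8)) := by
    unfold cS cAl
    field_simp
    ring
  have hpos : 0 ≤ (a - c) ^ 2 * (1 / 64 - 3 / 4 * (a * c) + a * c * (a + c))
        / (cAl * a * c * (a + 1 / 8) * (c + 1 / 8)) := by
    unfold cAl
    positivity
  linarith

/-- the resolvent `(S + s/8)⁻¹` -/
noncomputable def mxcR : Mx m := mxFun (fun l => (mxcSig l + cS / 8)⁻¹) (mxB X)

theorem mxc_PT_ge (hX : ∀ r, (X r).IsSymm) {b : Mx m} (hb : b.IsSymm) :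
    Matrix.trace (mxB X * (mxT X * b - b * mxT X) * mxcR X * (mxT X * b - b * mxT X)ᵀ)
      ≤ mxPT X b := by
  have hBs := mxB_isSymm X hX
  have hev := mxB_eig_nonneg X hX
  set B := mxB X with hB
  set lam := mxEig B with hlam
  set b' := mxRot B b with hb'
  have hbs : ∀ i j, b' i j = b' j i := fun i j => mxRot_symm_apply B hb i j
  have rB : mxRot B B = Matrix.diagonal lam := by
    have := mxRot_mxFun (fun a => a) B
    rwa [mxFun_id hBs] at this
  have rT : mxRot B (mxT X) = Matrix.diagonal (fun i => mxcSig (lam i) - 1) := by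
    rw [mxT_eq_fun X hX, mxRot_mxFun]; rfl
  have rR : mxRot B (mxcR X) = Matrix.diagonal (fun i => (mxcSig (lam i) + cS / 8)⁻¹) := by
    unfold mxcR; rw [mxRot_mxFun]
  have rK : ∀ i j, mxRot B (mxT X * b - b * mxT X) i j
      = (mxcSig (lam i) - mxcSig (lam j)) * b' i j := by
    intro i j
    rw [mxRot_sub, mxRot_mul, mxRot_mul, rT, Matrix.sub_apply, Matrix.diagonal_mul,
      Matrix.mul_diagonal]
    ring
  have e1 : Matrix.trace (B * (mxT X * b - b * mxT X) * mxcR X * (mxT X * b - b * mxT X)ᵀ)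
      = ∑ i, ∑ j, lam i * (mxcSig (lam j) + cS / 8)⁻¹ * (mxcSig (lam i) - mxcSig (lam j)) ^ 2
          * b' i j ^ 2 := by
    rw [← mxRot_trace B, mxRot_mul, mxRot_mul, mxRot_mul, mxRot_transpose, rB, rR, mxc_trace_diag]
    refine Finset.sum_congr rfl fun i _ => Finset.sum_congr rfl fun j _ => ?_
    rw [Matrix.transpose_apply, rK]
    ring
  have e2 : mxPT X b = ∑ i, ∑ j, (mxcSig (lam i) - 1) * (lam j - lam i) * b' i j ^ 2 := by
    unfold mxPT
    rw [Matrix.trace_sub, ← mxRot_trace B, ← mxRot_trace B (mxT X * mxB X * b * b)]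
    have h1 : mxRot B (mxT X * b * mxB X * b)
        = Matrix.diagonal (fun i => mxcSig (lam i) - 1) * b' * Matrix.diagonal lam * b' := by
      rw [mxRot_mul, mxRot_mul, mxRot_mul, rT, ← hB, rB]
    have h2 : mxRot B (mxT X * mxB X * b * b)
        = Matrix.diagonal (fun i => (mxcSig (lam i) - 1) * lam i) * b'
          * Matrix.diagonal (fun _ => 1) * b' := by
      rw [mxRot_mul, mxRot_mul, mxRot_mul, rT, ← hB, rB, Matrix.diagonal_mul_diagonal,
        Matrix.diagonal_one, Matrix.mul_one]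
    rw [h1, h2, mxc_trace_diag, mxc_trace_diag, ← Finset.sum_sub_distrib]
    refine Finset.sum_congr rfl fun i _ => ?_
    rw [← Finset.sum_sub_distrib]
    refine Finset.sum_congr rfl fun j _ => ?_
    rw [hbs j i]
    ring
  rw [e1, e2]
  -- symmetrise
  have sym : ∀ c : Fin m → Fin m → ℝ, ∑ i, ∑ j, c i j * b' i j ^ 2
      = ∑ i, ∑ j, ((c i j + c j i) / 2) * b' i j ^ 2 := by
    intro c
    have h : ∑ i, ∑ j, c i j * b' i j ^ 2 = ∑ i, ∑ j, c j i * b' i j ^ 2 := by
      rw [Finset.sum_comm]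
      refine Finset.sum_congr rfl fun i _ => Finset.sum_congr rfl fun j _ => ?_
      rw [hbs i j]
    have h2 : ∑ i, ∑ j, ((c i j + c j i) / 2) * b' i j ^ 2
        = (∑ i, ∑ j, c i j * b' i j ^ 2 + ∑ i, ∑ j, c j i * b' i j ^ 2) / 2 := by
      rw [← Finset.sum_add_distrib, Finset.sum_div]
      refine Finset.sum_congr rfl fun i _ => ?_
      rw [← Finset.sum_add_distrib, Finset.sum_div]
      refine Finset.sum_congr rfl fun j _ => ?_
      ring
    rw [h2, ← h]; ring
  rw [sym (fun i j => lam i * (mxcSig (lam j) + cS / 8)⁻¹ * (mxcSig (lam i) - mxcSig (lam j)) ^ 2),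
    sym (fun i j => (mxcSig (lam i) - 1) * (lam j - lam i))]
  refine Finset.sum_le_sum fun i _ => Finset.sum_le_sum fun j _ => ?_
  refine mul_le_mul_of_nonneg_right ?_ (sq_nonneg _)
  have := mxc_scal_pair (hev i) (hev j)
  nlinarith [this]

/-- completion of the square in `w` (one index `r`) -/
theorem mxc_square_one {N R K T Xr : Mx m} {c : ℝ} (hN : N = c • (1 : Mx m) + T) (hRs : R.IsSymm)
    (hRN : R * N = 1) (hXr : Xr.IsSymm) (hK : Kᵀ = -K) (w : Mx m) :
    mxSqS N (w - Xr * K * R)ᵀ = c * mxSq w + Matrix.trace (T * (wᵀ * w))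
      + 2 * Matrix.trace (K * (Xr * w)) + Matrix.trace (Xr * Xr * K * R * Kᵀ) := by
  have hNR : N * R = 1 := mul_eq_one_comm.mp hRN
  unfold mxSqS
  rw [Matrix.transpose_transpose]
  have t1 : Matrix.trace (w * N * wᵀ) = c * mxSq w + Matrix.trace (T * (wᵀ * w)) := by
    rw [hN, Matrix.trace_mul_comm, ← Matrix.mul_assoc, Matrix.trace_mul_comm]
    simp only [Matrix.add_mul, Matrix.smul_mul, Matrix.one_mul, Matrix.trace_add,
      Matrix.trace_smul, smul_eq_mul]
    rfl
  have t2 : Matrix.trace (w * N * (Xr * K * R)ᵀ) = - Matrix.trace (K * (Xr * w)) := by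
    rw [Matrix.transpose_mul, Matrix.transpose_mul, hRs.eq, hXr.eq, hK]
    have : w * N * (R * (-K * Xr)) = -(w * (N * R) * (K * Xr)) := by
      simp only [Matrix.mul_assoc, Matrix.neg_mul, Matrix.mul_neg]
    rw [this, hNR, Matrix.mul_one, Matrix.trace_neg, Matrix.trace_mul_comm, Matrix.mul_assoc]
  have t3 : Matrix.trace (Xr * K * R * N * wᵀ) = - Matrix.trace (K * (Xr * w)) := by
    rw [Matrix.mul_assoc (Xr * K), hRN, Matrix.mul_one, ← Matrix.trace_transpose]
    simp only [Matrix.transpose_mul, Matrix.transpose_transpose, hXr.eq, hK]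
    rw [Matrix.neg_mul, Matrix.mul_neg, Matrix.trace_neg, Matrix.trace_mul_comm, Matrix.mul_assoc]
  have t4 : Matrix.trace (Xr * K * R * N * (Xr * K * R)ᵀ) = Matrix.trace (Xr * Xr * K * R * Kᵀ) := by
    rw [Matrix.mul_assoc (Xr * K), hRN, Matrix.mul_one, Matrix.transpose_mul, Matrix.transpose_mul,
      hRs.eq, hXr.eq]
    have : Xr * K * (R * (Kᵀ * Xr)) = (Xr * K * R * Kᵀ) * Xr := by simp only [Matrix.mul_assoc]
    rw [this, Matrix.trace_mul_comm]
    simp only [Matrix.mul_assoc]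
  simp only [Matrix.transpose_sub, Matrix.sub_mul, Matrix.mul_sub, Matrix.trace_sub, t1, t2, t3, t4]
  ring

/-- **Lemma 3.4** (pointwise). -/
theorem mx_commutator (hX : ∀ r, (X r).IsSymm) {b : Mx m} (hb : b.IsSymm) (w : Fin m → Mx m) :
    -mxPT X b - 2 * Matrix.trace ((mxT X * b - b * mxT X) * ∑ r, X r * w r)
        - Matrix.trace (mxT X * ∑ r, (w r)ᵀ * w r)
      ≤ (1 + cS / 8) * ∑ r, mxSq (w r) := by
  have hev := mxB_eig_nonneg X hX
  have hTs := mxT_isSymm X hX
  have hPT := mxc_PT_ge X hX hb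
  set K : Mx m := mxT X * b - b * mxT X with hKdef
  have hK : Kᵀ = -K := by
    rw [hKdef, Matrix.transpose_sub, Matrix.transpose_mul, Matrix.transpose_mul, hTs.eq, hb.eq]
    abel
  set N : Mx m := mxFun (fun l => mxcSig l + cS / 8) (mxB X) with hNdef
  have hN : N = (1 + cS / 8) • (1 : Mx m) + mxT X := by
    rw [mxT_eq_fun X hX, ← mxFun_const (1 + cS / 8) (mxB X), ← mxFun_add]
    refine mxFun_congr fun i => ?_
    unfold mxcSig; ring
  have hpos : ∀ i, 0 < mxcSig (mxEig (mxB X) i) + cS / 8 := fun i => by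
    have := hev i
    unfold mxcSig cS cAl
    positivity
  have hNp : N.PosSemidef := mxFun_posSemidef fun i => (hpos i).le
  have hRs : (mxcR X).IsSymm := mxFun_isSymm _ _
  have hRN : mxcR X * N = 1 := by
    unfold mxcR
    rw [hNdef, mxFun_commute]
    exact mxFun_mul_inv (f := fun l => mxcSig l + cS / 8) fun i => (hpos i).ne'
  have hsum : 0 ≤ ∑ r, mxSqS N (w r - X r * K * mxcR X)ᵀ :=
    Finset.sum_nonneg fun r _ => mxc_sqS_nonneg hNp _
  simp only [mxc_square_one hN hRs hRN (hX _) hK, Finset.sum_add_distrib, ← Finset.mul_sum,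
    ← Matrix.trace_sum, ← Matrix.sum_mul] at hsum
  have hB : ∑ r, X r * X r = mxB X := rfl
  rw [hB] at hsum
  linarith

end Claimed.Agent.R260
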