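/-
Row 260, package MX2: Lemma 3.3 (matrix expansion) as an EXACT POINTWISE IDENTITY between traces.
The two Gaussian integrations by parts of the paper appear as the two explicit "null" terms
`nullF`, `nullG` whose expectations vanish.  No functional calculus: `kM,bM,lM,fM,f1M,tM` are
arbitrary symmetric matrices with the single relation `hid`.
-/
import Claimed.Agent.R260.MxComm

set_option autoImplicit false

namespace Claimed.Agent.R260

open Matrix
open scoped BigOperators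

variable {m : ℕ}

/-- transposition + cyclicity for a word of four symmetric matrices -/
theorem mxe_tr4 {P Q R W : Mx m} (hP : P.IsSymm) (hQ : Q.IsSymm) (hR : R.IsSymm)
    (hW : W.IsSymm) :
    Matrix.trace (P * (Q * (R * W))) = Matrix.trace (P * (W * (R * Q))) := by
  rw [← Matrix.trace_transpose (P * (Q * (R * W)))]
  simp only [Matrix.transpose_mul, hP.eq, hQ.eq, hR.eq, hW.eq]
  rw [Matrix.trace_mul_comm, Matrix.mul_assoc]

theorem mxe_tr3 {P Q R : Mx m} (hP : P.IsSymm) (hQ : Q.IsSymm) (hR : R.IsSymm) :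
    Matrix.trace (P * (Q * R)) = Matrix.trace (P * (R * Q)) := by
  rw [← Matrix.trace_transpose (P * (Q * R))]
  simp only [Matrix.transpose_mul, hP.eq, hQ.eq, hR.eq]
  rw [Matrix.trace_mul_comm]

/-- the per-index identity behind Lemma 3.3 -/
theorem mxe_perr {T X K g b : Mx m} (hT : T.IsSymm) (hX : X.IsSymm) (hK : K.IsSymm)
    (hg : g.IsSymm) (hb : b.IsSymm) :
    -Matrix.trace (T * (K * K))
      = -Matrix.trace (T * (b * (X * (X * b))))
        - 2 * (Matrix.trace (T * (X * (K * b))) - Matrix.trace (T * (X * (X * (b * b)))))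
        + cC * Matrix.trace (T * (X * (g * b)))
        + cGa ^ 2 * Matrix.trace (T * (g * g))
        - 2 * Matrix.trace ((T * b - b * T) * (X * (K - X * b - cGa • g)))
        - Matrix.trace (T * ((K - X * b - cGa • g)ᵀ * (K - X * b - cGa • g)))
        - cC * Matrix.trace (T * (g * K)) := by
  have e1 : Matrix.trace (T * (K * (X * b))) = Matrix.trace (T * (b * (X * K))) :=
    mxe_tr4 hT hK hX hb
  have e2 : Matrix.trace (b * (T * (X * K))) = Matrix.trace (T * (X * (K * b))) := by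
    rw [Matrix.trace_mul_comm]; simp only [Matrix.mul_assoc]
  have e3 : Matrix.trace (b * (T * (X * (X * b)))) = Matrix.trace (T * (X * (X * (b * b)))) := by
    rw [Matrix.trace_mul_comm]; simp only [Matrix.mul_assoc]
  have e4 : Matrix.trace (T * (K * g)) = Matrix.trace (T * (g * K)) := mxe_tr3 hT hK hg
  have e5 : Matrix.trace (T * (g * (X * b))) = Matrix.trace (T * (b * (X * g))) :=
    mxe_tr4 hT hg hX hb
  have e6 : Matrix.trace (b * (T * (X * g))) = Matrix.trace (T * (X * (g * b))) := by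
    rw [Matrix.trace_mul_comm]; simp only [Matrix.mul_assoc]
  simp only [Matrix.transpose_sub, Matrix.transpose_mul, Matrix.transpose_smul, hX.eq, hK.eq,
    hg.eq, hb.eq, Matrix.mul_sub, Matrix.sub_mul, Matrix.mul_smul, Matrix.smul_mul,
    Matrix.trace_sub, Matrix.trace_smul, Matrix.mul_assoc, smul_eq_mul, e1, e2, e3, e4, e5, e6]
  unfold cC cGa
  ring

/-- expansion of the weighted square `‖F₀ + (B-I) l‖²_S` -/
theorem mxe_square (X : Fin m → Mx m) (hX : ∀ r, (X r).IsSymm) (F0 lM : Mx m)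
    (hl : lM.IsSymm) :
    mxSqS (mxS X) (F0 + (mxB X - 1) * lM)
      = mxSqS (mxS X) F0 + (1 / cAl) * Matrix.trace (mxH X * (lM * lM))
        - (2 / cAl) * Matrix.trace (mxT X * (F0 * lM)) := by
  have hT := mxT_isSymm X hX
  have hB := mxB_isSymm X hX
  have hal : cAl ≠ 0 := by unfold cAl; norm_num
  have h1 : mxS X * (mxB X - 1) = -((1 / cAl) • mxT X) := by
    rw [mxT_eq X hX, smul_neg, smul_smul, one_div, inv_mul_cancel₀ hal, one_smul, neg_neg]
  have h2 : (mxB X - 1) * mxS X = -((1 / cAl) • mxT X) := by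
    rw [← h1, Matrix.sub_mul, Matrix.mul_sub, mxS_comm_B X hX, Matrix.one_mul, Matrix.mul_one]
  have hBt : (mxB X - 1)ᵀ = mxB X - 1 := by
    rw [Matrix.transpose_sub, hB.eq, Matrix.transpose_one]
  have e1 : Matrix.trace (F0ᵀ * (mxT X * lM)) = Matrix.trace (mxT X * (F0 * lM)) := by
    rw [← Matrix.trace_transpose (F0ᵀ * (mxT X * lM))]
    simp only [Matrix.transpose_mul, Matrix.transpose_transpose, hT.eq, hl.eq]
    rw [Matrix.mul_assoc, Matrix.trace_mul_comm, Matrix.mul_assoc]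
  have e2 : Matrix.trace (lM * (mxT X * F0)) = Matrix.trace (mxT X * (F0 * lM)) := by
    rw [Matrix.trace_mul_comm, Matrix.mul_assoc]
  have e3 : Matrix.trace (lM * (mxT X * ((mxB X - 1) * lM)))
      = -Matrix.trace (mxH X * (lM * lM)) := by
    rw [Matrix.trace_mul_comm]
    unfold mxH
    rw [Matrix.neg_mul, Matrix.trace_neg, neg_neg]
    simp only [Matrix.mul_assoc]
  unfold mxSqS
  rw [Matrix.transpose_add, Matrix.transpose_mul, hBt, hl.eq]
  have expand : (F0ᵀ + lM * (mxB X - 1)) * mxS X * (F0 + (mxB X - 1) * lM)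
      = F0ᵀ * mxS X * F0 + F0ᵀ * ((mxS X * (mxB X - 1)) * lM)
        + lM * (((mxB X - 1) * mxS X) * F0)
        + lM * (((mxB X - 1) * mxS X) * ((mxB X - 1) * lM)) := by
    noncomm_ring
  rw [expand, h1, h2]
  simp only [Matrix.neg_mul, Matrix.mul_neg, Matrix.smul_mul, Matrix.mul_smul, Matrix.trace_add,
    Matrix.trace_neg, Matrix.trace_smul, smul_eq_mul, e1, e2, e3]
  ring

/-- **Lemma 3.3**, pointwise.  Notation of the paper: `K = K_r`, `Bd = ∂_r b(A)`, `Fd = ∂_r f(A)`,
`D_r = K_r - X_r b`, `L_r = Bd_r - X_r l`,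
`M_r = (Fd_r - X_r f') - 2 D_r b - (2/α) L_r l + c g_r b`, `w_r = D_r - γ g_r`,
`p = f' - b² - l²/α`, `h₀ = f - c k - (2/α)(b-β) l`, `F₀ = Y(b-β) + ∑ X_r L_r`. -/
theorem mx_expansion (X : Fin m → Mx m) (hX : ∀ r, (X r).IsSymm) (x : Fin m → ℝ)
    (Y : Mx m) (hY : Y.IsSymm) (g K Bd Fd : Fin m → Mx m)
    (hg : ∀ r, (g r).IsSymm) (hK : ∀ r, (K r).IsSymm)
    (kM bM lM fM f1M tM : Mx m) (hk : kM.IsSymm) (hb : bM.IsSymm) (hl : lM.IsSymm)
    (hid : (∑ r, x r • X r + Y) * fM - f1M = (2 : ℝ) • tM - kM * kM - bM * bM - 1)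
    (D L M w : Fin m → Mx m) (pM h0M F0 : Mx m)
    (hD : ∀ r, D r = K r - X r * bM) (hL : ∀ r, L r = Bd r - X r * lM)
    (hM : ∀ r, M r = (Fd r - X r * f1M) - (2 : ℝ) • (D r * bM) - (2 / cAl) • (L r * lM)
        + cC • (g r * bM))
    (hw : ∀ r, w r = D r - cGa • g r)
    (hp : pM = f1M - bM * bM - (1 / cAl) • (lM * lM))
    (hh0 : h0M = fM - cC • kM - (2 / cAl) • ((bM - cBe • (1 : Mx m)) * lM))
    (hF0 : F0 = Y * (bM - cBe • (1 : Mx m)) + ∑ r, X r * L r) :
    mxSqS (mxS X) (F0 + (mxB X - 1) * lM)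
        + Matrix.trace (mxT X * ((2 : ℝ) • tM - kM * kM - 1 - ∑ r, K r * K r))
      = -Matrix.trace (mxH X * pM) + Matrix.trace (mxT X * (Y * h0M + ∑ r, X r * M r))
        + mxSqS (mxS X) F0 + cGa ^ 2 * Matrix.trace (mxT X * ∑ r, g r * g r)
        - mxPT X bM - 2 * Matrix.trace ((mxT X * bM - bM * mxT X) * ∑ r, X r * w r)
        - Matrix.trace (mxT X * ∑ r, (w r)ᵀ * w r)
        + (∑ r, x r * Matrix.trace (mxT X * X r * fM) - ∑ r, Matrix.trace (mxT X * X r * Fd r))
        + cC * (Matrix.trace (mxT X * Y * kM) - ∑ r, Matrix.trace (mxT X * g r * K r)) := by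
  have hT := mxT_isSymm X hX
  have h2t : (2 : ℝ) • tM - kM * kM - 1 = (∑ r, x r • X r + Y) * fM - f1M + bM * bM := by
    rw [hid]; abel
  have key : ∑ r, -Matrix.trace (mxT X * (K r * K r)) = ∑ r, _ :=
    Finset.sum_congr rfl (fun r _ => mxe_perr hT (hX r) (hK r) (hg r) hb)
  have hw' : ∀ r, w r = K r - X r * bM - cGa • g r := fun r => by rw [hw, hD]
  rw [mxe_square X hX F0 lM hl, h2t]
  generalize mxSqS (mxS X) F0 = sq0
  unfold mxPT mxH mxB
  generalize mxT X = T at *
  simp only [← hw'] at key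
  clear hw hw'
  subst hp hh0 hF0
  simp only [hM, hL, hD, Matrix.mul_add, Matrix.add_mul, Matrix.mul_sub, Matrix.sub_mul,
    Matrix.mul_smul, Matrix.smul_mul, Matrix.neg_mul, Matrix.mul_one,
    Matrix.one_mul, Matrix.mul_sum, Matrix.sum_mul, Matrix.mul_assoc, Matrix.trace_add,
    Matrix.trace_sub, Matrix.trace_neg, Matrix.trace_smul, Matrix.trace_sum, smul_eq_mul,
    Finset.sum_add_distrib, Finset.sum_sub_distrib, Finset.sum_neg_distrib] at key ⊢
  simp only [← Finset.mul_sum] at key ⊢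
  simp only [Finset.sum_sub_distrib] at key ⊢
  linear_combination key

end Claimed.Agent.R260
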