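/-
Row 260, package SEC3.  OWNER: helper191.
The pointwise inequality of Section 3, assembled from the leaves:
Mx library (helper184 + 215, 170, 297): `mx_block`, `mxSqS_le`, `mxT_trace_le`, `mx_commutator`,
`mx_weighted_completion`, `mx_expansion`;  M3 leaves: `m3x_Icov_eq`, `m3x_pair` (helper220),
`m3x_Ysq`, `m3x_fn_facts` (helper162).
-/
import Claimed.Agent.R260.M3Const
import Claimed.Agent.R260.M3Spec
import Claimed.Agent.R260.M3Facts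
import Claimed.Agent.R260.M3Icov
import Claimed.Agent.R260.M3Pair
import Claimed.Agent.R260.MxComm
import Claimed.Agent.R260.MxBlock
import Claimed.Agent.R260.MxExpand

set_option autoImplicit false

namespace Claimed.Agent.R260

open Matrix

variable {m : ℕ}

/-! ### Leaves about the constant matrices (general `X`) -/

/-- (3.19)/(3.29) block Cauchy–Schwarz. -/
theorem m3_block (X : Fin m → Mat m) (hX : ∀ r, (X r)ᵀ = X r) (a : Mat m) (L : Fin m → Mat m) :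
    m3nS (m3S X) (a + ∑ r, X r * L r) ≤ m3s * frobSq a + 1 / m3α * ∑ r, frobSq (L r) := by
  rw [m3nS_eq_mx, m3S_eq_mx]
  simp only [frobSq_eq_mxSq]
  exact mx_block X hX a L

/-- `S ≤ s I`. -/
theorem m3_nS_le (X : Fin m → Mat m) (hX : ∀ r, (X r)ᵀ = X r) (F : Mat m) :
    m3nS (m3S X) F ≤ m3s * frobSq F := by
  rw [m3nS_eq_mx, m3S_eq_mx, frobSq_eq_mxSq]
  exact mxSqS_le X hX F

/-- `T ≤ (s-1) I`, tested on `Σ g_r²`. -/
theorem m3_T_le (X : Fin m → Mat m) (hX : ∀ r, (X r)ᵀ = X r) (g : Fin m → Mat m)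
    (hg : ∀ r, (g r)ᵀ = g r) :
    (m3T X * ∑ r, g r * g r).trace ≤ (m3s - 1) * ∑ r, frobSq (g r) := by
  rw [Finset.mul_sum, trace_sum, Finset.mul_sum]
  refine Finset.sum_le_sum fun r _ => ?_
  have h := mxT_trace_le X hX (g r)
  rw [hg r] at h
  rw [m3T_eq_mx, frobSq_eq_mxSq]
  exact h

/-- Lemma 3.4 (commutator estimate), pointwise. -/
theorem m3_lemma34 (X : Fin m → Mat m) (hX : ∀ r, (X r)ᵀ = X r) (b : Mat m) (hb : bᵀ = b)
    (w : Fin m → Mat m) :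
    -(m3T X * b * m3B X * b - m3T X * m3B X * b * b).trace
      - 2 * ((m3T X * b - b * m3T X) * ∑ r, X r * w r).trace
      - (m3T X * ∑ r, (w r)ᵀ * w r).trace
    ≤ (1 + m3s / 8) * ∑ r, frobSq (w r) := by
  simp only [frobSq_eq_mxSq, m3T_eq_mx, m3B_eq_mx]
  exact mx_commutator X hX hb w

/-- (3.21)/(3.31) weighted completion of the square, pointwise.
`p` symmetric, `π` symmetric with `π * π * p = 1` and `π * p = p * π` (`π = p^{-1/2}`). -/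
theorem m3_completion (X : Fin m → Mat m) (hX : ∀ r, (X r)ᵀ = X r) (p π : Mat m)
    (hp : pᵀ = p) (hπ : πᵀ = π) (hπp : π * π * p = 1) (hcomm : π * p = p * π)
    (a : Mat m) (M : Fin m → Mat m) :
    (m3T X * (a + ∑ r, X r * M r)).trace ≤
      (m3H X * (1 - m3ρ X) * p).trace
        + (∑ r, frobSq (M r * π)) / (4 * (1 - m3ε))
        + m3α * m3s * frobSq (a * π) / (4 * (1 - m3ε - m3κ)) := by
  have hph : (p * π).IsSymm := by
    show (p * π)ᵀ = p * π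
    rw [transpose_mul, hp, hπ, hcomm]
  have h1 : p * π * π = 1 := by
    rw [← hcomm, Matrix.mul_assoc, ← hcomm, ← Matrix.mul_assoc]; exact hπp
  have h2 : p * π * (p * π) = p := by
    calc p * π * (p * π) = p * (π * p) * π := by simp only [Matrix.mul_assoc]
      _ = p * (p * π * π) := by rw [hcomm]; simp only [Matrix.mul_assoc]
      _ = p := by rw [h1, Matrix.mul_one]
  have h := mx_weighted_completion X hX hph hπ h1 a M
  rw [h2] at h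
  simp only [frobSq_eq_mxSq, m3T_eq_mx, m3H_eq_mx, m3ρ_eq_mx]
  have e1 : (∑ r, mxSq (M r * π)) / (4 * (1 - m3ε)) = (1 / (4 * (1 - cEp))) * ∑ r, mxSq (M r * π) := by
    rw [m3ε_eq_mx]; ring
  have e2 : m3α * m3s * mxSq (a * π) / (4 * (1 - m3ε - m3κ))
      = (cAl * cS / (4 * (1 - cEp - cKa))) * mxSq (a * π) := by
    rw [m3ε_eq_mx, m3κ_eq_mx, m3α_eq_mx, m3s_eq_mx]; ring
  rw [e1, e2]
  exact h

/-! ### Leaves at a point -/

/-- the covariance integrand in the paper's form (completion, Lemma 3.1), pointwise identity. -/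
theorem m3_Icov_eq (P : M3Pt m) (Sc : M3Sc) (hP : P.Ok) (hS : Sc.Alg) :
    P.Icov Sc = m3nS (m3S P.X) (P.u Sc) + ∑ r, m3nS (m3S P.X) (P.v Sc r)
      + (m3S P.X * ((2 : ℝ) • P.fn Sc.t - P.fn Sc.k * P.fn Sc.k - ∑ r, P.K Sc r * P.K Sc r)).trace
      + 2 * P.d3 Sc + 2 * m3β * P.d4 Sc :=
  m3x_Icov_eq P Sc hP hS

/-- the scalar identity `a f - f' = 2 t - k² - b² - 1`. -/
theorem M3Sc.Alg.af {Sc : M3Sc} (hS : Sc.Alg) (a : ℝ) :
    a * Sc.f a - Sc.f1 a = 2 * Sc.t a - Sc.k a * Sc.k a - Sc.b a * Sc.b a - 1 := by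
  have h1 := hS.qk a
  have h2 := hS.ql a
  have h3 := hS.bk a
  have hl : Sc.l a = Sc.k a - Sc.q a + a * Sc.b a := by linarith
  have hak : a * Sc.k a = Sc.b a - 1 + Sc.t a := by rw [h3, ← h1]; ring
  unfold M3Sc.f M3Sc.f1
  rw [hl]
  have : a * (Sc.k a * (1 + Sc.b a)) = (a * Sc.k a) * (1 + Sc.b a) := by ring
  rw [this, hak, ← h1]
  have hb2 : Sc.k a * (a * Sc.b a) = (a * Sc.k a) * Sc.b a := by ring
  have : Sc.k a * (Sc.k a - Sc.q a + a * Sc.b a)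
      = Sc.k a * Sc.k a - Sc.q a * Sc.k a + (a * Sc.k a) * Sc.b a := by ring
  rw [this, hak, ← h1]
  ring

/-- Lemma 3.3 (matrix expansion) as an exact pointwise identity. -/
theorem m3_lemma33 (P : M3Pt m) (Sc : M3Sc) (hP : P.Ok) (hS : Sc.Alg) :
    m3nS (m3S P.X) (P.u Sc) + ∑ r, m3nS (m3S P.X) (P.v Sc r)
      + (m3T P.X * ((2 : ℝ) • P.fn Sc.t - P.fn Sc.k * P.fn Sc.k - 1
          - ∑ r, P.K Sc r * P.K Sc r)).trace
    = P.R33 Sc + P.d1 Sc + m3c * P.d2 Sc := by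
  have hid : (∑ r, P.ξ r • P.X r + P.Y) * P.fn Sc.f - P.fn Sc.f1
      = (2 : ℝ) • P.fn Sc.t - P.fn Sc.k * P.fn Sc.k - P.fn Sc.b * P.fn Sc.b - 1 := by
    have hA : ∑ r, P.ξ r • P.X r + P.Y = P.A := by rw [P.A_eq]; abel
    rw [hA, P.A_mul_fn hP, ← P.fn_sub, ← P.fn_smul, ← P.fn_mul hP, ← P.fn_mul hP, ← P.fn_one hP,
      ← P.fn_sub, ← P.fn_sub, ← P.fn_sub]
    exact P.fn_congr fun a => hS.af a
  have hp : P.fn Sc.p = P.fn Sc.f1 - P.fn Sc.b * P.fn Sc.b - (1 / cAl) • (P.fn Sc.l * P.fn Sc.l) := by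
    rw [← P.fn_mul hP, ← P.fn_mul hP, ← P.fn_smul, ← P.fn_sub, ← P.fn_sub]
    refine P.fn_congr fun a => ?_
    unfold M3Sc.p
    rw [m3α_eq_mx]; ring
  have hh0 : P.fn Sc.h0 = P.fn Sc.f - cC • P.fn Sc.k
      - (2 / cAl) • ((P.fn Sc.b - cBe • (1 : Mat m)) * P.fn Sc.l) := by
    rw [← P.fn_const hP, ← P.fn_sub, ← P.fn_mul hP, ← P.fn_smul, ← P.fn_smul, ← P.fn_sub,
      ← P.fn_sub]
    refine P.fn_congr fun a => ?_
    unfold M3Sc.h0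
    rw [m3α_eq_mx, m3c_eq_mx, m3β_eq_mx]; ring
  have h := mx_expansion P.X hP.hX P.ξ P.Y (P.Y_transpose hP) P.g (P.K Sc) (P.dB Sc) (P.dF Sc)
    hP.hg (fun r => P.dfn_transpose hP _ _ r) (P.fn Sc.k) (P.fn Sc.b) (P.fn Sc.l) (P.fn Sc.f)
    (P.fn Sc.f1) (P.fn Sc.t) (P.fn_transpose _) (P.fn_transpose _) (P.fn_transpose _) hid
    (P.D Sc) (P.L Sc) (P.Mm Sc) (P.w Sc) (P.fn Sc.p) (P.fn Sc.h0) (P.F0 Sc)
    (fun _ => rfl) (fun _ => rfl) (fun _ => rfl) (fun _ => rfl) hp hh0 rfl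
  simp only [M3Pt.R33, M3Pt.PT, M3Pt.d1, M3Pt.d2, M3Pt.u, m3nS_eq_mx, m3S_eq_mx, m3T_eq_mx,
    m3H_eq_mx, m3B_eq_mx, Finset.sum_sub_distrib]
  unfold mxPT at h
  rw [m3γ_eq_mx, m3c_eq_mx]
  linarith

/-- the pairing step: Prop 3.6 applied entrywise in the frame. -/
theorem m3_pair (P : M3Pt m) (Sc : M3Sc) (hP : P.Ok) (hS : Sc.Alg) (hpair : Sc.Pair) :
    m3s * ∑ r, frobSq (P.v Sc r) + (1 + m3s / 8) * ∑ r, frobSq (P.w Sc r)
      + m3γ ^ 2 * (m3s - 1) * ∑ r, frobSq (P.g r) + 1 / m3α * ∑ r, frobSq (P.L Sc r)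
      + (∑ r, frobSq (P.Mm Sc r * P.fn Sc.pis)) / (4 * (1 - m3ε))
    ≤ 98 / 100 * ∑ r, frobSq (P.G r) - 246 / 100 * ∑ r, (P.G r * P.g r).trace
      + 272 / 100 * ∑ r, frobSq (P.g r) + P.sep Sc :=
  m3x_pair P Sc hP hS hpair

/-- bookkeeping of the two `Y²` terms. -/
theorem m3_Ysq (P : M3Pt m) (Sc : M3Sc) (hP : P.Ok) (hS : Sc.Alg) :
    m3s * frobSq (P.Y * (P.fn Sc.b - m3β • (1 : Mat m)))
      + m3α * m3s * frobSq (P.Y * P.fn Sc.h0 * P.fn Sc.pis) / (4 * (1 - m3ε - m3κ))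
    = m3s * (P.Y * P.Y * P.fn Sc.cy).trace :=
  m3x_Ysq P Sc hP hS

/-- functional calculus facts used by the assembly. -/
theorem m3_fn_facts (P : M3Pt m) (Sc : M3Sc) (hP : P.Ok) (hS : Sc.Alg) :
    (P.fn Sc.p)ᵀ = P.fn Sc.p ∧ (P.fn Sc.pis)ᵀ = P.fn Sc.pis ∧ (P.fn Sc.b)ᵀ = P.fn Sc.b ∧
      P.fn Sc.pis * P.fn Sc.pis * P.fn Sc.p = 1 ∧
      P.fn Sc.pis * P.fn Sc.p = P.fn Sc.p * P.fn Sc.pis ∧
      (∀ r, (P.K Sc r * P.K Sc r).trace = frobSq (P.K Sc r)) :=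
  m3x_fn_facts P Sc hP hS

/-- **The pointwise inequality of Section 3.** -/
theorem m3_pointwise (P : M3Pt m) (Sc : M3Sc) (hP : P.Ok) (hS : Sc.Alg) (hpair : Sc.Pair) :
    P.start Sc - P.sur Sc ≤
      P.Iend Sc + P.d1 Sc + m3c * P.d2 Sc + 2 * P.d3 Sc + 2 * m3β * P.d4 Sc := by
  obtain ⟨hpT, hπT, hbT, hππp, hπp, hKK⟩ := m3_fn_facts P Sc hP hS
  have h1 := m3_Icov_eq P Sc hP hS
  have h2 := m3_lemma33 P Sc hP hS
  have h3 := m3_pair P Sc hP hS hpair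
  have h4 := m3_Ysq P Sc hP hS
  have h5 := m3_lemma34 P.X hP.hX (P.fn Sc.b) hbT (P.w Sc)
  have h6 := m3_completion P.X hP.hX (P.fn Sc.p) (P.fn Sc.pis) hpT hπT hππp hπp
    (P.Y * P.fn Sc.h0) (P.Mm Sc)
  have h7 := m3_block P.X hP.hX (P.Y * (P.fn Sc.b - m3β • (1 : Mat m))) (P.L Sc)
  have h8 : ∑ r, m3nS (m3S P.X) (P.v Sc r) ≤ m3s * ∑ r, frobSq (P.v Sc r) := by
    rw [Finset.mul_sum]
    exact Finset.sum_le_sum fun r _ => m3_nS_le P.X hP.hX _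
  have h9 := m3_T_le P.X hP.hX P.g hP.hg
  have hγ : (0 : ℝ) ≤ m3γ ^ 2 := sq_nonneg _
  have h9' := mul_le_mul_of_nonneg_left h9 hγ
  -- trace bookkeeping
  have hSWgen : ∀ W : Mat m,
      (m3S P.X * W).trace = W.trace + (m3T P.X * (W - 1)).trace + (m3T P.X).trace := by
    intro W
    have : m3S P.X = 1 + m3T P.X := by simp [m3T]
    rw [this, add_mul, one_mul, trace_add, mul_sub (m3T P.X) W 1, mul_one, trace_sub]
    ring
  have hSW := hSWgen ((2 : ℝ) • P.fn Sc.t - P.fn Sc.k * P.fn Sc.k - ∑ r, P.K Sc r * P.K Sc r)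
  have hWtr : ((2 : ℝ) • P.fn Sc.t - P.fn Sc.k * P.fn Sc.k - ∑ r, P.K Sc r * P.K Sc r).trace
      = 2 * (P.fn Sc.t).trace - (P.fn Sc.k * P.fn Sc.k).trace - ∑ r, frobSq (P.K Sc r) := by
    rw [trace_sub, trace_sub, trace_smul, trace_sum]
    simp [hKK]
  have hW1 : (2 : ℝ) • P.fn Sc.t - P.fn Sc.k * P.fn Sc.k - ∑ r, P.K Sc r * P.K Sc r - 1
      = (2 : ℝ) • P.fn Sc.t - P.fn Sc.k * P.fn Sc.k - 1 - ∑ r, P.K Sc r * P.K Sc r := by
    abel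
  have hH : (m3H P.X * (1 - m3ρ P.X) * P.fn Sc.p).trace
      = (m3H P.X * P.fn Sc.p).trace - (m3H P.X * m3ρ P.X * P.fn Sc.p).trace := by
    rw [mul_sub, mul_one, sub_mul, trace_sub]
  have hAt : (P.A * P.A - (2 : ℝ) • P.fn Sc.t).trace
      = (P.A * P.A).trace - 2 * (P.fn Sc.t).trace := by
    rw [trace_sub, trace_smul]; simp
  have hF0 : P.F0 Sc = P.Y * (P.fn Sc.b - m3β • (1 : Mat m)) + ∑ r, P.X r * P.L Sc r := rfl
  rw [hW1] at hSW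
  rw [← hF0] at h7
  simp only [M3Pt.start, M3Pt.sur, M3Pt.Iend]
  simp only [M3Pt.R33, M3Pt.PT] at h2
  rw [mul_assoc (P.Y) (P.fn Sc.h0) (P.fn Sc.pis)] at h4
  rw [mul_assoc (P.Y) (P.fn Sc.h0) (P.fn Sc.pis)] at h6
  linarith
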