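/-
Row 260, package SEC3.  OWNER: helper191.
Definitions of the integral layer (field data, integrability side conditions, rigidity weight).
The leaves M3-LAM (`M3Lam.lean`) and M3-P35 (`M3P35.lean`) import THIS file, not `M3Int.lean`.
-/
import Claimed.Agent.R260.M3Point

set_option autoImplicit false

namespace Claimed.Agent.R260

open Matrix MeasureTheory

variable {m : ℕ}

/-- `u(λ) = min(.13, 1.28/√λ)` written without division by zero. -/
noncomputable def m3u (lam : ℝ) : ℝ := (32 / 25) / max (Real.sqrt lam) (128 / 13)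

/-- the rigidity weight `ω(λ)` of (3.1). -/
noncomputable def m3ω (lam : ℝ) : ℝ :=
  3 * (lam - 1) ^ 2 / (37 + 3 * lam) * (3 / 20 + 49 / 100 * (37 / (37 + 3 * lam))) * m3u lam

/-- scalar inputs of Prop 3.5 that involve the functions `b, h₀, p`. -/
structure M3Sc.Abs (Sc : M3Sc) : Prop where
  ycost : ∀ a, m3s * Sc.cy a ≤ 111 / 1000
  minorant : ∀ u : ℝ, 0 < u → u ≤ 13 / 100 → ∀ a : ℝ,
    u + u * Real.sqrt u / 2 * a - u ^ 3 / (16 * (46 / 100 - u)) * a ^ 2 ≤ Sc.p a

/-- Field data of Section 3. -/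
structure M3Fld (m : ℕ) where
  U : EE m → Mat m
  a : EE m → Fin m → ℝ
  X : Fin m → Mat m
  Z : Fin m → EE m → Mat m
  g : Fin m → EE m → Mat m

/-- the point data at `x`. -/
def M3Fld.pt (F : M3Fld m) (x : EE m) : M3Pt m :=
  ⟨F.U x, F.a x, F.X, fun r => x r, fun r => F.Z r x, fun r => F.g r x⟩

/-- integrability side conditions. -/
structure M3Fld.Int (F : M3Fld m) (Sc : M3Sc) : Prop where
  i_A : ∀ i j, Integrable (fun x => (F.pt x).A i j) (gam m)
  i_AA : ∀ i j, Integrable (fun x => ((F.pt x).A * (F.pt x).A) i j) (gam m)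
  i_YY : ∀ i j, Integrable (fun x => ((F.pt x).Y * (F.pt x).Y) i j) (gam m)
  i_p : ∀ i j, Integrable (fun x => (F.pt x).fn Sc.p i j) (gam m)
  i_t : Integrable (fun x => ((F.pt x).fn Sc.t).trace) (gam m)
  i_kk : Integrable (fun x => ((F.pt x).fn Sc.k * (F.pt x).fn Sc.k).trace) (gam m)
  i_cov : Integrable (fun x => (F.pt x).Icov Sc) (gam m)
  i_Z : ∀ r, Integrable (fun x => frobSq (F.Z r x)) (gam m)
  i_G : ∀ r, Integrable (fun x => frobSq ((F.pt x).G r)) (gam m)
  i_g : ∀ r, Integrable (fun x => frobSq (F.g r x)) (gam m)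
  i_Gg : ∀ r, Integrable (fun x => ((F.pt x).G r * F.g r x).trace) (gam m)
  i_YYc : Integrable (fun x => ((F.pt x).Y * (F.pt x).Y * (F.pt x).fn Sc.cy).trace) (gam m)
  i_d1 : Integrable (fun x => (F.pt x).d1 Sc) (gam m)
  i_d2 : Integrable (fun x => (F.pt x).d2 Sc) (gam m)
  i_d3 : Integrable (fun x => (F.pt x).d3 Sc) (gam m)
  i_d4 : Integrable (fun x => (F.pt x).d4 Sc) (gam m)

end Claimed.Agent.R260
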