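/-
Row 260, package SEC3, glue layer.  OWNER: helper191.
Definitions and rfl-bridges between the point data `M3Pt` / field data `M3Fld` of the assembly and the
Mx / GK / Core vocabulary.  The leaves M3G-* import this file.
-/
import Claimed.Agent.R260.M3IntDefs
import Claimed.Agent.R260.CoreDefs
import Claimed.Agent.R260.MxChain

set_option autoImplicit false

namespace Claimed.Agent.R260

open Matrix MeasureTheory

variable {m : ℕ}

/-- regularity of the scalar functions used by the integral layer. -/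
structure M3Sc.Reg (Sc : M3Sc) : Prop where
  dk : ∀ a, HasDerivAt Sc.k (Sc.b a) a
  db : ∀ a, HasDerivAt Sc.b (Sc.l a) a
  cl : Continuous Sc.l
  cq : Continuous Sc.q
  ct : Continuous Sc.t

/-- The analytic input of Section 3 ("everywhere" version of `CorePre` + normalisation `E A = 0`). -/
structure M3Set (A : EE m → Mat m) (Z : Fin m → EE m → Mat m) : Prop where
  sb : MxSymBd A
  Zs : ∀ r x, (Z r x)ᵀ = Z r x
  gh : MxGH1 A Z
  mean : ∀ i j, ∫ x, A x i j ∂gam m = 0

/-- The auxiliary field `g` (paper: `g_r = ∂_r N⁻¹ Y`): symmetric, `L²`, `‖g‖² ≤ ‖Y‖²/2`,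
`E[Y ζ] = Σ_r E[g_r ∂_r ζ]`. -/
structure M3G (A : EE m → Mat m) (g : Fin m → EE m → Mat m) : Prop where
  gs : ∀ r x, (g r x)ᵀ = g r x
  l2 : ∀ r, MxL2 (gam m) (g r)
  le : ∑ r, ∫ x, frobSq (g r x) ∂gam m ≤ 1 / 2 * ∫ x, frobSq (coreY A x) ∂gam m
  pair : ∀ (i j : Fin m) (ζ : EE m → ℝ) (dζ : Fin m → EE m → ℝ), GH1 ζ dζ →
    ∫ x, coreY A x i j * ζ x ∂gam m = ∑ r, ∫ x, g r x i j * dζ r x ∂gam m

/-- the field data of the assembly attached to `(A, Z, g)`: frame `mxU (A x)`, eigenvalues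
`mxEig (A x)`, first chaos `coreX A`. -/
noncomputable def m3F (A : EE m → Mat m) (Z g : Fin m → EE m → Mat m) : M3Fld m :=
  ⟨fun x => mxU (A x), fun x => mxEig (A x), coreX A, Z, g⟩

theorem m3g_defs_eqns_cite : True := by
  have := @m3F.eq_1
  trivial

section bridges

variable (A : EE m → Mat m) (Z g : Fin m → EE m → Mat m) (x : EE m)

theorem m3F_X : ((m3F A Z g).pt x).X = coreX A := rfl
theorem m3F_fldX : (m3F A Z g).X = coreX A := rfl
theorem m3F_fldZ (r : Fin m) : (m3F A Z g).Z r x = Z r x := rfl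
theorem m3F_fldg (r : Fin m) : (m3F A Z g).g r x = g r x := rfl
theorem m3F_Z (r : Fin m) : ((m3F A Z g).pt x).Z r = Z r x := rfl
theorem m3F_g (r : Fin m) : ((m3F A Z g).pt x).g r = g r x := rfl
theorem m3F_ξ (r : Fin m) : ((m3F A Z g).pt x).ξ r = x r := rfl

theorem m3F_fn (v : ℝ → ℝ) : ((m3F A Z g).pt x).fn v = mxFun v (A x) := rfl

theorem m3F_inU (M : Mat m) : ((m3F A Z g).pt x).inU M = mxRot (A x) M := rfl

theorem m3F_dfn (v v' : ℝ → ℝ) (r : Fin m) :
    ((m3F A Z g).pt x).dfn v v' r = mxDK v v' (A x) (Z r x) := rfl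

theorem m3F_K (Sc : M3Sc) (r : Fin m) :
    ((m3F A Z g).pt x).K Sc r = mxDK Sc.k Sc.b (A x) (Z r x) := rfl

theorem m3F_dB (Sc : M3Sc) (r : Fin m) :
    ((m3F A Z g).pt x).dB Sc r = mxDK Sc.b Sc.l (A x) (Z r x) := rfl

theorem m3F_dF (Sc : M3Sc) (r : Fin m) :
    ((m3F A Z g).pt x).dF Sc r = mxDK Sc.f Sc.f1 (A x) (Z r x) := rfl

theorem m3F_G (r : Fin m) : ((m3F A Z g).pt x).G r = Z r x - coreX A r := rfl

variable {A x}

theorem m3F_A (hA : (A x).IsSymm) : ((m3F A Z g).pt x).A = A x :=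
  (mx_spectral hA).symm

theorem m3F_Y (hA : (A x).IsSymm) : ((m3F A Z g).pt x).Y = coreY A x := by
  unfold M3Pt.Y coreY
  rw [m3F_A Z g hA]
  rfl

end bridges

/-- `X_r = E[x_r A]` is symmetric. -/
theorem coreX_transpose {A : EE m → Mat m} (hA : ∀ x, (A x).IsSymm) (r : Fin m) :
    (coreX A r)ᵀ = coreX A r := by
  ext i j
  simp only [transpose_apply, coreX]
  refine integral_congr_ae (Filter.Eventually.of_forall fun x => ?_)
  have := congrFun (congrFun (hA x) i) j
  simp only [transpose_apply] at this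
  simp only [this]

theorem m3F_ok {A : EE m → Mat m} {Z g : Fin m → EE m → Mat m} (hS : M3Set A Z) (hg : M3G A g)
    (x : EE m) : ((m3F A Z g).pt x).Ok :=
  ⟨mxU_transpose_mul (A x), coreX_transpose hS.sb.symm, fun r => hS.Zs r x, fun r => hg.gs r x⟩

end Claimed.Agent.R260
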