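/-
Row 260, package SEC3, glue layer, leaf M3G-COV: the matrix form of the dual variance bound
`gk_cov_dual` (GKCovDual.lean):  if `DT = a + Σ_r ∂_r^* c_r` weakly, then for every `S ≥ 0`
`tr(S Cov T) ≤ E|a|_S² + Σ_r E|c_r|_S²`,  `|F|_S² = tr(Fᵀ S F)`.
OWNER: helper191.
Maths: `S = Rᵀ R`; for each row `i` apply `gk_cov_dual` to `t_i = Σ_l R_il T_l` (Lipschitz), whose
gradient is `∂_j t_i = (R DT)_ij` a.e. (`gk_gh1_of_lipschitz` + `GH1.sum/const_mul` + `GH1.unique`: no
Rademacher needed), with `a_j = (R a)_ij`, `c_rj = (R c_r)_ij`.  Sum over `i`: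
`Σ_i Var t_i = tr(R C Rᵀ) = tr(S C)`, `Σ_ij (R F)_ij² = tr(Fᵀ Rᵀ R F)`.
-/
import Claimed.Agent.R260.M3GDefs

set_option autoImplicit false

namespace Claimed.Agent.R260

open Matrix MeasureTheory

variable {m : ℕ}

/-- product of two `L²` functions. -/
theorem m3g_int_mul {f g : EE m → ℝ} (hf : MemLp f 2 (gam m)) (hg : MemLp g 2 (gam m)) :
    Integrable (fun x => f x * g x) (gam m) :=
  hf.integrable_mul hg

/-- a linear combination of the components of a Lipschitz map. -/
theorem m3g_lin_lip {T : EE m → EE m} (hT : ∃ K : NNReal, LipschitzWith K T) (w : Fin m → ℝ) :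
    ∃ K : NNReal, LipschitzWith K (fun x => ∑ l, w l * T x l) := by
  obtain ⟨K, hK⟩ := hT
  let L : EE m →L[ℝ] ℝ := ∑ l, w l • (EuclideanSpace.proj l : EE m →L[ℝ] ℝ)
  have hL : ∀ y : EE m, L y = ∑ l, w l * y l := fun y => by
    simp [L]
  refine ⟨‖L‖₊ * K, ?_⟩
  have h := L.lipschitz.comp hK
  have e : (fun x => ∑ l, w l * T x l) = L ∘ T := by
    funext x; exact (hL (T x)).symm
  rw [e]; exact h

/-- a component of a Lipschitz map. -/
theorem m3g_comp_lip {T : EE m → EE m} (hT : ∃ K : NNReal, LipschitzWith K T) (l : Fin m) :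
    ∃ K : NNReal, LipschitzWith K (fun x => T x l) := by
  obtain ⟨K, hK⟩ := m3g_lin_lip hT (Pi.single l 1)
  refine ⟨K, ?_⟩
  have e : (fun x => T x l) = fun x => ∑ k, (Pi.single l 1 : Fin m → ℝ) k * T x k := by
    funext x
    simp [Pi.single_apply]
  rw [e]; exact hK

theorem m3g_comp_gh1 {T : EE m → EE m} (hT : ∃ K : NNReal, LipschitzWith K T) (l : Fin m) :
    GH1 (fun x => T x l) (fun r x => coreJ T x l r) := by
  obtain ⟨K, hK⟩ := m3g_comp_lip hT l
  exact gk_gh1_of_lipschitz hK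

/-- its partial derivatives. -/
theorem m3g_lin_pd {T : EE m → EE m} (hT : ∃ K : NNReal, LipschitzWith K T) (w : Fin m → ℝ)
    (j : Fin m) :
    pd j (fun x => ∑ l, w l * T x l) =ᵐ[gam m] fun x => ∑ l, w l * coreJ T x l j := by
  obtain ⟨K, hK⟩ := m3g_lin_lip hT w
  have h1 := gk_gh1_of_lipschitz hK
  have h3 := GH1.sum Finset.univ (fun l _ => (m3g_comp_gh1 hT l).const_mul (w l))
  exact GH1.unique h1 h3 (Filter.EventuallyEq.refl _ _) j

theorem m3g_coreCov_eq {T : EE m → EE m} (hT : ∃ K : NNReal, LipschitzWith K T) (l l' : Fin m) :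
    coreCov T l l' = ∫ x, T x l * T x l' ∂gam m - (∫ x, T x l ∂gam m) * ∫ x, T x l' ∂gam m := by
  have h2 : ∀ l, MemLp (fun x => T x l) 2 (gam m) := fun l => (m3g_comp_gh1 hT l).1
  have h1 : ∀ l, Integrable (fun x => T x l) (gam m) := fun l =>
    (h2 l).integrable (by norm_num)
  unfold coreCov
  set a := ∫ y, T y l ∂gam m
  set b := ∫ y, T y l' ∂gam m
  have e : ∀ x, (T x l - a) * (T x l' - b) = T x l * T x l' - b * T x l - a * T x l' + a * b :=
    fun x => by ring
  simp only [e]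
  have i1 := m3g_int_mul (h2 l) (h2 l')
  have i2 : Integrable (fun x => T x l * T x l' - b * T x l) (gam m) := i1.sub ((h1 l).const_mul b)
  have i3 : Integrable (fun x => T x l * T x l' - b * T x l - a * T x l') (gam m) :=
    i2.sub ((h1 l').const_mul a)
  rw [integral_add i3 (integrable_const _), integral_sub i2 ((h1 l').const_mul a),
    integral_sub i1 ((h1 l).const_mul b), integral_const_mul, integral_const_mul, integral_const]
  simp
  ring

/-- its variance. -/
theorem m3g_lin_var {T : EE m → EE m} (hT : ∃ K : NNReal, LipschitzWith K T) (w : Fin m → ℝ) :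
    ∫ x, (∑ l, w l * T x l) ^ 2 ∂gam m - (∫ x, ∑ l, w l * T x l ∂gam m) ^ 2
      = ∑ l, ∑ l', w l * w l' * coreCov T l l' := by
  have h2 : ∀ l, MemLp (fun x => T x l) 2 (gam m) := fun l => (m3g_comp_gh1 hT l).1
  have h1 : ∀ l, Integrable (fun x => T x l) (gam m) := fun l =>
    (h2 l).integrable (by norm_num)
  have e1 : ∀ x, (∑ l, w l * T x l) ^ 2 = ∑ l, ∑ l', w l * w l' * (T x l * T x l') := fun x => by
    rw [sq, Finset.sum_mul_sum]
    refine Finset.sum_congr rfl fun l _ => Finset.sum_congr rfl fun l' _ => ?_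
    ring
  simp only [e1]
  rw [integral_finsetSum _ (fun l _ => integrable_finsetSum _ fun l' _ =>
    (m3g_int_mul (h2 l) (h2 l')).const_mul _)]
  rw [integral_finsetSum _ (fun l _ => (h1 l).const_mul _)]
  simp only [integral_const_mul]
  rw [sq, Finset.sum_mul_sum, ← Finset.sum_sub_distrib]
  refine Finset.sum_congr rfl fun l _ => ?_
  rw [integral_finsetSum _ (fun l' _ => (m3g_int_mul (h2 l) (h2 l')).const_mul _),
    ← Finset.sum_sub_distrib]
  refine Finset.sum_congr rfl fun l' _ => ?_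
  rw [integral_const_mul, m3g_coreCov_eq hT]
  ring


open scoped MatrixOrder in
theorem m3g_exists_factor {S : Mat m} (hS : S.PosSemidef) : ∃ R : Mat m, S = Rᵀ * R := by
  obtain ⟨B, hB⟩ := CStarAlgebra.nonneg_iff_eq_star_mul_self.mp hS.nonneg
  exact ⟨B, by rw [hB, Matrix.star_eq_conjTranspose, conjTranspose_eq_transpose_of_trivial]⟩

theorem m3g_nS_factor (R F : Mat m) : m3nS (Rᵀ * R) F = ∑ i, ∑ l, ((R * F) i l) ^ 2 := by
  have : m3nS (Rᵀ * R) F = frobSq (R * F) := by
    rw [frobSq_eq_trace, transpose_mul]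
    unfold m3nS
    simp only [Matrix.mul_assoc]
  rw [this]; rfl

/-- `E[(R F)_il ζ] = Σ_k R_ik E[F_kl ζ]`. -/
theorem m3g_integral_constMul {F : EE m → Mat m} (hF : MxL2 (gam m) F) {ζ : EE m → ℝ}
    (hζ : MemLp ζ 2 (gam m)) (R : Mat m) (i l : Fin m) :
    ∫ x, (R * F x) i l * ζ x ∂gam m = ∑ k, R i k * ∫ x, F x k l * ζ x ∂gam m := by
  simp only [Matrix.mul_apply, Finset.sum_mul, mul_assoc]
  rw [integral_finsetSum _ (fun k _ => (m3g_int_mul (hF k l) hζ).const_mul _)]
  simp only [integral_const_mul]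

/-- **matrix form of COV.** -/
theorem m3g_cov_abs {T : EE m → EE m} (hT : ∃ K : NNReal, LipschitzWith K T)
    {a : EE m → Mat m} {c : Fin m → EE m → Mat m}
    (ha : MxL2 (gam m) a) (hc : ∀ r, MxL2 (gam m) (c r))
    (hweak : ∀ (i j : Fin m) (η : EE m → ℝ), NiceB η →
      ∫ x, coreJ T x i j * η x ∂gam m
        = ∫ x, a x i j * η x ∂gam m + ∑ r, ∫ x, c r x i j * pd r η x ∂gam m)
    {S : Mat m} (hS : S.PosSemidef) :
    (S * coreCov T).trace
      ≤ ∫ x, m3nS S (a x) ∂gam m + ∑ r, ∫ x, m3nS S (c r x) ∂gam m := by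
  obtain ⟨R, rfl⟩ := m3g_exists_factor hS
  have hRa : MxL2 (gam m) (fun x => R * a x) := (MxBd.const R).mul_L2 ha
  have hRc : ∀ r, MxL2 (gam m) (fun x => R * c r x) := fun r => (MxBd.const R).mul_L2 (hc r)
  have hJ : MxL2 (gam m) (coreJ T) := fun k l => (m3g_comp_gh1 hT k).2.1 l
  -- the scalar bound for each row
  have row : ∀ i, ∑ l, ∑ l', R i l * R i l' * coreCov T l l'
      ≤ ∑ l, ∫ x, ((R * a x) i l) ^ 2 ∂gam m + ∑ r, ∑ l, ∫ x, ((R * c r x) i l) ^ 2 ∂gam m := by
    intro i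
    obtain ⟨K, hK⟩ := m3g_lin_lip hT (R i)
    rw [← m3g_lin_var hT (R i)]
    refine gk_cov_dual hK (a := fun l x => (R * a x) i l) (c := fun r l x => (R * c r x) i l)
      (fun l => hRa i l) (fun r l => hRc r i l) fun l η hη => ?_
    have hη2 : MemLp η 2 (gam m) := hη.toBM.toPG.memLp 2
    have hdη2 : ∀ r, MemLp (pd r η) 2 (gam m) := fun r =>
      (hη.toNiceL.niceB_pd r).toBM.toPG.memLp 2
    have e1 : ∫ x, pd l (fun x => ∑ k, R i k * T x k) x * η x ∂gam m
        = ∫ x, (R * coreJ T x) i l * η x ∂gam m := by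
      refine integral_congr_ae ?_
      filter_upwards [m3g_lin_pd hT (R i) l] with x hx
      rw [hx, Matrix.mul_apply]
    rw [e1, m3g_integral_constMul hJ hη2, m3g_integral_constMul ha hη2]
    simp only [m3g_integral_constMul (hc _) (hdη2 _)]
    rw [Finset.sum_comm, ← Finset.sum_add_distrib]
    refine Finset.sum_congr rfl fun k _ => ?_
    rw [hweak k l η hη, mul_add, Finset.mul_sum]
  -- sum over the rows
  have hsum := Finset.sum_le_sum (s := Finset.univ) fun i _ => row i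
  have eL : (Rᵀ * R * coreCov T).trace = ∑ i, ∑ l, ∑ l', R i l * R i l' * coreCov T l l' := by
    simp only [Matrix.trace, Matrix.diag, Matrix.mul_apply, Matrix.transpose_apply, Finset.sum_mul]
    rw [Finset.sum_comm]
    calc ∑ q, ∑ p, ∑ i, R i p * R i q * coreCov T q p
        = ∑ q, ∑ i, ∑ p, R i p * R i q * coreCov T q p :=
          Finset.sum_congr rfl fun q _ => Finset.sum_comm
      _ = ∑ i, ∑ q, ∑ p, R i p * R i q * coreCov T q p := Finset.sum_comm
      _ = ∑ i, ∑ l, ∑ l', R i l * R i l' * coreCov T l l' :=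
          Finset.sum_congr rfl fun i _ => Finset.sum_congr rfl fun q _ =>
            Finset.sum_congr rfl fun p _ => by ring
  have eF : ∀ {F : EE m → Mat m}, MxL2 (gam m) (fun x => R * F x) →
      ∫ x, m3nS (Rᵀ * R) (F x) ∂gam m = ∑ i, ∑ l, ∫ x, ((R * F x) i l) ^ 2 ∂gam m := by
    intro F hF
    simp only [m3g_nS_factor]
    rw [integral_finsetSum _ (fun i _ => integrable_finsetSum _ fun l _ => (hF i l).integrable_sq)]
    refine Finset.sum_congr rfl fun i _ => ?_
    rw [integral_finsetSum _ (fun l _ => (hF i l).integrable_sq)]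
  rw [eL, eF hRa]
  simp only [eF (hRc _)]
  rw [Finset.sum_comm (f := fun r i => ∑ l, ∫ x, ((R * c r x) i l) ^ 2 ∂gam m),
    ← Finset.sum_add_distrib]
  exact hsum

end Claimed.Agent.R260
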