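/-
Row 260, SC (leaf SC-ABS2, helper89): `sc_absorb` of ScAbsorb.lean, from AbsCore.
-/
import Claimed.Agent.R260.ScDefs2
import Claimed.Agent.R260.AbsCore

set_option autoImplicit false

namespace Claimed.Agent.R260

theorem scAbs2_ES {lam : ℝ} (hl : 0 ≤ lam) : scES lam = abscS lam := by
  have h : (37 + 3 * lam) ≠ 0 := by positivity
  unfold scES abscS scs scα
  rw [inv_eq_one_div]
  field_simp

theorem scAbs2_EU {lam : ℝ} (hl : 0 ≤ lam) : scEU lam = abscU lam := by
  unfold scEU
  exact abscU_eq_ite_min hl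

theorem scAbs2_HR {lam : ℝ} (hl : 0 ≤ lam) : scEH lam * scERho lam = abscHR lam := by
  have h : (37 + 3 * lam) ≠ 0 := by positivity
  unfold scEH scERho
  rw [scAbs2_ES hl]
  unfold abscS abscHR scs scα scε scκ
  field_simp

theorem scAbs2_Omega {lam : ℝ} (hl : 0 ≤ lam) : scOmega lam = abscHR lam * abscU lam := by
  unfold scOmega
  rw [abscU_eq_ite_min hl]
  rfl

/-- the eigenvalue-wise inequality of Section 4.1 (same statement as `sc_absorb`). -/
theorem scAbs2_absorb {lam r : ℝ} (hl : 0 ≤ lam) (hr : 0 ≤ r) :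
    scET lam - Real.log (scES lam)
        - scEH lam * scERho lam * (scEU lam - scDU (scEU lam) * (lam + r)) ≤
      -(1 / 1000) * scOmega lam + (27 / 1000) * r := by
  rw [scAbs2_HR hl, scAbs2_Omega hl, scAbs2_EU hl]
  unfold scET
  rw [scAbs2_ES hl]
  exact absc_main hl hr (le_refl _)

end Claimed.Agent.R260
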