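/-
Row 260, SC, "Absorb": the scalar core of Proposition 3.5 (mat:scalar-absorption), paper
Section 4.1 (sc:absorption-proof), and the properties of the rigidity weight `ω` used in Sec 6.
The matrix part of Prop 3.5 (spectral measures at eigenvectors of `B`) belongs to SEC3; it uses
exactly `sc_ycost`, `sc_p_minorant` (as an operator inequality for `p(A)`) and `sc_absorb`.
Proofs: `ScAbs1.lean` (helper27), `ScAbs2.lean` + `AbsCore.lean` (helper89).
-/
import Claimed.Agent.R260.ScAbs1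
import Claimed.Agent.R260.ScAbs2

set_option autoImplicit false

namespace Claimed.Agent.R260

/-- (sc:y-cost). -/
theorem sc_ycost (a : ℝ) :
    scs * ((scB a - scβ) ^ 2 + scα * scH0 a ^ 2 / (4 * (1 - scε - scκ) * scP a)) ≤
      111 / 1000 := scAbs1_ycost a

/-- (sc:p-minorant). -/
theorem sc_p_minorant {u : ℝ} (hu0 : 0 < u) (hu : u ≤ 13 / 100) (a : ℝ) :
    u + scNU u * a - scDU u * a ^ 2 ≤ scP a := scAbs1_p_minorant hu0 hu a

theorem scEU_pos {lam : ℝ} (h : 0 ≤ lam) : 0 < scEU lam := scAbs1_EU_pos h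

theorem scEU_le (lam : ℝ) : scEU lam ≤ 13 / 100 := scAbs1_EU_le lam

theorem scDU_scEU_nonneg (lam : ℝ) : 0 ≤ scDU (scEU lam) := scAbs1_DU_EU_nonneg lam

theorem scES_pos {lam : ℝ} (h : 0 ≤ lam) : 0 < scES lam := scAbs1_ES_pos h

theorem scES_le {lam : ℝ} (h : 0 ≤ lam) : scES lam ≤ scs := scAbs1_ES_le h

theorem scEH_nonneg {lam : ℝ} (h : 0 ≤ lam) : 0 ≤ scEH lam := scAbs1_EH_nonneg h

theorem scERho_pos {lam : ℝ} (h : 0 ≤ lam) : 0 < scERho lam := scAbs1_ERho_pos h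

/-- `ω = H ρ u`. -/
theorem scOmega_eq {lam : ℝ} (h : 0 ≤ lam) :
    scOmega lam = scEH lam * scERho lam * scEU lam := scAbs1_Omega_eq h

/-- the eigenvalue-wise inequality of Section 4.1: for `λ ≥ 0`, `r ≥ 0`,
`T - log S - H ρ (u - d_u (λ + r)) ≤ -.001 ω(λ) + .027 r`. -/
theorem sc_absorb {lam r : ℝ} (hl : 0 ≤ lam) (hr : 0 ≤ r) :
    scET lam - Real.log (scES lam)
        - scEH lam * scERho lam * (scEU lam - scDU (scEU lam) * (lam + r)) ≤
      -(1 / 1000) * scOmega lam + (27 / 1000) * r := scAbs2_absorb hl hr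

theorem scOmega_nonneg {lam : ℝ} (h : 0 ≤ lam) : 0 ≤ scOmega lam := scAbs1_Omega_nonneg h

theorem scOmega_eq_zero_iff {lam : ℝ} (h : 0 ≤ lam) : scOmega lam = 0 ↔ lam = 1 :=
  scAbs1_Omega_eq_zero_iff h

/-- `ω` is bounded below away from `1` (what Section 6 uses). -/
theorem scOmega_lower {η : ℝ} (hη : 0 < η) :
    ∃ c : ℝ, 0 < c ∧ ∀ lam : ℝ, 0 ≤ lam → η ≤ |lam - 1| → c ≤ scOmega lam :=
  scAbs1_Omega_lower hη

end Claimed.Agent.R260
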