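/-
Row 260, SC-CENTRAL, file 3: real algebra.
From the division-free polynomial inequalities of the groups `G1..G4` of Appendix A at a point `a`
to the bounds `ScAllBd` of `ScDefs2.lean`.
Owner: helper213.
-/
import Claimed.Agent.R260.ScDefs2

set_option autoImplicit false

namespace Claimed.Agent.R260

noncomputable section

/-- `h = .43 - ℓ₁ - A_* b² + η_* b - ν_*/4 - l²/α`. -/
def scCenHH (l1 a : ℝ) : ℝ :=
  43 / 100 - l1 - scAstar * (scB a * scB a) + scηstar * scB a - scνstar / 4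
    - 40 / 3 * (scL a * scL a)

/-- `o = .13 - ν_*/2 + η_* b`. -/
def scCenOO (a : ℝ) : ℝ := 13 / 100 - scνstar / 2 + scηstar * scB a

/-- `v = 1.97 - ν_*`. -/
def scCenVV : ℝ := 197 / 100 - scνstar

/-- `H = l + 3 b l + k l'`. -/
def scCenH (a : ℝ) : ℝ := scL a + 3 * scB a * scL a + scK a * scL1 a

/-- the division-free inequalities of the groups `G1..G4` at the point `a`. -/
structure ScCenIneq (bmin bmax Lmax Kmin Kmax Jmax l1 m zmin zmax chimax : ℝ) (a : ℝ) : Prop where
  i1 : 0 < scB a - bmin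
  i2 : 0 < bmax - scB a
  i3 : 0 < scL a
  i4 : 0 < 3 / 40 * Lmax - scL a
  i6 : 0 < (67 / 100) ^ 2 * scP a
    - (scK a * (scB a - 1 / 2) - 80 / 3 * ((scB a - 7 / 25) * scL a)) ^ 2
  i7 : 0 < scL1 a - zmin * scL a
  i8 : 0 < zmax * scL a - scL1 a
  i9 : 0 < scCenH a - 8 / 10 * scL a
  i10 : 0 < 177 / 100 * scL a - scCenH a
  i11 : 0 < chimax * scD a - scL a
  i12 : 0 < 2 * (1 - scQ a * scD a) * (1 - scB a * scB a) - 2 * (scB a * scL a * scD a)
    - m * (scD a * scD a * (1 - scB a * scB a))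
  i13 : 0 < 5 / 17 * scEE a - Kmin * scP a
  i14 : 0 < Kmax * scP a - 5 / 17 * scEE a
  i15 : 0 < Jmax * scP a - 5 / 17 * (3 / 2 * scB a)
  i17 : 0 < scCenHH l1 a * scP a - 5 / 17 * (scEE a * scEE a)
  i18 : 0 < scP a * (scCenHH l1 a * scCenVV - scCenOO a * scCenOO a)
    - 5 / 17 * (scEE a * scEE a * scCenVV - 2 * (scEE a * scCenOO a * (3 / 2 * scB a))
      + scCenHH l1 a * (3 / 2 * scB a) * (3 / 2 * scB a))

theorem scCen_h0_eq (a : ℝ) :
    scH0 a = scK a * (scB a - 1 / 2) - 80 / 3 * ((scB a - 7 / 25) * scL a) := by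
  unfold scH0 scF scc scβ scα; ring

theorem scCen_p_eq (a : ℝ) : scP a = scB a + scK a * scL a - 40 / 3 * (scL a * scL a) := by
  unfold scP scF1 scα; ring

theorem scCen_EE_eq (a : ℝ) :
    scEE a = scP a + scB a * (3 / 4 - scB a) - 40 / 3 * (scL a * scL a) := by
  unfold scEE scE scP scF1 scα scγ; ring

theorem scCen_Dstar : scDstar = 5 / 17 := by
  unfold scDstar scε; norm_num

theorem scCen_surplus {a l1 : ℝ} (hp : 0 < scP a)
    (h17 : 0 < scCenHH l1 a * scP a - 5 / 17 * (scEE a * scEE a))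
    (h18 : 0 < scP a * (scCenHH l1 a * scCenVV - scCenOO a * scCenOO a)
    - 5 / 17 * (scEE a * scEE a * scCenVV - 2 * (scEE a * scCenOO a * (3 / 2 * scB a))
      + scCenHH l1 a * (3 / 2 * scB a) * (3 / 2 * scB a))) (G h : ℝ) :
    scLocForm a G h + l1 * G ^ 2 + (3 / 4) * h ^ 2 ≤ scQf G h := by
  set X : ℝ := scCenHH l1 a * scP a - 5 / 17 * (scEE a * scEE a) with hX
  set Y : ℝ := scCenOO a * scP a - 5 / 17 * (scEE a * (3 / 2 * scB a)) with hY
  set Z : ℝ := scCenVV * scP a - 5 / 17 * ((3 / 2 * scB a) * (3 / 2 * scB a)) with hZ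
  have hdet : 0 ≤ X * Z - Y ^ 2 := by
    have e : X * Z - Y ^ 2 = scP a * (scP a * (scCenHH l1 a * scCenVV - scCenOO a * scCenOO a)
      - 5 / 17 * (scEE a * scEE a * scCenVV - 2 * (scEE a * scCenOO a * (3 / 2 * scB a))
      + scCenHH l1 a * (3 / 2 * scB a) * (3 / 2 * scB a))) := by
      rw [hX, hY, hZ]; ring
    rw [e]; exact (mul_pos hp h18).le
  have hS : 0 ≤ X * G ^ 2 + 2 * Y * G * h + Z * h ^ 2 := by
    have h1 : 0 ≤ X * (X * G ^ 2 + 2 * Y * G * h + Z * h ^ 2) := by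
      have e : X * (X * G ^ 2 + 2 * Y * G * h + Z * h ^ 2)
          = (X * G + Y * h) ^ 2 + (X * Z - Y ^ 2) * h ^ 2 := by ring
      rw [e]; positivity
    exact nonneg_of_mul_nonneg_right h1 h17
  have e : scQf G h - (scLocForm a G h + l1 * G ^ 2 + (3 / 4) * h ^ 2)
      = (X * G ^ 2 + 2 * Y * G * h + Z * h ^ 2) / scP a := by
    rw [hX, hY, hZ]
    unfold scQf scLocForm scDD scCenHH scCenOO scCenVV
    rw [scCen_Dstar]
    unfold scc scα
    field_simp
    ring
  have : 0 ≤ scQf G h - (scLocForm a G h + l1 * G ^ 2 + (3 / 4) * h ^ 2) := by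
    rw [e]; exact div_nonneg hS hp.le
  linarith

theorem ScCenIneq.allBd {bmin bmax Lmax Kmin Kmax Jmax l1 m zmin zmax chimax a : ℝ}
    (H : ScCenIneq bmin bmax Lmax Kmin Kmax Jmax l1 m zmin zmax chimax a)
    (hd : 0 < scD a) (hp : 0 < scP a) (hbmin : 0 ≤ bmin) (hbmax : bmax ≤ 1 / 2) :
    ScAllBd bmin bmax Lmax Kmin Kmax Jmax l1 m zmin zmax chimax a := by
  have hb0 : 0 < scB a := by linarith [H.i1]
  have hb1 : scB a < 1 / 2 := by linarith [H.i2]
  have hl := H.i3
  have hbb : 0 < 1 - scB a ^ 2 := by nlinarith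
  refine
    { b_pos := hb0
      b_lt := hb1
      l_pos := hl
      p_pos := hp
      h0_le := ?_
      slope := ?_
      b_lo := by linarith [H.i1]
      b_hi := by linarith [H.i2]
      L_hi := ?_
      K_lo := ?_
      K_hi := ?_
      J_hi := ?_
      surplus := scCen_surplus hp H.i17 H.i18
      z_lo := ?_
      z_hi := ?_
      chi_hi := ?_
      hst_lo := ?_
      hst_hi := ?_ }
  · rw [scCen_h0_eq]; linarith [H.i6]
  · have h12 := H.i12
    have e : scSlopeM a - m = (2 * (1 - scQ a * scD a) * (1 - scB a * scB a)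
        - 2 * (scB a * scL a * scD a)
        - m * (scD a * scD a * (1 - scB a * scB a))) / (scD a ^ 2 * (1 - scB a ^ 2)) := by
      unfold scSlopeM
      field_simp
    have : 0 < scSlopeM a - m := by
      rw [e]; exact div_pos h12 (by positivity)
    linarith
  · unfold scLL scα
    rw [div_le_iff₀ (by norm_num)]; linarith [H.i4]
  · unfold scK0 scDD
    rw [scCen_Dstar, div_mul_eq_mul_div, le_div_iff₀ hp]; linarith [H.i13]
  · unfold scK0 scDD
    rw [scCen_Dstar, div_mul_eq_mul_div, div_le_iff₀ hp]; linarith [H.i14]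
  · unfold scJ0 scDD scc
    rw [scCen_Dstar, mul_assoc, div_mul_eq_mul_div, div_le_iff₀ hp]; linarith [H.i15]
  · unfold scZ
    rw [le_div_iff₀ hl]; linarith [H.i7]
  · unfold scZ
    rw [div_le_iff₀ hl]; linarith [H.i8]
  · unfold scChi
    rw [div_le_iff₀ hd]; linarith [H.i11]
  · have e : scHstar a = scCenH a / scL a := by
      unfold scHstar scZ scCenH; field_simp
    rw [e, le_div_iff₀ hl]; linarith [H.i9]
  · have e : scHstar a = scCenH a / scL a := by
      unfold scHstar scZ scCenH; field_simp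
    rw [e, div_le_iff₀ hl]; linarith [H.i10]

end

end Claimed.Agent.R260
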