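/-
Row 260, SC-CENTRAL, file 1: verified rational polynomial arithmetic.
Polynomials are coefficient lists over `ℚ`; an enclosure `(f, e)` of a real function `g` means
`|g x - f(x)| ≤ e` on `[-1,1]` (Appendix A, "The rational positivity certificate").
Owner: helper213.
-/
import Mathlib

set_option autoImplicit false

namespace Claimed.Agent.R260

/-! ### coefficient lists -/

/-- evaluation of a coefficient list at a real point. -/
def scCenEval : List ℚ → ℝ → ℝ
  | [], _ => 0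
  | c :: cs, x => (c : ℝ) + x * scCenEval cs x

/-- evaluation of a coefficient list at a rational point. -/
def scCenEvalQ : List ℚ → ℚ → ℚ
  | [], _ => 0
  | c :: cs, x => c + x * scCenEvalQ cs x

def scCenAdd : List ℚ → List ℚ → List ℚ
  | [], b => b
  | a :: as, [] => a :: as
  | a :: as, b :: bs => (a + b) :: scCenAdd as bs

def scCenScale (c : ℚ) : List ℚ → List ℚ
  | [] => []
  | a :: as => (c * a) :: scCenScale c as

def scCenSub (a b : List ℚ) : List ℚ := scCenAdd a (scCenScale (-1) b)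

def scCenMul : List ℚ → List ℚ → List ℚ
  | [], _ => []
  | a :: as, b => scCenAdd (scCenScale a b) (0 :: scCenMul as b)

/-- derivative: `(c + x Q)' = Q + x Q'`. -/
def scCenDeriv : List ℚ → List ℚ
  | [] => []
  | _ :: cs => scCenAdd cs (0 :: scCenDeriv cs)

def scCenAbs (x : ℚ) : ℚ := if 0 ≤ x then x else -x

def scCenMin (x y : ℚ) : ℚ := if x ≤ y then x else y

/-- sum of the absolute values of the coefficients. -/
def scCenNorm : List ℚ → ℚ
  | [] => 0
  | c :: cs => scCenAbs c + scCenNorm cs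

@[simp] theorem scCenEval_nil (x : ℝ) : scCenEval [] x = 0 := rfl
@[simp] theorem scCenEval_cons (c : ℚ) (cs : List ℚ) (x : ℝ) :
    scCenEval (c :: cs) x = (c : ℝ) + x * scCenEval cs x := rfl

theorem scCenEvalQ_cast (l : List ℚ) (x : ℚ) : ((scCenEvalQ l x : ℚ) : ℝ) = scCenEval l (x : ℝ) := by
  induction l with
  | nil => simp [scCenEvalQ]
  | cons c cs ih => simp [scCenEvalQ, ih]

theorem scCenEval_add (a b : List ℚ) (x : ℝ) :
    scCenEval (scCenAdd a b) x = scCenEval a x + scCenEval b x := by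
  induction a generalizing b with
  | nil => simp [scCenAdd]
  | cons a as ih =>
    cases b with
    | nil => simp [scCenAdd]
    | cons b bs => simp [scCenAdd, ih]; ring

theorem scCenEval_scale (c : ℚ) (a : List ℚ) (x : ℝ) :
    scCenEval (scCenScale c a) x = (c : ℝ) * scCenEval a x := by
  induction a with
  | nil => simp [scCenScale]
  | cons a as ih => simp [scCenScale, ih]; ring

theorem scCenEval_sub (a b : List ℚ) (x : ℝ) :
    scCenEval (scCenSub a b) x = scCenEval a x - scCenEval b x := by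
  simp [scCenSub, scCenEval_add, scCenEval_scale]; ring

theorem scCenEval_mul (a b : List ℚ) (x : ℝ) :
    scCenEval (scCenMul a b) x = scCenEval a x * scCenEval b x := by
  induction a with
  | nil => simp [scCenMul]
  | cons a as ih => simp [scCenMul, scCenEval_add, scCenEval_scale, ih]; ring

theorem scCenEval_hasDerivAt (a : List ℚ) (x : ℝ) :
    HasDerivAt (scCenEval a) (scCenEval (scCenDeriv a) x) x := by
  induction a with
  | nil =>
    have h0 : scCenEval [] = fun _ : ℝ => (0 : ℝ) := by funext y; rfl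
    rw [h0]
    simpa [scCenDeriv] using (hasDerivAt_const x (0 : ℝ))
  | cons c cs ih =>
    have h1 : HasDerivAt (fun y : ℝ => (c : ℝ) + y * scCenEval cs y)
        (1 * scCenEval cs x + x * scCenEval (scCenDeriv cs) x) x :=
      ((hasDerivAt_id x).mul ih).const_add (c : ℝ)
    have h2 : scCenEval (scCenDeriv (c :: cs)) x
        = 1 * scCenEval cs x + x * scCenEval (scCenDeriv cs) x := by
      simp [scCenDeriv, scCenEval_add]
    rw [h2]
    exact h1

theorem scCenAbs_cast (x : ℚ) : ((scCenAbs x : ℚ) : ℝ) = |(x : ℝ)| := by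
  unfold scCenAbs
  split_ifs with h
  · have : (0 : ℝ) ≤ (x : ℝ) := by exact_mod_cast h
    rw [abs_of_nonneg this]
  · have : (x : ℝ) < 0 := by exact_mod_cast (not_le.mp h)
    rw [abs_of_neg this]; push_cast; ring

theorem scCenMin_le_left (x y : ℚ) : scCenMin x y ≤ x := by
  unfold scCenMin; split_ifs with h
  · exact le_rfl
  · exact (not_le.mp h).le

theorem scCenMin_le_right (x y : ℚ) : scCenMin x y ≤ y := by
  unfold scCenMin; split_ifs with h
  · exact h
  · exact le_rfl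

theorem scCenNorm_nonneg (a : List ℚ) : (0 : ℝ) ≤ ((scCenNorm a : ℚ) : ℝ) := by
  induction a with
  | nil => simp [scCenNorm]
  | cons c cs ih =>
    simp only [scCenNorm, Rat.cast_add, scCenAbs_cast]
    positivity

theorem scCenEval_abs_le (a : List ℚ) {x : ℝ} (hx : |x| ≤ 1) :
    |scCenEval a x| ≤ ((scCenNorm a : ℚ) : ℝ) := by
  induction a with
  | nil => simp [scCenNorm]
  | cons c cs ih =>
    simp only [scCenNorm, Rat.cast_add, scCenAbs_cast, scCenEval_cons]
    calc |(c : ℝ) + x * scCenEval cs x| ≤ |(c : ℝ)| + |x * scCenEval cs x| := abs_add_le _ _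
      _ = |(c : ℝ)| + |x| * |scCenEval cs x| := by rw [abs_mul]
      _ ≤ |(c : ℝ)| + 1 * ((scCenNorm cs : ℚ) : ℝ) := by
          gcongr
      _ = _ := by ring

theorem scCenEval_take_drop (n : ℕ) (a : List ℚ) (x : ℝ) :
    scCenEval a x = scCenEval (a.take n) x + x ^ n * scCenEval (a.drop n) x := by
  induction n generalizing a with
  | zero => simp
  | succ n ih =>
    cases a with
    | nil => simp
    | cons c cs =>
      simp only [List.take_succ_cons, List.drop_succ_cons, scCenEval_cons]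
      rw [ih cs]; ring

theorem scCenEval_sub_take_abs_le (n : ℕ) (a : List ℚ) {x : ℝ} (hx : |x| ≤ 1) :
    |scCenEval a x - scCenEval (a.take n) x| ≤ ((scCenNorm (a.drop n) : ℚ) : ℝ) := by
  rw [scCenEval_take_drop n a x, add_sub_cancel_left, abs_mul, abs_pow]
  calc |x| ^ n * |scCenEval (a.drop n) x| ≤ 1 * ((scCenNorm (a.drop n) : ℚ) : ℝ) := by
        gcongr
        · exact pow_le_one₀ (abs_nonneg x) hx
        · exact scCenEval_abs_le _ hx
    _ = _ := one_mul _

/-! ### enclosures -/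

/-- a polynomial with a uniform error bound on `[-1,1]`. -/
structure ScCenEnc where
  f : List ℚ
  e : ℚ

namespace ScCenEnc

/-- `(f,e)` encloses `g` on `[-1,1]`. -/
def Valid (E : ScCenEnc) (g : ℝ → ℝ) : Prop :=
  ∀ x : ℝ, |x| ≤ 1 → |g x - scCenEval E.f x| ≤ ((E.e : ℚ) : ℝ)

/-- truncation to degree four, discarded coefficients charged to the error. -/
def trunc (E : ScCenEnc) : ScCenEnc := ⟨E.f.take 5, E.e + scCenNorm (E.f.drop 5)⟩

def add (A B : ScCenEnc) : ScCenEnc := ⟨scCenAdd A.f B.f, A.e + B.e⟩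
def sub (A B : ScCenEnc) : ScCenEnc := ⟨scCenSub A.f B.f, A.e + B.e⟩
def smul (c : ℚ) (A : ScCenEnc) : ScCenEnc := ⟨scCenScale c A.f, scCenAbs c * A.e⟩
def const (c : ℚ) : ScCenEnc := ⟨[c], 0⟩
/-- full product. -/
def mulF (A B : ScCenEnc) : ScCenEnc :=
  ⟨scCenMul A.f B.f, scCenNorm A.f * B.e + scCenNorm B.f * A.e + A.e * B.e⟩
/-- truncated product. -/
def mul (A B : ScCenEnc) : ScCenEnc := (mulF A B).trunc

theorem Valid.congr {E : ScCenEnc} {g g' : ℝ → ℝ} (h : E.Valid g)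
    (hg : ∀ x : ℝ, |x| ≤ 1 → g' x = g x) : E.Valid g' := by
  intro x hx; rw [hg x hx]; exact h x hx

theorem Valid.e_nonneg {E : ScCenEnc} {g : ℝ → ℝ} (h : E.Valid g) : (0 : ℝ) ≤ ((E.e : ℚ) : ℝ) :=
  le_trans (abs_nonneg _) (h 0 (by simp))

theorem Valid.trunc {E : ScCenEnc} {g : ℝ → ℝ} (h : E.Valid g) : E.trunc.Valid g := by
  intro x hx
  have h1 := h x hx
  have h2 := scCenEval_sub_take_abs_le 5 E.f hx
  simp only [ScCenEnc.trunc, Rat.cast_add]
  calc |g x - scCenEval (E.f.take 5) x|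
      = |(g x - scCenEval E.f x) + (scCenEval E.f x - scCenEval (E.f.take 5) x)| := by ring_nf
    _ ≤ |g x - scCenEval E.f x| + |scCenEval E.f x - scCenEval (E.f.take 5) x| := abs_add_le _ _
    _ ≤ _ := add_le_add h1 h2

theorem Valid.add {A B : ScCenEnc} {g h : ℝ → ℝ} (hA : A.Valid g) (hB : B.Valid h) :
    (A.add B).Valid (fun x => g x + h x) := by
  intro x hx
  have h1 := hA x hx
  have h2 := hB x hx
  simp only [ScCenEnc.add, Rat.cast_add, scCenEval_add]
  calc |g x + h x - (scCenEval A.f x + scCenEval B.f x)|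
      = |(g x - scCenEval A.f x) + (h x - scCenEval B.f x)| := by ring_nf
    _ ≤ |g x - scCenEval A.f x| + |h x - scCenEval B.f x| := abs_add_le _ _
    _ ≤ _ := add_le_add h1 h2

theorem Valid.sub {A B : ScCenEnc} {g h : ℝ → ℝ} (hA : A.Valid g) (hB : B.Valid h) :
    (A.sub B).Valid (fun x => g x - h x) := by
  intro x hx
  have h1 := hA x hx
  have h2 := hB x hx
  simp only [ScCenEnc.sub, Rat.cast_add, scCenEval_sub]
  calc |g x - h x - (scCenEval A.f x - scCenEval B.f x)|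
      = |(g x - scCenEval A.f x) - (h x - scCenEval B.f x)| := by ring_nf
    _ ≤ |g x - scCenEval A.f x| + |h x - scCenEval B.f x| := abs_sub _ _
    _ ≤ _ := add_le_add h1 h2

theorem Valid.smul (c : ℚ) {A : ScCenEnc} {g : ℝ → ℝ} (hA : A.Valid g) :
    (A.smul c).Valid (fun x => (c : ℝ) * g x) := by
  intro x hx
  have h1 := hA x hx
  simp only [ScCenEnc.smul, Rat.cast_mul, scCenEval_scale, scCenAbs_cast]
  rw [← mul_sub, abs_mul]
  gcongr

theorem valid_const (c : ℚ) : (const c).Valid (fun _ => (c : ℝ)) := by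
  intro x _
  simp [const]

theorem valid_poly (f : List ℚ) : (ScCenEnc.mk f 0).Valid (scCenEval f) := by
  intro x _
  simp

theorem Valid.mulF {A B : ScCenEnc} {g h : ℝ → ℝ} (hA : A.Valid g) (hB : B.Valid h) :
    (A.mulF B).Valid (fun x => g x * h x) := by
  intro x hx
  have h1 := hA x hx
  have h2 := hB x hx
  have n1 := scCenEval_abs_le A.f hx
  have n2 := scCenEval_abs_le B.f hx
  simp only [ScCenEnc.mulF, Rat.cast_add, Rat.cast_mul, scCenEval_mul]
  set a := scCenEval A.f x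
  set b := scCenEval B.f x
  calc |g x * h x - a * b|
      = |a * (h x - b) + b * (g x - a) + (g x - a) * (h x - b)| := by ring_nf
    _ ≤ |a * (h x - b)| + |b * (g x - a)| + |(g x - a) * (h x - b)| := abs_add_three _ _ _
    _ = |a| * |h x - b| + |b| * |g x - a| + |g x - a| * |h x - b| := by
        rw [abs_mul, abs_mul, abs_mul]
    _ ≤ _ := by
        have e1 := hA.e_nonneg
        have e2 := hB.e_nonneg
        have m1 := scCenNorm_nonneg A.f
        have m2 := scCenNorm_nonneg B.f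
        gcongr

theorem Valid.mul {A B : ScCenEnc} {g h : ℝ → ℝ} (hA : A.Valid g) (hB : B.Valid h) :
    (A.mul B).Valid (fun x => g x * h x) := (hA.mulF hB).trunc

/-- the Bernstein lower bound (cert:Bernstein) of a quartic enclosure (any discarded
coefficients are charged once more). -/
def lower (A : ScCenEnc) : ℚ :=
  let c0 := A.f.getD 0 0
  let c1 := A.f.getD 1 0
  let c2 := A.f.getD 2 0
  let c3 := A.f.getD 3 0
  let c4 := A.f.getD 4 0
  let m1 := scCenMin c0 (scCenMin (c0 + c1 / 4) (scCenMin (c0 + c1 / 2 + c2 / 6)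
    (scCenMin (c0 + 3 * c1 / 4 + c2 / 2 + c3 / 4) (c0 + c1 + c2 + c3 + c4))))
  let m2 := scCenMin c0 (scCenMin (c0 - c1 / 4) (scCenMin (c0 - c1 / 2 + c2 / 6)
    (scCenMin (c0 - 3 * c1 / 4 + c2 / 2 - c3 / 4) (c0 - c1 + c2 - c3 + c4))))
  scCenMin m1 m2 - A.e - scCenNorm (A.f.drop 5)

end ScCenEnc

theorem scCenEval_take5 (a : List ℚ) (x : ℝ) :
    scCenEval (a.take 5) x = ((a.getD 0 0 : ℚ) : ℝ) + ((a.getD 1 0 : ℚ) : ℝ) * x
      + ((a.getD 2 0 : ℚ) : ℝ) * x ^ 2 + ((a.getD 3 0 : ℚ) : ℝ) * x ^ 3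
      + ((a.getD 4 0 : ℚ) : ℝ) * x ^ 4 := by
  rcases a with _ | ⟨c0, _ | ⟨c1, _ | ⟨c2, _ | ⟨c3, _ | ⟨c4, t⟩⟩⟩⟩⟩ <;> simp <;> ring

/-- Bernstein bound on `[0,1]`. -/
theorem scCen_bernstein {c0 c1 c2 c3 c4 m t : ℝ} (ht0 : 0 ≤ t) (ht1 : t ≤ 1)
    (h0 : m ≤ c0) (h1 : m ≤ c0 + c1 / 4) (h2 : m ≤ c0 + c1 / 2 + c2 / 6)
    (h3 : m ≤ c0 + 3 * c1 / 4 + c2 / 2 + c3 / 4) (h4 : m ≤ c0 + c1 + c2 + c3 + c4) :
    m ≤ c0 + c1 * t + c2 * t ^ 2 + c3 * t ^ 3 + c4 * t ^ 4 := by
  have hs : 0 ≤ 1 - t := by linarith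
  have key : c0 + c1 * t + c2 * t ^ 2 + c3 * t ^ 3 + c4 * t ^ 4 - m
      = (c0 - m) * (1 - t) ^ 4 + (c0 + c1 / 4 - m) * (4 * t * (1 - t) ^ 3)
        + (c0 + c1 / 2 + c2 / 6 - m) * (6 * t ^ 2 * (1 - t) ^ 2)
        + (c0 + 3 * c1 / 4 + c2 / 2 + c3 / 4 - m) * (4 * t ^ 3 * (1 - t))
        + (c0 + c1 + c2 + c3 + c4 - m) * t ^ 4 := by ring
  have p0 : 0 ≤ (c0 - m) * (1 - t) ^ 4 := mul_nonneg (by linarith) (by positivity)
  have p1 : 0 ≤ (c0 + c1 / 4 - m) * (4 * t * (1 - t) ^ 3) :=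
    mul_nonneg (by linarith) (by positivity)
  have p2 : 0 ≤ (c0 + c1 / 2 + c2 / 6 - m) * (6 * t ^ 2 * (1 - t) ^ 2) :=
    mul_nonneg (by linarith) (by positivity)
  have p3 : 0 ≤ (c0 + 3 * c1 / 4 + c2 / 2 + c3 / 4 - m) * (4 * t ^ 3 * (1 - t)) :=
    mul_nonneg (by linarith) (by positivity)
  have p4 : 0 ≤ (c0 + c1 + c2 + c3 + c4 - m) * t ^ 4 := mul_nonneg (by linarith) (by positivity)
  linarith

theorem ScCenEnc.Valid.lower_le {A : ScCenEnc} {g : ℝ → ℝ} (hA : A.Valid g) {x : ℝ} (hx : |x| ≤ 1) :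
    ((A.lower : ℚ) : ℝ) ≤ g x := by
  have h1 := hA x hx
  have h2 := scCenEval_sub_take_abs_le 5 A.f hx
  rw [scCenEval_take5] at h2
  set c0 := A.f.getD 0 0 with hc0
  set c1 := A.f.getD 1 0 with hc1
  set c2 := A.f.getD 2 0 with hc2
  set c3 := A.f.getD 3 0 with hc3
  set c4 := A.f.getD 4 0 with hc4
  set m1 := scCenMin c0 (scCenMin (c0 + c1 / 4) (scCenMin (c0 + c1 / 2 + c2 / 6)
    (scCenMin (c0 + 3 * c1 / 4 + c2 / 2 + c3 / 4) (c0 + c1 + c2 + c3 + c4)))) with hm1
  set m2 := scCenMin c0 (scCenMin (c0 - c1 / 4) (scCenMin (c0 - c1 / 2 + c2 / 6)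
    (scCenMin (c0 - 3 * c1 / 4 + c2 / 2 - c3 / 4) (c0 - c1 + c2 - c3 + c4)))) with hm2
  have hlow : A.lower = scCenMin m1 m2 - A.e - scCenNorm (A.f.drop 5) := rfl
  set m := scCenMin m1 m2 with hm
  have a0 : m1 ≤ c0 := scCenMin_le_left _ _
  have a1 : m1 ≤ c0 + c1 / 4 := (scCenMin_le_right _ _).trans (scCenMin_le_left _ _)
  have a2 : m1 ≤ c0 + c1 / 2 + c2 / 6 :=
    (scCenMin_le_right _ _).trans ((scCenMin_le_right _ _).trans (scCenMin_le_left _ _))
  have a3 : m1 ≤ c0 + 3 * c1 / 4 + c2 / 2 + c3 / 4 :=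
    (scCenMin_le_right _ _).trans ((scCenMin_le_right _ _).trans
      ((scCenMin_le_right _ _).trans (scCenMin_le_left _ _)))
  have a4 : m1 ≤ c0 + c1 + c2 + c3 + c4 :=
    (scCenMin_le_right _ _).trans ((scCenMin_le_right _ _).trans
      ((scCenMin_le_right _ _).trans (scCenMin_le_right _ _)))
  have b0 : m2 ≤ c0 := scCenMin_le_left _ _
  have b1 : m2 ≤ c0 - c1 / 4 := (scCenMin_le_right _ _).trans (scCenMin_le_left _ _)
  have b2 : m2 ≤ c0 - c1 / 2 + c2 / 6 :=
    (scCenMin_le_right _ _).trans ((scCenMin_le_right _ _).trans (scCenMin_le_left _ _))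
  have b3 : m2 ≤ c0 - 3 * c1 / 4 + c2 / 2 - c3 / 4 :=
    (scCenMin_le_right _ _).trans ((scCenMin_le_right _ _).trans
      ((scCenMin_le_right _ _).trans (scCenMin_le_left _ _)))
  have b4 : m2 ≤ c0 - c1 + c2 - c3 + c4 :=
    (scCenMin_le_right _ _).trans ((scCenMin_le_right _ _).trans
      ((scCenMin_le_right _ _).trans (scCenMin_le_right _ _)))
  have hmm1 : m ≤ m1 := scCenMin_le_left _ _
  have hmm2 : m ≤ m2 := scCenMin_le_right _ _
  have key : (m : ℝ) ≤ (c0 : ℝ) + (c1 : ℝ) * x + (c2 : ℝ) * x ^ 2 + (c3 : ℝ) * x ^ 3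
      + (c4 : ℝ) * x ^ 4 := by
    rcases le_total 0 x with h0 | h0
    · have hx1 : x ≤ 1 := (le_abs_self x).trans hx
      refine scCen_bernstein h0 hx1 ?_ ?_ ?_ ?_ ?_
      · exact_mod_cast hmm1.trans a0
      · exact_mod_cast hmm1.trans a1
      · exact_mod_cast hmm1.trans a2
      · exact_mod_cast hmm1.trans a3
      · exact_mod_cast hmm1.trans a4
    · have hx1 : -x ≤ 1 := (neg_le_abs x).trans hx
      have := @scCen_bernstein (c0 : ℝ) (-(c1 : ℝ)) (c2 : ℝ) (-(c3 : ℝ)) (c4 : ℝ) (m : ℝ) (-x)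
        (by linarith) hx1 (by exact_mod_cast hmm2.trans b0)
        (by have := hmm2.trans b1
            have h' : (m : ℝ) ≤ (c0 : ℝ) - (c1 : ℝ) / 4 := by exact_mod_cast this
            linarith)
        (by have := hmm2.trans b2
            have h' : (m : ℝ) ≤ (c0 : ℝ) - (c1 : ℝ) / 2 + (c2 : ℝ) / 6 := by exact_mod_cast this
            linarith)
        (by have := hmm2.trans b3
            have h' : (m : ℝ) ≤ (c0 : ℝ) - 3 * (c1 : ℝ) / 4 + (c2 : ℝ) / 2 - (c3 : ℝ) / 4 := by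
              exact_mod_cast this
            linarith)
        (by have := hmm2.trans b4
            have h' : (m : ℝ) ≤ (c0 : ℝ) - (c1 : ℝ) + (c2 : ℝ) - (c3 : ℝ) + (c4 : ℝ) := by
              exact_mod_cast this
            linarith)
      have e : (c0 : ℝ) + -(c1 : ℝ) * -x + (c2 : ℝ) * (-x) ^ 2 + -(c3 : ℝ) * (-x) ^ 3
          + (c4 : ℝ) * (-x) ^ 4 = (c0 : ℝ) + (c1 : ℝ) * x + (c2 : ℝ) * x ^ 2 + (c3 : ℝ) * x ^ 3
      + (c4 : ℝ) * x ^ 4 := by ring
      linarith
  rw [hlow]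
  push_cast
  have h1' := abs_le.mp h1
  have h2' := abs_le.mp h2
  linarith [h1'.1, h2'.1]

theorem ScCenEnc.Valid.pos_of_lower {A : ScCenEnc} {g : ℝ → ℝ} (hA : A.Valid g)
    (hl : 0 < A.lower) {x : ℝ} (hx : |x| ≤ 1) : 0 < g x := by
  have h := hA.lower_le hx
  have : (0 : ℝ) < ((A.lower : ℚ) : ℝ) := by exact_mod_cast hl
  linarith

end Claimed.Agent.R260
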