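/-
Row 260, SC-CENTRAL, file 4: the enclosures of `q,k,d,b,l,l'` on a cell
(cert:aux-polys), (cert:aux-errors) and the four groups `G1..G4` of polynomial inequalities.
Owner: helper213.
-/
import Claimed.Agent.R260.ScCenPoly
import Claimed.Agent.R260.ScCenAlg

set_option autoImplicit false

namespace Claimed.Agent.R260

/-- a cell `a = w + r x`, `|x| ≤ 1`, with polynomial approximations `P ≈ q`, `K ≈ k`. -/
structure ScCenCell where
  w : ℚ
  r : ℚ
  P : List ℚ
  K : List ℚ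

/-- `e_q = 10⁻⁸`. -/
def scCenEQ : ℚ := 1 / 10 ^ 8
/-- `e_k = 8·10⁻⁷`. -/
def scCenEK : ℚ := 8 / 10 ^ 7
/-- `A_*`. -/
def scCenA : ℚ := 40 / 37 + 1 + (40 / 37) / 8
/-- `η_*`. -/
def scCenEta : ℚ := (40 / 37) * (7 / 25) + (1 + (40 / 37) / 8) * (3 / 4)
/-- `ν_*`. -/
def scCenNu : ℚ := (40 / 37) * (7 / 25) ^ 2 + (9 * (40 / 37) / 8) * (3 / 4) ^ 2

theorem scCenA_cast : ((scCenA : ℚ) : ℝ) = scAstar := by
  unfold scCenA scAstar scs; push_cast; ring
theorem scCenEta_cast : ((scCenEta : ℚ) : ℝ) = scηstar := by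
  unfold scCenEta scηstar scs scβ scγ; push_cast; ring
theorem scCenNu_cast : ((scCenNu : ℚ) : ℝ) = scνstar := by
  unfold scCenNu scνstar scs scβ scγ; push_cast; ring

/-- quartic enclosures of `q,k,d,b,l,l',a`. -/
structure ScCenBase where
  q : ScCenEnc
  k : ScCenEnc
  d : ScCenEnc
  b : ScCenEnc
  l : ScCenEnc
  y : ScCenEnc
  a : ScCenEnc

/-- (cert:aux-polys): full polynomials first, then truncation. -/
def ScCenCell.base (c : ScCenCell) : ScCenBase :=
  let a : ScCenEnc := ⟨[c.w, c.r], 0⟩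
  let q : ScCenEnc := ⟨c.P, scCenEQ⟩
  let k : ScCenEnc := ⟨c.K, scCenEK⟩
  let d := q.sub a
  let b := (ScCenEnc.const 1).sub (k.mulF d)
  let l := (k.sub q).add (a.mulF b)
  let y := ((b.smul 2).sub (q.mulF d)).add (a.mulF l)
  ⟨q.trunc, k.trunc, d.trunc, b.trunc, l.trunc, y.trunc, a⟩

structure ScCenBase.Valid (B : ScCenBase) (w r : ℝ) : Prop where
  q : B.q.Valid (fun x => scQ (w + r * x))
  k : B.k.Valid (fun x => scK (w + r * x))
  d : B.d.Valid (fun x => scD (w + r * x))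
  b : B.b.Valid (fun x => scB (w + r * x))
  l : B.l.Valid (fun x => scL (w + r * x))
  y : B.y.Valid (fun x => scL1 (w + r * x))
  a : B.a.Valid (fun x => w + r * x)

theorem ScCenCell.base_valid (c : ScCenCell)
    (hq : ∀ x : ℝ, |x| ≤ 1 → |scQ ((c.w : ℝ) + (c.r : ℝ) * x) - scCenEval c.P x| ≤ (scCenEQ : ℝ))
    (hk : ∀ x : ℝ, |x| ≤ 1 → |scK ((c.w : ℝ) + (c.r : ℝ) * x) - scCenEval c.K x| ≤ (scCenEK : ℝ)) :
    c.base.Valid (c.w : ℝ) (c.r : ℝ) := by
  have va : (ScCenEnc.mk [c.w, c.r] 0).Valid (fun x => (c.w : ℝ) + (c.r : ℝ) * x) :=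
    (ScCenEnc.valid_poly [c.w, c.r]).congr (fun x _ => by simp; ring)
  have vq : (ScCenEnc.mk c.P scCenEQ).Valid (fun x => scQ ((c.w : ℝ) + (c.r : ℝ) * x)) := hq
  have vk : (ScCenEnc.mk c.K scCenEK).Valid (fun x => scK ((c.w : ℝ) + (c.r : ℝ) * x)) := hk
  have vd := (vq.sub va).congr (g' := fun x => scD ((c.w : ℝ) + (c.r : ℝ) * x)) (fun x _ => rfl)
  have vb := ((ScCenEnc.valid_const 1).sub (vk.mulF vd)).congr
    (g' := fun x => scB ((c.w : ℝ) + (c.r : ℝ) * x)) (fun x _ => by simp [scB])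
  have vl := ((vk.sub vq).add (va.mulF vb)).congr
    (g' := fun x => scL ((c.w : ℝ) + (c.r : ℝ) * x)) (fun x _ => rfl)
  have vy := (((vb.smul 2).sub (vq.mulF vd)).add (va.mulF vl)).congr
    (g' := fun x => scL1 ((c.w : ℝ) + (c.r : ℝ) * x)) (fun x _ => by simp [scL1])
  exact ⟨vq.trunc, vk.trunc, vd.trunc, vb.trunc, vl.trunc, vy.trunc, va⟩

namespace ScCenBase

open ScCenEnc

def ll (B : ScCenBase) : ScCenEnc := B.l.mul B.l
def bb (B : ScCenBase) : ScCenEnc := B.b.mul B.b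
def p (B : ScCenBase) : ScCenEnc := (B.b.add (B.k.mul B.l)).sub (B.ll.smul (40 / 3))
def E (B : ScCenBase) : ScCenEnc :=
  (B.p.add (B.b.mul ((const (3 / 4)).sub B.b))).sub (B.ll.smul (40 / 3))
def H (B : ScCenBase) : ScCenEnc := (B.l.add ((B.b.smul 3).mul B.l)).add (B.k.mul B.y)
def f1 (B : ScCenBase) : ScCenEnc := B.b.smul (3 / 2)
def hh (B : ScCenBase) (l1 : ℚ) : ScCenEnc :=
  ((((const (43 / 100 - l1)).sub (B.bb.smul scCenA)).add (B.b.smul scCenEta)).sub
    (const (scCenNu / 4))).sub (B.ll.smul (40 / 3))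
def oo (B : ScCenBase) : ScCenEnc := (const (13 / 100 - scCenNu / 2)).add (B.b.smul scCenEta)
def omb (B : ScCenBase) : ScCenEnc := (const 1).sub B.bb
def t0 (B : ScCenBase) : ScCenEnc :=
  (B.k.mul (B.b.sub (const (1 / 2)))).sub (((B.b.sub (const (7 / 25))).mul B.l).smul (80 / 3))
def EE (B : ScCenBase) : ScCenEnc := B.E.mul B.E

def e1 (B : ScCenBase) (bmin : ℚ) : ScCenEnc := B.b.sub (const bmin)
def e2 (B : ScCenBase) (bmax : ℚ) : ScCenEnc := (const bmax).sub B.b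
def e4 (B : ScCenBase) (Lmax : ℚ) : ScCenEnc := (const (3 / 40 * Lmax)).sub B.l
def e5 (B : ScCenBase) : ScCenEnc := (B.p.mul ((const 7).add (B.a.mul B.a))).sub (const 1)
def e5c (B : ScCenBase) (c : ℚ) : ScCenEnc := B.p.sub (const c)
def e6 (B : ScCenBase) : ScCenEnc := (B.p.smul ((67 / 100) ^ 2)).sub (B.t0.mul B.t0)
def e7 (B : ScCenBase) (zmin : ℚ) : ScCenEnc := B.y.sub (B.l.smul zmin)
def e8 (B : ScCenBase) (zmax : ℚ) : ScCenEnc := (B.l.smul zmax).sub B.y
def e9 (B : ScCenBase) : ScCenEnc := B.H.sub (B.l.smul (8 / 10))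
def e10 (B : ScCenBase) : ScCenEnc := (B.l.smul (177 / 100)).sub B.H
def e11 (B : ScCenBase) (chimax : ℚ) : ScCenEnc := (B.d.smul chimax).sub B.l
def e12 (B : ScCenBase) (m : ℚ) : ScCenEnc :=
  (((((const 1).sub (B.q.mul B.d)).smul 2).mul B.omb).sub (((B.b.mul B.l).mul B.d).smul 2)).sub
    (((B.d.mul B.d).mul B.omb).smul m)
def e13 (B : ScCenBase) (Kmin : ℚ) : ScCenEnc := (B.E.smul (5 / 17)).sub (B.p.smul Kmin)
def e14 (B : ScCenBase) (Kmax : ℚ) : ScCenEnc := (B.p.smul Kmax).sub (B.E.smul (5 / 17))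
def e15 (B : ScCenBase) (Jmax : ℚ) : ScCenEnc := (B.p.smul Jmax).sub (B.f1.smul (5 / 17))
def e17 (B : ScCenBase) (l1 : ℚ) : ScCenEnc := ((B.hh l1).mul B.p).sub (B.EE.smul (5 / 17))
def e18 (B : ScCenBase) (l1 : ℚ) : ScCenEnc :=
  (B.p.mul (((B.hh l1).smul (197 / 100 - scCenNu)).sub (B.oo.mul B.oo))).sub
    ((((B.EE.smul (197 / 100 - scCenNu)).sub (((B.E.mul B.oo).mul B.f1).smul 2)).add
      (((B.hh l1).mul B.f1).mul B.f1)).smul (5 / 17))

/-- all bin-dependent checks. -/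
def chk (B : ScCenBase) (bmin bmax Lmax Kmin Kmax Jmax l1 m zmin zmax chimax : ℚ) : Bool :=
  decide (0 < (B.e1 bmin).lower) && decide (0 < (B.e2 bmax).lower) && decide (0 < B.l.lower)
  && decide (0 < (B.e4 Lmax).lower) && decide (0 < B.e6.lower) && decide (0 < (B.e7 zmin).lower)
  && decide (0 < (B.e8 zmax).lower) && decide (0 < B.e9.lower) && decide (0 < B.e10.lower)
  && decide (0 < (B.e11 chimax).lower) && decide (0 < (B.e12 m).lower)
  && decide (0 < (B.e13 Kmin).lower) && decide (0 < (B.e14 Kmax).lower)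
  && decide (0 < (B.e15 Jmax).lower) && decide (0 < (B.e17 l1).lower)
  && decide (0 < (B.e18 l1).lower)

variable {B : ScCenBase} {w r : ℝ}

theorem Valid.ll (h : B.Valid w r) :
    B.ll.Valid (fun x => scL (w + r * x) * scL (w + r * x)) := h.l.mul h.l

theorem Valid.bb (h : B.Valid w r) :
    B.bb.Valid (fun x => scB (w + r * x) * scB (w + r * x)) := h.b.mul h.b

theorem Valid.p (h : B.Valid w r) : B.p.Valid (fun x => scP (w + r * x)) :=
  ((h.b.add (h.k.mul h.l)).sub (h.ll.smul (40 / 3))).congr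
    (fun x _ => by rw [scCen_p_eq]; push_cast; ring)

theorem Valid.E (h : B.Valid w r) : B.E.Valid (fun x => scEE (w + r * x)) :=
  ((h.p.add (h.b.mul ((valid_const (3 / 4)).sub h.b))).sub (h.ll.smul (40 / 3))).congr
    (fun x _ => by rw [scCen_EE_eq]; push_cast; ring)

theorem Valid.H (h : B.Valid w r) : B.H.Valid (fun x => scCenH (w + r * x)) :=
  ((h.l.add ((h.b.smul 3).mul h.l)).add (h.k.mul h.y)).congr
    (fun x _ => by unfold scCenH; push_cast; ring)

theorem Valid.f1 (h : B.Valid w r) : B.f1.Valid (fun x => 3 / 2 * scB (w + r * x)) :=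
  (h.b.smul (3 / 2)).congr (fun x _ => by push_cast; ring)

theorem Valid.hh (h : B.Valid w r) (l1 : ℚ) :
    (B.hh l1).Valid (fun x => scCenHH (l1 : ℝ) (w + r * x)) :=
  (((((valid_const (43 / 100 - l1)).sub (h.bb.smul scCenA)).add (h.b.smul scCenEta)).sub
    (valid_const (scCenNu / 4))).sub (h.ll.smul (40 / 3))).congr
    (fun x _ => by unfold scCenHH; push_cast [scCenA_cast, scCenEta_cast, scCenNu_cast]; ring)

theorem Valid.oo (h : B.Valid w r) : B.oo.Valid (fun x => scCenOO (w + r * x)) :=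
  ((valid_const (13 / 100 - scCenNu / 2)).add (h.b.smul scCenEta)).congr
    (fun x _ => by unfold scCenOO; push_cast [scCenEta_cast, scCenNu_cast]; ring)

theorem Valid.omb (h : B.Valid w r) :
    B.omb.Valid (fun x => 1 - scB (w + r * x) * scB (w + r * x)) :=
  ((valid_const 1).sub h.bb).congr (fun x _ => by push_cast; ring)

theorem Valid.t0 (h : B.Valid w r) :
    B.t0.Valid (fun x => scK (w + r * x) * (scB (w + r * x) - 1 / 2)
      - 80 / 3 * ((scB (w + r * x) - 7 / 25) * scL (w + r * x))) :=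
  ((h.k.mul (h.b.sub (valid_const (1 / 2)))).sub
    (((h.b.sub (valid_const (7 / 25))).mul h.l).smul (80 / 3))).congr
    (fun x _ => by push_cast; ring)

theorem Valid.EE (h : B.Valid w r) :
    B.EE.Valid (fun x => scEE (w + r * x) * scEE (w + r * x)) := h.E.mul h.E

theorem Valid.e5 (h : B.Valid w r) :
    B.e5.Valid (fun x => scP (w + r * x) * (7 + (w + r * x) ^ 2) - 1) :=
  ((h.p.mul ((valid_const 7).add (h.a.mul h.a))).sub (valid_const 1)).congr
    (fun x _ => by push_cast; ring)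

theorem Valid.e5c (h : B.Valid w r) (c : ℚ) :
    (B.e5c c).Valid (fun x => scP (w + r * x) - (c : ℝ)) :=
  h.p.sub (valid_const c)

theorem Valid.ineq (h : B.Valid w r) {bmin bmax Lmax Kmin Kmax Jmax l1 m zmin zmax chimax : ℚ}
    (hc : B.chk bmin bmax Lmax Kmin Kmax Jmax l1 m zmin zmax chimax = true)
    {x : ℝ} (hx : |x| ≤ 1) :
    ScCenIneq (bmin : ℝ) (bmax : ℝ) (Lmax : ℝ) (Kmin : ℝ) (Kmax : ℝ) (Jmax : ℝ) (l1 : ℝ) (m : ℝ)
      (zmin : ℝ) (zmax : ℝ) (chimax : ℝ) (w + r * x) := by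
  simp only [chk, Bool.and_eq_true, decide_eq_true_eq] at hc
  obtain ⟨⟨⟨⟨⟨⟨⟨⟨⟨⟨⟨⟨⟨⟨⟨c1, c2⟩, c3⟩, c4⟩, c6⟩, c7⟩, c8⟩, c9⟩, c10⟩, c11⟩, c12⟩, c13⟩, c14⟩, c15⟩,
    c17⟩, c18⟩ := hc
  refine ⟨?_, ?_, ?_, ?_, ?_, ?_, ?_, ?_, ?_, ?_, ?_, ?_, ?_, ?_, ?_, ?_⟩
  · exact (h.b.sub (valid_const bmin)).pos_of_lower c1 hx
  · exact ((valid_const bmax).sub h.b).pos_of_lower c2 hx
  · exact h.l.pos_of_lower c3 hx
  · have := ((valid_const (3 / 40 * Lmax)).sub h.l).pos_of_lower c4 hx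
    push_cast at this
    exact this
  · have := ((h.p.smul ((67 / 100) ^ 2)).sub (h.t0.mul h.t0)).pos_of_lower c6 hx
    push_cast at this
    rw [sq (scK _ * _ - _)]
    exact this
  · exact (h.y.sub (h.l.smul zmin)).pos_of_lower c7 hx
  · exact ((h.l.smul zmax).sub h.y).pos_of_lower c8 hx
  · have := (h.H.sub (h.l.smul (8 / 10))).pos_of_lower c9 hx
    push_cast at this
    exact this
  · have := ((h.l.smul (177 / 100)).sub h.H).pos_of_lower c10 hx
    push_cast at this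
    exact this
  · exact ((h.d.smul chimax).sub h.l).pos_of_lower c11 hx
  · have := ((((((valid_const 1).sub (h.q.mul h.d)).smul 2).mul h.omb).sub
      (((h.b.mul h.l).mul h.d).smul 2)).sub (((h.d.mul h.d).mul h.omb).smul m)).pos_of_lower c12 hx
    push_cast at this
    exact this
  · have := ((h.E.smul (5 / 17)).sub (h.p.smul Kmin)).pos_of_lower c13 hx
    push_cast at this
    exact this
  · have := ((h.p.smul Kmax).sub (h.E.smul (5 / 17))).pos_of_lower c14 hx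
    push_cast at this
    exact this
  · have := ((h.p.smul Jmax).sub (h.f1.smul (5 / 17))).pos_of_lower c15 hx
    push_cast at this
    exact this
  · have := (((h.hh l1).mul h.p).sub (h.EE.smul (5 / 17))).pos_of_lower c17 hx
    push_cast at this
    exact this
  · have := ((h.p.mul (((h.hh l1).smul (197 / 100 - scCenNu)).sub (h.oo.mul h.oo))).sub
      ((((h.EE.smul (197 / 100 - scCenNu)).sub (((h.E.mul h.oo).mul h.f1).smul 2)).add
      (((h.hh l1).mul h.f1).mul h.f1)).smul (5 / 17))).pos_of_lower c18 hx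
    push_cast [scCenNu_cast] at this
    unfold scCenVV
    linarith

end ScCenBase

end Claimed.Agent.R260
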