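/-
Row 260, SC-CENTRAL, file 2: contractive ODE error comparison
(cert:global-errors): `q - P` is propagated backward, `k - khat` forward.
Everything is stated for abstract functions `q k` satisfying `q' = q (q - a)`,
`k' = 1 - k (q - a)`.
Owner: helper213.
-/
import Claimed.Agent.R260.ScCenPoly

set_option autoImplicit false

namespace Claimed.Agent.R260

open Set

/-- one-sided fencing lemma. -/
theorem scCen_fence {f f' : ℝ → ℝ} {x0 x1 ε s : ℝ} (hε : 0 ≤ ε) (hs : 0 ≤ s)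
    (hf : ∀ x ∈ Icc x0 x1, HasDerivAt f (f' x) x) (h0 : f x0 ≤ ε)
    (hb : ∀ x ∈ Icc x0 x1, 0 ≤ f x → f' x < s) :
    ∀ x ∈ Icc x0 x1, f x ≤ ε + s * (x - x0) := by
  have hB : ∀ x : ℝ, HasDerivAt (fun y : ℝ => ε + s * (y - x0)) s x := by
    intro x
    have := (((hasDerivAt_id x).sub_const x0).const_mul s).const_add ε
    simpa using this
  intro x hx
  refine image_le_of_deriv_right_lt_deriv_boundary' (f := f) (f' := f') (a := x0) (b := x1)
    (B := fun y : ℝ => ε + s * (y - x0)) (B' := fun _ => s) ?_ ?_ ?_ ?_ ?_ ?_ hx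
  · exact fun y hy => (hf y hy).continuousAt.continuousWithinAt
  · exact fun y hy => (hf y (Ico_subset_Icc_self hy)).hasDerivWithinAt
  · simpa using h0
  · exact fun y _ => (hB y).continuousAt.continuousWithinAt
  · exact fun y _ => (hB y).hasDerivWithinAt
  · intro y hy hfy
    refine hb y (Ico_subset_Icc_self hy) ?_
    rw [hfy]
    have : 0 ≤ y - x0 := by linarith [hy.1]
    positivity

/-- forward comparison: `f' = -m f + (forcing < s)`, `m ≥ 0`. -/
theorem scCen_fence_fwd {f f' : ℝ → ℝ} {x0 x1 ε s : ℝ}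
    (hf : ∀ x ∈ Icc x0 x1, HasDerivAt f (f' x) x) (h0 : |f x0| ≤ ε)
    (hb : ∀ x ∈ Icc x0 x1, ∃ m : ℝ, 0 ≤ m ∧ |f' x + m * f x| < s) :
    ∀ x ∈ Icc x0 x1, |f x| ≤ ε + s * (x - x0) := by
  intro x hx
  have hε : 0 ≤ ε := (abs_nonneg _).trans h0
  have hs : 0 ≤ s := by
    obtain ⟨m, _, hm⟩ := hb x hx
    exact (abs_nonneg _).trans hm.le
  rw [abs_le]
  constructor
  · have := scCen_fence (f := fun y => -f y) (f' := fun y => -f' y) hε hs
      (fun y hy => (hf y hy).neg) (by linarith [(abs_le.mp h0).1])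
      (by
        intro y hy hfy
        obtain ⟨m, hm0, hm⟩ := hb y hy
        have h1 := (abs_lt.mp hm).1
        have h2 : m * f y ≤ 0 := mul_nonpos_of_nonneg_of_nonpos hm0 (by linarith)
        linarith) x hx
    linarith
  · exact scCen_fence hε hs hf (abs_le.mp h0).2
      (by
        intro y hy hfy
        obtain ⟨m, hm0, hm⟩ := hb y hy
        have h1 := (abs_lt.mp hm).2
        have h2 : 0 ≤ m * f y := mul_nonneg hm0 hfy
        linarith) x hx

/-- backward comparison: `f' = m f + (forcing < s)`, `m ≥ 0`. -/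
theorem scCen_fence_bwd {f f' : ℝ → ℝ} {x0 x1 ε s : ℝ}
    (hf : ∀ x ∈ Icc x0 x1, HasDerivAt f (f' x) x) (h1 : |f x1| ≤ ε)
    (hb : ∀ x ∈ Icc x0 x1, ∃ m : ℝ, 0 ≤ m ∧ |f' x - m * f x| < s) :
    ∀ x ∈ Icc x0 x1, |f x| ≤ ε + s * (x1 - x) := by
  intro x hx
  have hmem : ∀ y ∈ Icc (-x1) (-x0), -y ∈ Icc x0 x1 := by
    intro y hy; constructor <;> linarith [hy.1, hy.2]
  have := scCen_fence_fwd (f := fun y => f (-y)) (f' := fun y => -f' (-y)) (x0 := -x1) (x1 := -x0)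
    (ε := ε) (s := s)
    (by
      intro y hy
      have h : HasDerivAt (fun z : ℝ => f (-z)) ((-1 : ℝ) • f' (-y)) y :=
        (hf (-y) (hmem y hy)).scomp y (hasDerivAt_neg y)
      exact h.congr_deriv (by simp))
    (by simpa using h1)
    (by
      intro y hy
      obtain ⟨m, hm0, hm⟩ := hb (-y) (hmem y hy)
      refine ⟨m, hm0, ?_⟩
      have : -f' (-y) + m * f (-y) = -(f' (-y) - m * f (-y)) := by ring
      rw [this, abs_neg]; exact hm) (-x) (by constructor <;> linarith [hx.1, hx.2])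
  simpa [sub_eq_add_neg, add_comm] using this

theorem scCen_abs_le_iff {x : ℝ} : |x| ≤ 1 ↔ x ∈ Icc (-1 : ℝ) 1 := abs_le

/-- residual of `P' = r P (P - a)`, `a = w + r x`. -/
def scCenResQ (w r : ℚ) (P : List ℚ) : List ℚ :=
  scCenSub (scCenDeriv P) (scCenScale r (scCenMul P (scCenSub P [w, r])))

/-- residual of `K' = r (1 - K (P - a))`. -/
def scCenResK (w r : ℚ) (P K : List ℚ) : List ℚ :=
  scCenSub (scCenDeriv K) (scCenScale r (scCenSub [1] (scCenMul K (scCenSub P [w, r]))))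

theorem scCenEval_lin (w r : ℚ) (x : ℝ) : scCenEval [w, r] x = (w : ℝ) + (r : ℝ) * x := by
  simp; ring

/-- backward step for `q` on one cell. -/
theorem scCen_q_step {q : ℝ → ℝ} (hq : ∀ a, HasDerivAt q (q a * (q a - a)) a)
    (hqpos : ∀ a, 0 < q a) (w r : ℚ) (hr : 0 < r) (P : List ℚ)
    (hD : 0 < (ScCenEnc.mk (scCenSub P [w, r]) 0).lower) (v ε ε' : ℚ)
    (hchk : ε + scCenAbs (scCenEvalQ P 1 - v) + 2 * scCenNorm (scCenResQ w r P) < ε')
    (h1 : |q ((w : ℝ) + (r : ℝ)) - (v : ℝ)| ≤ (ε : ℝ)) :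
    ∀ x : ℝ, |x| ≤ 1 → |q ((w : ℝ) + (r : ℝ) * x) - scCenEval P x| ≤ (ε' : ℝ) := by
  have hr' : (0 : ℝ) < (r : ℝ) := by exact_mod_cast hr
  have hchk' : (ε : ℝ) + |scCenEval P 1 - (v : ℝ)| + 2 * ((scCenNorm (scCenResQ w r P) : ℚ) : ℝ)
      < (ε' : ℝ) := by
    have : ((ε + scCenAbs (scCenEvalQ P 1 - v) + 2 * scCenNorm (scCenResQ w r P) : ℚ) : ℝ) < (ε' : ℝ) := by
      exact_mod_cast hchk
    push_cast [scCenAbs_cast, scCenEvalQ_cast] at this
    exact this
  set ρ : ℝ := ((scCenNorm (scCenResQ w r P) : ℚ) : ℝ) with hρ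
  set ε1 : ℝ := (ε : ℝ) + |scCenEval P 1 - (v : ℝ)| with hε1
  set s : ℝ := ((ε' : ℝ) - ε1) / 2 with hs
  have hρs : ρ < s := by rw [hs]; linarith
  have hDpos : ∀ x : ℝ, |x| ≤ 1 → 0 < scCenEval P x - ((w : ℝ) + (r : ℝ) * x) := by
    intro x hx
    have hv : (ScCenEnc.mk (scCenSub P [w, r]) 0).Valid (scCenEval (scCenSub P [w, r])) :=
      ScCenEnc.valid_poly _
    have := hv.pos_of_lower hD hx
    rwa [scCenEval_sub, scCenEval_lin] at this
  have hder : ∀ x : ℝ, HasDerivAt (fun y : ℝ => q ((w : ℝ) + (r : ℝ) * y) - scCenEval P y)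
      ((r : ℝ) * (q ((w : ℝ) + (r : ℝ) * x) * (q ((w : ℝ) + (r : ℝ) * x)
        - ((w : ℝ) + (r : ℝ) * x))) - scCenEval (scCenDeriv P) x) x := by
    intro x
    have hin : HasDerivAt (fun y : ℝ => (w : ℝ) + (r : ℝ) * y) (r : ℝ) x := by
      simpa using ((hasDerivAt_id x).const_mul (r : ℝ)).const_add (w : ℝ)
    have h : HasDerivAt (fun y : ℝ => q ((w : ℝ) + (r : ℝ) * y)) _ x :=
      (hq ((w : ℝ) + (r : ℝ) * x)).scomp x hin
    have h2 : HasDerivAt (fun y : ℝ => q ((w : ℝ) + (r : ℝ) * y) - scCenEval P y) _ x :=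
      h.sub (scCenEval_hasDerivAt P x)
    exact h2.congr_deriv (by simp [smul_eq_mul])
  intro x hx
  have hmain := scCen_fence_bwd (f := fun y : ℝ => q ((w : ℝ) + (r : ℝ) * y) - scCenEval P y)
    (x0 := -1) (x1 := 1) (ε := ε1) (s := s) (fun y _ => hder y)
    (by
      have e : q ((w : ℝ) + (r : ℝ) * 1) - scCenEval P 1
          = (q ((w : ℝ) + (r : ℝ)) - (v : ℝ)) - (scCenEval P 1 - (v : ℝ)) := by
        rw [mul_one]; ring
      show |q ((w : ℝ) + (r : ℝ) * 1) - scCenEval P 1| ≤ ε1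
      rw [e]
      exact (abs_sub _ _).trans (by rw [hε1]; linarith))
    (by
      intro y hy
      have hy' : |y| ≤ 1 := scCen_abs_le_iff.mpr hy
      refine ⟨(r : ℝ) * (q ((w : ℝ) + (r : ℝ) * y) + (scCenEval P y - ((w : ℝ) + (r : ℝ) * y))),
        mul_nonneg hr'.le (add_nonneg (hqpos _).le (hDpos y hy').le), ?_⟩
      have hres := scCenEval_abs_le (scCenResQ w r P) hy'
      have e : (r : ℝ) * (q ((w : ℝ) + (r : ℝ) * y) * (q ((w : ℝ) + (r : ℝ) * y)
          - ((w : ℝ) + (r : ℝ) * y))) - scCenEval (scCenDeriv P) y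
          - (r : ℝ) * (q ((w : ℝ) + (r : ℝ) * y) + (scCenEval P y - ((w : ℝ) + (r : ℝ) * y)))
            * (q ((w : ℝ) + (r : ℝ) * y) - scCenEval P y) = -scCenEval (scCenResQ w r P) y := by
        simp only [scCenResQ, scCenEval_sub, scCenEval_scale, scCenEval_mul, scCenEval_lin]
        ring
      rw [e, abs_neg]
      exact lt_of_le_of_lt hres hρs) x (scCen_abs_le_iff.mp hx)
  have hx2 := (scCen_abs_le_iff.mp hx).1
  have hs0 : 0 ≤ s := (scCenNorm_nonneg _).trans hρs.le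
  calc |q ((w : ℝ) + (r : ℝ) * x) - scCenEval P x| ≤ ε1 + s * (1 - x) := hmain
    _ ≤ ε1 + s * 2 := by
        have : s * (1 - x) ≤ s * 2 := mul_le_mul_of_nonneg_left (by linarith) hs0
        linarith
    _ = (ε' : ℝ) := by rw [hs]; ring

/-- forward step for `k` on one cell. -/
theorem scCen_k_step {q k : ℝ → ℝ} (hk : ∀ a, HasDerivAt k (1 - k a * (q a - a)) a)
    (hd : ∀ a, 0 < q a - a) (w r : ℚ) (hr : 0 < r) (P K : List ℚ) (eq : ℚ)
    (hqP : ∀ x : ℝ, |x| ≤ 1 → |q ((w : ℝ) + (r : ℝ) * x) - scCenEval P x| ≤ (eq : ℝ))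
    (v ε ε' : ℚ)
    (hchk : ε + scCenAbs (scCenEvalQ K (-1) - v)
      + 2 * (scCenNorm (scCenResK w r P K) + r * scCenNorm K * eq) < ε')
    (h0 : |k ((w : ℝ) - (r : ℝ)) - (v : ℝ)| ≤ (ε : ℝ)) :
    ∀ x : ℝ, |x| ≤ 1 → |k ((w : ℝ) + (r : ℝ) * x) - scCenEval K x| ≤ (ε' : ℝ) := by
  have hr' : (0 : ℝ) < (r : ℝ) := by exact_mod_cast hr
  have hchk' : (ε : ℝ) + |scCenEval K (-1) - (v : ℝ)|
      + 2 * (((scCenNorm (scCenResK w r P K) : ℚ) : ℝ) + (r : ℝ) * ((scCenNorm K : ℚ) : ℝ) * (eq : ℝ))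
      < (ε' : ℝ) := by
    have : ((ε + scCenAbs (scCenEvalQ K (-1) - v)
      + 2 * (scCenNorm (scCenResK w r P K) + r * scCenNorm K * eq) : ℚ) : ℝ) < (ε' : ℝ) := by
      exact_mod_cast hchk
    push_cast [scCenAbs_cast, scCenEvalQ_cast] at this
    exact this
  set ρ : ℝ := ((scCenNorm (scCenResK w r P K) : ℚ) : ℝ) + (r : ℝ) * ((scCenNorm K : ℚ) : ℝ) * (eq : ℝ)
    with hρ
  set ε1 : ℝ := (ε : ℝ) + |scCenEval K (-1) - (v : ℝ)| with hε1
  set s : ℝ := ((ε' : ℝ) - ε1) / 2 with hs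
  have hρs : ρ < s := by rw [hs]; linarith
  have heq0 : (0 : ℝ) ≤ (eq : ℝ) := (abs_nonneg _).trans (hqP 0 (by simp))
  have hρ0 : 0 ≤ ρ := by
    have := scCenNorm_nonneg (scCenResK w r P K)
    have := scCenNorm_nonneg K
    rw [hρ]; positivity
  have hder : ∀ x : ℝ, HasDerivAt (fun y : ℝ => k ((w : ℝ) + (r : ℝ) * y) - scCenEval K y)
      ((r : ℝ) * (1 - k ((w : ℝ) + (r : ℝ) * x) * (q ((w : ℝ) + (r : ℝ) * x)
        - ((w : ℝ) + (r : ℝ) * x))) - scCenEval (scCenDeriv K) x) x := by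
    intro x
    have hin : HasDerivAt (fun y : ℝ => (w : ℝ) + (r : ℝ) * y) (r : ℝ) x := by
      simpa using ((hasDerivAt_id x).const_mul (r : ℝ)).const_add (w : ℝ)
    have h : HasDerivAt (fun y : ℝ => k ((w : ℝ) + (r : ℝ) * y)) _ x :=
      (hk ((w : ℝ) + (r : ℝ) * x)).scomp x hin
    have h2 : HasDerivAt (fun y : ℝ => k ((w : ℝ) + (r : ℝ) * y) - scCenEval K y) _ x :=
      h.sub (scCenEval_hasDerivAt K x)
    exact h2.congr_deriv (by simp [smul_eq_mul])
  intro x hx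
  have hmain := scCen_fence_fwd (f := fun y : ℝ => k ((w : ℝ) + (r : ℝ) * y) - scCenEval K y)
    (x0 := -1) (x1 := 1) (ε := ε1) (s := s) (fun y _ => hder y)
    (by
      have e : k ((w : ℝ) + (r : ℝ) * (-1)) - scCenEval K (-1)
          = (k ((w : ℝ) - (r : ℝ)) - (v : ℝ)) - (scCenEval K (-1) - (v : ℝ)) := by
        have : (w : ℝ) + (r : ℝ) * (-1) = (w : ℝ) - (r : ℝ) := by ring
        rw [this]; ring
      show |k ((w : ℝ) + (r : ℝ) * (-1)) - scCenEval K (-1)| ≤ ε1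
      rw [e]
      exact (abs_sub _ _).trans (by rw [hε1]; linarith))
    (by
      intro y hy
      have hy' : |y| ≤ 1 := scCen_abs_le_iff.mpr hy
      refine ⟨(r : ℝ) * (q ((w : ℝ) + (r : ℝ) * y) - ((w : ℝ) + (r : ℝ) * y)),
        mul_nonneg hr'.le (hd _).le, ?_⟩
      have hres := scCenEval_abs_le (scCenResK w r P K) hy'
      have hK := scCenEval_abs_le K hy'
      have hq' := hqP y hy'
      have e : (r : ℝ) * (1 - k ((w : ℝ) + (r : ℝ) * y) * (q ((w : ℝ) + (r : ℝ) * y)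
          - ((w : ℝ) + (r : ℝ) * y))) - scCenEval (scCenDeriv K) y
          + (r : ℝ) * (q ((w : ℝ) + (r : ℝ) * y) - ((w : ℝ) + (r : ℝ) * y))
            * (k ((w : ℝ) + (r : ℝ) * y) - scCenEval K y)
          = -scCenEval (scCenResK w r P K) y
            - (r : ℝ) * scCenEval K y * (q ((w : ℝ) + (r : ℝ) * y) - scCenEval P y) := by
        simp only [scCenResK, scCenEval_sub, scCenEval_scale, scCenEval_mul, scCenEval_cons,
          scCenEval_nil]
        push_cast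
        ring
      rw [e]
      refine lt_of_le_of_lt ?_ hρs
      calc |-scCenEval (scCenResK w r P K) y
            - (r : ℝ) * scCenEval K y * (q ((w : ℝ) + (r : ℝ) * y) - scCenEval P y)|
          ≤ |-scCenEval (scCenResK w r P K) y|
            + |(r : ℝ) * scCenEval K y * (q ((w : ℝ) + (r : ℝ) * y) - scCenEval P y)| := abs_sub _ _
        _ = |scCenEval (scCenResK w r P K) y|
            + (r : ℝ) * |scCenEval K y| * |q ((w : ℝ) + (r : ℝ) * y) - scCenEval P y| := by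
            rw [abs_neg, abs_mul, abs_mul, abs_of_pos hr']
        _ ≤ ρ := by
            rw [hρ]
            have := scCenNorm_nonneg K
            gcongr) x (scCen_abs_le_iff.mp hx)
  have hx2 := (scCen_abs_le_iff.mp hx).2
  have hs0 : 0 ≤ s := hρ0.trans hρs.le
  calc |k ((w : ℝ) + (r : ℝ) * x) - scCenEval K x| ≤ ε1 + s * (x - -1) := hmain
    _ ≤ ε1 + s * 2 := by
        have : s * (x - -1) ≤ s * 2 := mul_le_mul_of_nonneg_left (by linarith) hs0
        linarith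
    _ = (ε' : ℝ) := by rw [hs]; ring

end Claimed.Agent.R260
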