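/-
Row 260, SC-CENTRAL, file 6: generic chaining lemmas for the cells
(cert:global-errors) and passage from the variable `x ∈ [-1,1]` to `a ∈ [w-r,w+r]`.
Owner: helper213.
-/
import Claimed.Agent.R260.ScCenOde
import Claimed.Agent.R260.ScCenGroups

set_option autoImplicit false

namespace Claimed.Agent.R260

/-- the analytic input of the central certificate. -/
structure ScCenHyp : Prop where
  dq : ∀ a, HasDerivAt scQ (scQ a * scD a) a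
  dk : ∀ a, HasDerivAt scK (scB a) a
  qpos : ∀ a, 0 < scQ a
  dpos : ∀ a, 0 < scD a
  q10 : |scQ 10 - 10098093234 / 10 ^ 9| < 4 / 10 ^ 10
  k6 : |scK (-6) - 16237766 / 10 ^ 8| < 4 / 10 ^ 8

namespace ScCenCell

/-- `|q - P| ≤ ε` on the cell. -/
def QBd (c : ScCenCell) (ε : ℚ) : Prop :=
  ∀ x : ℝ, |x| ≤ 1 → |scQ ((c.w : ℝ) + (c.r : ℝ) * x) - scCenEval c.P x| ≤ (ε : ℝ)

/-- `|k - K| ≤ ε` on the cell. -/
def KBd (c : ScCenCell) (ε : ℚ) : Prop :=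
  ∀ x : ℝ, |x| ≤ 1 → |scK ((c.w : ℝ) + (c.r : ℝ) * x) - scCenEval c.K x| ≤ (ε : ℝ)

def chkQ (c : ScCenCell) (v ε ε' : ℚ) : Bool :=
  decide (0 < c.r) && decide (0 < (ScCenEnc.mk (scCenSub c.P [c.w, c.r]) 0).lower)
  && decide (ε + scCenAbs (scCenEvalQ c.P 1 - v) + 2 * scCenNorm (scCenResQ c.w c.r c.P) < ε')

def chkK (c : ScCenCell) (v ε ε' : ℚ) : Bool :=
  decide (0 < c.r) && decide (ε + scCenAbs (scCenEvalQ c.K (-1) - v)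
      + 2 * (scCenNorm (scCenResK c.w c.r c.P c.K) + c.r * scCenNorm c.K * scCenEQ) < ε')

theorem QBd.mono {c : ScCenCell} {ε ε' : ℚ} (h : c.QBd ε) (he : ε ≤ ε') : c.QBd ε' :=
  fun x hx => (h x hx).trans (by exact_mod_cast he)

theorem KBd.mono {c : ScCenCell} {ε ε' : ℚ} (h : c.KBd ε) (he : ε ≤ ε') : c.KBd ε' :=
  fun x hx => (h x hx).trans (by exact_mod_cast he)

theorem qbd_of_chk (H : ScCenHyp) (c : ScCenCell) {v ε ε' : ℚ} (hc : c.chkQ v ε ε' = true)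
    (h1 : |scQ ((c.w : ℝ) + (c.r : ℝ)) - (v : ℝ)| ≤ (ε : ℝ)) : c.QBd ε' := by
  simp only [chkQ, Bool.and_eq_true, decide_eq_true_eq] at hc
  obtain ⟨⟨c1, c2⟩, c3⟩ := hc
  exact scCen_q_step (q := scQ) H.dq H.qpos c.w c.r c1 c.P c2 v ε ε' c3 h1

theorem qbd_step (H : ScCenHyp) (c c' : ScCenCell) {ε ε' : ℚ} (hadj : c.w + c.r = c'.w - c'.r)
    (hc : c.chkQ (scCenEvalQ c'.P (-1)) ε ε' = true) (h' : c'.QBd ε) : c.QBd ε' := by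
  refine qbd_of_chk H c hc ?_
  have h := h' (-1) (by simp)
  have e1 : (c'.w : ℝ) + (c'.r : ℝ) * (-1) = (c.w : ℝ) + (c.r : ℝ) := by
    have : ((c.w + c.r : ℚ) : ℝ) = ((c'.w - c'.r : ℚ) : ℝ) := by rw [hadj]
    push_cast at this
    linarith
  rw [e1] at h
  rw [scCenEvalQ_cast]
  simpa using h

theorem kbd_of_chk (H : ScCenHyp) (c : ScCenCell) {v ε ε' : ℚ} (hq : c.QBd scCenEQ)
    (hc : c.chkK v ε ε' = true)
    (h0 : |scK ((c.w : ℝ) - (c.r : ℝ)) - (v : ℝ)| ≤ (ε : ℝ)) : c.KBd ε' := by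
  simp only [chkK, Bool.and_eq_true, decide_eq_true_eq] at hc
  obtain ⟨c1, c2⟩ := hc
  exact scCen_k_step (q := scQ) (k := scK) H.dk H.dpos c.w c.r c1 c.P c.K scCenEQ hq v ε ε' c2 h0

theorem kbd_step (H : ScCenHyp) (c' c : ScCenCell) {ε ε' : ℚ} (hadj : c'.w + c'.r = c.w - c.r)
    (hq : c.QBd scCenEQ) (hc : c.chkK (scCenEvalQ c'.K 1) ε ε' = true) (h' : c'.KBd ε) :
    c.KBd ε' := by
  refine kbd_of_chk H c hq hc ?_
  have h := h' 1 (by simp)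
  have e1 : (c'.w : ℝ) + (c'.r : ℝ) * 1 = (c.w : ℝ) - (c.r : ℝ) := by
    have : ((c'.w + c'.r : ℚ) : ℝ) = ((c.w - c.r : ℚ) : ℝ) := by rw [hadj]
    push_cast at this
    linarith
  rw [e1] at h
  rw [scCenEvalQ_cast]
  simpa using h

/-- every point of the cell is `w + r x` with `|x| ≤ 1`. -/
theorem exists_x (c : ScCenCell) (hr : 0 < c.r) {a : ℝ} (h1 : (c.w : ℝ) - (c.r : ℝ) ≤ a)
    (h2 : a ≤ (c.w : ℝ) + (c.r : ℝ)) : ∃ x : ℝ, |x| ≤ 1 ∧ a = (c.w : ℝ) + (c.r : ℝ) * x := by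
  have hr' : (0 : ℝ) < (c.r : ℝ) := by exact_mod_cast hr
  refine ⟨(a - (c.w : ℝ)) / (c.r : ℝ), ?_, by field_simp; ring⟩
  rw [abs_le]
  constructor
  · rw [le_div_iff₀ hr']; linarith
  · rw [div_le_iff₀ hr']; linarith

theorem ineq (c : ScCenCell) (hr : 0 < c.r) (hq : c.QBd scCenEQ) (hk : c.KBd scCenEK)
    {bmin bmax Lmax Kmin Kmax Jmax l1 m zmin zmax chimax : ℚ}
    (hc : c.base.chk bmin bmax Lmax Kmin Kmax Jmax l1 m zmin zmax chimax = true)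
    {a : ℝ} (h1 : (c.w : ℝ) - (c.r : ℝ) ≤ a) (h2 : a ≤ (c.w : ℝ) + (c.r : ℝ)) :
    ScCenIneq (bmin : ℝ) (bmax : ℝ) (Lmax : ℝ) (Kmin : ℝ) (Kmax : ℝ) (Jmax : ℝ) (l1 : ℝ) (m : ℝ)
      (zmin : ℝ) (zmax : ℝ) (chimax : ℝ) a := by
  obtain ⟨x, hx, rfl⟩ := c.exists_x hr h1 h2
  exact (c.base_valid hq hk).ineq hc hx

theorem p7 (c : ScCenCell) (hr : 0 < c.r) (hq : c.QBd scCenEQ) (hk : c.KBd scCenEK)
    (hc : 0 < c.base.e5.lower)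
    {a : ℝ} (h1 : (c.w : ℝ) - (c.r : ℝ) ≤ a) (h2 : a ≤ (c.w : ℝ) + (c.r : ℝ)) :
    1 < scP a * (7 + a ^ 2) := by
  obtain ⟨x, hx, rfl⟩ := c.exists_x hr h1 h2
  have := (c.base_valid hq hk).e5.pos_of_lower hc hx
  linarith

theorem pc (c : ScCenCell) (hr : 0 < c.r) (hq : c.QBd scCenEQ) (hk : c.KBd scCenEK) (t : ℚ)
    (hc : 0 < (c.base.e5c t).lower)
    {a : ℝ} (h1 : (c.w : ℝ) - (c.r : ℝ) ≤ a) (h2 : a ≤ (c.w : ℝ) + (c.r : ℝ)) :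
    (t : ℝ) < scP a := by
  obtain ⟨x, hx, rfl⟩ := c.exists_x hr h1 h2
  have := ((c.base_valid hq hk).e5c t).pos_of_lower hc hx
  linarith

end ScCenCell

end Claimed.Agent.R260
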