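/-
Row 260, SC: the Gaussian excess moments
`E_j(a) = ∫_{x>a} (x-a)^j e^{-x²/2} dx`,  `m_j(a) = E_j(a) / e^{-a²/2} = ∫_0^∞ v^j e^{-av-v²/2} dv`,
and the normalised moments `I_j(r) = r^{j+1} m_j(r)`.

They are DEFINED by their recurrence (`E₀ = scTail`, `E₁ = scW - a scTail`,
`E_{j+2} = (j+1) E_j - a E_{j+1}`); positivity follows from `E_{j+1}' = -(j+1) E_j` and
`E_j → 0` at `+∞` (no integral is ever computed).  Positivity plus the recurrence give all the
alternating (Mills type) bounds.  Owner: helper223 (SC-MOM).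
-/
import Claimed.Agent.R260.ScLemma21

set_option autoImplicit false

namespace Claimed.Agent.R260

open Filter Topology

/-! ### the unnormalised moments -/

/-- `E_j(a) = ∫_{x>a} (x-a)^j e^{-x²/2} dx`, by recurrence. -/
noncomputable def scMomE : ℕ → ℝ → ℝ
  | 0, a => scTail a
  | 1, a => scW a - a * scTail a
  | (j + 2), a => ((j : ℝ) + 1) * scMomE j a - a * scMomE (j + 1) a

theorem scMomE_zero (a : ℝ) : scMomE 0 a = scTail a := rfl

theorem scMomE_one (a : ℝ) : scMomE 1 a = scW a - a * scTail a := rfl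

theorem scMomE_add_two (j : ℕ) (a : ℝ) :
    scMomE (j + 2) a = ((j : ℝ) + 1) * scMomE j a - a * scMomE (j + 1) a := rfl

theorem hasDerivAt_scMomE_zero (a : ℝ) : HasDerivAt (scMomE 0) (-scW a) a :=
  hasDerivAt_scTail a

/-- `E_{j+1}' = -(j+1) E_j`. -/
theorem hasDerivAt_scMomE_succ :
    ∀ (j : ℕ) (a : ℝ), HasDerivAt (scMomE (j + 1)) (-((j : ℝ) + 1) * scMomE j a) a
  | 0, a => by
    have h := (hasDerivAt_scW a).fun_sub ((hasDerivAt_id' a).fun_mul (hasDerivAt_scTail a))
    have e : scMomE (0 + 1) = fun x => scW x - x * scTail x := by funext x; rfl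
    rw [e]
    refine h.congr_deriv ?_
    rw [scMomE_zero]
    push_cast
    ring
  | 1, a => by
    have h0 := hasDerivAt_scMomE_zero a
    have h1 := hasDerivAt_scMomE_succ 0 a
    have h := (h0.const_mul (((0 : ℕ) : ℝ) + 1)).fun_sub ((hasDerivAt_id' a).fun_mul h1)
    have e : scMomE (1 + 1) =
        fun x => (((0 : ℕ) : ℝ) + 1) * scMomE 0 x - x * scMomE (0 + 1) x := by funext x; rfl
    rw [e]
    refine h.congr_deriv ?_
    have e1 : scMomE (0 + 1) a = scW a - a * scTail a := rfl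
    rw [e1, scMomE_zero]
    push_cast
    ring
  | (j + 2), a => by
    have h0 := hasDerivAt_scMomE_succ j a
    have h1 := hasDerivAt_scMomE_succ (j + 1) a
    have h := (h0.const_mul (((j + 1 : ℕ) : ℝ) + 1)).fun_sub ((hasDerivAt_id' a).fun_mul h1)
    have e : scMomE (j + 2 + 1) =
        fun x => (((j + 1 : ℕ) : ℝ) + 1) * scMomE (j + 1) x - x * scMomE (j + 1 + 1) x := by
      funext x; rfl
    rw [e]
    refine h.congr_deriv ?_
    have e2 : scMomE (j + 1 + 1) a = ((j : ℝ) + 1) * scMomE j a - a * scMomE (j + 1) a := rfl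
    rw [e2]
    push_cast
    ring

theorem scMom_pow_mul_scTail_tendsto (n : ℕ) :
    Tendsto (fun a => a ^ n * scTail a) atTop (𝓝 0) := by
  refine squeeze_zero' ?_ ?_ (sc_pow_mul_scW_tendsto n)
  · filter_upwards [eventually_ge_atTop 0] with a ha
    exact mul_nonneg (pow_nonneg ha n) (scTail_pos a).le
  · filter_upwards [eventually_ge_atTop 1] with a ha
    have h1 := sc_E1_pos a
    have h2 := scTail_pos a
    have h3 : scTail a ≤ scW a := by nlinarith
    exact mul_le_mul_of_nonneg_left h3 (pow_nonneg (by linarith) n)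

/-- `a^n E_j(a) → 0`. -/
theorem scMomE_tendsto :
    ∀ (j n : ℕ), Tendsto (fun a => a ^ n * scMomE j a) atTop (𝓝 0)
  | 0, n => scMom_pow_mul_scTail_tendsto n
  | 1, n => by
    have h := (sc_pow_mul_scW_tendsto n).sub (scMom_pow_mul_scTail_tendsto (n + 1))
    rw [sub_zero] at h
    refine h.congr fun a => ?_
    rw [scMomE_one]
    ring
  | (j + 2), n => by
    have h := ((scMomE_tendsto j n).const_mul ((j : ℝ) + 1)).sub (scMomE_tendsto (j + 1) (n + 1))
    rw [mul_zero, sub_zero] at h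
    refine h.congr fun a => ?_
    rw [scMomE_add_two]
    ring

/-- positivity of all moments. -/
theorem scMomE_pos : ∀ (j : ℕ) (a : ℝ), 0 < scMomE j a
  | 0, a => scTail_pos a
  | (j + 1), a => by
    refine sc_pos_of_deriv_neg (f := scMomE (j + 1))
      (f' := fun x => -((j : ℝ) + 1) * scMomE j x) (hasDerivAt_scMomE_succ j) ?_ ?_ a
    · intro x
      have h := scMomE_pos j x
      have hj : (0 : ℝ) < (j : ℝ) + 1 := by positivity
      nlinarith [mul_pos hj h]
    · simpa using scMomE_tendsto (j + 1) 0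

/-! ### the moments `m_j` -/

/-- `m_j(a) = ∫_0^∞ v^j e^{-av-v²/2} dv`. -/
noncomputable def scMom (j : ℕ) (a : ℝ) : ℝ := scMomE j a / scW a

theorem scMom_pos (j : ℕ) (a : ℝ) : 0 < scMom j a := div_pos (scMomE_pos j a) (scW_pos a)

theorem scMom_zero (a : ℝ) : scMom 0 a = scTail a / scW a := rfl

theorem scTail_eq_scMom (a : ℝ) : scTail a = scW a * scMom 0 a := by
  rw [scMom_zero]; field_simp [(scW_pos a).ne']

theorem scMom_one (a : ℝ) : scMom 1 a = 1 - a * scMom 0 a := by
  have hW := (scW_pos a).ne'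
  unfold scMom
  rw [scMomE_one, scMomE_zero]
  field_simp

theorem scMom_add_two (j : ℕ) (a : ℝ) :
    scMom (j + 2) a = ((j : ℝ) + 1) * scMom j a - a * scMom (j + 1) a := by
  have hW := (scW_pos a).ne'
  unfold scMom
  rw [scMomE_add_two]
  field_simp

theorem scMom_two (a : ℝ) : scMom 2 a = scMom 0 a - a * scMom 1 a := by
  have := scMom_add_two 0 a
  simpa using this

theorem scMom_three (a : ℝ) : scMom 3 a = 2 * scMom 1 a - a * scMom 2 a := by
  have := scMom_add_two 1 a
  norm_num at this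
  linarith

theorem scQ_eq_scMom (a : ℝ) : scQ a = 1 / scMom 0 a := by
  have hW := (scW_pos a).ne'
  have hT := (scTail_pos a).ne'
  unfold scQ
  rw [scMom_zero]
  field_simp

theorem scQ_mul_scMom (a : ℝ) : scQ a * scMom 0 a = 1 := by
  rw [scQ_eq_scMom]
  field_simp [(scMom_pos 0 a).ne']

theorem scD_eq_scMom (a : ℝ) : scD a = scMom 1 a / scMom 0 a := by
  have h0 := (scMom_pos 0 a).ne'
  unfold scD
  rw [scQ_eq_scMom, scMom_one]
  field_simp

theorem scK_eq_scMom (a : ℝ) : scK a = scT a * scMom 0 a := by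
  have h0 := (scMom_pos 0 a).ne'
  unfold scK
  rw [scQ_eq_scMom]
  field_simp

theorem scB_eq_scMom (a : ℝ) : scB a = 1 - scT a * scMom 1 a := by
  have h0 := (scMom_pos 0 a).ne'
  unfold scB
  rw [scK_eq_scMom, scD_eq_scMom]
  field_simp

theorem scL_eq_scMom (a : ℝ) : scL a = scT a * scMom 2 a - scD a := by
  unfold scL
  rw [scB_eq_scMom, scK_eq_scMom, scMom_two]
  unfold scD
  ring

theorem scL1_eq_scMom (a : ℝ) :
    scL1 a = 2 - scD a * (scQ a + a) - scT a * scMom 3 a := by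
  unfold scL1
  rw [scL_eq_scMom, scB_eq_scMom, scMom_three]
  ring

theorem scT_eq_scMom (a : ℝ) :
    scT a = a ^ 2 / 2 + Real.log (Real.sqrt (2 * Real.pi)) - Real.log (scMom 0 a) := by
  have hs : (0 : ℝ) < Real.sqrt (2 * Real.pi) := Real.sqrt_pos.mpr (by positivity)
  unfold scT
  rw [scTail_eq_scMom, Real.log_div (mul_pos (scW_pos a) (scMom_pos 0 a)).ne' hs.ne',
    Real.log_mul (scW_pos a).ne' (scMom_pos 0 a).ne']
  unfold scW
  rw [Real.log_exp]
  ring

/-! ### abstract moment systems and their alternating bounds -/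

/-- the coefficients `(j+2i)! / (2^i i!)`. -/
noncomputable def scMomC (j i : ℕ) : ℝ := ((j + 2 * i).factorial : ℝ) / (2 ^ i * i.factorial)

theorem scMomC_zero_right (j : ℕ) : scMomC j 0 = j.factorial := by
  simp [scMomC]

theorem scMomC_zero_succ (i : ℕ) : scMomC 0 (i + 1) = scMomC 1 i := by
  unfold scMomC
  have h1 : (0 + 2 * (i + 1)).factorial = (2 * i + 2) * (1 + 2 * i).factorial := by
    rw [show 0 + 2 * (i + 1) = (1 + 2 * i) + 1 by ring, Nat.factorial_succ]
    ring
  have h2 : (i + 1).factorial = (i + 1) * i.factorial := Nat.factorial_succ i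
  rw [h1, h2]
  have hi : (i.factorial : ℝ) ≠ 0 := by exact_mod_cast i.factorial_ne_zero
  push_cast
  field_simp
  ring

theorem scMomC_succ_succ (j i : ℕ) :
    scMomC (j + 1) (i + 1) = ((j : ℝ) + 1) * scMomC j (i + 1) + scMomC (j + 2) i := by
  unfold scMomC
  have h1 : (j + 1 + 2 * (i + 1)).factorial = (j + 2 * i + 3) * (j + 2 + 2 * i).factorial := by
    rw [show j + 1 + 2 * (i + 1) = (j + 2 + 2 * i) + 1 by ring, Nat.factorial_succ]
    ring
  have h3 : (j + 2 * (i + 1)).factorial = (j + 2 + 2 * i).factorial := by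
    rw [show j + 2 * (i + 1) = j + 2 + 2 * i by ring]
  have h2 : (i + 1).factorial = (i + 1) * i.factorial := Nat.factorial_succ i
  rw [h1, h2, h3]
  have hi : (i.factorial : ℝ) ≠ 0 := by exact_mod_cast i.factorial_ne_zero
  push_cast
  field_simp
  ring

/-- partial sums `∑_{i<k} (-u)^i (j+2i)!/(2^i i!)`. -/
noncomputable def scMomS (u : ℝ) (k j : ℕ) : ℝ := ∑ i ∈ Finset.range k, (-u) ^ i * scMomC j i

theorem scMomS_succ_zero (u : ℝ) (k : ℕ) : scMomS u (k + 1) 0 = 1 - u * scMomS u k 1 := by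
  unfold scMomS
  rw [Finset.sum_range_succ', Finset.mul_sum]
  simp only [pow_zero, scMomC_zero_right, Nat.factorial_zero, Nat.cast_one, mul_one]
  rw [add_comm, sub_eq_add_neg, ← Finset.sum_neg_distrib]
  congr 1
  refine Finset.sum_congr rfl fun i _ => ?_
  rw [scMomC_zero_succ]
  ring

theorem scMomS_succ_succ (u : ℝ) (k j : ℕ) :
    scMomS u (k + 1) (j + 1) = ((j : ℝ) + 1) * scMomS u (k + 1) j - u * scMomS u k (j + 2) := by
  unfold scMomS
  rw [Finset.sum_range_succ', Finset.sum_range_succ' _ k, Finset.mul_sum, mul_add, Finset.mul_sum]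
  simp only [pow_zero, scMomC_zero_right, one_mul]
  have h0 : ((j + 1).factorial : ℝ) = ((j : ℝ) + 1) * j.factorial := by
    rw [Nat.factorial_succ]; push_cast; ring
  rw [h0]
  have : ∑ i ∈ Finset.range k, (-u) ^ (i + 1) * scMomC (j + 1) (i + 1) =
      ∑ i ∈ Finset.range k, ((j : ℝ) + 1) * ((-u) ^ (i + 1) * scMomC j (i + 1)) -
        ∑ i ∈ Finset.range k, u * ((-u) ^ i * scMomC (j + 2) i) := by
    rw [← Finset.sum_sub_distrib]
    refine Finset.sum_congr rfl fun i _ => ?_
    rw [scMomC_succ_succ]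
    ring
  rw [this]
  ring

/-- **Alternating bounds** for a positive solution of the moment recurrence. -/
theorem scMom_alt_aux {u : ℝ} (hu : 0 < u) {I : ℕ → ℝ} (hpos : ∀ j, 0 < I j)
    (h0 : I 0 + u * I 1 = 1) (hs : ∀ j : ℕ, I (j + 1) + u * I (j + 2) = ((j : ℝ) + 1) * I j) :
    ∀ k j : ℕ, 0 < (-1 : ℝ) ^ k * (I j - scMomS u k j) := by
  intro k
  induction k with
  | zero => intro j; simpa [scMomS] using hpos j
  | succ k ih =>
    intro j
    induction j with
    | zero =>
      rw [scMomS_succ_zero]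
      have h1 := ih 1
      have e : (-1 : ℝ) ^ (k + 1) * (I 0 - (1 - u * scMomS u k 1)) =
          u * ((-1 : ℝ) ^ k * (I 1 - scMomS u k 1)) := by
        have : I 0 = 1 - u * I 1 := by linarith
        rw [this, pow_succ]
        ring
      rw [e]
      exact mul_pos hu h1
    | succ j ihj =>
      rw [scMomS_succ_succ]
      have h1 := ih (j + 2)
      have e : (-1 : ℝ) ^ (k + 1) *
          (I (j + 1) - (((j : ℝ) + 1) * scMomS u (k + 1) j - u * scMomS u k (j + 2))) =
          ((j : ℝ) + 1) * ((-1 : ℝ) ^ (k + 1) * (I j - scMomS u (k + 1) j)) +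
            u * ((-1 : ℝ) ^ k * (I (j + 2) - scMomS u k (j + 2))) := by
        have : I (j + 1) = ((j : ℝ) + 1) * I j - u * I (j + 2) := by linarith [hs j]
        rw [this, pow_succ]
        ring
      rw [e]
      have hj : (0 : ℝ) < (j : ℝ) + 1 := by positivity
      exact add_pos (mul_pos hj ihj) (mul_pos hu h1)

/-! ### the normalised moments -/

/-- `I_j(r) = r^{j+1} m_j(r) = ∫_0^∞ v^j e^{-v-v²/(2r²)} dv`. -/
noncomputable def scMomI (r : ℝ) (j : ℕ) : ℝ := r ^ (j + 1) * scMom j r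

theorem scMomI_pos {r : ℝ} (hr : 0 < r) (j : ℕ) : 0 < scMomI r j :=
  mul_pos (pow_pos hr _) (scMom_pos j r)

theorem scMomI_zero_add {r : ℝ} (hr : 0 < r) : scMomI r 0 + (r ^ 2)⁻¹ * scMomI r 1 = 1 := by
  unfold scMomI
  rw [scMom_one]
  field_simp
  ring

theorem scMomI_succ_add {r : ℝ} (hr : 0 < r) (j : ℕ) :
    scMomI r (j + 1) + (r ^ 2)⁻¹ * scMomI r (j + 2) = ((j : ℝ) + 1) * scMomI r j := by
  unfold scMomI
  rw [scMom_add_two]
  field_simp
  ring

theorem scMomI_alt {r : ℝ} (hr : 0 < r) (k j : ℕ) :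
    0 < (-1 : ℝ) ^ k * (scMomI r j - scMomS (r ^ 2)⁻¹ k j) :=
  scMom_alt_aux (inv_pos.mpr (pow_pos hr 2)) (scMomI_pos hr) (scMomI_zero_add hr)
    (scMomI_succ_add hr) k j

theorem scMomI_lower {r : ℝ} (hr : 0 < r) {k : ℕ} (hk : Even k) (j : ℕ) :
    scMomS (r ^ 2)⁻¹ k j < scMomI r j := by
  have h := scMomI_alt hr k j
  rw [hk.neg_one_pow, one_mul] at h
  linarith

theorem scMomI_upper {r : ℝ} (hr : 0 < r) {k : ℕ} (hk : Odd k) (j : ℕ) :
    scMomI r j < scMomS (r ^ 2)⁻¹ k j := by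
  have h := scMomI_alt hr k j
  rw [hk.neg_one_pow] at h
  linarith

end Claimed.Agent.R260
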