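/-
Row 260, SC-CENTRAL, file 9: the two analytic anchors (cert:Mills) of the central certificate.
Owner: helper213.
-/
import Claimed.Agent.R260.ScLemma21
import Claimed.Agent.R260.ScMom
import Claimed.Agent.R260.ScCenChain

set_option autoImplicit false

namespace Claimed.Agent.R260

theorem scCen_S_10_12 :
    scMomS ((10 : ℝ) ^ 2)⁻¹ 12 0 = 396114385886826173877 / 400000000000000000000 := by
  simp only [scMomS, Finset.sum_range_succ, Finset.sum_range_zero, scMomC]
  norm_num [Nat.factorial]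

theorem scCen_S_10_13 :
    scMomS ((10 : ℝ) ^ 2)⁻¹ 13 0 = 39611438588695266753429 / 40000000000000000000000 := by
  simp only [scMomS, Finset.sum_range_succ, Finset.sum_range_zero, scMomC]
  norm_num [Nat.factorial]

theorem scCen_S_6_14 :
    scMomS ((6 : ℝ) ^ 2)⁻¹ 14 0 = 683917566885318961 / 701982420492091392 := by
  simp only [scMomS, Finset.sum_range_succ, Finset.sum_range_zero, scMomC]
  norm_num [Nat.factorial]

theorem scCen_S_6_15 :
    scMomS ((6 : ℝ) ^ 2)⁻¹ 15 0 = 2735670365144406469 / 2807929681968365568 := by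
  simp only [scMomS, Finset.sum_range_succ, Finset.sum_range_zero, scMomC]
  norm_num [Nat.factorial]

/-- `|q(10) - 10.098093234| < 4·10⁻¹⁰`. -/
theorem scCen_q10 : |scQ 10 - 10098093234 / 10 ^ 9| < 4 / 10 ^ 10 := by
  have hlo := scMomI_lower (r := 10) (by norm_num) (k := 12) (by decide) 0
  have hhi := scMomI_upper (r := 10) (by norm_num) (k := 13) (by decide) 0
  rw [scCen_S_10_12] at hlo
  rw [scCen_S_10_13] at hhi
  have hm : 0 < scMom 0 10 := scMom_pos 0 10
  have hI : scMomI 10 0 = 10 * scMom 0 10 := by simp [scMomI]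
  rw [hI] at hlo hhi
  rw [scQ_eq_scMom, abs_lt]
  constructor
  · rw [lt_sub_iff_add_lt, lt_div_iff₀ hm]
    nlinarith
  · rw [sub_lt_iff_lt_add, div_lt_iff₀ hm]
    nlinarith

/-- `φ(6) < 7·10⁻⁹`, unnormalised. -/
theorem scCen_W6 : scW 6 < 7 / 10 ^ 9 * Real.sqrt (2 * Real.pi) := by
  have hs : (12 / 5 : ℝ) < Real.sqrt (2 * Real.pi) := by
    rw [Real.lt_sqrt (by norm_num)]
    nlinarith [Real.pi_gt_three]
  have he : (60000000 : ℝ) < Real.exp 18 := by
    have h1 : Real.exp 18 = Real.exp 1 ^ 18 := by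
      rw [← Real.exp_nat_mul]; norm_num
    rw [h1]
    have h2 : (2.7182818283 : ℝ) ^ 18 < Real.exp 1 ^ 18 :=
      pow_lt_pow_left₀ Real.exp_one_gt_d9 (by norm_num) (by norm_num)
    refine lt_trans ?_ h2
    norm_num
  have hW : scW 6 = (Real.exp 18)⁻¹ := by
    unfold scW
    rw [← Real.exp_neg]
    norm_num
  rw [hW]
  have h3 : (Real.exp 18)⁻¹ < (60000000 : ℝ)⁻¹ := inv_strictAnti₀ (by norm_num) he
  nlinarith

/-- `|k(-6) - .16237766| < 4·10⁻⁸`. -/
theorem scCen_k6 : |scK (-6) - 16237766 / 10 ^ 8| < 4 / 10 ^ 8 := by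
  have hlo := scMomI_lower (r := 6) (by norm_num) (k := 14) (by decide) 0
  have hhi := scMomI_upper (r := 6) (by norm_num) (k := 15) (by decide) 0
  rw [scCen_S_6_14] at hlo
  rw [scCen_S_6_15] at hhi
  have hI : scMomI 6 0 = 6 * scMom 0 6 := by simp [scMomI]
  rw [hI] at hlo hhi
  set s : ℝ := Real.sqrt (2 * Real.pi) with hs
  set T : ℝ := scTail 6 with hT
  set W : ℝ := scW 6 with hW
  have hTpos : 0 < T := scTail_pos 6
  have hWpos : 0 < W := scW_pos 6
  have hTs : T < s := scTail_lt 6
  have hspos : 0 < s := hTpos.trans hTs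
  have hm0 : scMom 0 6 = T / W := scMom_zero 6
  have hTn : scTail (-6) = s - T := by
    have := scTail_add_neg 6
    linarith
  have hK : scK (-6) = -Real.log ((s - T) / s) * ((s - T) / W) := by
    unfold scK scT scQ
    rw [hTn, scW_neg, ← hs, ← hW]
    have h1 : s - T ≠ 0 := by linarith
    field_simp
  have hx : 0 < (s - T) / s := div_pos (by linarith) hspos
  have hup : -Real.log ((s - T) / s) ≤ T / (s - T) := by
    have := Real.one_sub_inv_le_log_of_pos hx
    have e : 1 - ((s - T) / s)⁻¹ = -(T / (s - T)) := by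
      have h1 : s - T ≠ 0 := by linarith
      field_simp
      ring
    rw [e] at this
    linarith
  have hdn : T / s ≤ -Real.log ((s - T) / s) := by
    have := Real.log_le_sub_one_of_pos hx
    have e : (s - T) / s - 1 = -(T / s) := by
      field_simp
      ring
    rw [e] at this
    linarith
  have hfac : 0 < (s - T) / W := div_pos (by linarith) hWpos
  have hKup : scK (-6) ≤ T / W := by
    rw [hK]
    calc -Real.log ((s - T) / s) * ((s - T) / W) ≤ T / (s - T) * ((s - T) / W) :=
          mul_le_mul_of_nonneg_right hup hfac.le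
      _ = T / W := by
          have h1 : s - T ≠ 0 := by linarith
          field_simp
  have hKdn : T / W - (T / W) ^ 2 * (W / s) ≤ scK (-6) := by
    rw [hK]
    calc T / W - (T / W) ^ 2 * (W / s) = T / s * ((s - T) / W) := by
          field_simp
      _ ≤ -Real.log ((s - T) / s) * ((s - T) / W) := mul_le_mul_of_nonneg_right hdn hfac.le
  have hWs : W / s < 7 / 10 ^ 9 := by
    rw [div_lt_iff₀ hspos]
    exact scCen_W6
  rw [hm0] at hlo hhi
  set m : ℝ := T / W with hm
  have hmpos : 0 < m := div_pos hTpos hWpos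
  have hm1 : m < 1 / 6 := by nlinarith
  have hsq : m ^ 2 * (W / s) < (1 / 36) * (7 / 10 ^ 9) := by
    have h1 : m ^ 2 < 1 / 36 := by nlinarith
    have h2 : 0 < W / s := div_pos hWpos hspos
    calc m ^ 2 * (W / s) < 1 / 36 * (W / s) := mul_lt_mul_of_pos_right h1 h2
      _ < 1 / 36 * (7 / 10 ^ 9) := mul_lt_mul_of_pos_left hWs (by norm_num)
  rw [abs_lt]
  constructor
  · nlinarith
  · nlinarith

theorem scCen_hyp : ScCenHyp where
  dq := hasDerivAt_scQ
  dk := hasDerivAt_scK
  qpos := scQ_pos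
  dpos := scD_pos
  q10 := scCen_q10
  k6 := scCen_k6

end Claimed.Agent.R260
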