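/-
Row 260, SC: Appendix A, the rational certificate on `[-6,10]`: MAIN STATEMENTS (interface).
Owner: helper213 (SC-CENTRAL).  Proofs: ScCenPoly (enclosure arithmetic), ScCenOde (ODE comparison),
ScCenAlg (division algebra), ScCenGroups (groups G1-G4), ScCenData/ScCenCert (kernel-checked
rational certificate), ScCenRows (assembly), ScCenAnchor (the two Mills anchors).
-/
import Claimed.Agent.R260.ScLemma21
import Claimed.Agent.R260.ScDefs2
import Claimed.Agent.R260.ScCenRows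
import Claimed.Agent.R260.ScCenAnchor

set_option autoImplicit false

namespace Claimed.Agent.R260

theorem scCen_O {a : ℝ} (h1 : -6 ≤ a) (h2 : a ≤ -3) : ScBdO a := scCenH_O scCen_hyp h1 h2

theorem scCen_P1 {a : ℝ} (h1 : -3 ≤ a) (h2 : a ≤ -2) : ScBdP1 a := scCenH_P1 scCen_hyp h1 h2

theorem scCen_R1 {a : ℝ} (h1 : -2 ≤ a) (h2 : a ≤ -1) : ScBdR1 a := scCenH_R1 scCen_hyp h1 h2

theorem scCen_U1 {a : ℝ} (h1 : -1 ≤ a) (h2 : a ≤ 1 / 2) : ScBdU1 a := scCenH_U1 scCen_hyp h1 h2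

theorem scCen_V1 {a : ℝ} (h1 : 1 / 2 ≤ a) (h2 : a ≤ 4) : ScBdV1 a := scCenH_V1 scCen_hyp h1 h2

theorem scCen_T1 {a : ℝ} (h1 : 4 ≤ a) (h2 : a ≤ 10) : ScBdT1 a := scCenH_T1 scCen_hyp h1 h2

theorem scCen_q_neg1 : 287 / 1000 < scQ (-1) := scCenH_q_neg1 scCen_hyp

theorem scCen_q_neg2 : scQ (-2) < 56 / 1000 := scCenH_q_neg2 scCen_hyp

theorem scCen_q_neg3 : scQ (-3) < 5 / 1000 := scCenH_q_neg3 scCen_hyp

theorem scCen_q_four : 4 < scQ 4 := scCenH_q_four scCen_hyp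

end Claimed.Agent.R260
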