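/-
Row 260, SC-NEG (Appendix A, "The negative tail", `a = -r ≤ -6`), part A: analysis.
`k, b, l, l'` at `-r` differ from the Gaussian excess moments `m_j(r)` by multiples of `q(-r)`,
and `q(-r) ≤ e^{-r²/2}` is tiny.  Output: the boxes `scNeg_box_*` and the anchor `scNeg_anchor`.
Owner: helper104.
-/
import Claimed.Agent.R260.ScMom
import Claimed.Agent.R260.ScBasic2

set_option autoImplicit false

namespace Claimed.Agent.R260

open Set Filter Topology

theorem scNeg_exp18 : Real.exp (-18) < 153 / 10 ^ 10 := by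
  have h := Real.exp_one_gt_d9
  have h18 : Real.exp 18 = Real.exp 1 ^ 18 := by
    rw [← Real.exp_nat_mul]; norm_num
  have h2 : (65600000 : ℝ) < Real.exp 18 := by
    rw [h18]
    calc (65600000 : ℝ) < 2.7182818283 ^ 18 := by norm_num
      _ < Real.exp 1 ^ 18 := pow_lt_pow_left₀ h (by norm_num) (by norm_num)
  rw [Real.exp_neg]
  calc (Real.exp 18)⁻¹ < (65600000 : ℝ)⁻¹ := by
        apply inv_strictAnti₀ (by norm_num) h2
    _ < 153 / 10 ^ 10 := by norm_num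

theorem scNeg_scW_six : scW 6 < 153 / 10 ^ 10 := by
  have : scW 6 = Real.exp (-18) := by unfold scW; norm_num
  rw [this]; exact scNeg_exp18

/-- `r^7 e^{-r²/2}` is nonincreasing on `[6,∞)`. -/
theorem scNeg_pow7_antitone : AntitoneOn (fun r : ℝ => r ^ 7 * scW r) (Ici 6) := by
  have hd : ∀ x : ℝ, HasDerivAt (fun r : ℝ => r ^ 7 * scW r) (x ^ 6 * (7 - x ^ 2) * scW x) x := by
    intro x
    have h7 : HasDerivAt (fun r : ℝ => r ^ 7) (7 * x ^ 6) x := by simpa using hasDerivAt_pow 7 x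
    exact (h7.fun_mul (hasDerivAt_scW x)).congr_deriv (by ring)
  apply antitoneOn_of_deriv_nonpos (convex_Ici 6)
  · exact fun x _ => (hd x).continuousAt.continuousWithinAt
  · exact fun x _ => (hd x).differentiableAt.differentiableWithinAt
  · intro x hx
    rw [interior_Ici] at hx
    have hx6 : (6:ℝ) < x := hx
    rw [(hd x).deriv]
    have h1 : 7 - x ^ 2 ≤ 0 := by nlinarith
    have h2 : 0 ≤ x ^ 6 * scW x := mul_nonneg (by positivity) (scW_pos x).le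
    nlinarith

theorem scNeg_pow7 {r : ℝ} (hr : 6 ≤ r) : r ^ 7 * scW r ≤ 43 / 10000 := by
  have h := scNeg_pow7_antitone (mem_Ici.mpr (le_refl (6:ℝ))) (mem_Ici.mpr hr) hr
  simp only at h
  have h6 := scNeg_scW_six
  calc r ^ 7 * scW r ≤ 6 ^ 7 * scW 6 := h
    _ ≤ 6 ^ 7 * (153 / 10 ^ 10) := by
        apply mul_le_mul_of_nonneg_left h6.le (by norm_num)
    _ ≤ 43 / 10000 := by norm_num

theorem sc_sqrt_two_pi_gt : (5 / 2 : ℝ) < Real.sqrt (2 * Real.pi) := by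
  rw [show (5 / 2 : ℝ) = Real.sqrt ((5 / 2) ^ 2) by rw [Real.sqrt_sq (by norm_num)]]
  apply Real.sqrt_lt_sqrt (by norm_num)
  have := Real.pi_gt_d2
  nlinarith

/-- `q(-r) ≤ e^{-r²/2}` for `r ≥ 0`. -/
theorem scNeg_scQ_le {r : ℝ} (hr : 0 ≤ r) : scQ (-r) ≤ scW r := by
  unfold scQ
  rw [scW_neg, div_le_iff₀ (scTail_pos _)]
  have h1 : scTail 0 ≤ scTail (-r) := scTail_strictAnti.antitone (by linarith)
  have h2 := scTail_zero
  have h3 := sc_sqrt_two_pi_gt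
  have h4 : (1:ℝ) ≤ scTail (-r) := by linarith
  nlinarith [scW_pos r]

/-! ### comparison of `k, b, l, l'` at `-r` with the moments at `r` -/

theorem scNeg_scTail_neg (r : ℝ) : scTail (-r) = Real.sqrt (2 * Real.pi) - scTail r := by
  have := scTail_add_neg r
  linarith

/-- `t(-r) ≤ m₀(r) q(-r)`. -/
theorem scNeg_scT_le (r : ℝ) : scT (-r) ≤ scMom 0 r * scQ (-r) := by
  have hS := sc_sqrt_two_pi_pos
  have hT' := scTail_pos (-r)
  have hW := scW_pos r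
  have h1 : scT (-r) = Real.log (Real.sqrt (2 * Real.pi) / scTail (-r)) := by
    rw [scT_eq, Real.log_div hS.ne' hT'.ne']
  have h2 := Real.log_le_sub_one_of_pos (div_pos hS hT')
  have h3 : scMom 0 r * scQ (-r) = Real.sqrt (2 * Real.pi) / scTail (-r) - 1 := by
    unfold scQ
    rw [scW_neg, scMom_zero]
    have := scNeg_scTail_neg r
    field_simp
    linarith
  rw [h1, h3]; exact h2

/-- `k(-r) ≤ m₀(r)`. -/
theorem scNeg_scK_le (r : ℝ) : scK (-r) ≤ scMom 0 r := by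
  unfold scK
  rw [div_le_iff₀ (scQ_pos _)]
  exact scNeg_scT_le r

/-- `m₀(r) - k(-r) ≤ m₀(r)² q(-r)`. -/
theorem scNeg_scK_ge (r : ℝ) : scMom 0 r - scMom 0 r ^ 2 * scQ (-r) ≤ scK (-r) := by
  have hS := sc_sqrt_two_pi_pos
  have hT' := scTail_pos (-r)
  have hT := scTail_pos r
  have hW := scW_pos r
  -- `t ≥ T/S`
  have h2 := Real.log_le_sub_one_of_pos (div_pos hT' hS)
  have h1 : scTail r / Real.sqrt (2 * Real.pi) ≤ scT (-r) := by
    unfold scT
    have : scTail (-r) / Real.sqrt (2 * Real.pi) - 1 = -(scTail r / Real.sqrt (2 * Real.pi)) := by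
      rw [scNeg_scTail_neg]; field_simp; ring
    linarith
  -- `k = t T'/W ≥ (T/S)(T'/W)`
  have hk : scK (-r) = scT (-r) * scTail (-r) / scW r := by
    unfold scK scQ
    rw [scW_neg]
    field_simp
  have hq : scQ (-r) = scW r / scTail (-r) := by unfold scQ; rw [scW_neg]
  rw [hk, hq, scMom_zero]
  have h3 : scTail r / Real.sqrt (2 * Real.pi) * scTail (-r) / scW r
      ≤ scT (-r) * scTail (-r) / scW r := by
    apply div_le_div_of_nonneg_right _ hW.le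
    exact mul_le_mul_of_nonneg_right h1 hT'.le
  refine le_trans ?_ h3
  -- `T/W - T²/(W T') ≤ T T'/(S W)` with `S = T + T'`
  have hSeq : Real.sqrt (2 * Real.pi) = scTail r + scTail (-r) := (scTail_add_neg r).symm
  rw [hSeq]
  have hsum : 0 < scTail r + scTail (-r) := by positivity
  generalize scTail r = T at *
  generalize scTail (-r) = T' at *
  generalize scW r = W at *
  have key : T / (T + T') * T' / W - (T / W - (T / W) ^ 2 * (W / T')) = T ^ 3 / (W * T' * (T + T')) := by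
    field_simp
    ring
  have : 0 ≤ T ^ 3 / (W * T' * (T + T')) := by positivity
  linarith

/-! ### bounds for the moments -/

theorem scNeg_scMom_eq {r : ℝ} (hr : 0 < r) (j : ℕ) :
    scMom j r = r⁻¹ ^ (j + 1) * scMomI r j := by
  unfold scMomI
  rw [← mul_assoc, ← mul_pow, inv_mul_cancel₀ hr.ne', one_pow, one_mul]

theorem scNeg_mom0 {r : ℝ} (hr : 0 < r) :
    (1 - r⁻¹ ^ 2) * r⁻¹ < scMom 0 r ∧ scMom 0 r < r⁻¹ := by
  have hx : 0 < r⁻¹ := inv_pos.mpr hr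
  have h1 := scMomI_lower hr (k := 2) (by decide) 0
  have h2 := scMomI_upper hr (k := 1) (by decide) 0
  simp [scMomS, Finset.sum_range_succ, scMomC, Nat.factorial] at h1 h2
  rw [← inv_pow] at h1
  have e : scMom 0 r = r⁻¹ ^ 1 * scMomI r 0 := scNeg_scMom_eq hr 0
  rw [e]
  generalize r⁻¹ = x at *
  generalize scMomI r 0 = N at *
  constructor
  · nlinarith [mul_lt_mul_of_pos_left h1 hx]
  · nlinarith [mul_lt_mul_of_pos_left h2 hx]

theorem scNeg_mom1 {r : ℝ} (hr : 0 < r) :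
    (1 - 3 * r⁻¹ ^ 2) * r⁻¹ ^ 2 < scMom 1 r ∧ scMom 1 r < r⁻¹ ^ 2 := by
  have hx : 0 < r⁻¹ := inv_pos.mpr hr
  have h1 := scMomI_lower hr (k := 2) (by decide) 1
  have h2 := scMomI_upper hr (k := 1) (by decide) 1
  simp [scMomS, Finset.sum_range_succ, scMomC, Nat.factorial] at h1 h2
  rw [← inv_pow] at h1
  have e : scMom 1 r = r⁻¹ ^ 2 * scMomI r 1 := scNeg_scMom_eq hr 1
  rw [e]
  generalize r⁻¹ = x at *
  generalize scMomI r 1 = N at *
  have hx2 : 0 < x ^ 2 := by positivity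
  constructor
  · nlinarith [mul_lt_mul_of_pos_left h1 hx2]
  · nlinarith [mul_lt_mul_of_pos_left h2 hx2]

theorem scNeg_mom2 {r : ℝ} (hr : 0 < r) :
    (2 - 12 * r⁻¹ ^ 2) * r⁻¹ ^ 3 < scMom 2 r ∧ scMom 2 r < 2 * r⁻¹ ^ 3 := by
  have hx : 0 < r⁻¹ := inv_pos.mpr hr
  have h1 := scMomI_lower hr (k := 2) (by decide) 2
  have h2 := scMomI_upper hr (k := 1) (by decide) 2
  simp [scMomS, Finset.sum_range_succ, scMomC, Nat.factorial] at h1 h2
  rw [← inv_pow] at h1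
  have e : scMom 2 r = r⁻¹ ^ 3 * scMomI r 2 := scNeg_scMom_eq hr 2
  rw [e]
  generalize r⁻¹ = x at *
  generalize scMomI r 2 = N at *
  have hx2 : 0 < x ^ 3 := by positivity
  constructor
  · nlinarith [mul_lt_mul_of_pos_left h1 hx2]
  · nlinarith [mul_lt_mul_of_pos_left h2 hx2]

theorem scNeg_mom3 {r : ℝ} (hr : 0 < r) :
    (6 - 60 * r⁻¹ ^ 2) * r⁻¹ ^ 4 < scMom 3 r ∧ scMom 3 r < 6 * r⁻¹ ^ 4 := by
  have hx : 0 < r⁻¹ := inv_pos.mpr hr
  have h1 := scMomI_lower hr (k := 2) (by decide) 3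
  have h2 := scMomI_upper hr (k := 1) (by decide) 3
  simp [scMomS, Finset.sum_range_succ, scMomC, Nat.factorial] at h1 h2
  rw [← inv_pow] at h1
  have e : scMom 3 r = r⁻¹ ^ 4 * scMomI r 3 := scNeg_scMom_eq hr 3
  rw [e]
  generalize r⁻¹ = x at *
  generalize scMomI r 3 = N at *
  have hx2 : 0 < x ^ 4 := by positivity
  constructor
  · nlinarith [mul_lt_mul_of_pos_left h1 hx2]
  · nlinarith [mul_lt_mul_of_pos_left h2 hx2]

/-! ### the boxes -/

/-- the enclosures of `k, b, l, l', q` at `a = -1/x` used in the negative tail. -/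
structure ScNegBox (x k b l l1 q : ℝ) : Prop where
  x_pos : 0 < x
  x_le : x ≤ 1 / 6
  q_pos : 0 < q
  q_le : q ≤ 43 / 10000 * x ^ 7
  k_lo : (1 - 101 / 100 * x ^ 2) * x ≤ k
  k_hi : k ≤ x
  b_lo : x ^ 2 * (1 - 301 / 100 * x ^ 2) ≤ b
  b_hi : b ≤ x ^ 2 * (1 + x ^ 2 / 100)
  l_lo : 2 * x ^ 3 * (1 - 601 / 100 * x ^ 2) ≤ l
  l_hi : l ≤ 2 * x ^ 3
  l1_pos : 0 < l1
  l1_hi : l1 ≤ 6 * x ^ 4 * (1 + x ^ 2 / 100)

theorem scNeg_pow_add_two_le {x : ℝ} (hx0 : 0 ≤ x) (hx : x ≤ 1 / 6) (n : ℕ) :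
    x ^ (n + 2) ≤ x ^ n / 36 := by
  have h2 : x ^ 2 ≤ 1 / 36 := by nlinarith
  have : x ^ (n + 2) = x ^ n * x ^ 2 := by ring
  rw [this]
  have := mul_le_mul_of_nonneg_left h2 (pow_nonneg hx0 n)
  linarith

/-- abstract form of the box computation. -/
theorem scNeg_box_aux {r x k b l l1 q m0 m1 m2 m3 : ℝ} (hr0 : 0 < r) (hx : 0 < x)
    (hx6 : x ≤ 1 / 6) (hxr : x * r = 1) (hq0 : 0 < q) (hq1 : q ≤ 43 / 10000 * x ^ 7)
    (m0l : (1 - x ^ 2) * x < m0) (m0u : m0 < x)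
    (m1l : (1 - 3 * x ^ 2) * x ^ 2 < m1) (m1u : m1 < x ^ 2)
    (m2l : (2 - 12 * x ^ 2) * x ^ 3 < m2) (m2u : m2 < 2 * x ^ 3)
    (m3l : (6 - 60 * x ^ 2) * x ^ 4 < m3) (m3u : m3 < 6 * x ^ 4)
    (hm0 : 0 < m0) (hk1 : k ≤ m0) (hk2 : m0 - m0 ^ 2 * q ≤ k) (hk0 : 0 < k)
    (em1 : m1 = 1 - r * m0) (em2 : m2 = m0 - r * m1) (em3 : m3 = 2 * m1 - r * m2)
    (eb : b = 1 - k * (q + r)) (el : l = k - q - r * b)
    (el1 : l1 = 2 * b - q * (q + r) - r * l) : ScNegBox x k b l l1 q := by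
  have p2 := scNeg_pow_add_two_le hx.le hx6
  have hx2 : x ^ 2 ≤ 1 / 36 := by have := p2 0; simpa using this
  have hx3 : 0 < x ^ 3 := by positivity
  have hx4 : 0 < x ^ 4 := by positivity
  have hx5 : 0 < x ^ 5 := by positivity
  have hx6' : 0 < x ^ 6 := by positivity
  have h53 : x ^ 5 ≤ x ^ 3 / 36 := p2 3
  have h64 : x ^ 6 ≤ x ^ 4 / 36 := p2 4
  have h75 : x ^ 7 ≤ x ^ 5 / 36 := p2 5
  have h86 : x ^ 8 ≤ x ^ 6 / 36 := p2 6
  have h97 : x ^ 9 ≤ x ^ 7 / 36 := p2 7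
  have h31 : x ^ 3 ≤ x / 36 := by simpa using p2 1
  have h76 : x ^ 7 ≤ x ^ 6 / 6 := by
    have : x ^ 7 = x ^ 6 * x := by ring
    rw [this]
    have := mul_le_mul_of_nonneg_left hx6 hx6'.le
    linarith
  have he0 : m0 - k ≤ x ^ 2 * q := by
    have h1 : m0 ^ 2 ≤ x ^ 2 := pow_le_pow_left₀ hm0.le m0u.le 2
    have h2 := mul_le_mul_of_nonneg_right h1 hq0.le
    linarith
  have hkq : k * q ≤ x * q := mul_le_mul_of_nonneg_right (by linarith) hq0.le
  have hkq0 : 0 ≤ k * q := by positivity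
  have hrq : r * q ≤ 43 / 10000 * x ^ 6 := by
    have : r * (43 / 10000 * x ^ 7) = 43 / 10000 * x ^ 6 * (x * r) := by ring
    have h2 := mul_le_mul_of_nonneg_left hq1 hr0.le
    rw [this, hxr] at h2
    linarith
  have hrq0 : 0 ≤ r * q := by positivity
  have he00 : 0 ≤ m0 - k := by linarith
  have hre0 : r * (m0 - k) ≤ x * q := by
    have h2 := mul_le_mul_of_nonneg_left he0 hr0.le
    have : r * (x ^ 2 * q) = x * q * (x * r) := by ring
    rw [this, hxr] at h2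
    linarith
  have hre00 : 0 ≤ r * (m0 - k) := by positivity
  have hrre0 : r * (r * (m0 - k)) ≤ q := by
    have h2 := mul_le_mul_of_nonneg_left hre0 hr0.le
    have : r * (x * q) = q * (x * r) := by ring
    rw [this, hxr] at h2
    linarith
  have hrre00 : 0 ≤ r * (r * (m0 - k)) := by positivity
  have hrkq : r * (k * q) ≤ q := by
    have h2 := mul_le_mul_of_nonneg_left hkq hr0.le
    have : r * (x * q) = q * (x * r) := by ring
    rw [this, hxr] at h2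
    linarith
  have hrkq0 : 0 ≤ r * (k * q) := by positivity
  have hxq : x * q ≤ 43 / 10000 * x ^ 8 := by
    have h2 := mul_le_mul_of_nonneg_left hq1 hx.le
    have : x * (43 / 10000 * x ^ 7) = 43 / 10000 * x ^ 8 := by ring
    linarith
  have hxq0 : 0 ≤ x * q := by positivity
  have hx2q : x ^ 2 * q ≤ 43 / 10000 * x ^ 9 := by
    have h2 := mul_le_mul_of_nonneg_left hq1 (sq_nonneg x)
    have : x ^ 2 * (43 / 10000 * x ^ 7) = 43 / 10000 * x ^ 9 := by ring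
    linarith
  have hx2q0 : 0 ≤ x ^ 2 * q := by positivity
  -- exact decompositions
  have eb' : b = m1 + r * (m0 - k) - k * q := by rw [eb, em1]; ring
  have el' : l = m2 - (m0 - k) - q - r * (r * (m0 - k)) + r * (k * q) := by
    rw [el, eb', em2]; ring
  have hlm2 : l ≤ m2 := by linarith
  have hlm2' : m2 - l ≤ 2 * q + x ^ 2 * q := by linarith
  have el1' : l1 = m3 + 2 * (b - m1) - q ^ 2 - r * q + r * (m2 - l) := by
    rw [el1, em3]; ring
  have hrEl : r * (m2 - l) ≤ 2 * (r * q) + x * q := by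
    have h2 := mul_le_mul_of_nonneg_left hlm2' hr0.le
    have : r * (2 * q + x ^ 2 * q) = 2 * (r * q) + x * q * (x * r) := by ring
    rw [this, hxr] at h2
    linarith
  have hrEl0 : 0 ≤ r * (m2 - l) := mul_nonneg hr0.le (by linarith)
  have hq2 : q ^ 2 ≤ 43 / 10000 * x ^ 7 := by
    have hq1' : q ≤ 1 := by linarith
    have : q ^ 2 ≤ q := by nlinarith only [hq0, hq1']
    linarith
  refine ⟨hx, hx6, hq0, hq1, ?_, by linarith, ?_, ?_, ?_, by linarith, ?_, ?_⟩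
  · -- k_lo
    have e : (1 - 101 / 100 * x ^ 2) * x = (1 - x ^ 2) * x - x ^ 3 / 100 := by ring
    rw [e]; linarith
  · -- b_lo
    have e : x ^ 2 * (1 - 301 / 100 * x ^ 2) = (1 - 3 * x ^ 2) * x ^ 2 - x ^ 4 / 100 := by ring
    rw [e]; linarith
  · -- b_hi
    have e : x ^ 2 * (1 + x ^ 2 / 100) = x ^ 2 + x ^ 4 / 100 := by ring
    rw [e]; linarith
  · -- l_lo
    have e : 2 * x ^ 3 * (1 - 601 / 100 * x ^ 2) = (2 - 12 * x ^ 2) * x ^ 3 - x ^ 5 / 50 := by ring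
    rw [e]; linarith
  · -- l1_pos
    have e : (6 - 60 * x ^ 2) * x ^ 4 = 6 * x ^ 4 - 60 * x ^ 6 := by ring
    rw [e] at m3l
    linarith
  · -- l1_hi
    have e : 6 * x ^ 4 * (1 + x ^ 2 / 100) = 6 * x ^ 4 + 6 / 100 * x ^ 6 := by ring
    have hq20 : 0 ≤ q ^ 2 := sq_nonneg q
    rw [e]; linarith

theorem scNeg_box {r : ℝ} (hr : 6 ≤ r) :
    ScNegBox r⁻¹ (scK (-r)) (scB (-r)) (scL (-r)) (scL1 (-r)) (scQ (-r)) := by
  have hr0 : 0 < r := by linarith
  have hx : 0 < r⁻¹ := inv_pos.mpr hr0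
  have hx6 : r⁻¹ ≤ 1 / 6 := by
    rw [inv_le_comm₀ hr0 (by norm_num)]; simpa using hr
  have hxr : r⁻¹ * r = 1 := inv_mul_cancel₀ hr0.ne'
  have hq1 : scQ (-r) ≤ 43 / 10000 * r⁻¹ ^ 7 := by
    have h1 := scNeg_scQ_le hr0.le
    have h2 := scNeg_pow7 hr
    have h3 : scW r = r⁻¹ ^ 7 * (r ^ 7 * scW r) := by
      rw [← mul_assoc, ← mul_pow, hxr, one_pow, one_mul]
    have h4 : r⁻¹ ^ 7 * (r ^ 7 * scW r) ≤ r⁻¹ ^ 7 * (43 / 10000) :=
      mul_le_mul_of_nonneg_left h2 (by positivity)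
    linarith
  exact scNeg_box_aux hr0 hx hx6 hxr (scQ_pos (-r)) hq1 (scNeg_mom0 hr0).1 (scNeg_mom0 hr0).2
    (scNeg_mom1 hr0).1 (scNeg_mom1 hr0).2 (scNeg_mom2 hr0).1 (scNeg_mom2 hr0).2
    (scNeg_mom3 hr0).1 (scNeg_mom3 hr0).2 (scMom_pos 0 r) (scNeg_scK_le r) (scNeg_scK_ge r)
    (scK_pos (-r)) (scMom_one r) (scMom_two r) (scMom_three r)
    (by unfold scB scD; ring) (by unfold scL; ring) (by unfold scL1 scD; ring)

/-- anchor for the central certificate: `|k(-6) - .16237766| < 4·10⁻⁸`. -/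
theorem scNeg_anchor : |scK (-6) - 16237766 / 10 ^ 8| < 4 / 10 ^ 8 := by
  have h6 : (0:ℝ) < 6 := by norm_num
  have h1 := scMomI_lower h6 (k := 10) (by decide) 0
  have h2 := scMomI_upper h6 (k := 11) (by decide) 0
  have e : scMom 0 6 = (6:ℝ)⁻¹ ^ 1 * scMomI 6 0 := scNeg_scMom_eq h6 0
  have hk1 := scNeg_scK_le 6
  have hk2 := scNeg_scK_ge 6
  have hq := scNeg_scQ_le h6.le
  have hW := scNeg_scW_six
  have hq0 := scQ_pos (-6)
  have hm := (scNeg_mom0 h6).2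
  have hm0 := scMom_pos 0 6
  simp only [scMomS, Finset.sum_range_succ, scMomC, Nat.factorial, Finset.range_zero,
    Finset.sum_empty] at h1 h2
  norm_num at h1 h2
  have hmq : scMom 0 6 ^ 2 * scQ (-6) ≤ (1 / 36) * (153 / 10 ^ 10) := by
    have h3 : scMom 0 6 ^ 2 ≤ (1 / 36 : ℝ) := by
      have : scMom 0 6 ^ 2 ≤ (6:ℝ)⁻¹ ^ 2 := pow_le_pow_left₀ hm0.le hm.le 2
      norm_num at this ⊢
      linarith
    exact mul_le_mul h3 (by linarith) hq0.le (by norm_num)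
  rw [abs_lt]
  constructor <;> norm_num at e ⊢ <;> linarith

end Claimed.Agent.R260
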