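/-
Row 260, SC-NEG (Appendix A, "The negative tail"), part B: algebra.
From the enclosures `ScNegBox` to all bounds of row `O`.
Owner: helper104.
-/
import Claimed.Agent.R260.ScNegA
import Claimed.Agent.R260.ScDefs2

set_option autoImplicit false

namespace Claimed.Agent.R260

/-- numerical consequences of the box (no division). -/
structure ScNegNum (x k b l l1 q p : ℝ) : Prop where
  b_pos : 0 < b
  b_hi : b ≤ 278 / 10000
  b_lo : 916 / 1000 * x ^ 2 ≤ b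
  l_pos : 0 < l
  l_hi : l ≤ 2 * x ^ 3
  l_hi' : l ≤ 926 / 100000
  l_lo : 1666 / 1000 * x ^ 3 ≤ l
  k_pos : 0 < k
  k_hi : k ≤ x
  lsq : 14 * l ^ 2 ≤ 5 / 100 * b
  kl : 93 / 100 * (k * l) ≤ 7 / 100 * b
  p_lo : x ^ 2 * (1 - 454 / 100 * x ^ 2) ≤ p
  p_lo' : 873 / 1000 * x ^ 2 ≤ p
  bp_hi : b ≤ 105 / 100 * p
  bp_lo : 93 / 100 * p ≤ b
  p_pos : 0 < p

theorem scNeg_num {x k b l l1 q : ℝ} (hB : ScNegBox x k b l l1 q) :
    ScNegNum x k b l l1 q (b + k * l - 40 / 3 * l ^ 2) := by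
  obtain ⟨hx, hx6, hq0, hq1, hk_lo, hk_hi, hb_lo, hb_hi, hl_lo, hl_hi, hl1_pos, hl1_hi⟩ := hB
  have p2 := scNeg_pow_add_two_le hx.le hx6
  have hx2 : x ^ 2 ≤ 1 / 36 := by have := p2 0; simpa using this
  have hx2p : 0 < x ^ 2 := by positivity
  have hx3 : 0 < x ^ 3 := by positivity
  have hx4 : 0 < x ^ 4 := by positivity
  have h42 : x ^ 4 ≤ x ^ 2 / 36 := p2 2
  have h53 : x ^ 5 ≤ x ^ 3 / 36 := p2 3
  have h64 : x ^ 6 ≤ x ^ 4 / 36 := p2 4
  have h31 : x ^ 3 ≤ x / 36 := by simpa using p2 1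
  have hb_lo' : 916 / 1000 * x ^ 2 ≤ b := by
    have e : x ^ 2 * (1 - 301 / 100 * x ^ 2) = x ^ 2 - 301 / 100 * x ^ 4 := by ring
    rw [e] at hb_lo; linarith
  have hb_pos : 0 < b := by linarith
  have hb_hi' : b ≤ 278 / 10000 := by
    have e : x ^ 2 * (1 + x ^ 2 / 100) = x ^ 2 + x ^ 4 / 100 := by ring
    rw [e] at hb_hi; linarith
  have hl_lo' : 1666 / 1000 * x ^ 3 ≤ l := by
    have e : 2 * x ^ 3 * (1 - 601 / 100 * x ^ 2) = 2 * x ^ 3 - 1202 / 100 * x ^ 5 := by ring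
    rw [e] at hl_lo; linarith
  have hl_pos : 0 < l := by linarith
  have hl_hi' : l ≤ 926 / 100000 := by linarith
  have hk_pos : 0 < k := by
    have e : (1 - 101 / 100 * x ^ 2) * x = x - 101 / 100 * x ^ 3 := by ring
    rw [e] at hk_lo; linarith
  have hlsq0 : l ^ 2 ≤ 4 * x ^ 6 := by
    have := pow_le_pow_left₀ hl_pos.le hl_hi 2
    have e : (2 * x ^ 3) ^ 2 = 4 * x ^ 6 := by ring
    linarith
  have hlsq : 14 * l ^ 2 ≤ 5 / 100 * b := by linarith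
  have hkl0 : k * l ≤ 2 * x ^ 4 := by
    have := mul_le_mul hk_hi hl_hi hl_pos.le hx.le
    have e : x * (2 * x ^ 3) = 2 * x ^ 4 := by ring
    linarith
  have hkl : 93 / 100 * (k * l) ≤ 7 / 100 * b := by linarith
  have hklpos : 0 < k * l := mul_pos hk_pos hl_pos
  have hp_lo : x ^ 2 * (1 - 454 / 100 * x ^ 2) ≤ b + k * l - 40 / 3 * l ^ 2 := by
    have e : x ^ 2 * (1 - 454 / 100 * x ^ 2) = x ^ 2 - 454 / 100 * x ^ 4 := by ring
    have e2 : x ^ 2 * (1 - 301 / 100 * x ^ 2) = x ^ 2 - 301 / 100 * x ^ 4 := by ring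
    rw [e]; rw [e2] at hb_lo; linarith
  have hp_lo' : 873 / 1000 * x ^ 2 ≤ b + k * l - 40 / 3 * l ^ 2 := by
    have e : x ^ 2 * (1 - 454 / 100 * x ^ 2) = x ^ 2 - 454 / 100 * x ^ 4 := by ring
    rw [e] at hp_lo; linarith
  exact ⟨hb_pos, hb_hi', hb_lo', hl_pos, hl_hi, hl_hi', hl_lo', hk_pos, hk_hi, hlsq, hkl, hp_lo,
    hp_lo', by linarith, by have := sq_nonneg l; linarith, by linarith⟩

/-- a `2 × 2` positive semidefiniteness criterion. -/
theorem scNeg_psd2 {A B C : ℝ} (hA : 0 < A) (hdet : B ^ 2 ≤ A * C) (G h : ℝ) :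
    0 ≤ A * G ^ 2 + 2 * B * G * h + C * h ^ 2 := by
  have h1 : 0 ≤ A * (A * G ^ 2 + 2 * B * G * h + C * h ^ 2) := by
    have e : A * (A * G ^ 2 + 2 * B * G * h + C * h ^ 2)
        = (A * G + B * h) ^ 2 + (A * C - B ^ 2) * h ^ 2 := by ring
    rw [e]
    have : 0 ≤ (A * C - B ^ 2) * h ^ 2 := mul_nonneg (by linarith) (sq_nonneg h)
    positivity
  exact nonneg_of_mul_nonneg_right h1 hA

theorem scNeg_h0 {x k b l p : ℝ} (hx : 0 < x) (h31 : x ^ 3 ≤ x / 36) (k_pos : 0 < k)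
    (k_hi : k ≤ x) (b_pos : 0 < b) (b_hi : b ≤ 278 / 10000) (l_pos : 0 < l)
    (l_hi : l ≤ 2 * x ^ 3) (p_lo' : 873 / 1000 * x ^ 2 ≤ p) :
    (k * (b - 1 / 2) - 80 / 3 * (b - 7 / 25) * l) ^ 2 ≤ (67 / 100) ^ 2 * p := by
  have hX0 : 0 ≤ k * (1 / 2 - b) := mul_nonneg k_pos.le (by linarith)
  have hX1 : k * (1 / 2 - b) ≤ x / 2 := by
    have : k * (1 / 2 - b) ≤ k * (1 / 2) := mul_le_mul_of_nonneg_left (by linarith) k_pos.le
    linarith
  have hY0 : 0 ≤ (7 / 25 - b) * l := mul_nonneg (by linarith) l_pos.le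
  have hY1 : (7 / 25 - b) * l ≤ 7 / 25 * l := mul_le_mul_of_nonneg_right (by linarith) l_pos.le
  have e : k * (b - 1 / 2) - 80 / 3 * (b - 7 / 25) * l
      = 80 / 3 * ((7 / 25 - b) * l) - k * (1 / 2 - b) := by ring
  have h1 : -(x / 2) ≤ k * (b - 1 / 2) - 80 / 3 * (b - 7 / 25) * l := by rw [e]; linarith
  have h2 : k * (b - 1 / 2) - 80 / 3 * (b - 7 / 25) * l ≤ x / 2 := by rw [e]; linarith
  have h3 := sq_le_sq' h1 h2
  have e2 : (x / 2) ^ 2 = x ^ 2 / 4 := by ring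
  have hx2 : 0 < x ^ 2 := by positivity
  rw [e2] at h3
  linarith

theorem scNeg_slope {x r q b l : ℝ} (hx : 0 < x) (hx6 : x ≤ 1 / 6) (hr0 : 0 < r)
    (hxr : x * r = 1) (hq0 : 0 < q) (hq1 : q ≤ 43 / 10000 * x ^ 7) (b_pos : 0 < b)
    (b_hi : b ≤ 278 / 10000) (l_pos : 0 < l) (l_hi : l ≤ 2 * x ^ 3) :
    0 ≤ 2 * (1 - q * (q + r)) / (q + r) ^ 2 - 2 * b * l / ((q + r) * (1 - b ^ 2)) := by
  have p2 := scNeg_pow_add_two_le hx.le hx6
  have hx2 : x ^ 2 ≤ 1 / 36 := by have := p2 0; simpa using this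
  have hd : 0 < q + r := by linarith
  have hb2 : b ^ 2 ≤ 1 / 1000 := by nlinarith only [b_pos, b_hi]
  have h1b : 0 < 1 - b ^ 2 := by linarith
  have hx7 : x ^ 7 ≤ 1 / 36 := by
    have h1 := p2 5; have h2 := p2 3; have h3 := p2 1
    simp only [Nat.reduceAdd, pow_one] at h1 h2 h3
    linarith
  have hqs : q ≤ 1 / 1000 := by linarith
  have hrq : r * q ≤ 43 / 10000 * x ^ 6 := by
    have : r * (43 / 10000 * x ^ 7) = 43 / 10000 * x ^ 6 * (x * r) := by ring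
    have h2 := mul_le_mul_of_nonneg_left hq1 hr0.le
    rw [this, hxr] at h2
    linarith
  have hx6' : x ^ 6 ≤ 1 / 36 := by
    have h1 := p2 4; have h2 := p2 2
    simp only [Nat.reduceAdd] at h1 h2
    linarith
  have hqd : q * (q + r) ≤ 1 / 1000 := by
    have : q * q ≤ 1 / 1000 * q := mul_le_mul_of_nonneg_right hqs hq0.le
    nlinarith only [this, hrq, hx6', hqs]
  have hlr : l * r ≤ 2 * x ^ 2 := by
    have h2 := mul_le_mul_of_nonneg_right l_hi hr0.le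
    have : 2 * x ^ 3 * r = 2 * x ^ 2 * (x * r) := by ring
    rw [this, hxr] at h2
    linarith
  have hls : l ≤ 1 := by
    have h3 := p2 1
    simp only [Nat.reduceAdd, pow_one] at h3
    linarith
  have hlq : l * q ≤ 1 / 1000 := by
    have : l * q ≤ 1 * q := mul_le_mul_of_nonneg_right hls hq0.le
    linarith
  have hld : l * (q + r) ≤ 6 / 100 := by nlinarith only [hlq, hlr, hx2]
  have hld0 : 0 ≤ l * (q + r) := by positivity
  have hbld : b * (l * (q + r)) ≤ 1 / 100 := by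
    have := mul_le_mul b_hi hld hld0 (by norm_num)
    linarith
  have hkey : b * l * (q + r) ≤ (1 - q * (q + r)) * (1 - b ^ 2) := by
    have h5 : (1 - 1 / 1000 : ℝ) * (1 - 1 / 1000) ≤ (1 - q * (q + r)) * (1 - b ^ 2) :=
      mul_le_mul (by linarith) (by linarith) (by norm_num) (by linarith)
    nlinarith only [h5, hbld]
  rw [sub_nonneg, div_le_div_iff₀ (by positivity) (by positivity)]
  have := mul_le_mul_of_nonneg_left hkey (show 0 ≤ 2 * (q + r) by positivity)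
  nlinarith only [this]


/-- bounds for `𝖤`, `K₀ = 𝖣 𝖤`, `𝖣 b` in the negative tail. -/
theorem scNeg_EE {b l p EE DD : ℝ} (hDD : DD * p = 5 / 17) (p_pos : 0 < p) (b_pos : 0 < b)
    (b_hi : b ≤ 278 / 10000) (bp_hi : b ≤ 105 / 100 * p) (bp_lo : 93 / 100 * p ≤ b)
    (lsq : 14 * l ^ 2 ≤ 5 / 100 * b) (hEE : EE = p + b * (3 / 4 - b) - 40 / 3 * l ^ 2) :
    0 < DD ∧ EE ≤ 17875 / 10000 * p ∧ 16 / 10 * p ≤ EE ∧ DD * EE ≤ 5258 / 10000 ∧
      47 / 100 ≤ DD * EE ∧ DD * b ≤ 3089 / 10000 ∧ EE ≤ 5344 / 100000 := by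
  have hDD0 : 0 < DD := by
    by_contra hcon
    have : DD * p ≤ 0 := mul_nonpos_of_nonpos_of_nonneg (not_lt.mp hcon) p_pos.le
    linarith
  have hb2 : 0 ≤ b ^ 2 := sq_nonneg b
  have hl2 : 0 ≤ l ^ 2 := sq_nonneg l
  have hbb : b ^ 2 ≤ 278 / 10000 * b := by nlinarith only [b_pos, b_hi]
  have h1 : EE ≤ 17875 / 10000 * p := by rw [hEE]; nlinarith only [hb2, hl2, bp_hi]
  have h2 : 16 / 10 * p ≤ EE := by rw [hEE]; nlinarith only [hbb, lsq, bp_lo, b_pos]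
  have h3 : DD * EE ≤ 5258 / 10000 := by
    have := mul_le_mul_of_nonneg_left h1 hDD0.le
    nlinarith only [this, hDD]
  have h4 : 47 / 100 ≤ DD * EE := by
    have := mul_le_mul_of_nonneg_left h2 hDD0.le
    nlinarith only [this, hDD]
  have h5 : DD * b ≤ 3089 / 10000 := by
    have := mul_le_mul_of_nonneg_left bp_hi hDD0.le
    nlinarith only [this, hDD]
  exact ⟨hDD0, h1, h2, h3, h4, h5, by linarith⟩

theorem scNeg_surplus {b l p EE DD : ℝ} (hDD : DD * p = 5 / 17) (p_pos : 0 < p) (b_pos : 0 < b)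
    (b_hi : b ≤ 278 / 10000) (bp_hi : b ≤ 105 / 100 * p) (bp_lo : 93 / 100 * p ≤ b)
    (lsq : 14 * l ^ 2 ≤ 5 / 100 * b) (hEE : EE = p + b * (3 / 4 - b) - 40 / 3 * l ^ 2)
    (G h : ℝ) :
    (82 / 37 * b ^ 2 - 427 / 370 * b + 284485 / 370000 / 4 + 40 / 3 * l ^ 2) * G ^ 2
      + 2 * (284485 / 370000 / 2 - 427 / 370 * b) * G * h + 284485 / 370000 * h ^ 2
      + DD * (EE * G + 3 / 2 * b * h) ^ 2 + 13 / 100 * G ^ 2 + 3 / 4 * h ^ 2
    ≤ 43 / 100 * G ^ 2 + 26 / 100 * G * h + 68 / 25 * h ^ 2 := by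
  obtain ⟨hDD0, hE1, hE2, hK1, hK2, hJ, hE3⟩ :=
    scNeg_EE hDD p_pos b_pos b_hi bp_hi bp_lo lsq hEE
  have hEE0 : 0 < EE := by linarith
  set K := DD * EE with hK
  set J := DD * b with hJdef
  have hJ0 : 0 < J := mul_pos hDD0 b_pos
  have hbb : b ^ 2 ≤ 278 / 10000 * b := by nlinarith only [b_pos, b_hi]
  -- the three entries
  have hKE : K * EE ≤ 5258 / 10000 * (5344 / 100000) :=
    mul_le_mul hK1 hE3 hEE0.le (by norm_num)
  have hJb : J * b ≤ 3089 / 10000 * (278 / 10000) := mul_le_mul hJ b_hi b_pos.le (by norm_num)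
  have hKb1 : K * b ≤ 5258 / 10000 * b := mul_le_mul_of_nonneg_right hK1 b_pos.le
  have hKb2 : 47 / 100 * b ≤ K * b := mul_le_mul_of_nonneg_right hK2 b_pos.le
  have hA : (766 / 10000 : ℝ) ≤ 30 / 100 - (82 / 37 * b ^ 2 - 427 / 370 * b + 284485 / 370000 / 4
      + 40 / 3 * l ^ 2 + K * EE) := by
    nlinarith only [hbb, b_pos, b_hi, lsq, hKE]
  have hC : (118 / 100 : ℝ) ≤ 197 / 100 - (284485 / 370000 + 9 / 4 * (J * b)) := by
    nlinarith only [hJb]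
  have hB1 : -(2545 / 10000 : ℝ) ≤ 13 / 100 - (284485 / 370000 / 2 - 427 / 370 * b
      + 3 / 2 * (K * b)) := by
    nlinarith only [hKb1, b_pos]
  have hB2 : 13 / 100 - (284485 / 370000 / 2 - 427 / 370 * b + 3 / 2 * (K * b)) ≤ 0 := by
    nlinarith only [hKb2, b_hi, b_pos]
  have hpsd := scNeg_psd2 (A := 30 / 100 - (82 / 37 * b ^ 2 - 427 / 370 * b + 284485 / 370000 / 4
      + 40 / 3 * l ^ 2 + K * EE))
    (B := 13 / 100 - (284485 / 370000 / 2 - 427 / 370 * b + 3 / 2 * (K * b)))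
    (C := 197 / 100 - (284485 / 370000 + 9 / 4 * (J * b))) (by linarith)
    (by
      have h1 : (13 / 100 - (284485 / 370000 / 2 - 427 / 370 * b + 3 / 2 * (K * b))) ^ 2
          ≤ (2545 / 10000) ^ 2 := by
        apply sq_le_sq' <;> linarith
      have h2 : (766 / 10000 : ℝ) * (118 / 100) ≤ (30 / 100 - (82 / 37 * b ^ 2 - 427 / 370 * b
          + 284485 / 370000 / 4 + 40 / 3 * l ^ 2 + K * EE))
          * (197 / 100 - (284485 / 370000 + 9 / 4 * (J * b))) :=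
        mul_le_mul hA hC (by norm_num) (by linarith)
      have h3 : ((2545 / 10000 : ℝ)) ^ 2 ≤ 766 / 10000 * (118 / 100) := by norm_num
      linarith) G h
  have e : 43 / 100 * G ^ 2 + 26 / 100 * G * h + 68 / 25 * h ^ 2
      - ((82 / 37 * b ^ 2 - 427 / 370 * b + 284485 / 370000 / 4 + 40 / 3 * l ^ 2) * G ^ 2
      + 2 * (284485 / 370000 / 2 - 427 / 370 * b) * G * h + 284485 / 370000 * h ^ 2
      + DD * (EE * G + 3 / 2 * b * h) ^ 2 + 13 / 100 * G ^ 2 + 3 / 4 * h ^ 2)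
      = (30 / 100 - (82 / 37 * b ^ 2 - 427 / 370 * b + 284485 / 370000 / 4
      + 40 / 3 * l ^ 2 + K * EE)) * G ^ 2
      + 2 * (13 / 100 - (284485 / 370000 / 2 - 427 / 370 * b + 3 / 2 * (K * b))) * G * h
      + (197 / 100 - (284485 / 370000 + 9 / 4 * (J * b))) * h ^ 2 := by
    rw [hK, hJdef]; ring
  linarith


theorem scDstar_eq : scDstar = 5 / 17 := by unfold scDstar scε; norm_num

theorem scAstar_eq : scAstar = 82 / 37 := by unfold scAstar scs; norm_num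

theorem scηstar_eq : scηstar = 427 / 370 := by unfold scηstar scs scβ scγ; norm_num

theorem scνstar_eq : scνstar = 284485 / 370000 := by unfold scνstar scs scβ scγ; norm_num

theorem scNeg_main_aux {r : ℝ} (hr : 6 ≤ r) : ScBdO (-r) := by
  have hr0 : 0 < r := by linarith
  have hB := scNeg_box hr
  have hN := scNeg_num hB
  rw [← scP_eq] at hN
  have hxr : r⁻¹ * r = 1 := inv_mul_cancel₀ hr0.ne'
  have hEE := scEE_eq (-r)
  have hH0 := scH0_eq (-r)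
  have hd : scD (-r) = scQ (-r) + r := by unfold scD; ring
  obtain ⟨hx, hx6, hq0, hq1, hk_lo, -, hb_lo, hb_hi, hl_lo, -, hl1_pos, hl1_hi⟩ := hB
  obtain ⟨b_pos, b_hi, b_lo, l_pos, l_hi, l_hi', l_lo, k_pos, k_hi, lsq, kl, p_lo, p_lo', bp_hi,
    bp_lo, p_pos⟩ := hN
  have p2 := scNeg_pow_add_two_le hx.le hx6
  have h31 : r⁻¹ ^ 3 ≤ r⁻¹ / 36 := by simpa using p2 1
  have hDD : scDD (-r) * scP (-r) = 5 / 17 := by
    unfold scDD; rw [scDstar_eq]; field_simp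
  obtain ⟨hDD0, hE1, hE2, hK1, hK2, hJ, hE3⟩ :=
    scNeg_EE hDD p_pos b_pos b_hi bp_hi bp_lo lsq hEE
  have hd0 : 0 < scD (-r) := scD_pos _
  -- `z`
  have hz0 : 0 < scZ (-r) := div_pos hl1_pos l_pos
  have hz1 : scZ (-r) ≤ 70 / 100 := by
    unfold scZ
    rw [div_le_iff₀ l_pos]
    have h43 : r⁻¹ ^ 4 ≤ r⁻¹ ^ 3 / 6 := by
      have : r⁻¹ ^ 4 = r⁻¹ ^ 3 * r⁻¹ := by ring
      rw [this]
      have := mul_le_mul_of_nonneg_left hx6 (pow_pos hx 3).le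
      linarith
    have h64 : r⁻¹ ^ 6 ≤ r⁻¹ ^ 4 / 36 := p2 4
    have e : 6 * r⁻¹ ^ 4 * (1 + r⁻¹ ^ 2 / 100) = 6 * r⁻¹ ^ 4 + 6 / 100 * r⁻¹ ^ 6 := by ring
    rw [e] at hl1_hi
    have := pow_pos hx 3
    linarith
  have hkz0 : 0 < scK (-r) * scZ (-r) := mul_pos k_pos hz0
  have hkz1 : scK (-r) * scZ (-r) ≤ 1 / 6 * (70 / 100) :=
    mul_le_mul (by linarith) hz1 hz0.le (by norm_num)
  refine ⟨⟨b_pos, by linarith, l_pos, p_pos, ?_, ?_, b_pos.le, by linarith, ?_, ?_, ?_, ?_, ?_,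
    by linarith, hz1, ?_, ?_, ?_⟩, ?_⟩
  · -- h0
    rw [hH0]
    exact scNeg_h0 hx h31 k_pos k_hi b_pos b_hi l_pos l_hi p_lo'
  · -- slope
    unfold scSlopeM
    rw [hd]
    exact scNeg_slope hx hx6 hr0 hxr hq0 hq1 b_pos b_hi l_pos l_hi
  · -- L
    unfold scLL scα
    rw [div_le_iff₀ (by norm_num)]
    linarith
  · -- K lo
    unfold scK0; linarith
  · -- K hi
    unfold scK0; linarith
  · -- J
    unfold scJ0 scc
    have : scDD (-r) * (3 / 2) * scB (-r) = 3 / 2 * (scDD (-r) * scB (-r)) := by ring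
    rw [this]; linarith
  · -- surplus
    intro G h
    have := scNeg_surplus hDD p_pos b_pos b_hi bp_hi bp_lo lsq hEE G h
    unfold scLocForm scQf
    rw [scAstar_eq, scηstar_eq, scνstar_eq]
    have e : scL (-r) ^ 2 / scα = 40 / 3 * scL (-r) ^ 2 := by unfold scα; ring
    rw [e]
    unfold scc
    linarith
  · -- chi
    unfold scChi
    rw [div_le_iff₀ hd0, hd]
    linarith
  · -- hst lo
    unfold scHstar; linarith
  · -- hst hi
    unfold scHstar; linarith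
  · -- p (7 + a²) ≥ 1
    have hx2 : r⁻¹ ^ 2 ≤ 1 / 36 := by have := p2 0; simpa using this
    have hx2p : 0 < r⁻¹ ^ 2 := by positivity
    have h7 : 0 < 7 + (-r) ^ 2 := by positivity
    have h1 := mul_le_mul_of_nonneg_right p_lo h7.le
    have e : r⁻¹ ^ 2 * (1 - 454 / 100 * r⁻¹ ^ 2) * (7 + (-r) ^ 2)
        = (1 - 454 / 100 * r⁻¹ ^ 2) * (7 * r⁻¹ ^ 2 + (r⁻¹ * r) ^ 2) := by ring
    rw [e, hxr] at h1
    nlinarith only [h1, hx2, hx2p]

end Claimed.Agent.R260
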