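/-
Row 260, SC: Appendix A, "The negative tail" (`a ≤ -6`): MAIN STATEMENT (interface).
Statement: helper216.  Proof: helper104 (ScNegA, ScNegB).
-/
import Claimed.Agent.R260.ScNegB

set_option autoImplicit false

namespace Claimed.Agent.R260

/-- all bounds of row `O` on the negative tail. -/
theorem scNeg_main {a : ℝ} (ha : a ≤ -6) : ScBdO a := by
  have h := scNeg_main_aux (r := -a) (by linarith)
  rwa [neg_neg] at h

end Claimed.Agent.R260
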