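/-
Row 260, SC: Appendix A, "The positive tail" (`a ≥ 10`): `scPos_main`.
Owner: helper223 (SC-POSTAIL).

Part 1 (pure real algebra).  `I₀..I₄` are the normalised moments
`I_j = ∫_0^∞ v^j e^{-v-uv²/2} dv`, `u = a⁻²`, `τ = log (a √(2π)) - log I₀`, and
`k = a/2 + C/a`, `b = 1/2 - u B`, `l = u J / a`, `l' = -u² R` with
`C = I₀ τ - I₁/2`, `B = I₁ τ - (I₁+I₂)/2`, `J = I₂ τ - I₁²/I₀ - I₃/2`,
`R = I₃ τ - (I₃+I₄)/2 - (2 I₁² + I₁ I₂ + I₁³ - I₃)/I₀²` (exact, free of cancellation).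
Part 2: these closed forms, the enclosures of the moments (from `ScMom.lean`) and of `τ`.
Part 3: row `T₁`.
-/
import Claimed.Agent.R260.ScLemma21
import Claimed.Agent.R260.ScDefs2
import Claimed.Agent.R260.ScMom

set_option autoImplicit false

namespace Claimed.Agent.R260

/-! ## Part 1: algebra -/

section part1

/-- affine-in-`u` enclosures of the normalised moments for `u ≤ 1/100`. -/
structure ScPosEnc (u I0 I1 I2 I3 I4 : ℝ) : Prop where
  u_pos : 0 < u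
  u_le : u ≤ 1 / 100
  l0 : 1 - u ≤ I0
  h0 : I0 ≤ 1 - 97 / 100 * u
  l1 : 1 - 3 * u ≤ I1
  h1 : I1 ≤ 1 - 285 / 100 * u
  l2 : 2 - 12 * u ≤ I2
  h2 : I2 ≤ 2 - 111 / 10 * u
  l3 : 6 - 60 * u ≤ I3
  h3 : I3 ≤ 6 - 537 / 10 * u
  l4 : 24 - 360 * u ≤ I4
  h4 : I4 ≤ 24 - 3096 / 10 * u
  le10 : I1 ≤ I0

variable {u I0 I1 I2 I3 I4 τ : ℝ}

theorem ScPosEnc.C_hi (E : ScPosEnc u I0 I1 I2 I3 I4) (hτ : 322 / 100 ≤ τ) :
    I0 * τ - I1 / 2 ≤ τ - 1 / 2 := by
  have h1 := mul_le_mul_of_nonneg_right E.h0 (by linarith : (0 : ℝ) ≤ τ)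
  have h2 := mul_nonneg E.u_pos.le (by linarith : (0 : ℝ) ≤ τ - 322 / 100)
  nlinarith [E.l1, E.u_pos]

theorem ScPosEnc.C_lo (E : ScPosEnc u I0 I1 I2 I3 I4) (hτ : 322 / 100 ≤ τ) :
    τ - 1 / 2 - u * (τ - 1425 / 1000) ≤ I0 * τ - I1 / 2 := by
  have h1 := mul_le_mul_of_nonneg_right E.l0 (by linarith : (0 : ℝ) ≤ τ)
  nlinarith [E.h1, E.u_pos]

theorem ScPosEnc.B_hi (E : ScPosEnc u I0 I1 I2 I3 I4) (hτ : 322 / 100 ≤ τ) :
    I1 * τ - (I1 + I2) / 2 ≤ τ - 3 / 2 - u * (285 / 100 * τ - 75 / 10) := by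
  have h1 := mul_le_mul_of_nonneg_right E.h1 (by linarith : (0 : ℝ) ≤ τ)
  nlinarith [E.l1, E.l2, E.u_pos]

theorem ScPosEnc.B_lo (E : ScPosEnc u I0 I1 I2 I3 I4) (hτ : 322 / 100 ≤ τ) :
    τ - 3 / 2 - u * (3 * τ - 6975 / 1000) ≤ I1 * τ - (I1 + I2) / 2 := by
  have h1 := mul_le_mul_of_nonneg_right E.l1 (by linarith : (0 : ℝ) ≤ τ)
  nlinarith [E.h1, E.h2, E.u_pos]

theorem ScPosEnc.I0_pos (E : ScPosEnc u I0 I1 I2 I3 I4) : 0 < I0 := by
  linarith [E.l0, E.u_le]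

theorem ScPosEnc.I1_pos (E : ScPosEnc u I0 I1 I2 I3 I4) : 0 < I1 := by
  linarith [E.l1, E.u_le]

theorem ScPosEnc.I0_le_one (E : ScPosEnc u I0 I1 I2 I3 I4) : I0 ≤ 1 := by
  linarith [E.h0, E.u_pos]

theorem ScPosEnc.rho_hi (E : ScPosEnc u I0 I1 I2 I3 I4) : I1 ^ 2 / I0 ≤ 1 - 285 / 100 * u := by
  have h : I1 ^ 2 / I0 ≤ I1 := by
    rw [div_le_iff₀ E.I0_pos]
    nlinarith [E.le10, E.I1_pos]
  linarith [E.h1]

theorem ScPosEnc.sq1_lo (E : ScPosEnc u I0 I1 I2 I3 I4) : 1 - 6 * u ≤ I1 ^ 2 := by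
  nlinarith [E.l1, E.u_le, E.u_pos, E.I1_pos, sq_nonneg u]

theorem ScPosEnc.sq1_hi (E : ScPosEnc u I0 I1 I2 I3 I4) : I1 ^ 2 ≤ 1 - 56 / 10 * u := by
  have h : I1 ^ 2 ≤ (1 - 285 / 100 * u) ^ 2 := by
    apply pow_le_pow_left₀ E.I1_pos.le E.h1
  nlinarith [E.u_le, E.u_pos]

theorem ScPosEnc.rho_lo (E : ScPosEnc u I0 I1 I2 I3 I4) : 1 - 6 * u ≤ I1 ^ 2 / I0 := by
  have h : I1 ^ 2 ≤ I1 ^ 2 / I0 := by
    rw [le_div_iff₀ E.I0_pos]
    nlinarith [E.I0_le_one, sq_nonneg I1]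
  linarith [E.sq1_lo]

theorem ScPosEnc.J_hi (E : ScPosEnc u I0 I1 I2 I3 I4) (hτ : 322 / 100 ≤ τ) :
    I2 * τ - I1 ^ 2 / I0 - I3 / 2 ≤ 2 * τ - 4 - u * (111 / 10 * τ - 36) := by
  have h1 := mul_le_mul_of_nonneg_right E.h2 (by linarith : (0 : ℝ) ≤ τ)
  nlinarith [E.rho_lo, E.l3]

theorem ScPosEnc.J_lo (E : ScPosEnc u I0 I1 I2 I3 I4) (hτ : 322 / 100 ≤ τ) :
    2 * τ - 4 - u * (12 * τ - 297 / 10) ≤ I2 * τ - I1 ^ 2 / I0 - I3 / 2 := by
  have h1 := mul_le_mul_of_nonneg_right E.l2 (by linarith : (0 : ℝ) ≤ τ)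
  nlinarith [E.rho_hi, E.h3]

theorem ScPosEnc.N_lo (E : ScPosEnc u I0 I1 I2 I3 I4) :
    -1 + 147 / 10 * u ≤ 2 * I1 ^ 2 + I1 * I2 + I1 ^ 3 - I3 := by
  have hu := E.u_pos
  have hu' := E.u_le
  have a1 := E.sq1_lo
  have a2 : 2 - 18 * u ≤ I1 * I2 := by
    have : (1 - 3 * u) * (2 - 12 * u) ≤ I1 * I2 :=
      mul_le_mul E.l1 E.l2 (by linarith) E.I1_pos.le
    nlinarith [sq_nonneg u]
  have a3 : 1 - 9 * u ≤ I1 ^ 3 := by
    have : (1 - 3 * u) * (1 - 6 * u) ≤ I1 * I1 ^ 2 :=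
      mul_le_mul E.l1 a1 (by linarith) E.I1_pos.le
    nlinarith [sq_nonneg u]
  linarith [E.h3]

theorem ScPosEnc.N_hi (E : ScPosEnc u I0 I1 I2 I3 I4) :
    2 * I1 ^ 2 + I1 * I2 + I1 ^ 3 - I3 ≤ -1 + 242 / 10 * u := by
  have hu := E.u_pos
  have hu' := E.u_le
  have a1 := E.sq1_hi
  have hI2 : 0 ≤ I2 := by linarith [E.l2]
  have a2 : I1 * I2 ≤ 2 - 164 / 10 * u := by
    have : I1 * I2 ≤ (1 - 285 / 100 * u) * (2 - 111 / 10 * u) :=
      mul_le_mul E.h1 E.h2 hI2 (by linarith)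
    nlinarith
  have a3 : I1 ^ 3 ≤ 1 - 82 / 10 * u := by
    have : I1 * I1 ^ 2 ≤ (1 - 285 / 100 * u) * (1 - 56 / 10 * u) :=
      mul_le_mul E.h1 a1 (sq_nonneg _) (by linarith)
    nlinarith
  linarith [E.l3]

theorem ScPosEnc.w_hi (E : ScPosEnc u I0 I1 I2 I3 I4) : 1 / I0 ^ 2 ≤ 1 + 205 / 100 * u := by
  have hu := E.u_pos
  have hu' := E.u_le
  have h0 := E.I0_pos
  rw [div_le_iff₀ (by positivity)]
  have h : (1 - u) ^ 2 ≤ I0 ^ 2 := pow_le_pow_left₀ (by linarith) E.l0 2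
  have h2 : (1 + 205 / 100 * u) * (1 - u) ^ 2 ≤ (1 + 205 / 100 * u) * I0 ^ 2 :=
    mul_le_mul_of_nonneg_left h (by linarith)
  have h3 : 0 ≤ u * (5 / 100 - 31 / 10 * u) := mul_nonneg hu.le (by linarith)
  nlinarith [pow_pos hu 3]

theorem ScPosEnc.w_lo (E : ScPosEnc u I0 I1 I2 I3 I4) : 1 + 193 / 100 * u ≤ 1 / I0 ^ 2 := by
  have hu := E.u_pos
  have hu' := E.u_le
  have h0 := E.I0_pos
  rw [le_div_iff₀ (by positivity)]
  have h : I0 ^ 2 ≤ (1 - 97 / 100 * u) ^ 2 := pow_le_pow_left₀ h0.le E.h0 2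
  have h2 : (1 + 193 / 100 * u) * I0 ^ 2 ≤ (1 + 193 / 100 * u) * (1 - 97 / 100 * u) ^ 2 :=
    mul_le_mul_of_nonneg_left h (by linarith)
  have h3 : 0 ≤ u ^ 2 * (28 / 10 - 2 * u) := mul_nonneg (sq_nonneg u) (by linarith)
  nlinarith

theorem ScPosEnc.nu_lo (E : ScPosEnc u I0 I1 I2 I3 I4) :
    -1 + 1265 / 100 * u ≤ (2 * I1 ^ 2 + I1 * I2 + I1 ^ 3 - I3) / I0 ^ 2 := by
  have hu := E.u_pos
  have hu' := E.u_le
  have hN := E.N_lo
  have hN' := E.N_hi
  have hw := E.w_hi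
  have hw' := E.w_lo
  rw [div_eq_mul_one_div (2 * I1 ^ 2 + I1 * I2 + I1 ^ 3 - I3) (I0 ^ 2)]
  set N := 2 * I1 ^ 2 + I1 * I2 + I1 ^ 3 - I3
  set w := 1 / I0 ^ 2
  have hNneg : N ≤ 0 := by linarith
  have h1 : N * (1 + 205 / 100 * u) ≤ N * w := mul_le_mul_of_nonpos_left hw hNneg
  have h2 : (-1 + 147 / 10 * u) * (1 + 205 / 100 * u) ≤ N * (1 + 205 / 100 * u) :=
    mul_le_mul_of_nonneg_right hN (by linarith)
  nlinarith [sq_nonneg u]

theorem ScPosEnc.nu_hi (E : ScPosEnc u I0 I1 I2 I3 I4) :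
    (2 * I1 ^ 2 + I1 * I2 + I1 ^ 3 - I3) / I0 ^ 2 ≤ -1 + 228 / 10 * u := by
  have hu := E.u_pos
  have hu' := E.u_le
  have hN := E.N_lo
  have hN' := E.N_hi
  have hw := E.w_hi
  have hw' := E.w_lo
  rw [div_eq_mul_one_div (2 * I1 ^ 2 + I1 * I2 + I1 ^ 3 - I3) (I0 ^ 2)]
  set N := 2 * I1 ^ 2 + I1 * I2 + I1 ^ 3 - I3
  set w := 1 / I0 ^ 2
  have hNneg : N ≤ 0 := by linarith
  have h1 : N * w ≤ N * (1 + 193 / 100 * u) := mul_le_mul_of_nonpos_left hw' hNneg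
  have h2 : N * (1 + 193 / 100 * u) ≤ (-1 + 242 / 10 * u) * (1 + 193 / 100 * u) :=
    mul_le_mul_of_nonneg_right hN' (by linarith)
  nlinarith

theorem ScPosEnc.R_lo (E : ScPosEnc u I0 I1 I2 I3 I4) (hτ : 322 / 100 ≤ τ) :
    6 * τ - 14 - u * (60 * τ - 15885 / 100) ≤
      I3 * τ - (I3 + I4) / 2 - (2 * I1 ^ 2 + I1 * I2 + I1 ^ 3 - I3) / I0 ^ 2 := by
  have h1 := mul_le_mul_of_nonneg_right E.l3 (by linarith : (0 : ℝ) ≤ τ)
  nlinarith [E.nu_hi, E.h3, E.h4]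

theorem ScPosEnc.R_hi (E : ScPosEnc u I0 I1 I2 I3 I4) (hτ : 322 / 100 ≤ τ) :
    I3 * τ - (I3 + I4) / 2 - (2 * I1 ^ 2 + I1 * I2 + I1 ^ 3 - I3) / I0 ^ 2 ≤
      6 * τ - 14 - u * (537 / 10 * τ - 19735 / 100) := by
  have h1 := mul_le_mul_of_nonneg_right E.h3 (by linarith : (0 : ℝ) ≤ τ)
  nlinarith [E.nu_lo, E.l3, E.l4]


/-- the relation between `a`, `u = a⁻²` and `τ = log (a √(2π)) - log I₀`; `x = log (a/10)`. -/
structure ScPosTC (a u τ x : ℝ) : Prop where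
  a_ge : 10 ≤ a
  u_pos : 0 < u
  ua : u * a ^ 2 = 1
  x_nonneg : 0 ≤ x
  x_le : 1 + x ≤ a / 10
  tau_lo : 322 / 100 + x ≤ τ
  tau_hi : τ ≤ 32332 / 10000 + x

variable {a u τ x : ℝ}

theorem ScPosTC.sq_le (T : ScPosTC a u τ x) : (1 + x) ^ 2 ≤ a ^ 2 / 100 := by
  have h := T.x_le
  have h0 := T.x_nonneg
  have : (1 + x) ^ 2 ≤ (a / 10) ^ 2 := pow_le_pow_left₀ (by linarith) h 2
  calc (1 + x) ^ 2 ≤ (a / 10) ^ 2 := this
    _ = a ^ 2 / 100 := by ring

theorem ScPosTC.tau_ge (T : ScPosTC a u τ x) : 322 / 100 ≤ τ := by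
  linarith [T.tau_lo, T.x_nonneg]

theorem ScPosTC.u_le (T : ScPosTC a u τ x) : u ≤ 1 / 100 := by
  have h := T.ua
  have ha := T.a_ge
  have hu := T.u_pos
  have : (100 : ℝ) ≤ a ^ 2 := by nlinarith
  nlinarith

/-- `u (τ - c)` is maximal at `a = 10`. -/
theorem ScPosTC.KU (T : ScPosTC a u τ x) {c : ℝ} (hc : c ≤ 27332 / 10000) :
    u * (τ - c) ≤ (32332 / 10000 - c) / 100 := by
  have h1 := T.sq_le
  have hx := T.x_nonneg
  set A : ℝ := 32332 / 10000 - c with hA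
  have hA2 : 1 / 2 ≤ A := by rw [hA]; linarith
  have h2 : τ - c ≤ A * (1 + x) ^ 2 := by
    have : τ - c ≤ A + x := by rw [hA]; linarith [T.tau_hi]
    nlinarith [mul_nonneg (by linarith : (0 : ℝ) ≤ 2 * A - 1) hx, mul_nonneg (by linarith : (0 : ℝ) ≤ A) (sq_nonneg x)]
  have h3 : u * (τ - c) ≤ u * (A * (a ^ 2 / 100)) :=
    mul_le_mul_of_nonneg_left (h2.trans (mul_le_mul_of_nonneg_left h1 (by linarith))) T.u_pos.le
  have h4 : u * (A * (a ^ 2 / 100)) = A / 100 := by linear_combination (A / 100) * T.ua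
  linarith

/-- `(τ - c)/a` is maximal at `a = 10`. -/
theorem ScPosTC.KR (T : ScPosTC a u τ x) {c : ℝ} (hc : c ≤ 22332 / 10000) :
    τ - c ≤ (32332 / 10000 - c) * (a / 10) := by
  have hx := T.x_nonneg
  set A : ℝ := 32332 / 10000 - c with hA
  have hA2 : 1 ≤ A := by rw [hA]; linarith
  have h2 : τ - c ≤ A * (1 + x) := by
    have : τ - c ≤ A + x := by rw [hA]; linarith [T.tau_hi]
    nlinarith [mul_nonneg (by linarith : (0 : ℝ) ≤ A - 1) hx]
  exact h2.trans (mul_le_mul_of_nonneg_left T.x_le (by linarith))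

/-- the product needed for `u C J`. -/
theorem ScPosTC.KP (T : ScPosTC a u τ x) :
    u * ((τ - 1 / 2) * (2 * τ - 399742 / 100000)) ≤ 675 / 10000 := by
  have h1 := T.sq_le
  have hx := T.x_nonneg
  have hτ := T.tau_ge
  have hh := T.tau_hi
  have e1 : (τ - 1 / 2) * (2 * τ - 399742 / 100000) ≤
      (27332 / 10000 + x) * (246898 / 100000 + 2 * x) :=
    mul_le_mul (by linarith) (by linarith) (by linarith) (by linarith)
  have e2 : (27332 / 10000 + x) * (246898 / 100000 + 2 * x) ≤ 675 / 100 * (1 + x) ^ 2 := by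
    nlinarith [sq_nonneg x]
  have h3 : u * ((τ - 1 / 2) * (2 * τ - 399742 / 100000)) ≤ u * (675 / 100 * (a ^ 2 / 100)) :=
    mul_le_mul_of_nonneg_left (e1.trans (e2.trans (mul_le_mul_of_nonneg_left h1 (by norm_num))))
      T.u_pos.le
  have h4 : u * (675 / 100 * (a ^ 2 / 100)) = 675 / 10000 := by
    linear_combination (675 / 10000) * T.ua
  linarith

/-- the affine bounds on `C, B, J, R`. -/
structure ScPosCB (u τ C B J R : ℝ) : Prop where
  C_hi : C ≤ τ - 1 / 2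
  C_lo : τ - 1 / 2 - u * (τ - 1425 / 1000) ≤ C
  B_hi : B ≤ τ - 3 / 2 - u * (285 / 100 * τ - 75 / 10)
  B_lo : τ - 3 / 2 - u * (3 * τ - 6975 / 1000) ≤ B
  J_hi : J ≤ 2 * τ - 4 - u * (111 / 10 * τ - 36)
  J_lo : 2 * τ - 4 - u * (12 * τ - 297 / 10) ≤ J
  R_lo : 6 * τ - 14 - u * (60 * τ - 15885 / 100) ≤ R
  R_hi : R ≤ 6 * τ - 14 - u * (537 / 10 * τ - 19735 / 100)

variable {C B J R : ℝ}

theorem ScPosCB.C_ge (H : ScPosCB u τ C B J R) (T : ScPosTC a u τ x) : 27 / 10 ≤ C := by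
  have := T.KU (c := 1425 / 1000) (by norm_num)
  linarith [H.C_lo, T.tau_ge]

theorem ScPosCB.uC_le (H : ScPosCB u τ C B J R) (T : ScPosTC a u τ x) :
    u * C ≤ 27332 / 1000000 := by
  have h := T.KU (c := 1 / 2) (by norm_num)
  have h2 := mul_le_mul_of_nonneg_left H.C_hi T.u_pos.le
  linarith

theorem ScPosCB.B_le (H : ScPosCB u τ C B J R) (T : ScPosTC a u τ x) : B ≤ τ - 3 / 2 := by
  have := mul_nonneg T.u_pos.le (by linarith [T.tau_ge] : (0 : ℝ) ≤ 285 / 100 * τ - 75 / 10)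
  linarith [H.B_hi]

theorem ScPosCB.B_ge (H : ScPosCB u τ C B J R) (T : ScPosTC a u τ x) :
    τ - 1528 / 1000 ≤ B := by
  have := T.KU (c := 2325 / 1000) (by norm_num)
  linarith [H.B_lo]

theorem ScPosCB.uB_le (H : ScPosCB u τ C B J R) (T : ScPosTC a u τ x) :
    u * B ≤ 17332 / 1000000 := by
  have h := T.KU (c := 3 / 2) (by norm_num)
  have h2 := mul_le_mul_of_nonneg_left (H.B_le T) T.u_pos.le
  linarith

theorem ScPosCB.B_le_a (H : ScPosCB u τ C B J R) (T : ScPosTC a u τ x) :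
    B ≤ 17332 / 100000 * a := by
  have h := T.KR (c := 3 / 2) (by norm_num)
  linarith [H.B_le T]

theorem ScPosCB.J_le (H : ScPosCB u τ C B J R) (T : ScPosTC a u τ x) :
    J ≤ 2 * τ - 399742 / 100000 := by
  have h1 := mul_nonneg T.u_pos.le (by linarith [T.tau_ge] : (0 : ℝ) ≤ τ - 322 / 100)
  have h2 := T.u_le
  nlinarith [H.J_hi]

theorem ScPosCB.J_ge (H : ScPosCB u τ C B J R) (T : ScPosTC a u τ x) :
    2 * τ - 4091 / 1000 ≤ J := by
  have := T.KU (c := 2475 / 1000) (by norm_num)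
  linarith [H.J_lo]

theorem ScPosCB.J_pos (H : ScPosCB u τ C B J R) (T : ScPosTC a u τ x) : 0 < J := by
  linarith [H.J_ge T, T.tau_ge]

theorem ScPosCB.uJ_le (H : ScPosCB u τ C B J R) (T : ScPosTC a u τ x) :
    u * J ≤ 246898 / 10000000 := by
  have h := T.KU (c := 199871 / 100000) (by norm_num)
  have h2 := mul_le_mul_of_nonneg_left (H.J_le T) T.u_pos.le
  linarith

theorem ScPosCB.R_ge (H : ScPosCB u τ C B J R) (T : ScPosTC a u τ x) : 17 / 10 * J ≤ R := by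
  have h := T.KU (c := 23742 / 10000) (by norm_num)
  have h1 := H.R_lo
  have h2 := H.J_hi
  have h3 := T.tau_ge
  nlinarith

theorem ScPosCB.R_le (H : ScPosCB u τ C B J R) (T : ScPosTC a u τ x) : R ≤ 3 * J := by
  have h1 := H.R_hi
  have h2 := H.J_lo
  have h3 := T.tau_ge
  have h4 := T.u_le
  have h5 := mul_nonneg T.u_pos.le (by linarith : (0 : ℝ) ≤ τ)
  nlinarith

theorem ScPosCB.uCJ_le (H : ScPosCB u τ C B J R) (T : ScPosTC a u τ x) :
    u * (C * J) ≤ 675 / 10000 := by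
  have h := T.KP
  have hC := H.C_ge T
  have e : C * J ≤ (τ - 1 / 2) * (2 * τ - 399742 / 100000) :=
    mul_le_mul H.C_hi (H.J_le T) (H.J_pos T).le (by linarith [T.tau_ge])
  have := mul_le_mul_of_nonneg_left e T.u_pos.le
  linarith

theorem ScPosCB.JB_hi (H : ScPosCB u τ C B J R) (T : ScPosTC a u τ x) :
    J / 2 - B ≤ -(47 / 100) := by
  have h1 := H.J_hi
  have h2 := H.B_lo
  have h3 := T.tau_ge
  have h4 := T.u_le
  have h5 := mul_nonneg T.u_pos.le (by linarith : (0 : ℝ) ≤ τ - 322 / 100)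
  nlinarith

theorem ScPosCB.JB_lo (H : ScPosCB u τ C B J R) (T : ScPosTC a u τ x) :
    -(529 / 1000) ≤ J / 2 - B := by
  have h := T.KU (c := 2333 / 1000) (by norm_num)
  have h1 := H.J_lo
  have h2 := H.B_hi
  have h3 := T.u_pos
  nlinarith


/-- the numerical facts on `(q,d,k,b,l,l')` at a point `a ≥ 10` from which row `T₁` follows. -/
structure ScPosCore (a q d k b l l1 : ℝ) : Prop where
  a_ge : 10 ≤ a
  b_lo : 4826 / 10000 ≤ b
  b_hi : b < 1 / 2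
  l_pos : 0 < l
  l_hi : l ≤ 247 / 100000
  k_lo : a / 2 < k
  k_hi : k ≤ 528 / 1000 * a
  p_lo : 4945 / 10000 ≤ b + k * l - l ^ 2 / (3 / 40)
  p_hi : b + k * l - l ^ 2 / (3 / 40) < 1 / 2
  kb : k * (1 / 2 - b) ≤ 92 / 1000
  l1_hi : l1 ≤ 0
  l1_lo : -(3 / 10) * l ≤ l1
  kl1_hi : k * l1 ≤ -(85 / 100) * l
  kl1_lo : -(1584 / 1000) * l ≤ k * l1
  d_pos : 0 < d
  chi : l ≤ 26 / 1000 * d
  var : 9 / 10 * d ^ 2 ≤ 1 - q * d

theorem scPos_quad {m11 m12 m22 α β γ : ℝ} (h11 : α ≤ m11) (h22 : γ ≤ m22) (h12 : |m12| ≤ β)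
    (hα : 0 < α) (hdet : β ^ 2 ≤ α * γ) (G h : ℝ) :
    0 ≤ m11 * G ^ 2 + 2 * m12 * G * h + m22 * h ^ 2 := by
  have hsq : m12 ^ 2 ≤ β ^ 2 := sq_le_sq' (by linarith [(abs_le.mp h12).1]) (abs_le.mp h12).2
  have h1 : 0 ≤ α * (α * G ^ 2 + 2 * m12 * G * h + γ * h ^ 2) := by
    have e : α * (α * G ^ 2 + 2 * m12 * G * h + γ * h ^ 2) =
        (α * G + m12 * h) ^ 2 + (α * γ - m12 ^ 2) * h ^ 2 := by ring
    rw [e]
    exact add_nonneg (sq_nonneg _) (mul_nonneg (by linarith) (sq_nonneg _))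
  have h2 : 0 ≤ α * G ^ 2 + 2 * m12 * G * h + γ * h ^ 2 := (mul_nonneg_iff_of_pos_left hα).mp h1
  have h3 : 0 ≤ (m11 - α) * G ^ 2 := mul_nonneg (by linarith) (sq_nonneg _)
  have h4 : 0 ≤ (m22 - γ) * h ^ 2 := mul_nonneg (by linarith) (sq_nonneg _)
  nlinarith

theorem scPos_surplus_aux {b p w : ℝ} (hblo : 4826 / 10000 ≤ b) (hbhi : b < 1 / 2)
    (hplo : 4945 / 10000 ≤ p) (hphi : p < 1 / 2) (hw0 : 0 ≤ w) (hw : w ≤ 82 / 1000000)
    (G h : ℝ) :
    (82 / 37 * b ^ 2 - 427 / 370 * b + 56897 / 74000 / 4 + w) * G ^ 2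
      + 2 * (56897 / 74000 / 2 - 427 / 370 * b) * G * h + 56897 / 74000 * h ^ 2
      + 5 / 17 / p * ((p + b * (3 / 4 - b) - w) * G + 3 / 2 * b * h) ^ 2
      + 22 / 1000 * G ^ 2 + 3 / 4 * h ^ 2 ≤
    43 / 100 * G ^ 2 + 26 / 100 * G * h + 68 / 25 * h ^ 2 := by
  have hvlo : 1 / 8 ≤ b * (3 / 4 - b) := by nlinarith
  have hvhi : b * (3 / 4 - b) ≤ 12905 / 100000 := by nlinarith
  obtain ⟨EE, hEE⟩ : ∃ EE, EE = p + b * (3 / 4 - b) - w := ⟨_, rfl⟩
  rw [← hEE]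
  have hEElo : 6194 / 10000 ≤ EE := by rw [hEE]; linarith
  have hEEhi : EE ≤ 62905 / 100000 := by rw [hEE]; linarith
  clear hEE hvlo hvhi
  have hppos : 0 < p := by linarith
  have hDD : 5 / 17 / p ≤ 5948 / 10000 := by
    rw [div_le_iff₀ hppos]; linarith
  have hX : 5 / 17 / p * (EE * G + 3 / 2 * b * h) ^ 2 ≤
      5948 / 10000 * (EE * G + 3 / 2 * b * h) ^ 2 :=
    mul_le_mul_of_nonneg_right hDD (sq_nonneg _)
  have hEEsq : EE ^ 2 ≤ (62905 / 100000) ^ 2 := pow_le_pow_left₀ (by linarith) hEEhi 2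
  have hn11 : 82 / 37 * b ^ 2 - 427 / 370 * b ≤ 82 / 37 * (1 / 2) ^ 2 - 427 / 370 * (1 / 2) := by
    nlinarith
  have h11 : 33 / 10000 ≤ 43 / 100 - 22 / 1000 -
      (82 / 37 * b ^ 2 - 427 / 370 * b + 56897 / 74000 / 4 + w) - 5948 / 10000 * EE ^ 2 := by
    norm_num at hEEsq hn11 ⊢
    linarith
  have hbsq : b ^ 2 ≤ 1 / 4 := by nlinarith
  have h22 : 866 / 1000 ≤ 68 / 25 - 3 / 4 - 56897 / 74000 - 5948 / 10000 * (3 / 2 * b) ^ 2 := by
    nlinarith
  have hc_hi : 427 / 370 - 8922 / 10000 * EE ≤ 60143 / 100000 := by linarith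
  have hc_lo : 5928 / 10000 ≤ 427 / 370 - 8922 / 10000 * EE := by linarith
  have hbc_hi : b * (427 / 370 - 8922 / 10000 * EE) ≤ 1 / 2 * (60143 / 100000) :=
    mul_le_mul hbhi.le hc_hi (by linarith) (by norm_num)
  have hbc_lo : 4826 / 10000 * (5928 / 10000) ≤ b * (427 / 370 - 8922 / 10000 * EE) :=
    mul_le_mul hblo hc_lo (by norm_num) (by linarith)
  have e12 : 13 / 100 - (56897 / 74000 / 2 - 427 / 370 * b) - 5948 / 10000 * (EE * (3 / 2 * b)) =
      13 / 100 - 56897 / 74000 / 2 + b * (427 / 370 - 8922 / 10000 * EE) := by ring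
  have h12 : |13 / 100 - (56897 / 74000 / 2 - 427 / 370 * b) - 5948 / 10000 * (EE * (3 / 2 * b))|
      ≤ 47 / 1000 := by
    rw [e12, abs_le]
    constructor
    · linarith
    · linarith
  have key := scPos_quad h11 h22 h12 (by norm_num) (by norm_num) G h
  generalize 5 / 17 / p * (EE * G + 3 / 2 * b * h) ^ 2 = Y at hX ⊢
  linarith [hX, key]

variable {a q d k b l l1 : ℝ}

namespace ScPosCore

theorem lsq (H : ScPosCore a q d k b l l1) : l ^ 2 / (3 / 40) ≤ 82 / 1000000 := by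
  have h : l ^ 2 ≤ (247 / 100000) ^ 2 := pow_le_pow_left₀ H.l_pos.le H.l_hi 2
  rw [div_le_iff₀ (by norm_num)]
  norm_num at h ⊢
  linarith

theorem lsq_nonneg (_H : ScPosCore a q d k b l l1) : 0 ≤ l ^ 2 / (3 / 40) := by positivity

theorem v_lo (H : ScPosCore a q d k b l l1) : 1 / 8 ≤ b * (3 / 4 - b) := by
  nlinarith [H.b_lo, H.b_hi]

theorem v_hi (H : ScPosCore a q d k b l l1) : b * (3 / 4 - b) ≤ 12905 / 100000 := by
  nlinarith [H.b_lo, H.b_hi]

/-- `h₀² ≤ .67² p`. -/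
theorem h0 (H : ScPosCore a q d k b l l1) :
    (k * (1 + b) - 3 / 2 * k - 2 * (b - 7 / 25) * l / (3 / 40)) ^ 2 ≤
      (67 / 100) ^ 2 * (b + k * l - l ^ 2 / (3 / 40)) := by
  have hkb := H.kb
  have hk : 0 < k := by linarith [H.k_lo, H.a_ge]
  have h1 : 0 ≤ k * (1 / 2 - b) := mul_nonneg hk.le (by linarith [H.b_hi])
  have h2 : 0 ≤ 2 * (b - 7 / 25) * l / (3 / 40) := by
    have : 0 ≤ b - 7 / 25 := by linarith [H.b_lo]
    have := H.l_pos
    positivity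
  have h3 : 2 * (b - 7 / 25) * l / (3 / 40) ≤ 15 / 1000 := by
    rw [div_le_iff₀ (by norm_num)]
    have : (b - 7 / 25) * l ≤ (22 / 100) * (247 / 100000) :=
      mul_le_mul (by linarith [H.b_hi]) H.l_hi H.l_pos.le (by norm_num)
    linarith
  set X := k * (1 + b) - 3 / 2 * k - 2 * (b - 7 / 25) * l / (3 / 40) with hX
  have e : X = -(k * (1 / 2 - b)) - 2 * (b - 7 / 25) * l / (3 / 40) := by rw [hX]; ring
  have hXlo : -(107 / 1000) ≤ X := by rw [e]; linarith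
  have hXhi : X ≤ 107 / 1000 := by rw [e]; linarith
  have hsq : X ^ 2 ≤ (107 / 1000) ^ 2 := sq_le_sq' hXlo hXhi
  nlinarith [H.p_lo]

/-- the slope bound. -/
theorem slope (H : ScPosCore a q d k b l l1) :
    68 / 100 ≤ 2 * (1 - q * d) / d ^ 2 - 2 * b * l / (d * (1 - b ^ 2)) := by
  have hd := H.d_pos
  have hb2 : 3 / 4 ≤ 1 - b ^ 2 := by nlinarith [H.b_lo, H.b_hi]
  have h1 : 18 / 10 ≤ 2 * (1 - q * d) / d ^ 2 := by
    rw [le_div_iff₀ (by positivity)]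
    linarith [H.var]
  have h2 : 2 * b * l / (d * (1 - b ^ 2)) ≤ 4 / 100 := by
    rw [div_le_iff₀ (mul_pos hd (by linarith))]
    have e1 : b * l ≤ 1 / 2 * (26 / 1000 * d) :=
      mul_le_mul H.b_hi.le H.chi H.l_pos.le (by norm_num)
    have e2 : d * (3 / 4) ≤ d * (1 - b ^ 2) := mul_le_mul_of_nonneg_left hb2 hd.le
    nlinarith
  linarith

theorem surplus (H : ScPosCore a q d k b l l1) (G h : ℝ) :
    (82 / 37 * b ^ 2 - 427 / 370 * b + 56897 / 74000 / 4 + l ^ 2 / (3 / 40)) * G ^ 2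
      + 2 * (56897 / 74000 / 2 - 427 / 370 * b) * G * h + 56897 / 74000 * h ^ 2
      + 5 / 17 / (b + k * l - l ^ 2 / (3 / 40)) *
        ((b + k * l - l ^ 2 / (3 / 40) + b * (3 / 4 - b) - l ^ 2 / (3 / 40)) * G
          + 3 / 2 * b * h) ^ 2
      + 22 / 1000 * G ^ 2 + 3 / 4 * h ^ 2 ≤
    43 / 100 * G ^ 2 + 26 / 100 * G * h + 68 / 25 * h ^ 2 :=
  scPos_surplus_aux H.b_lo H.b_hi H.p_lo H.p_hi H.lsq_nonneg H.lsq G h

end ScPosCore

/-- the recurrences needed for the variance. -/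
structure ScPosRec (u I0 I1 I2 I3 : ℝ) : Prop where
  r0 : I0 + u * I1 = 1
  r1 : I1 + u * I2 = I0
  r2 : I2 + u * I3 = 2 * I1

section core
variable {a u τ x I0 I1 I2 I3 I4 C B J R : ℝ}

theorem ScPosTC.a_pos (T : ScPosTC a u τ x) : 0 < a := by linarith [T.a_ge]

theorem ScPosTC.u_eq (T : ScPosTC a u τ x) : u = 1 / a ^ 2 := by
  have ha0 := T.a_pos
  have := T.ua
  field_simp
  linarith

theorem ScPosTC.l_eq (T : ScPosTC a u τ x) (J : ℝ) : u * J / a = u ^ 2 * a * J := by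
  have ha0 := T.a_pos
  rw [T.u_eq]; field_simp

theorem ScPosTC.k_eq (T : ScPosTC a u τ x) (C : ℝ) : a / 2 + C / a = a * (1 / 2 + u * C) := by
  have ha0 := T.a_pos
  rw [T.u_eq]; field_simp

theorem ScPosTC.kl_eq (T : ScPosTC a u τ x) (C J : ℝ) :
    (a / 2 + C / a) * (u * J / a) = u * (J / 2) + u * (u * (C * J)) := by
  have ha0 := T.a_pos
  rw [T.u_eq]; field_simp

theorem ScPosCB.l_pos (H : ScPosCB u τ C B J R) (T : ScPosTC a u τ x) : 0 < u * J / a :=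
  div_pos (mul_pos T.u_pos (H.J_pos T)) T.a_pos

theorem ScPosCB.l_hi (H : ScPosCB u τ C B J R) (T : ScPosTC a u τ x) :
    u * J / a ≤ 247 / 100000 := by
  rw [div_le_iff₀ T.a_pos]
  linarith [H.uJ_le T, T.a_ge]

theorem ScPosCB.lsq_hi (H : ScPosCB u τ C B J R) (T : ScPosTC a u τ x) :
    (u * J / a) ^ 2 / (3 / 40) ≤ 82 / 1000000 := by
  have h : (u * J / a) ^ 2 ≤ (247 / 100000) ^ 2 := pow_le_pow_left₀ (H.l_pos T).le (H.l_hi T) 2
  rw [div_le_iff₀ (by norm_num)]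
  norm_num at h ⊢
  linarith

theorem ScPosCB.p_lo (H : ScPosCB u τ C B J R) (T : ScPosTC a u τ x) :
    4945 / 10000 ≤ 1 / 2 - u * B + (a / 2 + C / a) * (u * J / a) - (u * J / a) ^ 2 / (3 / 40) := by
  rw [T.kl_eq]
  have hu := T.u_pos
  have h1 := H.JB_lo T
  have h2 : u * (-(529 / 1000)) ≤ u * (J / 2 - B) := mul_le_mul_of_nonneg_left h1 hu.le
  have hCJ : 0 ≤ C * J := mul_nonneg (by linarith [H.C_ge T]) (H.J_pos T).le
  have h3 : 0 ≤ u * (u * (C * J)) := mul_nonneg hu.le (mul_nonneg hu.le hCJ)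
  have h4 := H.lsq_hi T
  have h5 := T.u_le
  have e : u * (J / 2 - B) = u * (J / 2) - u * B := by ring
  linarith

theorem ScPosCB.p_hi (H : ScPosCB u τ C B J R) (T : ScPosTC a u τ x) :
    1 / 2 - u * B + (a / 2 + C / a) * (u * J / a) - (u * J / a) ^ 2 / (3 / 40) < 1 / 2 := by
  rw [T.kl_eq]
  have hu := T.u_pos
  have h1 := H.JB_hi T
  have h2 : u * (J / 2 - B) ≤ u * (-(47 / 100)) := mul_le_mul_of_nonneg_left h1 hu.le
  have h3 : u * (u * (C * J)) ≤ u * (675 / 10000) := mul_le_mul_of_nonneg_left (H.uCJ_le T) hu.le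
  have h4 : 0 ≤ (u * J / a) ^ 2 / (3 / 40) := by positivity
  have e : u * (J / 2 - B) = u * (J / 2) - u * B := by ring
  linarith

theorem ScPosCB.kb (H : ScPosCB u τ C B J R) (T : ScPosTC a u τ x) :
    (a / 2 + C / a) * (1 / 2 - (1 / 2 - u * B)) ≤ 92 / 1000 := by
  rw [T.k_eq]
  have hu := T.u_pos
  have ha0 := T.a_pos
  have h1 := H.B_le_a T
  have hB : 0 ≤ B := by linarith [H.B_ge T, T.tau_ge]
  have e : a * (1 / 2 + u * C) * (1 / 2 - (1 / 2 - u * B)) = (1 / 2 + u * C) * (u * a * B) := by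
    ring
  rw [e]
  have h2 : u * a * B ≤ u * a * (17332 / 100000 * a) :=
    mul_le_mul_of_nonneg_left h1 (by positivity)
  have h3 : u * a * (17332 / 100000 * a) = 17332 / 100000 := by
    linear_combination (17332 / 100000) * T.ua
  have h4 : (1 / 2 + u * C) * (u * a * B) ≤ (528 / 1000) * (17332 / 100000) :=
    mul_le_mul (by linarith [H.uC_le T]) (by linarith) (by positivity) (by norm_num)
  linarith

theorem ScPosCB.l1_lo (H : ScPosCB u τ C B J R) (T : ScPosTC a u τ x) :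
    -(3 / 10) * (u * J / a) ≤ -(u ^ 2 * R) := by
  rw [T.l_eq]
  have hJ := H.J_pos T
  have h0 : R ≤ 3 / 10 * (a * J) := by
    have : 10 * J ≤ a * J := mul_le_mul_of_nonneg_right T.a_ge hJ.le
    linarith [H.R_le T]
  have h1 : u ^ 2 * R ≤ u ^ 2 * (3 / 10 * (a * J)) := mul_le_mul_of_nonneg_left h0 (sq_nonneg u)
  have e : -(3 / 10) * (u ^ 2 * a * J) = -(u ^ 2 * (3 / 10 * (a * J))) := by ring
  rw [e]
  linarith

theorem ScPosCB.kl1_hi (H : ScPosCB u τ C B J R) (T : ScPosTC a u τ x) :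
    (a / 2 + C / a) * -(u ^ 2 * R) ≤ -(85 / 100) * (u * J / a) := by
  rw [T.l_eq, T.k_eq]
  have hu := T.u_pos
  have ha0 := T.a_pos
  have hJ := H.J_pos T
  have hR := H.R_ge T
  have huC : 0 ≤ u * C := mul_nonneg hu.le (by linarith [H.C_ge T])
  have h1 : 85 / 100 * J ≤ (1 / 2 + u * C) * R := by
    have : 0 ≤ u * C * R := mul_nonneg huC (by linarith)
    nlinarith
  have h2 : u ^ 2 * a * (85 / 100 * J) ≤ u ^ 2 * a * ((1 / 2 + u * C) * R) :=
    mul_le_mul_of_nonneg_left h1 (by positivity)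
  have e1 : a * (1 / 2 + u * C) * -(u ^ 2 * R) = -(u ^ 2 * a * ((1 / 2 + u * C) * R)) := by ring
  have e2 : -(85 / 100) * (u ^ 2 * a * J) = -(u ^ 2 * a * (85 / 100 * J)) := by ring
  rw [e1, e2]
  linarith

theorem ScPosCB.kl1_lo (H : ScPosCB u τ C B J R) (T : ScPosTC a u τ x) :
    -(1584 / 1000) * (u * J / a) ≤ (a / 2 + C / a) * -(u ^ 2 * R) := by
  rw [T.l_eq, T.k_eq]
  have hu := T.u_pos
  have ha0 := T.a_pos
  have hJ := H.J_pos T
  have hR0 : 0 ≤ R := by linarith [H.R_ge T]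
  have h1 : (1 / 2 + u * C) * R ≤ 528 / 1000 * (3 * J) :=
    mul_le_mul (by linarith [H.uC_le T]) (H.R_le T) hR0 (by norm_num)
  have h2 : u ^ 2 * a * ((1 / 2 + u * C) * R) ≤ u ^ 2 * a * (528 / 1000 * (3 * J)) :=
    mul_le_mul_of_nonneg_left h1 (by positivity)
  have e1 : a * (1 / 2 + u * C) * -(u ^ 2 * R) = -(u ^ 2 * a * ((1 / 2 + u * C) * R)) := by ring
  have e2 : -(1584 / 1000) * (u ^ 2 * a * J) = -(u ^ 2 * a * (528 / 1000 * (3 * J))) := by ring
  rw [e1, e2]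
  linarith

theorem ScPosCB.chi (H : ScPosCB u τ C B J R) (T : ScPosTC a u τ x)
    (E : ScPosEnc u I0 I1 I2 I3 I4) : u * J / a ≤ 26 / 1000 * (I1 / (a * I0)) := by
  have ha0 := T.a_pos
  have hI0 := E.I0_pos
  rw [div_le_iff₀ ha0]
  have e : 26 / 1000 * (I1 / (a * I0)) * a = 26 / 1000 * I1 / I0 := by field_simp
  rw [e, le_div_iff₀ hI0]
  have h1 : u * J * I0 ≤ 246898 / 10000000 * 1 :=
    mul_le_mul (H.uJ_le T) E.I0_le_one hI0.le (by norm_num)
  linarith [E.l1, E.u_le]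

theorem ScPosEnc.var (E : ScPosEnc u I0 I1 I2 I3 I4) (Rc : ScPosRec u I0 I1 I2 I3)
    (T : ScPosTC a u τ x) :
    9 / 10 * (I1 / (a * I0)) ^ 2 ≤ 1 - a / I0 * (I1 / (a * I0)) := by
  have ha0 := T.a_pos
  have hI0 := E.I0_pos
  have hu := E.u_pos
  have e1 : a / I0 * (I1 / (a * I0)) = I1 / I0 ^ 2 := by field_simp
  have e2 : (I1 / (a * I0)) ^ 2 = u * I1 ^ 2 / I0 ^ 2 := by rw [T.u_eq]; field_simp
  rw [e1, e2]
  have e3 : 1 - I1 / I0 ^ 2 = (I0 ^ 2 - I1) / I0 ^ 2 := by field_simp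
  rw [e3, ← mul_div_assoc, div_le_div_iff_of_pos_right (by positivity)]
  have e4 : I0 ^ 2 - I1 = u * (I1 - u * I3 + u * I1 ^ 2) := by
    have h0 : I0 = 1 - u * I1 := by linarith [Rc.r0]
    have h2 : I2 = 2 * I1 - u * I3 := by linarith [Rc.r2]
    have h1 := Rc.r1
    rw [h2, h0] at h1
    rw [h0]
    linear_combination (-1 : ℝ) * h1
  rw [e4]
  have h5 : I1 ^ 2 ≤ 1 := by nlinarith [E.h1, E.I1_pos]
  have h6 : u * I3 ≤ u * 6 := mul_le_mul_of_nonneg_left (by linarith [E.h3]) hu.le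
  have h7 : 9 / 10 * I1 ^ 2 ≤ I1 - u * I3 + u * I1 ^ 2 := by
    have := mul_nonneg hu.le (sq_nonneg I1)
    linarith [E.l1, E.u_le]
  have := mul_le_mul_of_nonneg_left h7 hu.le
  linarith

theorem scPos_core (T : ScPosTC a u τ x)
    (E : ScPosEnc u I0 I1 I2 I3 I4) (Rc : ScPosRec u I0 I1 I2 I3) (H : ScPosCB u τ C B J R) :
    ScPosCore a (a / I0) (I1 / (a * I0)) (a / 2 + C / a) (1 / 2 - u * B) (u * J / a)
      (-(u ^ 2 * R)) where
  a_ge := T.a_ge
  b_lo := by linarith [H.uB_le T]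
  b_hi := by
    have : 0 < u * B := mul_pos T.u_pos (by linarith [H.B_ge T, T.tau_ge])
    linarith
  l_pos := H.l_pos T
  l_hi := H.l_hi T
  k_lo := by
    have : 0 < C / a := div_pos (by linarith [H.C_ge T]) T.a_pos
    linarith
  k_hi := by
    rw [T.k_eq]
    have := mul_le_mul_of_nonneg_left (H.uC_le T) T.a_pos.le
    nlinarith [T.a_pos]
  p_lo := H.p_lo T
  p_hi := H.p_hi T
  kb := H.kb T
  l1_hi := by
    have : 0 ≤ u ^ 2 * R := mul_nonneg (sq_nonneg u) (by linarith [H.R_ge T, H.J_pos T])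
    linarith
  l1_lo := H.l1_lo T
  kl1_hi := H.kl1_hi T
  kl1_lo := H.kl1_lo T
  d_pos := div_pos E.I1_pos (mul_pos T.a_pos E.I0_pos)
  chi := H.chi T E
  var := E.var Rc T

end core

end part1

/-! ## Part 2: closed forms and enclosures -/

/-- `τ = t - a²/2 = log (a √(2π)) - log I₀`. -/
noncomputable def scPosTau (a : ℝ) : ℝ := scT a - a ^ 2 / 2

noncomputable def scPosC (a : ℝ) : ℝ := scMomI a 0 * scPosTau a - scMomI a 1 / 2

noncomputable def scPosB (a : ℝ) : ℝ := scMomI a 1 * scPosTau a - (scMomI a 1 + scMomI a 2) / 2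

noncomputable def scPosJ (a : ℝ) : ℝ :=
  scMomI a 2 * scPosTau a - scMomI a 1 ^ 2 / scMomI a 0 - scMomI a 3 / 2

noncomputable def scPosR (a : ℝ) : ℝ :=
  scMomI a 3 * scPosTau a - (scMomI a 3 + scMomI a 4) / 2 -
    (2 * scMomI a 1 ^ 2 + scMomI a 1 * scMomI a 2 + scMomI a 1 ^ 3 - scMomI a 3) / scMomI a 0 ^ 2

section
variable {a : ℝ}

theorem scPos_I1 (ha : 0 < a) : scMomI a 1 = a ^ 2 * (1 - scMomI a 0) := by
  have h := scMomI_zero_add ha
  field_simp at h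
  linarith

theorem scPos_I2 (ha : 0 < a) : scMomI a 2 = a ^ 2 * (scMomI a 0 - scMomI a 1) := by
  have h := scMomI_succ_add ha 0
  norm_num at h
  field_simp at h
  linarith

theorem scPos_I3 (ha : 0 < a) : scMomI a 3 = a ^ 2 * (2 * scMomI a 1 - scMomI a 2) := by
  have h := scMomI_succ_add ha 1
  norm_num at h
  field_simp at h
  linarith

theorem scPos_I4 (ha : 0 < a) : scMomI a 4 = a ^ 2 * (3 * scMomI a 2 - scMomI a 3) := by
  have h := scMomI_succ_add ha 2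
  norm_num at h
  field_simp at h
  linarith

theorem scPos_m0 (ha : 0 < a) : scMom 0 a = scMomI a 0 / a := by
  unfold scMomI; field_simp; ring

theorem scPos_m1 (ha : 0 < a) : scMom 1 a = scMomI a 1 / a ^ 2 := by
  unfold scMomI; field_simp

theorem scPos_m2 (ha : 0 < a) : scMom 2 a = scMomI a 2 / a ^ 3 := by
  unfold scMomI; field_simp

theorem scPos_m3 (ha : 0 < a) : scMom 3 a = scMomI a 3 / a ^ 4 := by
  unfold scMomI; field_simp

theorem scPos_T (a : ℝ) : scT a = a ^ 2 / 2 + scPosTau a := by unfold scPosTau; ring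

theorem scPos_Q (ha : 0 < a) : scQ a = a / scMomI a 0 := by
  have h0 := (scMomI_pos ha 0).ne'
  rw [scQ_eq_scMom, scPos_m0 ha]
  field_simp

theorem scPos_D (ha : 0 < a) : scD a = scMomI a 1 / (a * scMomI a 0) := by
  have h0 := (scMomI_pos ha 0).ne'
  rw [scD_eq_scMom, scPos_m0 ha, scPos_m1 ha]
  field_simp

theorem scPos_K (ha : 0 < a) : scK a = a / 2 + scPosC a / a := by
  rw [scK_eq_scMom, scPos_m0 ha, scPos_T]
  unfold scPosC
  rw [scPos_I1 ha]
  field_simp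
  ring

theorem scPos_Bf (ha : 0 < a) : scB a = 1 / 2 - (a ^ 2)⁻¹ * scPosB a := by
  rw [scB_eq_scMom, scPos_m1 ha, scPos_T]
  unfold scPosB
  rw [scPos_I2 ha, scPos_I1 ha]
  field_simp
  ring

theorem scPos_Lf (ha : 0 < a) : scL a = (a ^ 2)⁻¹ * scPosJ a / a := by
  have h0 := (scMomI_pos ha 0).ne'
  rw [scL_eq_scMom, scPos_D ha, scPos_m2 ha, scPos_T]
  unfold scPosJ
  rw [scPos_I3 ha, scPos_I2 ha, scPos_I1 ha]
  field_simp
  ring

theorem scPos_L1f (ha : 0 < a) : scL1 a = -(((a ^ 2)⁻¹) ^ 2 * scPosR a) := by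
  have h0 := (scMomI_pos ha 0).ne'
  rw [scL1_eq_scMom, scPos_D ha, scPos_Q ha, scPos_m3 ha, scPos_T]
  unfold scPosR
  rw [scPos_I4 ha, scPos_I3 ha, scPos_I2 ha, scPos_I1 ha]
  field_simp
  ring

/-! ### enclosures -/

theorem scPos_u_le (ha : 10 ≤ a) : (a ^ 2)⁻¹ ≤ 1 / 100 := by
  have h : (100 : ℝ) ≤ a ^ 2 := by nlinarith
  rw [inv_le_comm₀ (by positivity) (by norm_num)]
  norm_num
  exact h

theorem scPos_rec (ha : 0 < a) :
    ScPosRec (a ^ 2)⁻¹ (scMomI a 0) (scMomI a 1) (scMomI a 2) (scMomI a 3) where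
  r0 := scMomI_zero_add ha
  r1 := by
    have h := scMomI_succ_add ha 0
    norm_num at h
    exact h
  r2 := by
    have h := scMomI_succ_add ha 1
    norm_num at h
    linarith

theorem scPos_enc (ha : 10 ≤ a) :
    ScPosEnc (a ^ 2)⁻¹ (scMomI a 0) (scMomI a 1) (scMomI a 2) (scMomI a 3) (scMomI a 4) := by
  have ha0 : 0 < a := by linarith
  have hu : 0 < (a ^ 2)⁻¹ := by positivity
  have hule := scPos_u_le ha
  have L := fun j => scMomI_lower ha0 (k := 2) (by decide) j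
  have U := fun j => scMomI_upper ha0 (k := 3) (by decide) j
  have hr := scPos_rec ha0
  have h2pos := scMomI_pos ha0 2
  generalize (a ^ 2)⁻¹ = u at *
  have L0 := L 0
  have L1 := L 1
  have L2 := L 2
  have L3 := L 3
  have L4 := L 4
  have U0 := U 0
  have U1 := U 1
  have U2 := U 2
  have U3 := U 3
  have U4 := U 4
  simp only [scMomS, Finset.sum_range_succ, Finset.sum_range_zero, scMomC, Nat.factorial]
    at L0 L1 L2 L3 L4 U0 U1 U2 U3 U4
  norm_num at L0 L1 L2 L3 L4 U0 U1 U2 U3 U4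
  have husq : u ^ 2 ≤ u / 100 := by nlinarith
  exact
    { u_pos := hu
      u_le := hule
      l0 := by linarith
      h0 := by linarith
      l1 := by linarith
      h1 := by linarith
      l2 := by linarith
      h2 := by linarith
      l3 := by linarith
      h3 := by linarith
      l4 := by linarith
      h4 := by linarith
      le10 := by
        have := hr.r1
        have := mul_pos hu h2pos
        linarith }

/-- `θ₀ = log (10 √(2π))`. -/
theorem scPos_theta0 :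
    322 / 100 ≤ Real.log (Real.sqrt (2 * Real.pi)) + Real.log 10 ∧
      Real.log (Real.sqrt (2 * Real.pi)) + Real.log 10 ≤ 3223 / 1000 := by
  have hpi := Real.pi_pos
  have hpl := Real.pi_gt_d4
  have hph := Real.pi_lt_d4
  have hl2 := Real.log_two_gt_d9
  have hh2 := Real.log_two_lt_d9
  set y : ℝ := Real.pi ^ 4 * (10 ^ 8 / 2 ^ 33) with hy
  have hypos : 0 < y := by positivity
  have e : 8 * (Real.log (Real.sqrt (2 * Real.pi)) + Real.log 10) =
      37 * Real.log 2 + Real.log y := by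
    rw [Real.log_sqrt (by positivity), hy, Real.log_mul (by positivity) (by positivity),
      Real.log_mul (by positivity) (by positivity), Real.log_div (by positivity) (by positivity),
      Real.log_pow, Real.log_pow, Real.log_pow]
    push_cast
    ring
  have hp2l : (3.1415 : ℝ) ^ 4 ≤ Real.pi ^ 4 := pow_le_pow_left₀ (by norm_num) hpl.le 4
  have hp2h : Real.pi ^ 4 ≤ (3.1416 : ℝ) ^ 4 := pow_le_pow_left₀ hpi.le hph.le 4
  have hyl : (1.1338 : ℝ) ≤ y := by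
    rw [hy]
    have : (1.1338 : ℝ) ≤ (3.1415 : ℝ) ^ 4 * (10 ^ 8 / 2 ^ 33) := by norm_num
    nlinarith
  have hyh : y ≤ (1.13401 : ℝ) := by
    rw [hy]
    have : (3.1416 : ℝ) ^ 4 * (10 ^ 8 / 2 ^ 33) ≤ (1.13401 : ℝ) := by norm_num
    nlinarith
  have hlogh : Real.log y ≤ y - 1 := Real.log_le_sub_one_of_pos hypos
  have hlogl : 1 - y⁻¹ ≤ Real.log y := Real.one_sub_inv_le_log_of_pos hypos
  have hinv : y⁻¹ ≤ (1.1338 : ℝ)⁻¹ := inv_anti₀ (by norm_num) hyl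
  have hinv2 : (1.1338 : ℝ)⁻¹ ≤ 0.882 := by norm_num
  constructor
  · norm_num at *
    linarith
  · norm_num at *
    linarith

theorem scPos_tau_eq (ha : 0 < a) :
    scPosTau a = Real.log (Real.sqrt (2 * Real.pi)) + Real.log 10 + Real.log (a / 10)
      - Real.log (scMomI a 0) := by
  unfold scPosTau
  rw [scT_eq_scMom, scPos_m0 ha, Real.log_div (scMomI_pos ha 0).ne' ha.ne',
    Real.log_div ha.ne' (by norm_num)]
  ring

theorem scPos_tc (ha : 10 ≤ a) : ScPosTC a (a ^ 2)⁻¹ (scPosTau a) (Real.log (a / 10)) := by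
  have ha0 : 0 < a := by linarith
  have E := scPos_enc ha
  have hI0 := E.I0_pos
  have h1 : Real.log (scMomI a 0) ≤ 0 := Real.log_nonpos hI0.le E.I0_le_one
  have h2 : -(102 / 10000) ≤ Real.log (scMomI a 0) := by
    have h := Real.one_sub_inv_le_log_of_pos hI0
    have h3 : (scMomI a 0)⁻¹ ≤ (99 / 100 : ℝ)⁻¹ :=
      inv_anti₀ (by norm_num) (by linarith [E.l0, E.u_le])
    norm_num at h3
    linarith
  have hth := scPos_theta0
  exact
    { a_ge := ha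
      u_pos := E.u_pos
      ua := by field_simp
      x_nonneg := Real.log_nonneg (by linarith)
      x_le := by
        have := Real.log_le_sub_one_of_pos (show 0 < a / 10 by positivity)
        linarith
      tau_lo := by rw [scPos_tau_eq ha0]; linarith [hth.1]
      tau_hi := by rw [scPos_tau_eq ha0]; linarith [hth.2] }

theorem scPos_cb (ha : 10 ≤ a) :
    ScPosCB (a ^ 2)⁻¹ (scPosTau a) (scPosC a) (scPosB a) (scPosJ a) (scPosR a) := by
  have E := scPos_enc ha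
  have hτ := (scPos_tc ha).tau_ge
  exact
    { C_hi := E.C_hi hτ
      C_lo := E.C_lo hτ
      B_hi := E.B_hi hτ
      B_lo := E.B_lo hτ
      J_hi := E.J_hi hτ
      J_lo := E.J_lo hτ
      R_lo := E.R_lo hτ
      R_hi := E.R_hi hτ }

/-- all the numerical facts at `a ≥ 10`. -/
theorem scPos_core_at (ha : 10 ≤ a) :
    ScPosCore a (scQ a) (scD a) (scK a) (scB a) (scL a) (scL1 a) := by
  have ha0 : 0 < a := by linarith
  have h := scPos_core (scPos_tc ha) (scPos_enc ha) (scPos_rec ha0) (scPos_cb ha)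
  rw [scPos_Q ha0, scPos_D ha0, scPos_K ha0, scPos_Bf ha0, scPos_Lf ha0, scPos_L1f ha0]
  exact h

end

/-! ## Part 3: row `T₁` -/

theorem scPos_P_eq (a : ℝ) : scP a = scB a + scK a * scL a - scL a ^ 2 / (3 / 40) := by
  unfold scP scF1 scα; ring

theorem scPos_EE_eq (a : ℝ) :
    scEE a = scP a + scB a * (3 / 4 - scB a) - scL a ^ 2 / (3 / 40) := by
  unfold scEE scE scP scF1 scα scγ; ring

theorem scPos_Dstar : scDstar = 5 / 17 := by
  unfold scDstar scε; norm_num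

theorem scPos_Astar : scAstar = 82 / 37 := by
  unfold scAstar scs; norm_num

theorem scPos_etastar : scηstar = 427 / 370 := by
  unfold scηstar scs scβ scγ; norm_num

theorem scPos_nustar : scνstar = 56897 / 74000 := by
  unfold scνstar scs scβ scγ; norm_num

/-- all bounds of row `T₁` on the positive tail. -/
theorem scPos_main {a : ℝ} (ha : 10 ≤ a) : ScBdT1 a := by
  have H := scPos_core_at ha
  have hP := scPos_P_eq a
  have hplo : 4945 / 10000 ≤ scP a := by rw [hP]; exact H.p_lo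
  have hphi : scP a < 1 / 2 := by rw [hP]; exact H.p_hi
  have hp0 : 0 < scP a := by linarith
  have hlsq := H.lsq
  have hlsq0 := H.lsq_nonneg
  have hvlo := H.v_lo
  have hvhi := H.v_hi
  have hblo := H.b_lo
  have hbhi := H.b_hi
  have hl0 := H.l_pos
  have hEE := scPos_EE_eq a
  refine ⟨?_, by linarith, ?_⟩
  · exact
      { b_pos := by linarith
        b_lt := hbhi
        l_pos := hl0
        p_pos := hp0
        h0_le := by
          have h := H.h0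
          rw [hP]
          have e : scH0 a = scK a * (1 + scB a) - 3 / 2 * scK a
              - 2 * (scB a - 7 / 25) * scL a / (3 / 40) := by
            unfold scH0 scF scc scβ scα; ring
          rw [e]
          exact h
        slope := by
          unfold scSlopeM
          exact H.slope
        b_lo := by linarith
        b_hi := hbhi.le
        L_hi := by
          unfold scLL scα
          rw [div_le_iff₀ (by norm_num)]
          linarith [H.l_hi]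
        K_lo := by
          unfold scK0 scDD
          rw [scPos_Dstar, hEE, div_mul_eq_mul_div, le_div_iff₀ hp0]
          linarith
        K_hi := by
          unfold scK0 scDD
          rw [scPos_Dstar, hEE, div_mul_eq_mul_div, div_le_iff₀ hp0]
          linarith
        J_hi := by
          unfold scJ0 scDD scc
          rw [scPos_Dstar, mul_assoc, div_mul_eq_mul_div, div_le_iff₀ hp0]
          linarith
        surplus := by
          intro G h
          have hs := H.surplus G h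
          unfold scLocForm scQf scDD scc scα
          rw [scPos_Dstar, scPos_Astar, scPos_etastar, scPos_nustar, hEE, hP]
          linarith
        z_lo := by
          unfold scZ
          rw [le_div_iff₀ hl0]
          linarith [H.l1_lo]
        z_hi := by
          unfold scZ
          exact div_nonpos_of_nonpos_of_nonneg H.l1_hi hl0.le
        chi_hi := by
          unfold scChi
          rw [div_le_iff₀ H.d_pos]
          linarith [H.chi, H.d_pos]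
        hst_lo := by
          unfold scHstar scZ
          have e : scK a * (scL1 a / scL a) = scK a * scL1 a / scL a := by ring
          have h1 : -(1584 / 1000) ≤ scK a * scL1 a / scL a := by
            rw [le_div_iff₀ hl0]; exact H.kl1_lo
          rw [e]
          linarith
        hst_hi := by
          unfold scHstar scZ
          have e : scK a * (scL1 a / scL a) = scK a * scL1 a / scL a := by ring
          have h1 : scK a * scL1 a / scL a ≤ -(85 / 100) := by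
            rw [div_le_iff₀ hl0]; exact H.kl1_hi
          rw [e]
          linarith }
  · unfold scDD
    rw [scPos_Dstar, div_le_iff₀ hp0]
    linarith

end Claimed.Agent.R260
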