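/-
Row 260, SC, "Bounds": Lemma 2.2 (tr:scalar-basic) and Lemma 4.1 (sc:bounds) on the whole line
= assembly of ScNegMain, ScCenMain, ScPosMain.  THIS FILE IS THE INTERFACE for all users of the
one-variable bounds (ScAbsorb, ScPair*, Wi*, Sec 3).   Owner: helper216.
-/
import Claimed.Agent.R260.ScNegMain
import Claimed.Agent.R260.ScCenMain
import Claimed.Agent.R260.ScPosMain

set_option autoImplicit false

namespace Claimed.Agent.R260

open Set

theorem scBdO {a : ℝ} (h : a ≤ -3) : ScBdO a := by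
  rcases le_total a (-6) with h6 | h6
  · exact scNeg_main h6
  · exact scCen_O h6 h

theorem scBdP1 {a : ℝ} (h1 : -3 ≤ a) (h2 : a ≤ -2) : ScBdP1 a := scCen_P1 h1 h2

theorem scBdR1 {a : ℝ} (h1 : -2 ≤ a) (h2 : a ≤ -1) : ScBdR1 a := scCen_R1 h1 h2

theorem scBdU1 {a : ℝ} (h1 : -1 ≤ a) (h2 : a ≤ 1 / 2) : ScBdU1 a := scCen_U1 h1 h2

theorem scBdV1 {a : ℝ} (h1 : 1 / 2 ≤ a) (h2 : a ≤ 4) : ScBdV1 a := scCen_V1 h1 h2

theorem scBdT1 {a : ℝ} (h : 4 ≤ a) : ScBdT1 a := by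
  rcases le_total a 10 with h6 | h6
  · exact scCen_T1 h h6
  · exact scPos_main h6

/-! ### case split on the six rows -/

/-- the six rows cover the line -/
theorem scBd_cases (a : ℝ) :
    (a ≤ -3 ∧ ScBdO a) ∨ (-3 ≤ a ∧ a ≤ -2 ∧ ScBdP1 a) ∨ (-2 ≤ a ∧ a ≤ -1 ∧ ScBdR1 a) ∨
      (-1 ≤ a ∧ a ≤ 1 / 2 ∧ ScBdU1 a) ∨ (1 / 2 ≤ a ∧ a ≤ 4 ∧ ScBdV1 a) ∨ (4 ≤ a ∧ ScBdT1 a) := by
  rcases le_total a (-3) with h1 | h1
  · exact Or.inl ⟨h1, scBdO h1⟩
  rcases le_total a (-2) with h2 | h2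
  · exact Or.inr (Or.inl ⟨h1, h2, scBdP1 h1 h2⟩)
  rcases le_total a (-1) with h3 | h3
  · exact Or.inr (Or.inr (Or.inl ⟨h2, h3, scBdR1 h2 h3⟩))
  rcases le_total a (1 / 2) with h4 | h4
  · exact Or.inr (Or.inr (Or.inr (Or.inl ⟨h3, h4, scBdU1 h3 h4⟩)))
  rcases le_total a 4 with h5 | h5
  · exact Or.inr (Or.inr (Or.inr (Or.inr (Or.inl ⟨h4, h5, scBdV1 h4 h5⟩))))
  · exact Or.inr (Or.inr (Or.inr (Or.inr (Or.inr ⟨h5, scBdT1 h5⟩))))

/-- some row holds at every point (for the row-independent bounds) -/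
theorem scBd_exists (a : ℝ) :
    ∃ bmin bmax Lmax Kmin Kmax Jmax l1 m zmin zmax chimax : ℝ,
      ScAllBd bmin bmax Lmax Kmin Kmax Jmax l1 m zmin zmax chimax a := by
  rcases scBd_cases a with h | h | h | h | h | h
  · exact ⟨_, _, _, _, _, _, _, _, _, _, _, h.2.1⟩
  · exact ⟨_, _, _, _, _, _, _, _, _, _, _, h.2.2.1⟩
  · exact ⟨_, _, _, _, _, _, _, _, _, _, _, h.2.2.1⟩
  · exact ⟨_, _, _, _, _, _, _, _, _, _, _, h.2.2.1⟩
  · exact ⟨_, _, _, _, _, _, _, _, _, _, _, h.2.2.1⟩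
  · exact ⟨_, _, _, _, _, _, _, _, _, _, _, h.2.1⟩

/-! ### Lemma 2.2 -/

theorem scB_pos (a : ℝ) : 0 < scB a := by
  obtain ⟨_, _, _, _, _, _, _, _, _, _, _, h⟩ := scBd_exists a
  exact h.b_pos

theorem scB_lt_half (a : ℝ) : scB a < 1 / 2 := by
  obtain ⟨_, _, _, _, _, _, _, _, _, _, _, h⟩ := scBd_exists a
  exact h.b_lt

theorem scL_pos (a : ℝ) : 0 < scL a := by
  obtain ⟨_, _, _, _, _, _, _, _, _, _, _, h⟩ := scBd_exists a
  exact h.l_pos

theorem scm0_le_scSlopeM (a : ℝ) : scm0 a ≤ scSlopeM a := by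
  unfold scm0
  split_ifs with h1 h2 h3
  · exact (scBdO h1.le).1.slope
  · exact (scBdP1 (not_lt.mp h1) h2.le).1.slope
  · exact (scBdR1 (not_lt.mp h2) h3.le).1.slope
  · have h3' := not_lt.mp h3
    rcases le_total a (1 / 2) with h4 | h4
    · exact (scBdU1 h3' h4).1.slope
    rcases le_total a 4 with h5 | h5
    · exact (scBdV1 h4 h5).1.slope
    · exact (scBdT1 h5).1.slope

theorem scK_strictMono : StrictMono scK :=
  strictMono_of_hasDerivAt_pos hasDerivAt_scK scB_pos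

theorem scB_strictMono : StrictMono scB :=
  strictMono_of_hasDerivAt_pos hasDerivAt_scB scL_pos

theorem sc_one_sub_scB_sq_pos (a : ℝ) : 0 < 1 - scB a ^ 2 := by
  have h1 := scB_pos a
  have h2 := scB_lt_half a
  nlinarith

theorem scM_pos (a : ℝ) : 0 < scM a := by
  unfold scM scD0
  have hd := scD_pos a
  have := sc_one_sub_scB_sq_pos a
  positivity

/-- `M' = M d · slopeM`. -/
theorem hasDerivAt_scM (a : ℝ) : HasDerivAt scM (scM a * scD a * scSlopeM a) a := by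
  have hd := (scD_pos a).ne'
  have hb := (sc_one_sub_scB_sq_pos a).ne'
  have h1 : HasDerivAt scD0 (-(scQ a * scD a - 1) / scD a ^ 2) a := by
    have := (hasDerivAt_scD a).fun_inv hd
    refine (this.congr_deriv rfl).congr_of_eventuallyEq ?_
    exact Filter.Eventually.of_forall fun x => by simp [scD0]
  have h2 : HasDerivAt (fun i => scD0 i ^ 2 * (1 - scB i ^ 2))
      (2 * scD0 a * (-(scQ a * scD a - 1) / scD a ^ 2) * (1 - scB a ^ 2) +
      scD0 a ^ 2 * -(2 * scB a * scL a)) a := by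
    have := (h1.fun_pow 2).fun_mul (((hasDerivAt_scB a).fun_pow 2).const_sub 1)
    simpa using this
  change HasDerivAt (fun i => scD0 i ^ 2 * (1 - scB i ^ 2)) _ a
  refine h2.congr_deriv ?_
  unfold scM scSlopeM scD0
  field_simp
  ring

theorem scm0_nonneg (a : ℝ) : 0 ≤ scm0 a := by
  unfold scm0
  split_ifs <;> norm_num

theorem scm0_le_one (a : ℝ) : scm0 a ≤ 1 := by
  unfold scm0
  split_ifs <;> norm_num

theorem scm0_mono : Monotone scm0 := by
  intro x y hxy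
  unfold scm0
  split_ifs <;> first | (exfalso; linarith) | norm_num

theorem scM_mono : Monotone scM :=
  monotone_of_hasDerivAt_nonneg hasDerivAt_scM fun a =>
    mul_nonneg (mul_nonneg (scM_pos a).le (scD_pos a).le)
      ((scm0_nonneg a).trans (scm0_le_scSlopeM a))

/-- `M q^{-m}` is nondecreasing on `[a₀,∞)` for `m = m₀(a₀)` (used in (tr:average-comparison)). -/
theorem scM_mul_exp_mono (a0 : ℝ) :
    MonotoneOn (fun a => scM a * Real.exp (-(scm0 a0) * Real.log (scQ a))) (Ici a0) := by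
  have hder : ∀ a, HasDerivAt (fun a => scM a * Real.exp (-(scm0 a0) * Real.log (scQ a)))
      (scM a * scD a * Real.exp (-(scm0 a0) * Real.log (scQ a)) * (scSlopeM a - scm0 a0)) a := by
    intro a
    have h1 : HasDerivAt (fun x => Real.log (scQ x)) (scD a) a := by
      have := (hasDerivAt_scQ a).log (scQ_pos a).ne'
      refine this.congr_deriv ?_
      field_simp [(scQ_pos a).ne']
    have h2 := (hasDerivAt_scM a).fun_mul ((h1.const_mul (-(scm0 a0))).exp)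
    refine h2.congr_deriv ?_
    ring
  refine monotoneOn_of_deriv_nonneg (convex_Ici a0)
    (fun a _ => (hder a).continuousAt.continuousWithinAt)
    (fun a _ => (hder a).differentiableAt.differentiableWithinAt) fun a ha => ?_
  rw [interior_Ici] at ha
  rw [(hder a).deriv]
  have h3 : scm0 a0 ≤ scSlopeM a := (scm0_mono (le_of_lt ha)).trans (scm0_le_scSlopeM a)
  exact mul_nonneg (mul_nonneg (mul_nonneg (scM_pos a).le (scD_pos a).le) (Real.exp_pos _).le)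
    (sub_nonneg.mpr h3)

/-! ### (sc:p-h-bounds) -/

theorem scP_pos (a : ℝ) : 0 < scP a := by
  obtain ⟨_, _, _, _, _, _, _, _, _, _, _, h⟩ := scBd_exists a
  exact h.p_pos

theorem scH0_sq_le (a : ℝ) : scH0 a ^ 2 ≤ (67 / 100) ^ 2 * scP a := by
  obtain ⟨_, _, _, _, _, _, _, _, _, _, _, h⟩ := scBd_exists a
  exact h.h0_le

theorem scP_ge_of_nonpos {a : ℝ} (h : a ≤ 0) : 1 ≤ scP a * (7 + a ^ 2) := by
  rcases scBd_cases a with h' | h' | h' | h' | h' | h'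
  · exact h'.2.2
  · exact h'.2.2.2.1
  · exact h'.2.2.2.1
  · exact h'.2.2.2.1 h
  · exfalso; linarith [h'.1]
  · exfalso; linarith [h'.1]

theorem scP_ge_of_nonneg {a : ℝ} (h : 0 ≤ a) : 1 / 4 ≤ scP a := by
  rcases scBd_cases a with h' | h' | h' | h' | h' | h'
  · exfalso; linarith [h'.1]
  · exfalso; linarith [h'.2.1]
  · exfalso; linarith [h'.2.1]
  · exact h'.2.2.2.2.1 h
  · exact h'.2.2.2.1
  · linarith [h'.2.2.1]

theorem scP_ge_of_four_le {a : ℝ} (h : 4 ≤ a) : 46 / 100 ≤ scP a := (scBdT1 h).2.1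

/-! ### (sc:derivative-table) and global forms of the tables -/

theorem scHstar_mem (a : ℝ) : 8 / 10 ≤ scHstar a ∧ scHstar a ≤ 177 / 100 := by
  obtain ⟨_, _, _, _, _, _, _, _, _, _, _, h⟩ := scBd_exists a
  exact ⟨h.hst_lo, h.hst_hi⟩

theorem scZ_mem_left {a : ℝ} (h : a ≤ -1) : -8 / 100 ≤ scZ a ∧ scZ a ≤ 70 / 100 := by
  rcases le_total a (-3) with h1 | h1
  · exact ⟨(scBdO h1).1.z_lo, (scBdO h1).1.z_hi⟩
  rcases le_total a (-2) with h2 | h2
  · exact ⟨(scBdP1 h1 h2).1.z_lo, (scBdP1 h1 h2).1.z_hi⟩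
  · exact ⟨(scBdR1 h2 h).1.z_lo, (scBdR1 h2 h).1.z_hi⟩

theorem scZ_mem_right {a : ℝ} (h : -1 ≤ a) : -475 / 1000 ≤ scZ a ∧ scZ a ≤ 0 := by
  rcases le_total a (1 / 2) with h1 | h1
  · exact ⟨(scBdU1 h h1).1.z_lo, (scBdU1 h h1).1.z_hi⟩
  rcases le_total a 4 with h2 | h2
  · exact ⟨(scBdV1 h1 h2).1.z_lo, (scBdV1 h1 h2).1.z_hi⟩
  · exact ⟨(scBdT1 h2).1.z_lo, (scBdT1 h2).1.z_hi⟩

theorem scChi_le_left {a : ℝ} (h : a ≤ -1) : scChi a ≤ 7 / 100 := by
  rcases le_total a (-3) with h1 | h1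
  · exact (scBdO h1).1.chi_hi
  rcases le_total a (-2) with h2 | h2
  · exact (scBdP1 h1 h2).1.chi_hi
  · exact (scBdR1 h2 h).1.chi_hi

theorem scChi_le_right {a : ℝ} (h : -1 ≤ a) : scChi a ≤ 97 / 1000 := by
  rcases le_total a (1 / 2) with h1 | h1
  · exact (scBdU1 h h1).1.chi_hi
  rcases le_total a 4 with h2 | h2
  · exact (scBdV1 h1 h2).1.chi_hi
  · exact (scBdT1 h2).1.chi_hi

theorem scChi_pos (a : ℝ) : 0 < scChi a := div_pos (scL_pos a) (scD_pos a)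

/-- `𝖫 ≤ 1.19` everywhere. -/
theorem scLL_le (a : ℝ) : scLL a ≤ 119 / 100 := by
  rcases scBd_cases a with h' | h' | h' | h' | h' | h'
  · linarith [h'.2.1.L_hi]
  · linarith [h'.2.2.1.L_hi]
  · linarith [h'.2.2.1.L_hi]
  · linarith [h'.2.2.1.L_hi]
  · linarith [h'.2.2.1.L_hi]
  · linarith [h'.2.1.L_hi]

/-! ### logarithmic lengths used in the secant argument -/

/-- `c < log x - log y` from `y e^c < x` -/
theorem sc_lt_log_sub_log {x y x0 y0 c : ℝ} (hy : 0 < y) (hx0 : x0 < x) (hy0 : y < y0)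
    (hc : Real.exp c * y0 ≤ x0) : c < Real.log x - Real.log y := by
  have hx : 0 < x := by
    have : 0 < Real.exp c * y0 := mul_pos (Real.exp_pos c) (hy.trans hy0)
    linarith
  rw [← Real.log_div hx.ne' hy.ne', Real.lt_log_iff_exp_lt (div_pos hx hy), lt_div_iff₀ hy]
  calc Real.exp c * y < Real.exp c * y0 := mul_lt_mul_of_pos_left hy0 (Real.exp_pos c)
    _ ≤ x0 := hc
    _ < x := hx0

/-- `e^(p/r) ≤ t` from `2.7182818286^p ≤ t^r` -/
theorem sc_exp_div_le {p r : ℕ} (hr : 0 < r) {t : ℝ} (ht : 0 ≤ t)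
    (h : (2.7182818286 : ℝ) ^ p ≤ t ^ r) : Real.exp ((p : ℝ) / r) ≤ t := by
  have h1 : Real.exp ((p : ℝ) / r) ^ r ≤ t ^ r := by
    rw [← Real.exp_nat_mul, mul_div_cancel₀ _ (by exact_mod_cast hr.ne'), ← mul_one (p : ℝ),
      Real.exp_nat_mul]
    exact (pow_le_pow_left₀ (Real.exp_pos 1).le Real.exp_one_lt_d9.le p).trans h
  exact le_of_pow_le_pow_left₀ hr.ne' ht h1

theorem sc_log_q_neg1_neg2 : 162 / 100 < Real.log (scQ (-1)) - Real.log (scQ (-2)) := by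
  refine sc_lt_log_sub_log (scQ_pos _) scCen_q_neg1 scCen_q_neg2 ?_
  have h := sc_exp_div_le (p := 81) (r := 50) (by norm_num) (t := 41 / 8) (by norm_num)
    (by norm_num)
  have h2 : ((81 : ℕ) : ℝ) / (50 : ℕ) = 162 / 100 := by norm_num
  rw [h2] at h
  nlinarith

theorem sc_log_q_neg1_neg3 : 4 < Real.log (scQ (-1)) - Real.log (scQ (-3)) := by
  refine sc_lt_log_sub_log (scQ_pos _) scCen_q_neg1 scCen_q_neg3 ?_
  have h := sc_exp_div_le (p := 4) (r := 1) (by norm_num) (t := 55) (by norm_num) (by norm_num)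
  have h2 : ((4 : ℕ) : ℝ) / (1 : ℕ) = 4 := by norm_num
  rw [h2] at h
  nlinarith

theorem sc_log_q_four_neg2 : 4 < Real.log (scQ 4) - Real.log (scQ (-2)) := by
  refine sc_lt_log_sub_log (scQ_pos _) scCen_q_four scCen_q_neg2 ?_
  have h := sc_exp_div_le (p := 4) (r := 1) (by norm_num) (t := 55) (by norm_num) (by norm_num)
  have h2 : ((4 : ℕ) : ℝ) / (1 : ℕ) = 4 := by norm_num
  rw [h2] at h
  nlinarith

theorem sc_log_q_four_neg3 : 65 / 10 < Real.log (scQ 4) - Real.log (scQ (-3)) := by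
  refine sc_lt_log_sub_log (scQ_pos _) scCen_q_four scCen_q_neg3 ?_
  have h := sc_exp_div_le (p := 13) (r := 2) (by norm_num) (t := 700) (by norm_num) (by norm_num)
  have h2 : ((13 : ℕ) : ℝ) / (2 : ℕ) = 65 / 10 := by norm_num
  rw [h2] at h
  nlinarith

end Claimed.Agent.R260
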