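/-
Row 260, SC, Prop 3.6 (paper Section 4.2): definitions for the sub-skeleton PA-PE.
Owner: helper216.
-/
import Claimed.Agent.R260.ScBounds

set_option autoImplicit false

namespace Claimed.Agent.R260

noncomputable section

/-- `ξ = log q`. -/
def scXi (a : ℝ) : ℝ := Real.log (scQ a)

/-- the surplus `ℓ₁` of (sc:interval-table) as a function of the endpoint. -/
def scEll1 (a : ℝ) : ℝ :=
  if a < -1 then 13 / 100 else if a < 1 / 2 then 123 / 1000 else if a < 4 then 60 / 1000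
  else 22 / 1000

/-- squared increment norm `𝒩_j(x,y,w)²` of (sc:increment-norm) at the endpoint `aj`. -/
def scNsq (aj x y w : ℝ) : ℝ :=
  scAstar * x ^ 2 + y ^ 2 / scα + scDD aj * w ^ 2
    + ((scAstar * scB aj - scηstar / 2) * x + scLL aj * y + scK0 aj * w) ^ 2 / scEll1 aj
    + (-scηstar * x + scJ0 aj * w) ^ 2 / (3 / 4)

/-- first component of `V_j(a) = ∫_{a_j}^a (l, l', f'' - 2 b_j l - 2 𝖫_j l')`. -/
def scVx (aj a : ℝ) : ℝ := scB a - scB aj
/-- second component. -/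
def scVy (aj a : ℝ) : ℝ := scL a - scL aj
/-- third component. -/
def scVw (aj a : ℝ) : ℝ :=
  scF1 a - scF1 aj - 2 * scB aj * (scB a - scB aj) - 2 * scLL aj * (scL a - scL aj)

/-- `W_j(a) = h_*(a) - 2 b_j - 2 𝖫_j z(a)` of (sc:derivative-vector). -/
def scWj (aj a : ℝ) : ℝ := scHstar a - 2 * scB aj - 2 * scLL aj * scZ a

/-- `F_j(a) = 𝒩_j(v_j(a))²`, `v_j = χ (1, z, W_j)`. -/
def scFj (aj a : ℝ) : ℝ := scNsq aj (scChi a) (scChi a * scZ a) (scChi a * scWj aj a)

/-- the "partial interval property" with constant `P` at the endpoint `aj` (other endpoint `ao`):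
`𝒩_j(V_j(a))² ≤ P (ξ(a) - ξ(a_j))²` for all `a` between the endpoints. -/
def ScPartial (aj ao P : ℝ) : Prop :=
  ∀ a ∈ Set.uIcc aj ao, scNsq aj (scVx aj a) (scVy aj a) (scVw aj a) ≤ P * (scXi a - scXi aj) ^ 2

/-- mean `ξ`-distance to the endpoint `aj` under the uniform law in `a` between the endpoints. -/
def scMeanDist (aj ao : ℝ) : ℝ := (ao - aj)⁻¹ * ∫ a in aj..ao, |scXi a - scXi aj|

/-- the threshold `Θ_m(δ)` of (sc:threshold). -/
def scTheta (m δ : ℝ) : ℝ := (1 + m) / 4 * ((1 + δ ^ 2 / 30 + δ ^ 4 / 1680) / (1 + δ ^ 2 / 36))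

end

end Claimed.Agent.R260
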