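/-
Row 260, SC, Prop 3.6, leaf PA: completion of squares (sc:one-endpoint).
-/
import Claimed.Agent.R260.ScPairDefs

set_option autoImplicit false

namespace Claimed.Agent.R260

theorem scEll1_pos (a : ℝ) : 0 < scEll1 a := by
  unfold scEll1; split_ifs <;> norm_num

/-- (sc:local-surplus) with `ℓ₁ = scEll1 a`, on the whole line. -/
theorem sc_surplus (a G h : ℝ) :
    scLocForm a G h + scEll1 a * G ^ 2 + (3 / 4) * h ^ 2 ≤ scQf G h := by
  unfold scEll1
  split_ifs with h1 h2 h3
  · rcases le_total a (-3) with h4 | h4
    · exact (scBdO h4).1.surplus G h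
    · rcases le_total a (-2) with h5 | h5
      · exact (scBdP1 h4 h5).1.surplus G h
      · exact (scBdR1 h5 h1.le).1.surplus G h
  · exact (scBdU1 (not_lt.mp h1) h2.le).1.surplus G h
  · exact (scBdV1 (not_lt.mp h2) h3.le).1.surplus G h
  · exact (scBdT1 (not_lt.mp h3)).1.surplus G h

/-- exact expansion of the endpoint form in the coordinates `(G, h = g - G/2, Z)`. -/
theorem sc_endForm_eq (ao av G g Z : ℝ) :
    scEndForm ao av G g Z =
      scLocForm av G (g - G / 2)
        + 2 * Z * (G * ((scAstar * scB av - scηstar / 2) * scDelta scK scB ao av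
              + scLL av * scDelta scB scL ao av + scK0 av * scPsi ao av)
            + (g - G / 2) * (-scηstar * scDelta scK scB ao av + scJ0 av * scPsi ao av))
        + Z ^ 2 * (scAstar * scDelta scK scB ao av ^ 2 + scDelta scB scL ao av ^ 2 / scα
            + scDD av * scPsi ao av ^ 2) := by
  have hp : scP av ≠ 0 := (scP_pos av).ne'
  unfold scEndForm
  generalize scDelta scK scB ao av = x
  generalize scDelta scB scL ao av = y
  generalize scPsi ao av = w
  unfold scLocForm scK0 scJ0 scEE scDD scLL scDstar scAstar scηstar scνstar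
    scs scβ scγ scα scε scc
  generalize scP av = p at *
  generalize scB av = b
  generalize scL av = l
  generalize scE av = e
  field_simp
  ring

/-- with `Z = 0` the endpoint form is exactly `scLocForm` in the coordinates `(G, h = g - G/2)`;
in general (sc:one-endpoint). -/
theorem sc_endForm_le (ao av G g Z : ℝ) :
    scEndForm ao av G g Z ≤
      scQf G (g - G / 2)
        + Z ^ 2 * scNsq av (scDelta scK scB ao av) (scDelta scB scL ao av) (scPsi ao av) := by
  rw [sc_endForm_eq]
  have hs := sc_surplus av G (g - G / 2)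
  have hl := scEll1_pos av
  unfold scNsq
  generalize scDelta scK scB ao av = x at *
  generalize scDelta scB scL ao av = y at *
  generalize scPsi ao av = w at *
  generalize (scAstar * scB av - scηstar / 2) * x + scLL av * y + scK0 av * w = c1
  generalize -scηstar * x + scJ0 av * w = c2
  generalize g - G / 2 = h at *
  generalize scEll1 av = l1 at *
  have i1 : 2 * Z * (G * c1) ≤ l1 * G ^ 2 + Z ^ 2 * (c1 ^ 2 / l1) := by
    have : 0 ≤ (l1 * G - Z * c1) ^ 2 / l1 := by positivity
    have e : (l1 * G - Z * c1) ^ 2 / l1 = l1 * G ^ 2 + Z ^ 2 * (c1 ^ 2 / l1) - 2 * Z * (G * c1) := by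
      field_simp
      ring
    linarith
  have i2 : 2 * Z * (h * c2) ≤ (3 / 4) * h ^ 2 + Z ^ 2 * (c2 ^ 2 / (3 / 4)) := by
    nlinarith [sq_nonneg ((3 / 4) * h - Z * c2)]
  nlinarith [i1, i2, hs]

theorem scNsq_nonneg (aj x y w : ℝ) : 0 ≤ scNsq aj x y w := by
  have hp := scP_pos aj
  have hl := scEll1_pos aj
  have hD : 0 ≤ scDD aj := by
    unfold scDD scDstar scε
    positivity
  have hA : 0 ≤ scAstar := by unfold scAstar scs; norm_num
  have ha : 0 < scα := by unfold scα; norm_num
  unfold scNsq
  positivity

end Claimed.Agent.R260
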