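/-
Row 260, SC, Prop 3.6, leaf PC: from derivative bounds to increment bounds.
`V_j' = d · χ (1, z, W_j)`, `ξ' = d`, `𝒩_j` is a Euclidean seminorm, so
`𝒩_j(V_j(a)) ≤ ∫ 𝒩_j(v_j) dξ`, and the secant increments `(Δk, Δb, ψ_j)` are the uniform average
in `a` of `V_j(a)` (FTC), to which Minkowski applies.

Implementation (helper162): everything is done by DUALITY with the polar form `scIncBil` of
`scNsq` (Cauchy-Schwarz from the discriminant), so only scalar calculus is used:
for fixed `u`, `a ↦ 𝒩(u) c ξ(a) ∓ ⟨u, V_j(a)⟩` is monotone.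
-/
import Claimed.Agent.R260.ScPairAlg

set_option autoImplicit false

namespace Claimed.Agent.R260

open Set

/-! ### derivatives -/

theorem hasDerivAt_scXi (a : ℝ) : HasDerivAt scXi (scD a) a := by
  have h := (hasDerivAt_scQ a).log (scQ_pos a).ne'
  have hq := (scQ_pos a).ne'
  refine HasDerivAt.congr_deriv (f := scXi) h ?_
  field_simp

theorem scXi_strictMono : StrictMono scXi :=
  strictMono_of_hasDerivAt_pos hasDerivAt_scXi scD_pos

theorem scXi_continuous : Continuous scXi :=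
  continuous_iff_continuousAt.mpr fun a => (hasDerivAt_scXi a).continuousAt

theorem scInc_continuous_scK : Continuous scK :=
  continuous_iff_continuousAt.mpr fun a => (hasDerivAt_scK a).continuousAt

theorem scInc_continuous_scB : Continuous scB :=
  continuous_iff_continuousAt.mpr fun a => (hasDerivAt_scB a).continuousAt

theorem scInc_continuous_scL : Continuous scL :=
  continuous_iff_continuousAt.mpr fun a => (hasDerivAt_scL a).continuousAt

theorem scInc_hasDerivAt_scF (a : ℝ) : HasDerivAt scF (scF1 a) a := by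
  have h := (hasDerivAt_scK a).fun_mul ((hasDerivAt_scB a).const_add 1)
  refine HasDerivAt.congr_deriv (f := scF) h ?_
  unfold scF1; ring

theorem scInc_hasDerivAt_scF1 (a : ℝ) :
    HasDerivAt scF1 (scL a * (1 + 3 * scB a) + scK a * scL1 a) a := by
  have h := ((hasDerivAt_scB a).fun_mul ((hasDerivAt_scB a).const_add 1)).fun_add
    ((hasDerivAt_scK a).fun_mul (hasDerivAt_scL a))
  refine HasDerivAt.congr_deriv (f := scF1) h ?_
  ring

theorem scInc_continuous_scF1 : Continuous scF1 :=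
  continuous_iff_continuousAt.mpr fun a => (scInc_hasDerivAt_scF1 a).continuousAt

theorem hasDerivAt_scVx (aj a : ℝ) : HasDerivAt (scVx aj) (scD a * scChi a) a := by
  have h := (hasDerivAt_scB a).sub_const (scB aj)
  have hd := (scD_pos a).ne'
  refine HasDerivAt.congr_deriv (f := scVx aj) h ?_
  unfold scChi; field_simp

theorem hasDerivAt_scVy (aj a : ℝ) : HasDerivAt (scVy aj) (scD a * (scChi a * scZ a)) a := by
  have h := (hasDerivAt_scL a).sub_const (scL aj)
  have hd := (scD_pos a).ne'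
  have hl := (scL_pos a).ne'
  refine HasDerivAt.congr_deriv (f := scVy aj) h ?_
  unfold scChi scZ; field_simp

theorem hasDerivAt_scVw (aj a : ℝ) :
    HasDerivAt (scVw aj) (scD a * (scChi a * scWj aj a)) a := by
  have h := (((scInc_hasDerivAt_scF1 a).sub_const (scF1 aj)).fun_sub
    (((hasDerivAt_scB a).sub_const (scB aj)).const_mul (2 * scB aj))).fun_sub
    (((hasDerivAt_scL a).sub_const (scL aj)).const_mul (2 * scLL aj))
  have hd := (scD_pos a).ne'
  have hl := (scL_pos a).ne'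
  refine HasDerivAt.congr_deriv (f := scVw aj) h ?_
  unfold scChi scWj scHstar scZ; field_simp

theorem scInc_continuous_scVx (aj : ℝ) : Continuous (scVx aj) :=
  continuous_iff_continuousAt.mpr fun a => (hasDerivAt_scVx aj a).continuousAt

theorem scInc_continuous_scVy (aj : ℝ) : Continuous (scVy aj) :=
  continuous_iff_continuousAt.mpr fun a => (hasDerivAt_scVy aj a).continuousAt

theorem scInc_continuous_scVw (aj : ℝ) : Continuous (scVw aj) :=
  continuous_iff_continuousAt.mpr fun a => (hasDerivAt_scVw aj a).continuousAt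

/-! ### FTC: the secant increments are averages -/

theorem scInc_avg {f f' : ℝ → ℝ} (hf : ∀ a, HasDerivAt f (f' a) a) (hc : Continuous f')
    {aj ao : ℝ} (h : ao ≠ aj) :
    scDelta f f' ao aj = (ao - aj)⁻¹ * ∫ a in aj..ao, (f' a - f' aj) := by
  have h1 : ∫ a in aj..ao, f' a = f ao - f aj :=
    intervalIntegral.integral_eq_sub_of_hasDerivAt (fun x _ => hf x) (hc.intervalIntegrable _ _)
  rw [intervalIntegral.integral_sub (hc.intervalIntegrable _ _) intervalIntegrable_const, h1,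
    intervalIntegral.integral_const, smul_eq_mul]
  unfold scDelta scDiv
  rw [if_neg h]
  have h2 : ao - aj ≠ 0 := sub_ne_zero.mpr h
  field_simp

/-- FTC: the secant increments are averages of `V_j`. -/
theorem scDelta_k_eq {aj ao : ℝ} (h : ao ≠ aj) :
    scDelta scK scB ao aj = (ao - aj)⁻¹ * ∫ a in aj..ao, scVx aj a :=
  scInc_avg hasDerivAt_scK scInc_continuous_scB h

theorem scDelta_b_eq {aj ao : ℝ} (h : ao ≠ aj) :
    scDelta scB scL ao aj = (ao - aj)⁻¹ * ∫ a in aj..ao, scVy aj a :=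
  scInc_avg hasDerivAt_scB scInc_continuous_scL h

theorem scPsi_eq {aj ao : ℝ} (h : ao ≠ aj) :
    scPsi ao aj = (ao - aj)⁻¹ * ∫ a in aj..ao, scVw aj a := by
  have hF := scInc_avg scInc_hasDerivAt_scF scInc_continuous_scF1 h
  have hK := scInc_avg hasDerivAt_scK scInc_continuous_scB h
  have hB := scInc_avg hasDerivAt_scB scInc_continuous_scL h
  have i1 : IntervalIntegrable (fun a => scF1 a - scF1 aj) MeasureTheory.volume aj ao :=
    (scInc_continuous_scF1.sub continuous_const).intervalIntegrable _ _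
  have i2 : IntervalIntegrable (fun a => 2 * scB aj * (scB a - scB aj)) MeasureTheory.volume aj ao :=
    (continuous_const.mul (scInc_continuous_scB.sub continuous_const)).intervalIntegrable _ _
  have i3 : IntervalIntegrable (fun a => 2 * scLL aj * (scL a - scL aj)) MeasureTheory.volume aj ao :=
    (continuous_const.mul (scInc_continuous_scL.sub continuous_const)).intervalIntegrable _ _
  have e : ∫ a in aj..ao, scVw aj a = (∫ a in aj..ao, (scF1 a - scF1 aj))
      - 2 * scB aj * (∫ a in aj..ao, (scB a - scB aj))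
      - 2 * scLL aj * ∫ a in aj..ao, (scL a - scL aj) := by
    unfold scVw
    rw [intervalIntegral.integral_sub (i1.sub i2) i3, intervalIntegral.integral_sub i1 i2,
      intervalIntegral.integral_const_mul, intervalIntegral.integral_const_mul]
  rw [e]
  unfold scPsi
  rw [hF, hK, hB]
  unfold scLL
  ring

/-! ### the polar form of `scNsq` -/

/-- polar form of `scNsq aj`. -/
noncomputable def scIncBil (aj x y w x' y' w' : ℝ) : ℝ :=
  scAstar * (x * x') + y * y' / scα + scDD aj * (w * w')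
    + ((scAstar * scB aj - scηstar / 2) * x + scLL aj * y + scK0 aj * w)
      * ((scAstar * scB aj - scηstar / 2) * x' + scLL aj * y' + scK0 aj * w') / scEll1 aj
    + (-scηstar * x + scJ0 aj * w) * (-scηstar * x' + scJ0 aj * w') / (3 / 4)

theorem scIncBil_self (aj x y w : ℝ) : scIncBil aj x y w x y w = scNsq aj x y w := by
  unfold scIncBil scNsq; ring

/-- linearity in the second argument, in a form convenient for calculus. -/
theorem scIncBil_lin (aj x y w : ℝ) :
    ∃ l₁ l₂ l₃ : ℝ, ∀ x' y' w' : ℝ, scIncBil aj x y w x' y' w' = l₁ * x' + l₂ * y' + l₃ * w' := by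
  refine ⟨scAstar * x
      + ((scAstar * scB aj - scηstar / 2) * x + scLL aj * y + scK0 aj * w)
        * (scAstar * scB aj - scηstar / 2) / scEll1 aj
      + (-scηstar * x + scJ0 aj * w) * (-scηstar) / (3 / 4),
    y / scα + ((scAstar * scB aj - scηstar / 2) * x + scLL aj * y + scK0 aj * w)
        * scLL aj / scEll1 aj,
    scDD aj * w + ((scAstar * scB aj - scηstar / 2) * x + scLL aj * y + scK0 aj * w)
        * scK0 aj / scEll1 aj
      + (-scηstar * x + scJ0 aj * w) * scJ0 aj / (3 / 4), ?_⟩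
  intro x' y' w'
  unfold scIncBil; ring

/-- Cauchy-Schwarz. -/
theorem scIncBil_sq_le (aj x y w x' y' w' : ℝ) :
    scIncBil aj x y w x' y' w' ^ 2 ≤ scNsq aj x y w * scNsq aj x' y' w' := by
  have h : ∀ t : ℝ, 0 ≤ scNsq aj x' y' w' * (t * t) + 2 * scIncBil aj x y w x' y' w' * t
      + scNsq aj x y w := by
    intro t
    have h0 := scNsq_nonneg aj (x + t * x') (y + t * y') (w + t * w')
    have e : scNsq aj (x + t * x') (y + t * y') (w + t * w')
        = scNsq aj x' y' w' * (t * t) + 2 * scIncBil aj x y w x' y' w' * t + scNsq aj x y w := by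
      unfold scNsq scIncBil; ring
    linarith
  have h2 := discrim_le_zero h
  unfold discrim at h2
  nlinarith

theorem scIncBil_abs_le (aj x y w x' y' w' : ℝ) :
    |scIncBil aj x y w x' y' w'| ≤ Real.sqrt (scNsq aj x y w) * Real.sqrt (scNsq aj x' y' w') := by
  rw [← Real.sqrt_mul (scNsq_nonneg aj x y w)]
  exact Real.abs_le_sqrt (scIncBil_sq_le aj x y w x' y' w')

/-- `N² ≤ N K ⟹ N² ≤ K²`. -/
theorem scInc_le_of_self {N2 K : ℝ} (h0 : 0 ≤ N2) (h : N2 ≤ Real.sqrt N2 * K) : N2 ≤ K ^ 2 := by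
  have hs : Real.sqrt N2 ^ 2 = N2 := Real.sq_sqrt h0
  nlinarith [sq_nonneg (Real.sqrt N2 - K)]

theorem scInc_V_self (aj : ℝ) : scVx aj aj = 0 ∧ scVy aj aj = 0 ∧ scVw aj aj = 0 := by
  unfold scVx scVy scVw; simp

/-! ### the growth lemma on one piece -/

theorem scInc_piece (aj x y w : ℝ) {a0 a1 c : ℝ} (h01 : a0 ≤ a1) (hc : 0 ≤ c)
    (hF : ∀ a ∈ Icc a0 a1, scFj aj a ≤ c ^ 2) :
    |scIncBil aj x y w (scVx aj a1) (scVy aj a1) (scVw aj a1)
        - scIncBil aj x y w (scVx aj a0) (scVy aj a0) (scVw aj a0)|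
      ≤ Real.sqrt (scNsq aj x y w) * (c * (scXi a1 - scXi a0)) := by
  obtain ⟨l₁, l₂, l₃, hl⟩ := scIncBil_lin aj x y w
  set N := Real.sqrt (scNsq aj x y w) with hN
  have hN0 : 0 ≤ N := Real.sqrt_nonneg _
  -- derivative of the pairing
  have hφ : ∀ a, HasDerivAt (fun a => l₁ * scVx aj a + l₂ * scVy aj a + l₃ * scVw aj a)
      (scD a * scIncBil aj x y w (scChi a) (scChi a * scZ a) (scChi a * scWj aj a)) a := by
    intro a
    have h := (((hasDerivAt_scVx aj a).const_mul l₁).fun_add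
      ((hasDerivAt_scVy aj a).const_mul l₂)).fun_add ((hasDerivAt_scVw aj a).const_mul l₃)
    refine h.congr_deriv ?_
    rw [hl]; ring
  have hb : ∀ a ∈ Icc a0 a1,
      |scIncBil aj x y w (scChi a) (scChi a * scZ a) (scChi a * scWj aj a)| ≤ N * c := by
    intro a ha
    refine (scIncBil_abs_le aj x y w _ _ _).trans (mul_le_mul_of_nonneg_left ?_ hN0)
    have := Real.sqrt_le_sqrt (hF a ha)
    rwa [Real.sqrt_sq hc] at this
  have hint : interior (Icc a0 a1) ⊆ Icc a0 a1 := interior_subset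
  -- two monotone functions
  have m1 : MonotoneOn (fun a => N * c * scXi a
      - (l₁ * scVx aj a + l₂ * scVy aj a + l₃ * scVw aj a)) (Icc a0 a1) := by
    refine monotoneOn_of_hasDerivWithinAt_nonneg (convex_Icc a0 a1)
      (f' := fun a => N * c * scD a
        - scD a * scIncBil aj x y w (scChi a) (scChi a * scZ a) (scChi a * scWj aj a)) ?_ ?_ ?_
    · exact fun a _ =>
        (((hasDerivAt_scXi a).const_mul (N * c)).fun_sub (hφ a)).continuousAt.continuousWithinAt
    · exact fun a _ => (((hasDerivAt_scXi a).const_mul (N * c)).fun_sub (hφ a)).hasDerivWithinAt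
    · intro a ha
      have h1 := (abs_le.mp (hb a (hint ha))).2
      have h2 := (scD_pos a).le
      nlinarith
  have m2 : MonotoneOn (fun a => N * c * scXi a
      + (l₁ * scVx aj a + l₂ * scVy aj a + l₃ * scVw aj a)) (Icc a0 a1) := by
    refine monotoneOn_of_hasDerivWithinAt_nonneg (convex_Icc a0 a1)
      (f' := fun a => N * c * scD a
        + scD a * scIncBil aj x y w (scChi a) (scChi a * scZ a) (scChi a * scWj aj a)) ?_ ?_ ?_
    · exact fun a _ =>
        (((hasDerivAt_scXi a).const_mul (N * c)).fun_add (hφ a)).continuousAt.continuousWithinAt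
    · exact fun a _ => (((hasDerivAt_scXi a).const_mul (N * c)).fun_add (hφ a)).hasDerivWithinAt
    · intro a ha
      have h1 := (abs_le.mp (hb a (hint ha))).1
      have h2 := (scD_pos a).le
      nlinarith
  have e1 := m1 (left_mem_Icc.mpr h01) (right_mem_Icc.mpr h01) h01
  have e2 := m2 (left_mem_Icc.mpr h01) (right_mem_Icc.mpr h01) h01
  simp only at e1 e2
  rw [hl, hl, abs_le]
  constructor <;> nlinarith

/-- the growth bound from the endpoint `aj` upwards. -/
theorem scInc_up {aj a c : ℝ} (h : aj ≤ a) (hc : 0 ≤ c)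
    (hF : ∀ a' ∈ Icc aj a, scFj aj a' ≤ c ^ 2) :
    scNsq aj (scVx aj a) (scVy aj a) (scVw aj a) ≤ (c * (scXi a - scXi aj)) ^ 2 := by
  have h1 := scInc_piece aj (scVx aj a) (scVy aj a) (scVw aj a) h hc hF
  obtain ⟨z1, z2, z3⟩ := scInc_V_self aj
  obtain ⟨l₁, l₂, l₃, hl⟩ := scIncBil_lin aj (scVx aj a) (scVy aj a) (scVw aj a)
  have h0 : scIncBil aj (scVx aj a) (scVy aj a) (scVw aj a) (scVx aj aj) (scVy aj aj) (scVw aj aj)
      = 0 := by rw [hl, z1, z2, z3]; ring
  rw [h0, sub_zero, scIncBil_self] at h1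
  exact scInc_le_of_self (scNsq_nonneg _ _ _ _) ((le_abs_self _).trans h1)

/-- the growth bound from the endpoint `aj` downwards. -/
theorem scInc_down {aj a c : ℝ} (h : a ≤ aj) (hc : 0 ≤ c)
    (hF : ∀ a' ∈ Icc a aj, scFj aj a' ≤ c ^ 2) :
    scNsq aj (scVx aj a) (scVy aj a) (scVw aj a) ≤ (c * (scXi a - scXi aj)) ^ 2 := by
  have h1 := scInc_piece aj (scVx aj a) (scVy aj a) (scVw aj a) h hc hF
  obtain ⟨z1, z2, z3⟩ := scInc_V_self aj
  obtain ⟨l₁, l₂, l₃, hl⟩ := scIncBil_lin aj (scVx aj a) (scVy aj a) (scVw aj a)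
  have h0 : scIncBil aj (scVx aj a) (scVy aj a) (scVw aj a) (scVx aj aj) (scVy aj aj) (scVw aj aj)
      = 0 := by rw [hl, z1, z2, z3]; ring
  rw [h0, zero_sub, abs_neg, scIncBil_self] at h1
  have := scInc_le_of_self (scNsq_nonneg _ _ _ _) ((le_abs_self _).trans h1)
  calc _ ≤ (c * (scXi aj - scXi a)) ^ 2 := this
    _ = (c * (scXi a - scXi aj)) ^ 2 := by ring

/-- pointwise bound on `F_j` between the endpoints gives the partial-interval property. -/
theorem scPartial_of_pointwise {aj ao P : ℝ} (h : ∀ a ∈ uIcc aj ao, scFj aj a ≤ P) :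
    ScPartial aj ao P := by
  intro a ha
  have hP : 0 ≤ P := (scNsq_nonneg _ _ _ _).trans (h aj left_mem_uIcc)
  have hsq : Real.sqrt P ^ 2 = P := Real.sq_sqrt hP
  have hsub : uIcc aj a ⊆ uIcc aj ao := uIcc_subset_uIcc left_mem_uIcc ha
  have key : scNsq aj (scVx aj a) (scVy aj a) (scVw aj a)
      ≤ (Real.sqrt P * (scXi a - scXi aj)) ^ 2 := by
    rcases le_total aj a with h1 | h1
    · refine scInc_up h1 (Real.sqrt_nonneg P) fun a' ha' => ?_
      rw [hsq]; exact h a' (hsub (by rwa [uIcc_of_le h1]))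
    · refine scInc_down h1 (Real.sqrt_nonneg P) fun a' ha' => ?_
      rw [hsq]; exact h a' (hsub (by rwa [uIcc_of_ge h1]))
  rwa [mul_pow, hsq] at key

/-- growth over two pieces. -/
theorem scInc_two {aj a c1 c2 : ℝ} (h1 : aj ≤ -1) (h2 : -1 ≤ a) (hc1 : 0 ≤ c1) (hc2 : 0 ≤ c2)
    (hF1 : ∀ a' ∈ Icc aj (-1), scFj aj a' ≤ c1 ^ 2) (hF2 : ∀ a' ∈ Icc (-1) a, scFj aj a' ≤ c2 ^ 2) :
    scNsq aj (scVx aj a) (scVy aj a) (scVw aj a)
      ≤ (c1 * (scXi (-1) - scXi aj) + c2 * (scXi a - scXi (-1))) ^ 2 := by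
  have p1 := scInc_piece aj (scVx aj a) (scVy aj a) (scVw aj a) h1 hc1 hF1
  have p2 := scInc_piece aj (scVx aj a) (scVy aj a) (scVw aj a) h2 hc2 hF2
  obtain ⟨z1, z2, z3⟩ := scInc_V_self aj
  obtain ⟨l₁, l₂, l₃, hl⟩ := scIncBil_lin aj (scVx aj a) (scVy aj a) (scVw aj a)
  have h0 : scIncBil aj (scVx aj a) (scVy aj a) (scVw aj a) (scVx aj aj) (scVy aj aj) (scVw aj aj)
      = 0 := by rw [hl, z1, z2, z3]; ring
  rw [h0, sub_zero] at p1
  rw [scIncBil_self] at p2
  refine scInc_le_of_self (scNsq_nonneg _ _ _ _) ?_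
  have q1 := (le_abs_self _).trans p1
  have q2 := (le_abs_self _).trans p2
  nlinarith

/-- two-piece version from the LOWER endpoint, norm form (used for `a₋ ∈ P₁`):
`√F ≤ c₁` on `[a_j,-1]`, `√F ≤ c₂` on `[-1,a_o]`, the first piece has `ξ`-length `≥ Lmin`. -/
theorem scPartial_two_norm {aj ao c1 c2 Lmin : ℝ} (h1 : aj ≤ -1) (h2 : -1 ≤ ao)
    (hc1 : 0 ≤ c1) (hc : c1 ≤ c2) (hL0 : 0 ≤ Lmin) (hL : Lmin ≤ scXi (-1) - scXi aj)
    (hF1 : ∀ a ∈ Icc aj (-1), scFj aj a ≤ c1 ^ 2) (hF2 : ∀ a ∈ Icc (-1) ao, scFj aj a ≤ c2 ^ 2) :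
    ScPartial aj ao ((c2 - (c2 - c1) * Lmin / (scXi ao - scXi aj)) ^ 2) := by
  intro a ha
  rw [uIcc_of_le (h1.trans h2)] at ha
  have hx0 : 0 ≤ scXi a - scXi aj := sub_nonneg.mpr (scXi_strictMono.monotone ha.1)
  have hxX : scXi a - scXi aj ≤ scXi ao - scXi aj :=
    sub_le_sub_right (scXi_strictMono.monotone ha.2) _
  have hL1X : scXi (-1) - scXi aj ≤ scXi ao - scXi aj :=
    sub_le_sub_right (scXi_strictMono.monotone h2) _
  set X := scXi ao - scXi aj with hX
  set x := scXi a - scXi aj with hx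
  set L1 := scXi (-1) - scXi aj with hL1
  rw [← mul_pow]
  rcases (hx0.trans hxX).eq_or_lt with hX0 | hX0
  · -- degenerate case
    have hx00 : x = 0 := le_antisymm (hX0 ▸ hxX) hx0
    have haj : a = aj := by
      have : scXi a = scXi aj := by linarith
      exact scXi_strictMono.injective this
    obtain ⟨z1, z2, z3⟩ := scInc_V_self aj
    rw [hx00, haj, z1, z2, z3]
    simp [scNsq]
  · set ρ := Lmin / X with hρ
    have hρ0 : 0 ≤ ρ := div_nonneg hL0 hX0.le
    have hρ1 : ρ ≤ 1 := (div_le_one hX0).mpr (hL.trans hL1X)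
    have hρx : ρ * x ≤ Lmin := by
      have : ρ * X = Lmin := div_mul_cancel₀ _ hX0.ne'
      nlinarith
    have hK : (c2 - c1) * Lmin / X = (c2 - c1) * ρ := by rw [hρ]; ring
    rw [hK]
    have hcc : 0 ≤ c2 - c1 := sub_nonneg.mpr hc
    rcases le_total a (-1) with h3 | h3
    · have := scInc_up ha.1 hc1 fun a' ha' => hF1 a' ⟨ha'.1, ha'.2.trans h3⟩
      refine this.trans (pow_le_pow_left₀ (mul_nonneg hc1 hx0) ?_ 2)
      refine mul_le_mul_of_nonneg_right ?_ hx0
      nlinarith
    · have := scInc_two h1 h3 hc1 (hc1.trans hc) hF1 fun a' ha' => hF2 a' ⟨ha'.1, ha'.2.trans ha.2⟩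
      have hr : 0 ≤ scXi a - scXi (-1) := sub_nonneg.mpr (scXi_strictMono.monotone h3)
      have hLL : 0 ≤ L1 := hL0.trans hL
      refine this.trans (pow_le_pow_left₀
        (add_nonneg (mul_nonneg hc1 hLL) (mul_nonneg (hc1.trans hc) hr)) ?_ 2)
      have e : scXi a - scXi (-1) = x - L1 := by rw [hx, hL1]; ring
      rw [e]
      nlinarith

/-- two-piece version from the LOWER endpoint, Jensen form (used for `a₋ ∈ O`):
`F ≤ f₁` on `[a_j,-1]`, `F ≤ f₂` on `[-1,a_o]`. -/
theorem scPartial_two_sq {aj ao f1 f2 Lmin : ℝ} (h1 : aj ≤ -1) (h2 : -1 ≤ ao)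
    (hf1 : 0 ≤ f1) (hf : f1 ≤ f2) (hL0 : 0 ≤ Lmin) (hL : Lmin ≤ scXi (-1) - scXi aj)
    (hF1 : ∀ a ∈ Icc aj (-1), scFj aj a ≤ f1) (hF2 : ∀ a ∈ Icc (-1) ao, scFj aj a ≤ f2) :
    ScPartial aj ao (f2 - Lmin / (scXi ao - scXi aj) * (f2 - f1)) := by
  intro a ha
  rw [uIcc_of_le (h1.trans h2)] at ha
  have hx0 : 0 ≤ scXi a - scXi aj := sub_nonneg.mpr (scXi_strictMono.monotone ha.1)
  have hxX : scXi a - scXi aj ≤ scXi ao - scXi aj :=
    sub_le_sub_right (scXi_strictMono.monotone ha.2) _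
  have hL1X : scXi (-1) - scXi aj ≤ scXi ao - scXi aj :=
    sub_le_sub_right (scXi_strictMono.monotone h2) _
  have hs1 : Real.sqrt f1 ^ 2 = f1 := Real.sq_sqrt hf1
  have hs2 : Real.sqrt f2 ^ 2 = f2 := Real.sq_sqrt (hf1.trans hf)
  set X := scXi ao - scXi aj with hX
  set x := scXi a - scXi aj with hx
  set L1 := scXi (-1) - scXi aj with hL1
  rcases (hx0.trans hxX).eq_or_lt with hX0 | hX0
  · have hx00 : x = 0 := le_antisymm (hX0 ▸ hxX) hx0
    have haj : a = aj := by
      have : scXi a = scXi aj := by linarith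
      exact scXi_strictMono.injective this
    obtain ⟨z1, z2, z3⟩ := scInc_V_self aj
    rw [hx00, haj, z1, z2, z3]
    simp [scNsq]
  · set ρ := Lmin / X with hρ
    have hρ0 : 0 ≤ ρ := div_nonneg hL0 hX0.le
    have hρ1 : ρ ≤ 1 := (div_le_one hX0).mpr (hL.trans hL1X)
    have hρx : ρ * x ≤ Lmin := by
      have : ρ * X = Lmin := div_mul_cancel₀ _ hX0.ne'
      nlinarith
    have hff : 0 ≤ f2 - f1 := sub_nonneg.mpr hf
    rcases le_total a (-1) with h3 | h3
    · have := scInc_up ha.1 (Real.sqrt_nonneg f1) fun a' ha' => by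
        rw [hs1]; exact hF1 a' ⟨ha'.1, ha'.2.trans h3⟩
      rw [mul_pow, hs1] at this
      refine this.trans (mul_le_mul_of_nonneg_right ?_ (sq_nonneg x))
      nlinarith
    · have := scInc_two h1 h3 (Real.sqrt_nonneg f1) (Real.sqrt_nonneg f2)
        (fun a' ha' => by rw [hs1]; exact hF1 a' ha')
        (fun a' ha' => by rw [hs2]; exact hF2 a' ⟨ha'.1, ha'.2.trans ha.2⟩)
      have hr : 0 ≤ scXi a - scXi (-1) := sub_nonneg.mpr (scXi_strictMono.monotone h3)
      have hLL : 0 ≤ L1 := hL0.trans hL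
      have e : scXi a - scXi (-1) = x - L1 := by rw [hx, hL1]; ring
      rw [e] at this hr
      refine this.trans ?_
      -- Jensen
      have j : (Real.sqrt f1 * L1 + Real.sqrt f2 * (x - L1)) ^ 2
          ≤ x * (f1 * L1 + f2 * (x - L1)) := by
        have : x * (f1 * L1 + f2 * (x - L1)) - (Real.sqrt f1 * L1 + Real.sqrt f2 * (x - L1)) ^ 2
            = L1 * (x - L1) * (Real.sqrt f1 - Real.sqrt f2) ^ 2 := by
          rw [← hs1, ← hs2]
          simp only [Real.sqrt_sq (Real.sqrt_nonneg _)]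
          ring
        have h5 : 0 ≤ L1 * (x - L1) * (Real.sqrt f1 - Real.sqrt f2) ^ 2 :=
          mul_nonneg (mul_nonneg hLL hr) (sq_nonneg _)
        linarith
      refine j.trans ?_
      have h6 : f1 * L1 + f2 * (x - L1) ≤ (f2 - ρ * (f2 - f1)) * x := by nlinarith
      calc x * (f1 * L1 + f2 * (x - L1)) ≤ x * ((f2 - ρ * (f2 - f1)) * x) :=
            mul_le_mul_of_nonneg_left h6 hx0
        _ = (f2 - ρ * (f2 - f1)) * x ^ 2 := by ring

/-! ### Minkowski -/

/-- monotonicity of the (orientation-free) average. -/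
theorem scInc_avg_mono {f g : ℝ → ℝ} (hf : Continuous f) (hg : Continuous g) {aj ao : ℝ}
    (h : ∀ a ∈ uIcc aj ao, f a ≤ g a) :
    (ao - aj)⁻¹ * ∫ a in aj..ao, f a ≤ (ao - aj)⁻¹ * ∫ a in aj..ao, g a := by
  rcases le_total aj ao with h1 | h1
  · refine mul_le_mul_of_nonneg_left ?_ (inv_nonneg.mpr (sub_nonneg.mpr h1))
    refine intervalIntegral.integral_mono_on h1 (hf.intervalIntegrable _ _)
      (hg.intervalIntegrable _ _) fun a ha => h a (by rwa [uIcc_of_le h1])
  · have h2 : ∫ a in ao..aj, f a ≤ ∫ a in ao..aj, g a :=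
      intervalIntegral.integral_mono_on h1 (hf.intervalIntegrable _ _)
        (hg.intervalIntegrable _ _) fun a ha => h a (by rwa [uIcc_of_ge h1])
    rw [intervalIntegral.integral_symm ao aj, intervalIntegral.integral_symm ao aj (f := g)]
    have h3 : (ao - aj)⁻¹ ≤ 0 := inv_nonpos.mpr (sub_nonpos.mpr h1)
    nlinarith

/-- Minkowski + averaging: `𝒩_j(Δk,Δb,ψ_j)² ≤ P · (mean ξ-distance)²`. -/
theorem scNsq_secant_le {aj ao P : ℝ} (h : ao ≠ aj) (hP : 0 ≤ P) (hp : ScPartial aj ao P) :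
    scNsq aj (scDelta scK scB ao aj) (scDelta scB scL ao aj) (scPsi ao aj) ≤
      P * scMeanDist aj ao ^ 2 := by
  set Ix := scDelta scK scB ao aj with hIx
  set Iy := scDelta scB scL ao aj with hIy
  set Iw := scPsi ao aj with hIw
  obtain ⟨l₁, l₂, l₃, hl⟩ := scIncBil_lin aj Ix Iy Iw
  set N := Real.sqrt (scNsq aj Ix Iy Iw) with hN
  have hN0 : 0 ≤ N := Real.sqrt_nonneg _
  have hsq : Real.sqrt P ^ 2 = P := Real.sq_sqrt hP
  have cx := scInc_continuous_scVx aj
  have cy := scInc_continuous_scVy aj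
  have cw := scInc_continuous_scVw aj
  have c1 : Continuous fun a => l₁ * scVx aj a := continuous_const.mul cx
  have c2 : Continuous fun a => l₂ * scVy aj a := continuous_const.mul cy
  have c3 : Continuous fun a => l₃ * scVw aj a := continuous_const.mul cw
  have c12 : Continuous fun a => l₁ * scVx aj a + l₂ * scVy aj a := c1.add c2
  have c123 : Continuous fun a => l₁ * scVx aj a + l₂ * scVy aj a + l₃ * scVw aj a := c12.add c3
  have cξ : Continuous fun a => N * Real.sqrt P * |scXi a - scXi aj| :=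
    continuous_const.mul (scXi_continuous.sub continuous_const).abs
  -- the self pairing as an average
  have e1 : scNsq aj Ix Iy Iw
      = (ao - aj)⁻¹ * ∫ a in aj..ao, (l₁ * scVx aj a + l₂ * scVy aj a + l₃ * scVw aj a) := by
    rw [intervalIntegral.integral_add (c12.intervalIntegrable _ _) (c3.intervalIntegrable _ _),
      intervalIntegral.integral_add (c1.intervalIntegrable _ _) (c2.intervalIntegrable _ _),
      intervalIntegral.integral_const_mul, intervalIntegral.integral_const_mul,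
      intervalIntegral.integral_const_mul, ← scIncBil_self, hl]
    conv_lhs => rw [hIx, hIy, hIw, scDelta_k_eq h, scDelta_b_eq h, scPsi_eq h]
    ring
  have e2 : (ao - aj)⁻¹ * ∫ a in aj..ao, (l₁ * scVx aj a + l₂ * scVy aj a + l₃ * scVw aj a)
      ≤ (ao - aj)⁻¹ * ∫ a in aj..ao, N * Real.sqrt P * |scXi a - scXi aj| := by
    refine scInc_avg_mono c123 cξ fun a ha => ?_
    rw [← hl]
    refine (le_abs_self _).trans ((scIncBil_abs_le aj Ix Iy Iw _ _ _).trans ?_)
    rw [mul_assoc]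
    refine mul_le_mul_of_nonneg_left ?_ hN0
    have h3 := Real.sqrt_le_sqrt (hp a ha)
    rwa [Real.sqrt_mul hP, Real.sqrt_sq_eq_abs] at h3
  rw [intervalIntegral.integral_const_mul] at e2
  have e3 : scNsq aj Ix Iy Iw ≤ N * (Real.sqrt P * scMeanDist aj ao) := by
    rw [e1]; refine e2.trans (le_of_eq ?_)
    unfold scMeanDist; ring
  have := scInc_le_of_self (scNsq_nonneg _ _ _ _) e3
  rwa [mul_pow, hsq] at this

end Claimed.Agent.R260
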