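/-
Row 260, SC, Prop 3.6, leaf PD: (sc:mean-distance).  For `a₋ < a₊`, `δ = ξ(a₊) - ξ(a₋)`:
`U₋ + U₊ = δ`, `δ/2 ≤ U₋ ≤ δ/2 + δ²/12`.
Lower bound: `ξ = log q` is concave (`ξ'' = q d - 1 < 0`), Hermite-Hadamard.
Upper bound: Chebyshev's integral inequality for the two increasing functions `ξ` and `q'`
(`q` convex) gives `avg_a ξ ≤ avg_{λ uniform} log λ`, i.e.
`U₋/δ ≤ e^δ/(e^δ-1) - 1/δ = 1/2 + (coth(δ/2) - 2/δ)/2 ≤ 1/2 + δ/12`.
-/
import Claimed.Agent.R260.ScPairDefs

set_option autoImplicit false

namespace Claimed.Agent.R260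

open MeasureTheory Set intervalIntegral

/-- Chebyshev's integral inequality (continuous monotone functions on an interval). -/
theorem sc_chebyshev_integral {u v : ℝ → ℝ} {x y : ℝ} (hxy : x ≤ y)
    (hu : MonotoneOn u (Set.Icc x y)) (hv : MonotoneOn v (Set.Icc x y))
    (hcu : ContinuousOn u (Set.Icc x y)) (hcv : ContinuousOn v (Set.Icc x y)) :
    (∫ s in x..y, u s) * (∫ s in x..y, v s) ≤ (y - x) * ∫ s in x..y, u s * v s := by
  have hIu : IntervalIntegrable u volume x y :=
    (by rwa [uIcc_of_le hxy] : ContinuousOn u (uIcc x y)).intervalIntegrable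
  have hIv : IntervalIntegrable v volume x y :=
    (by rwa [uIcc_of_le hxy] : ContinuousOn v (uIcc x y)).intervalIntegrable
  have hIuv : IntervalIntegrable (fun s => u s * v s) volume x y :=
    (by rw [uIcc_of_le hxy]; exact hcu.mul hcv :
      ContinuousOn (fun s => u s * v s) (uIcc x y)).intervalIntegrable
  have hxm : x ∈ Icc x y := left_mem_Icc.2 hxy
  have hym : y ∈ Icc x y := right_mem_Icc.2 hxy
  -- the mean value of `u` is attained
  have hlo : (y - x) * u x ≤ ∫ s in x..y, u s := by
    have := intervalIntegral.integral_mono_on hxy (intervalIntegrable_const (c := u x)) hIu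
      (fun s hs => hu hxm hs hs.1)
    simpa using this
  have hhi : (∫ s in x..y, u s) ≤ (y - x) * u y := by
    have := intervalIntegral.integral_mono_on hxy hIu (intervalIntegrable_const (c := u y))
      (fun s hs => hu hs hym hs.2)
    simpa using this
  rcases eq_or_lt_of_le hxy with rfl | hlt
  · simp
  have hpos : 0 < y - x := sub_pos.2 hlt
  have hmem : (∫ s in x..y, u s) / (y - x) ∈ Icc (u x) (u y) :=
    ⟨by rw [le_div_iff₀ hpos]; linarith, by rw [div_le_iff₀ hpos]; linarith⟩
  obtain ⟨c, hc, hcu'⟩ := intermediate_value_Icc hxy hcu hmem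
  have hcI : u c * (y - x) = ∫ s in x..y, u s := by
    rw [hcu']; field_simp
  -- pointwise sign
  have hsign : ∀ s ∈ Icc x y, 0 ≤ (u s - u c) * (v s - v c) := by
    intro s hs
    rcases le_total s c with h | h
    · exact mul_nonneg_of_nonpos_of_nonpos (sub_nonpos.2 (hu hs hc h)) (sub_nonpos.2 (hv hs hc h))
    · exact mul_nonneg (sub_nonneg.2 (hu hc hs h)) (sub_nonneg.2 (hv hc hs h))
  have hI : IntervalIntegrable (fun s => (u s - u c) * (v s - v c)) volume x y :=
    (by rw [uIcc_of_le hxy]
        exact (hcu.sub continuousOn_const).mul (hcv.sub continuousOn_const) :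
      ContinuousOn (fun s => (u s - u c) * (v s - v c)) (uIcc x y)).intervalIntegrable
  have h0 : 0 ≤ ∫ s in x..y, (u s - u c) * (v s - v c) :=
    intervalIntegral.integral_nonneg hxy hsign
  have hexp : (∫ s in x..y, (u s - u c) * (v s - v c)) =
      (∫ s in x..y, u s * v s) - v c * (∫ s in x..y, u s) - u c * (∫ s in x..y, v s)
        + u c * v c * (y - x) := by
    have e : (fun s => (u s - u c) * (v s - v c)) =
        fun s => u s * v s - v c * u s - u c * v s + u c * v c := by
      funext s; ring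
    rw [e, intervalIntegral.integral_add ((hIuv.sub (hIu.const_mul _)).sub (hIv.const_mul _))
      intervalIntegrable_const,
      intervalIntegral.integral_sub (hIuv.sub (hIu.const_mul _)) (hIv.const_mul _),
      intervalIntegral.integral_sub hIuv (hIu.const_mul _),
      intervalIntegral.integral_const_mul, intervalIntegral.integral_const_mul,
      intervalIntegral.integral_const, smul_eq_mul]
    ring
  rw [hexp] at h0
  have h1 : 0 ≤ (∫ s in x..y, u s * v s) - u c * (∫ s in x..y, v s) := by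
    have : u c * v c * (y - x) = v c * ∫ s in x..y, u s := by rw [← hcI]; ring
    linarith
  calc (∫ s in x..y, u s) * (∫ s in x..y, v s)
      = (y - x) * (u c * ∫ s in x..y, v s) := by rw [← hcI]; ring
    _ ≤ (y - x) * ∫ s in x..y, u s * v s := by
        apply mul_le_mul_of_nonneg_left _ hpos.le
        linarith

/-- a function vanishing at `0` with nonnegative derivative on `[0,∞)` is nonnegative there. -/
private lemma scpm_nonneg_of_deriv {f f' : ℝ → ℝ} (h0 : f 0 = 0)
    (hd : ∀ x, HasDerivAt f (f' x) x) (hn : ∀ x, 0 ≤ x → 0 ≤ f' x) {x : ℝ} (hx : 0 ≤ x) :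
    0 ≤ f x := by
  have hmono : MonotoneOn f (Ici 0) := by
    refine monotoneOn_of_deriv_nonneg (convex_Ici 0)
      (fun y _ => (hd y).continuousAt.continuousWithinAt)
      (fun y _ => (hd y).differentiableAt.differentiableWithinAt) ?_
    intro y hy
    rw [interior_Ici] at hy
    rw [(hd y).deriv]
    exact hn y (le_of_lt hy)
  have := hmono (mem_Ici.2 le_rfl) (mem_Ici.2 hx) hx
  rwa [h0] at this

private lemma scpm_quad (b c x : ℝ) :
    HasDerivAt (fun x : ℝ => x ^ 2 + b * x + c) (2 * x + b) x := by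
  have h := ((hasDerivAt_pow 2 x).fun_add ((hasDerivAt_id' x).const_mul b)).add_const c
  refine h.congr_deriv ?_
  norm_num

private lemma scpm_exp_quad (b c x : ℝ) :
    HasDerivAt (fun x : ℝ => Real.exp x * (x ^ 2 + b * x + c))
      (Real.exp x * (x ^ 2 + (b + 2) * x + (b + c))) x := by
  have h := (Real.hasDerivAt_exp x).fun_mul (scpm_quad b c x)
  refine h.congr_deriv ?_
  ring

/-- Padé-type bound: `δ² + 6 δ + 12 ≤ e^δ (δ² - 6 δ + 12)` for `δ ≥ 0`. -/
lemma scpm_pade {δ : ℝ} (hδ : 0 ≤ δ) :
    δ ^ 2 + 6 * δ + 12 ≤ Real.exp δ * (δ ^ 2 - 6 * δ + 12) := by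
  have d3 : ∀ x : ℝ, HasDerivAt (fun x => Real.exp x * (x ^ 2 + (-2) * x + 2) - 2)
      (Real.exp x * x ^ 2) x := by
    intro x
    refine ((scpm_exp_quad (-2) 2 x).sub_const 2).congr_deriv ?_
    ring
  have n2 : ∀ x : ℝ, 0 ≤ x → 0 ≤ Real.exp x * (x ^ 2 + (-2) * x + 2) - 2 := fun x hx =>
    scpm_nonneg_of_deriv (f := fun x => Real.exp x * (x ^ 2 + (-2) * x + 2) - 2) (by simp) d3
      (fun y _ => by positivity) hx
  have d2 : ∀ x : ℝ, HasDerivAt (fun x => Real.exp x * (x ^ 2 + (-4) * x + 6) - (2 * x + 6))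
      (Real.exp x * (x ^ 2 + (-2) * x + 2) - 2) x := by
    intro x
    have h := (scpm_exp_quad (-4) 6 x).fun_sub (((hasDerivAt_id' x).const_mul 2).add_const 6)
    refine h.congr_deriv ?_
    ring
  have n1 : ∀ x : ℝ, 0 ≤ x → 0 ≤ Real.exp x * (x ^ 2 + (-4) * x + 6) - (2 * x + 6) := fun x hx =>
    scpm_nonneg_of_deriv (f := fun x => Real.exp x * (x ^ 2 + (-4) * x + 6) - (2 * x + 6))
      (by simp) d2 n2 hx
  have d1 : ∀ x : ℝ, HasDerivAt
      (fun x => Real.exp x * (x ^ 2 + (-6) * x + 12) - (x ^ 2 + 6 * x + 12))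
      (Real.exp x * (x ^ 2 + (-4) * x + 6) - (2 * x + 6)) x := by
    intro x
    have h := (scpm_exp_quad (-6) 12 x).fun_sub (scpm_quad 6 12 x)
    refine h.congr_deriv ?_
    ring
  have n0 := scpm_nonneg_of_deriv
    (f := fun x => Real.exp x * (x ^ 2 + (-6) * x + 12) - (x ^ 2 + 6 * x + 12)) (by simp) d1 n1 hδ
  have e : Real.exp δ * (δ ^ 2 + (-6) * δ + 12) = Real.exp δ * (δ ^ 2 - 6 * δ + 12) := by ring
  linarith

theorem sc_coth_bound {δ : ℝ} (hδ : 0 < δ) :
    Real.exp δ / (Real.exp δ - 1) - 1 / δ ≤ 1 / 2 + δ / 12 := by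
  have he : 0 < Real.exp δ - 1 := by
    have := Real.add_one_lt_exp hδ.ne'
    linarith
  have hp := scpm_pade hδ.le
  rw [div_sub_div _ _ he.ne' hδ.ne', div_le_iff₀ (mul_pos he hδ)]
  nlinarith [hp, hδ, he]

/-! ### `ξ = log q` -/

lemma scpm_hasDerivAt_scXi (a : ℝ) : HasDerivAt scXi (scD a) a := by
  have h := (hasDerivAt_scQ a).log (scQ_pos a).ne'
  refine h.congr_deriv ?_
  field_simp [(scQ_pos a).ne']

lemma scpm_scXi_continuous : Continuous scXi :=
  continuous_iff_continuousAt.mpr fun a => (scpm_hasDerivAt_scXi a).continuousAt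

lemma scpm_scXi_strictMono : StrictMono scXi :=
  strictMono_of_hasDerivAt_pos scpm_hasDerivAt_scXi scD_pos

lemma scpm_scXi_concaveOn : ConcaveOn ℝ univ scXi := by
  have hanti : Antitone (deriv scXi) := by
    have : deriv scXi = scD := funext fun x => (scpm_hasDerivAt_scXi x).deriv
    rw [this]
    exact scD_strictAnti.antitone
  exact hanti.concaveOn_univ_of_deriv fun x => (scpm_hasDerivAt_scXi x).differentiableAt

private lemma scpm_intervalIntegrable_scXi (x y : ℝ) : IntervalIntegrable scXi volume x y :=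
  scpm_scXi_continuous.intervalIntegrable x y

lemma scpm_meanDist_eq_left {am ap : ℝ} (h : am < ap) :
    scMeanDist am ap = (ap - am)⁻¹ * ((∫ a in am..ap, scXi a) - (ap - am) * scXi am) := by
  unfold scMeanDist
  congr 1
  have : (∫ a in am..ap, |scXi a - scXi am|) = ∫ a in am..ap, (scXi a - scXi am) := by
    refine intervalIntegral.integral_congr fun a ha => ?_
    rw [uIcc_of_le h.le] at ha
    exact abs_of_nonneg (sub_nonneg.2 (scpm_scXi_strictMono.monotone ha.1))
  rw [this, intervalIntegral.integral_sub (scpm_intervalIntegrable_scXi _ _)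
    intervalIntegrable_const, intervalIntegral.integral_const, smul_eq_mul]

lemma scpm_meanDist_eq_right {am ap : ℝ} (h : am < ap) :
    scMeanDist ap am = (ap - am)⁻¹ * ((ap - am) * scXi ap - ∫ a in am..ap, scXi a) := by
  unfold scMeanDist
  have : (∫ a in am..ap, |scXi a - scXi ap|) = ∫ a in am..ap, (scXi ap - scXi a) := by
    refine intervalIntegral.integral_congr fun a ha => ?_
    rw [uIcc_of_le h.le] at ha
    show |scXi a - scXi ap| = scXi ap - scXi a
    rw [abs_of_nonpos (sub_nonpos.2 (scpm_scXi_strictMono.monotone ha.2))]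
    ring
  rw [intervalIntegral.integral_symm, this, intervalIntegral.integral_sub intervalIntegrable_const
    (scpm_intervalIntegrable_scXi _ _), intervalIntegral.integral_const, smul_eq_mul]
  have h1 : am - ap = -(ap - am) := by ring
  rw [h1, inv_neg]
  ring

theorem scMeanDist_add {am ap : ℝ} (h : am < ap) :
    scMeanDist am ap + scMeanDist ap am = scXi ap - scXi am := by
  have hw : ap - am ≠ 0 := (sub_pos.2 h).ne'
  rw [scpm_meanDist_eq_left h, scpm_meanDist_eq_right h]
  field_simp
  ring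

theorem scMeanDist_nonneg (aj ao : ℝ) : 0 ≤ scMeanDist aj ao := by
  unfold scMeanDist
  rcases le_total aj ao with h | h
  · exact mul_nonneg (inv_nonneg.2 (sub_nonneg.2 h))
      (intervalIntegral.integral_nonneg h fun _ _ => abs_nonneg _)
  · rw [intervalIntegral.integral_symm]
    have h1 : 0 ≤ ∫ a in ao..aj, |scXi a - scXi aj| :=
      intervalIntegral.integral_nonneg h fun _ _ => abs_nonneg _
    have h2 : (ao - aj)⁻¹ ≤ 0 := inv_nonpos.2 (sub_nonpos.2 h)
    nlinarith

theorem scMeanDist_lower {am ap : ℝ} (h : am < ap) :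
    (scXi ap - scXi am) / 2 ≤ scMeanDist am ap := by
  have hw : 0 < ap - am := sub_pos.2 h
  rw [scpm_meanDist_eq_left h]
  -- chord bound
  have hchord : ∀ a ∈ Icc am ap,
      scXi am + (scXi ap - scXi am) / (ap - am) * (a - am) ≤ scXi a := by
    intro a ha
    set t : ℝ := (a - am) / (ap - am) with ht
    have ht0 : 0 ≤ t := div_nonneg (sub_nonneg.2 ha.1) hw.le
    have ht1 : t ≤ 1 := by rw [ht, div_le_one hw]; linarith [ha.2]
    have := scpm_scXi_concaveOn.2 (mem_univ am) (mem_univ ap) (sub_nonneg.2 ht1) ht0 (by ring)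
    have e1 : (1 - t) • am + t • ap = a := by
      simp only [smul_eq_mul, ht]; field_simp; ring
    rw [e1] at this
    simp only [smul_eq_mul] at this
    have e2 : scXi am + (scXi ap - scXi am) / (ap - am) * (a - am) =
        (1 - t) * scXi am + t * scXi ap := by
      rw [ht]; field_simp; ring
    rw [e2]; exact this
  have hint : (∫ a in am..ap, (scXi am + (scXi ap - scXi am) / (ap - am) * (a - am))) ≤
      ∫ a in am..ap, scXi a :=
    intervalIntegral.integral_mono_on h.le
      ((by fun_prop : Continuous fun a : ℝ =>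
        scXi am + (scXi ap - scXi am) / (ap - am) * (a - am)).intervalIntegrable _ _)
      (scpm_intervalIntegrable_scXi _ _) hchord
  have hcomp : (∫ a in am..ap, (scXi am + (scXi ap - scXi am) / (ap - am) * (a - am))) =
      (ap - am) * scXi am + (scXi ap - scXi am) / (ap - am) * ((ap - am) ^ 2 / 2) := by
    have hd : ∀ a ∈ uIcc am ap, HasDerivAt
        (fun a : ℝ => scXi am * a + (scXi ap - scXi am) / (ap - am) * ((a - am) ^ 2 / 2))
        (scXi am + (scXi ap - scXi am) / (ap - am) * (a - am)) a := by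
      intro a _
      have h1 : HasDerivAt (fun a : ℝ => (a - am) ^ 2 / 2) (a - am) a := by
        have := (((hasDerivAt_id' a).sub_const am).pow 2).div_const 2
        refine this.congr_deriv ?_
        simp
      have h2 := ((hasDerivAt_id' a).const_mul (scXi am)).fun_add
        (h1.const_mul ((scXi ap - scXi am) / (ap - am)))
      refine h2.congr_deriv ?_
      ring
    rw [intervalIntegral.integral_eq_sub_of_hasDerivAt hd
      ((by fun_prop : Continuous fun a : ℝ =>
        scXi am + (scXi ap - scXi am) / (ap - am) * (a - am)).intervalIntegrable _ _)]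
    ring
  rw [hcomp] at hint
  have e3 : (scXi ap - scXi am) / (ap - am) * ((ap - am) ^ 2 / 2) =
      (ap - am) * ((scXi ap - scXi am) / 2) := by
    field_simp
  rw [e3] at hint
  rw [← div_eq_inv_mul, le_div_iff₀ hw]
  linarith

theorem scMeanDist_upper {am ap : ℝ} (h : am < ap) :
    scMeanDist am ap ≤ (scXi ap - scXi am) / 2 + (scXi ap - scXi am) ^ 2 / 12 := by
  have hw : 0 < ap - am := sub_pos.2 h
  set δ : ℝ := scXi ap - scXi am with hδdef
  have hδ : 0 < δ := sub_pos.2 (scpm_scXi_strictMono h)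
  -- `v = q'`
  have hvmono : StrictMono (fun a => scQ a * scD a) :=
    strictMono_of_hasDerivAt_pos hasDerivAt_scQ_mul_scD scQ_second_deriv_pos
  have hvcont : Continuous (fun a => scQ a * scD a) :=
    continuous_iff_continuousAt.mpr fun a => (hasDerivAt_scQ_mul_scD a).continuousAt
  have hcheb := sc_chebyshev_integral (u := scXi) (v := fun a => scQ a * scD a) h.le
    (scpm_scXi_strictMono.monotone.monotoneOn _) (hvmono.monotone.monotoneOn _)
    scpm_scXi_continuous.continuousOn hvcont.continuousOn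
  have hIv : (∫ a in am..ap, scQ a * scD a) = scQ ap - scQ am :=
    intervalIntegral.integral_eq_sub_of_hasDerivAt (fun a _ => hasDerivAt_scQ a)
      (hvcont.intervalIntegrable _ _)
  have hIuv : (∫ a in am..ap, scXi a * (scQ a * scD a)) =
      (scQ ap * scXi ap - scQ ap) - (scQ am * scXi am - scQ am) := by
    have hd : ∀ a ∈ uIcc am ap, HasDerivAt (fun a => scQ a * scXi a - scQ a)
        (scXi a * (scQ a * scD a)) a := by
      intro a _
      have := ((hasDerivAt_scQ a).fun_mul (scpm_hasDerivAt_scXi a)).fun_sub (hasDerivAt_scQ a)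
      refine this.congr_deriv ?_
      ring
    exact intervalIntegral.integral_eq_sub_of_hasDerivAt hd
      ((scpm_scXi_continuous.mul hvcont).intervalIntegrable _ _)
  rw [hIv, hIuv] at hcheb
  have hQm : 0 < scQ am := scQ_pos am
  have hQ : scQ ap = scQ am * Real.exp δ := by
    rw [hδdef, Real.exp_sub]
    unfold scXi
    rw [Real.exp_log (scQ_pos ap), Real.exp_log hQm]
    field_simp
  have he : 0 < Real.exp δ - 1 := by
    have := Real.add_one_lt_exp hδ.ne'
    linarith
  have hcoth := sc_coth_bound hδ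
  rw [scpm_meanDist_eq_left h, ← div_eq_inv_mul, div_le_iff₀ hw]
  have hxp : scXi ap = scXi am + δ := by rw [hδdef]; ring
  rw [hQ, hxp] at hcheb
  set I : ℝ := ∫ a in am..ap, scXi a with hI
  set E : ℝ := Real.exp δ with hE
  -- divide by `Q₋`
  have h1 : (I - (ap - am) * scXi am) * (E - 1) ≤ (ap - am) * (E * δ - (E - 1)) := by
    have h2 : scQ am * ((I - (ap - am) * scXi am) * (E - 1)) ≤
        scQ am * ((ap - am) * (E * δ - (E - 1))) := by
      nlinarith [hcheb]
    exact le_of_mul_le_mul_left h2 hQm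
  have h3 : E * δ - (E - 1) ≤ (δ / 2 + δ ^ 2 / 12) * (E - 1) := by
    have h4 : E / (E - 1) - 1 / δ = (E * δ - (E - 1)) / ((E - 1) * δ) := by
      rw [div_sub_div _ _ he.ne' hδ.ne']
      ring
    rw [h4, div_le_iff₀ (mul_pos he hδ)] at hcoth
    nlinarith [hcoth]
  have h5 : (I - (ap - am) * scXi am) * (E - 1) ≤ ((δ / 2 + δ ^ 2 / 12) * (ap - am)) * (E - 1) := by
    calc (I - (ap - am) * scXi am) * (E - 1) ≤ (ap - am) * (E * δ - (E - 1)) := h1
      _ ≤ (ap - am) * ((δ / 2 + δ ^ 2 / 12) * (E - 1)) := mul_le_mul_of_nonneg_left h3 hw.le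
      _ = ((δ / 2 + δ ^ 2 / 12) * (ap - am)) * (E - 1) := by ring
  exact le_of_mul_le_mul_right h5 he

end Claimed.Agent.R260
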