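/-
Row 260, SC, Prop 3.6, leaf PB: the bounds (sc:F-simple), (sc:F-negative) on `F_j`, via the
substitution table (sc:substitution-table).  Pure interval arithmetic from the row bounds
`scBdO .. scBdT1` (endpoint `aj`) and `scZ_mem_*`, `scHstar_mem`, `scChi_le_*` (argument `a`).
verify_scalar.py, function `secants()`, contains the complete arithmetic.
-/
import Claimed.Agent.R260.ScPairAlg

set_option autoImplicit false

namespace Claimed.Agent.R260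

theorem scFj_nonneg (aj a : ℝ) : 0 ≤ scFj aj a := scNsq_nonneg _ _ _ _

/-- `F_j = χ² (A_* + z²/α + 𝖣_j W_j² + (…)²/ℓ₁ + (…)²/.75)`. -/
theorem scFj_eq (aj a : ℝ) :
    scFj aj a = scChi a ^ 2 * (82 / 37 + scZ a ^ 2 / (3 / 40) + scDD aj * scWj aj a ^ 2
      + (scK0 aj * scWj aj a + (82 / 37 * scB aj - 427 / 740 + scLL aj * scZ a)) ^ 2 / scEll1 aj
      + (scJ0 aj * scWj aj a + -(427 / 370)) ^ 2 / (3 / 4)) := by
  unfold scFj scNsq
  rw [scAstar_eq, scηstar_eq]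
  unfold scα
  ring

/-- corner principle in one affine variable, upper bound -/
theorem scTab_aff_le {K K0 K1 W R C : ℝ} (h0 : K0 ≤ K) (h1 : K ≤ K1) (c0 : K0 * W + R ≤ C)
    (c1 : K1 * W + R ≤ C) : K * W + R ≤ C := by
  rcases le_total 0 W with hW | hW
  · nlinarith
  · nlinarith

/-- corner principle in one affine variable, lower bound -/
theorem scTab_le_aff {K K0 K1 W R C : ℝ} (h0 : K0 ≤ K) (h1 : K ≤ K1) (c0 : C ≤ K0 * W + R)
    (c1 : C ≤ K1 * W + R) : C ≤ K * W + R := by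
  rcases le_total 0 W with hW | hW
  · nlinarith
  · nlinarith

theorem scTab_aff_abs {K K0 K1 W R C : ℝ} (h0 : K0 ≤ K) (h1 : K ≤ K1) (c0 : |K0 * W + R| ≤ C)
    (c1 : |K1 * W + R| ≤ C) : |K * W + R| ≤ C := by
  rw [abs_le] at *
  exact ⟨scTab_le_aff h0 h1 c0.1 c1.1, scTab_aff_le h0 h1 c0.2 c1.2⟩

theorem scTab_sq_le {u C : ℝ} (h : |u| ≤ C) : u ^ 2 ≤ C ^ 2 := by
  rw [← sq_abs u]
  exact pow_le_pow_left₀ (abs_nonneg u) h 2

theorem scDD_nonneg (a : ℝ) : 0 ≤ scDD a := by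
  have hp := scP_pos a
  unfold scDD scDstar scε
  positivity

/-- one cell of the substitution table, inserted in `F_j`. -/
theorem scTab_row {aj a : ℝ} {bmin bmax Lmax Kmin Kmax Jmax l1 mm zmin zmax chimax : ℝ}
    (H : ScAllBd bmin bmax Lmax Kmin Kmax Jmax l1 mm zmin zmax chimax aj)
    {zm zM zbar wbar abar mbar : ℝ} (hzm : zm ≤ 0) (hzM : 0 ≤ zM)
    (hz0 : zm ≤ scZ a) (hz1 : scZ a ≤ zM) (hzb0 : -zbar ≤ zm) (hzb1 : zM ≤ zbar)
    (hnum : ∀ b h P : ℝ, bmin ≤ b → b ≤ bmax → 8 / 10 ≤ h → h ≤ 177 / 100 → Lmax * zm ≤ P →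
      P ≤ Lmax * zM →
        |h - 2 * b - 2 * P| ≤ wbar
        ∧ |Kmin * (h - 2 * b - 2 * P) + (82 / 37 * b - 427 / 740 + P)| ≤ abar
        ∧ |Kmax * (h - 2 * b - 2 * P) + (82 / 37 * b - 427 / 740 + P)| ≤ abar
        ∧ |Jmax * (h - 2 * b - 2 * P) + -(427 / 370)| ≤ mbar)
    (hm0 : 427 / 370 ≤ mbar) :
    scFj aj a ≤ scChi a ^ 2 * (82 / 37 + zbar ^ 2 / (3 / 40) + scDD aj * wbar ^ 2
      + abar ^ 2 / scEll1 aj + mbar ^ 2 / (3 / 4)) := by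
  have hL0 : 0 ≤ scLL aj := by
    have := H.l_pos
    unfold scLL scα
    positivity
  have hJ0 : 0 ≤ scJ0 aj := by
    have := H.b_pos
    have := scDD_nonneg aj
    unfold scJ0 scc
    positivity
  have hP0 : Lmax * zm ≤ scLL aj * scZ a := by
    have h1 : Lmax * zm ≤ scLL aj * zm := mul_le_mul_of_nonpos_right H.L_hi hzm
    have h2 : scLL aj * zm ≤ scLL aj * scZ a := mul_le_mul_of_nonneg_left hz0 hL0
    linarith
  have hP1 : scLL aj * scZ a ≤ Lmax * zM := by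
    have h1 : scLL aj * zM ≤ Lmax * zM := mul_le_mul_of_nonneg_right H.L_hi hzM
    have h2 : scLL aj * scZ a ≤ scLL aj * zM := mul_le_mul_of_nonneg_left hz1 hL0
    linarith
  obtain ⟨hh0, hh1⟩ := scHstar_mem a
  obtain ⟨n1, n2, n3, n4⟩ := hnum (scB aj) (scHstar a) (scLL aj * scZ a) H.b_lo H.b_hi hh0 hh1
    hP0 hP1
  have hW : scWj aj a = scHstar a - 2 * scB aj - 2 * (scLL aj * scZ a) := by
    unfold scWj; ring
  rw [← hW] at n1 n2 n3 n4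
  have m1 := scTab_aff_abs H.K_lo H.K_hi n2 n3
  have m2 : |scJ0 aj * scWj aj a + -(427 / 370)| ≤ mbar := by
    refine scTab_aff_abs hJ0 H.J_hi ?_ n4
    rw [zero_mul, zero_add, abs_neg, abs_of_pos (by norm_num)]
    exact hm0
  have m3 : |scZ a| ≤ zbar := abs_le.2 ⟨by linarith, by linarith⟩
  have hell := scEll1_pos aj
  rw [scFj_eq]
  apply mul_le_mul_of_nonneg_left _ (sq_nonneg _)
  have q1 := scTab_sq_le n1
  have q2 := scTab_sq_le m1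
  have q3 := scTab_sq_le m2
  have q4 := scTab_sq_le m3
  have r1 : scDD aj * scWj aj a ^ 2 ≤ scDD aj * wbar ^ 2 :=
    mul_le_mul_of_nonneg_left q1 (scDD_nonneg aj)
  have r2 := div_le_div_of_nonneg_right q2 hell.le
  have r3 := div_le_div_of_nonneg_right q3 (by norm_num : (0 : ℝ) ≤ 3 / 4)
  have r4 := div_le_div_of_nonneg_right q4 (by norm_num : (0 : ℝ) ≤ 3 / 40)
  linarith

theorem scTab_fin {chi chimax br C lim : ℝ} (h0 : 0 ≤ chi) (h1 : chi ≤ chimax) (hbr : br ≤ C)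
    (hC : 0 ≤ C) (hlim : chimax ^ 2 * C ≤ lim) : chi ^ 2 * br ≤ lim := by
  have e1 : chi ^ 2 * br ≤ chi ^ 2 * C := mul_le_mul_of_nonneg_left hbr (sq_nonneg _)
  have e2 : chi ^ 2 * C ≤ chimax ^ 2 * C :=
    mul_le_mul_of_nonneg_right (pow_le_pow_left₀ h0 h1 2) hC
  linarith

theorem scDD_le_of {a : ℝ} (hp : 1 ≤ scP a * (7 + a ^ 2)) (hpos : 0 < scP a) :
    scDD a ≤ 5 / 17 * (7 + a ^ 2) := by
  unfold scDD scDstar scε
  rw [div_le_iff₀ hpos]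
  nlinarith

theorem scFj_O_left {aj a : ℝ} (hj : aj < -3) (ha : a ≤ -1) :
    scFj aj a ≤ scChi a ^ 2 * (20 + (104 / 100) * (7 + aj ^ 2)) := by
  obtain ⟨H, hp⟩ := scBdO hj.le
  obtain ⟨hz0, hz1⟩ := scZ_mem_left ha
  have hell : scEll1 aj = 13 / 100 := by unfold scEll1; rw [if_pos (by linarith)]
  have hD : scDD aj ≤ 5 / 17 * (7 + aj ^ 2) := scDD_le_of hp H.p_pos
  refine (scTab_row H (zbar := 7 / 10) (wbar := 1867 / 1000) (abar := 52 / 100)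
    (mbar := 1314 / 1000) (by norm_num) (by norm_num) hz0 hz1 (by norm_num) (by norm_num)
    ?_ (by norm_num)).trans ?_
  · intro b h P h1 h2 h3 h4 h5 h6
    simp only [abs_le]
    refine ⟨⟨?_, ?_⟩, ⟨?_, ?_⟩, ⟨?_, ?_⟩, ⟨?_, ?_⟩⟩ <;> linarith
  · rw [hell]
    apply mul_le_mul_of_nonneg_left _ (sq_nonneg _)
    have := mul_le_mul_of_nonneg_right hD (sq_nonneg (1867 / 1000 : ℝ))
    nlinarith [sq_nonneg aj]

theorem scFj_O_right {aj a : ℝ} (hj : aj < -3) (ha : -1 ≤ a) :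
    scFj aj a ≤ scChi a ^ 2 * (12 + (163 / 100) * (7 + aj ^ 2)) := by
  obtain ⟨H, hp⟩ := scBdO hj.le
  obtain ⟨hz0, hz1⟩ := scZ_mem_right ha
  have hell : scEll1 aj = 13 / 100 := by unfold scEll1; rw [if_pos (by linarith)]
  have hD : scDD aj ≤ 5 / 17 * (7 + aj ^ 2) := scDD_le_of hp H.p_pos
  refine (scTab_row H (zbar := 475 / 1000) (wbar := 234 / 100) (abar := 55 / 100)
    (mbar := 1155 / 1000) (by norm_num) (by norm_num) hz0 hz1 (by norm_num) (by norm_num)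
    ?_ (by norm_num)).trans ?_
  · intro b h P h1 h2 h3 h4 h5 h6
    simp only [abs_le]
    refine ⟨⟨?_, ?_⟩, ⟨?_, ?_⟩, ⟨?_, ?_⟩, ⟨?_, ?_⟩⟩ <;> linarith
  · rw [hell]
    apply mul_le_mul_of_nonneg_left _ (sq_nonneg _)
    have := mul_le_mul_of_nonneg_right hD (sq_nonneg (234 / 100 : ℝ))
    nlinarith [sq_nonneg aj]

theorem scFj_P1_left {aj a : ℝ} (h1 : -3 ≤ aj) (h2 : aj < -2) (ha : a ≤ -1) :
    scFj aj a ≤ (42 / 100) ^ 2 := by
  obtain ⟨H, -, hD⟩ := scBdP1 h1 h2.le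
  obtain ⟨hz0, hz1⟩ := scZ_mem_left ha
  have hell : scEll1 aj = 13 / 100 := by unfold scEll1; rw [if_pos (by linarith)]
  refine (scTab_row H (zbar := 7 / 10) (wbar := 1766 / 1000) (abar := 49 / 100)
    (mbar := 1813 / 1000) (by norm_num) (by norm_num) hz0 hz1 (by norm_num) (by norm_num)
    ?_ (by norm_num)).trans ?_
  · intro b h P h1 h2 h3 h4 h5 h6
    simp only [abs_le]
    refine ⟨⟨?_, ?_⟩, ⟨?_, ?_⟩, ⟨?_, ?_⟩, ⟨?_, ?_⟩⟩ <;> linarith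
  · rw [hell]
    refine scTab_fin (scChi_pos a).le (scChi_le_left ha)
      (C := 82 / 37 + (7 / 10) ^ 2 / (3 / 40) + 43 / 10 * (1766 / 1000) ^ 2
        + (49 / 100) ^ 2 / (13 / 100) + (1813 / 1000) ^ 2 / (3 / 4)) ?_ (by norm_num) (by norm_num)
    have := mul_le_mul_of_nonneg_right hD (sq_nonneg (1766 / 1000 : ℝ))
    linarith

theorem scFj_P1_right {aj a : ℝ} (h1 : -3 ≤ aj) (h2 : aj < -2) (ha : -1 ≤ a) :
    scFj aj a ≤ (61 / 100) ^ 2 := by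
  obtain ⟨H, -, hD⟩ := scBdP1 h1 h2.le
  obtain ⟨hz0, hz1⟩ := scZ_mem_right ha
  have hell : scEll1 aj = 13 / 100 := by unfold scEll1; rw [if_pos (by linarith)]
  refine (scTab_row H (zbar := 475 / 1000) (wbar := 2564 / 1000) (abar := 433 / 1000)
    (mbar := 1155 / 1000) (by norm_num) (by norm_num) hz0 hz1 (by norm_num) (by norm_num)
    ?_ (by norm_num)).trans ?_
  · intro b h P h1 h2 h3 h4 h5 h6
    simp only [abs_le]
    refine ⟨⟨?_, ?_⟩, ⟨?_, ?_⟩, ⟨?_, ?_⟩, ⟨?_, ?_⟩⟩ <;> linarith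
  · rw [hell]
    refine scTab_fin (scChi_pos a).le (scChi_le_right ha)
      (C := 82 / 37 + (475 / 1000) ^ 2 / (3 / 40) + 43 / 10 * (2564 / 1000) ^ 2
        + (433 / 1000) ^ 2 / (13 / 100) + (1155 / 1000) ^ 2 / (3 / 4)) ?_ (by norm_num) (by norm_num)
    have := mul_le_mul_of_nonneg_right hD (sq_nonneg (2564 / 1000 : ℝ))
    linarith

theorem scFj_R1_left {aj a : ℝ} (h1 : -2 ≤ aj) (h2 : aj < -1) (ha : a ≤ -1) :
    scFj aj a ≤ 20 / 100 := by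
  obtain ⟨H, -, hD⟩ := scBdR1 h1 h2.le
  obtain ⟨hz0, hz1⟩ := scZ_mem_left ha
  have hell : scEll1 aj = 13 / 100 := by unfold scEll1; rw [if_pos h2]
  refine (scTab_row H (zbar := 7 / 10) (wbar := 1681 / 1000) (abar := 664 / 1000)
    (mbar := 2057 / 1000) (by norm_num) (by norm_num) hz0 hz1 (by norm_num) (by norm_num)
    ?_ (by norm_num)).trans ?_
  · intro b h P h1 h2 h3 h4 h5 h6
    simp only [abs_le]
    refine ⟨⟨?_, ?_⟩, ⟨?_, ?_⟩, ⟨?_, ?_⟩, ⟨?_, ?_⟩⟩ <;> linarith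
  · rw [hell]
    refine scTab_fin (scChi_pos a).le (scChi_le_left ha)
      (C := 82 / 37 + (7 / 10) ^ 2 / (3 / 40) + 3 * (1681 / 1000) ^ 2
        + (664 / 1000) ^ 2 / (13 / 100) + (2057 / 1000) ^ 2 / (3 / 4)) ?_ (by norm_num) (by norm_num)
    have := mul_le_mul_of_nonneg_right hD (sq_nonneg (1681 / 1000 : ℝ))
    linarith

theorem scFj_R1_right {aj a : ℝ} (h1 : -2 ≤ aj) (h2 : aj < -1) (ha : -1 ≤ a) :
    scFj aj a ≤ 295 / 1000 := by
  obtain ⟨H, -, hD⟩ := scBdR1 h1 h2.le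
  obtain ⟨hz0, hz1⟩ := scZ_mem_right ha
  have hell : scEll1 aj = 13 / 100 := by unfold scEll1; rw [if_pos h2]
  refine (scTab_row H (zbar := 475 / 1000) (wbar := 2621 / 1000) (abar := 420 / 1000)
    (mbar := 1155 / 1000) (by norm_num) (by norm_num) hz0 hz1 (by norm_num) (by norm_num)
    ?_ (by norm_num)).trans ?_
  · intro b h P h1 h2 h3 h4 h5 h6
    simp only [abs_le]
    refine ⟨⟨?_, ?_⟩, ⟨?_, ?_⟩, ⟨?_, ?_⟩, ⟨?_, ?_⟩⟩ <;> linarith
  · rw [hell]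
    refine scTab_fin (scChi_pos a).le (scChi_le_right ha)
      (C := 82 / 37 + (475 / 1000) ^ 2 / (3 / 40) + 3 * (2621 / 1000) ^ 2
        + (420 / 1000) ^ 2 / (13 / 100) + (1155 / 1000) ^ 2 / (3 / 4)) ?_ (by norm_num) (by norm_num)
    have := mul_le_mul_of_nonneg_right hD (sq_nonneg (2621 / 1000 : ℝ))
    linarith

theorem scFj_R1 {aj : ℝ} (h1 : -2 ≤ aj) (h2 : aj < -1) (a : ℝ) : scFj aj a ≤ 295 / 1000 := by
  rcases le_total a (-1) with ha | ha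
  · exact (scFj_R1_left h1 h2 ha).trans (by norm_num)
  · exact scFj_R1_right h1 h2 ha

theorem scFj_U1_left {aj a : ℝ} (h1 : -1 ≤ aj) (h2 : aj < 1 / 2) (ha : a ≤ -1) :
    scFj aj a ≤ 23 / 100 := by
  obtain ⟨H, -, -, hD⟩ := scBdU1 h1 h2.le
  obtain ⟨hz0, hz1⟩ := scZ_mem_left ha
  have hell : scEll1 aj = 123 / 1000 := by unfold scEll1; rw [if_neg (not_lt.mpr h1), if_pos h2]
  refine (scTab_row H (zbar := 7 / 10) (wbar := 155 / 100) (abar := 847 / 1000)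
    (mbar := 2101 / 1000) (by norm_num) (by norm_num) hz0 hz1 (by norm_num) (by norm_num)
    ?_ (by norm_num)).trans ?_
  · intro b h P h1 h2 h3 h4 h5 h6
    simp only [abs_le]
    refine ⟨⟨?_, ?_⟩, ⟨?_, ?_⟩, ⟨?_, ?_⟩, ⟨?_, ?_⟩⟩ <;> linarith
  · rw [hell]
    refine scTab_fin (scChi_pos a).le (scChi_le_left ha)
      (C := 82 / 37 + (7 / 10) ^ 2 / (3 / 40) + 172 / 100 * (155 / 100) ^ 2
        + (847 / 1000) ^ 2 / (123 / 1000) + (2101 / 1000) ^ 2 / (3 / 4)) ?_ (by norm_num) (by norm_num)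
    have := mul_le_mul_of_nonneg_right hD (sq_nonneg (155 / 100 : ℝ))
    linarith

theorem scFj_U1_right {aj a : ℝ} (h1 : -1 ≤ aj) (h2 : aj < 1 / 2) (ha : -1 ≤ a) :
    scFj aj a ≤ 23 / 100 := by
  obtain ⟨H, -, -, hD⟩ := scBdU1 h1 h2.le
  obtain ⟨hz0, hz1⟩ := scZ_mem_right ha
  have hell : scEll1 aj = 123 / 1000 := by unfold scEll1; rw [if_neg (not_lt.mpr h1), if_pos h2]
  refine (scTab_row H (zbar := 475 / 1000) (wbar := 2461 / 1000) (abar := 615 / 1000)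
    (mbar := 1155 / 1000) (by norm_num) (by norm_num) hz0 hz1 (by norm_num) (by norm_num)
    ?_ (by norm_num)).trans ?_
  · intro b h P h1 h2 h3 h4 h5 h6
    simp only [abs_le]
    refine ⟨⟨?_, ?_⟩, ⟨?_, ?_⟩, ⟨?_, ?_⟩, ⟨?_, ?_⟩⟩ <;> linarith
  · rw [hell]
    refine scTab_fin (scChi_pos a).le (scChi_le_right ha)
      (C := 82 / 37 + (475 / 1000) ^ 2 / (3 / 40) + 172 / 100 * (2461 / 1000) ^ 2
        + (615 / 1000) ^ 2 / (123 / 1000) + (1155 / 1000) ^ 2 / (3 / 4)) ?_ (by norm_num) (by norm_num)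
    have := mul_le_mul_of_nonneg_right hD (sq_nonneg (2461 / 1000 : ℝ))
    linarith

theorem scFj_U1 {aj : ℝ} (h1 : -1 ≤ aj) (h2 : aj < 1 / 2) (a : ℝ) : scFj aj a ≤ 23 / 100 := by
  rcases le_total a (-1) with ha | ha
  · exact scFj_U1_left h1 h2 ha
  · exact scFj_U1_right h1 h2 ha

theorem scFj_V1_left {aj a : ℝ} (h1 : 1 / 2 ≤ aj) (h2 : aj < 4) (ha : a ≤ -1) :
    scFj aj a ≤ 23 / 100 := by
  obtain ⟨H, -, hD⟩ := scBdV1 h1 h2.le
  obtain ⟨hz0, hz1⟩ := scZ_mem_left ha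
  have hell : scEll1 aj = 60 / 1000 := by unfold scEll1; rw [if_neg (by linarith), if_neg (not_lt.mpr h1), if_pos h2]
  refine (scTab_row H (zbar := 7 / 10) (wbar := 1263 / 1000) (abar := 912 / 1000)
    (mbar := 1787 / 1000) (by norm_num) (by norm_num) hz0 hz1 (by norm_num) (by norm_num)
    ?_ (by norm_num)).trans ?_
  · intro b h P h1 h2 h3 h4 h5 h6
    simp only [abs_le]
    refine ⟨⟨?_, ?_⟩, ⟨?_, ?_⟩, ⟨?_, ?_⟩, ⟨?_, ?_⟩⟩ <;> linarith
  · rw [hell]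
    refine scTab_fin (scChi_pos a).le (scChi_le_left ha)
      (C := 82 / 37 + (7 / 10) ^ 2 / (3 / 40) + 87 / 100 * (1263 / 1000) ^ 2
        + (912 / 1000) ^ 2 / (60 / 1000) + (1787 / 1000) ^ 2 / (3 / 4)) ?_ (by norm_num) (by norm_num)
    have := mul_le_mul_of_nonneg_right hD (sq_nonneg (1263 / 1000 : ℝ))
    linarith

theorem scFj_V1_right {aj a : ℝ} (h1 : 1 / 2 ≤ aj) (h2 : aj < 4) (ha : -1 ≤ a) :
    scFj aj a ≤ 23 / 100 := by
  obtain ⟨H, -, hD⟩ := scBdV1 h1 h2.le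
  obtain ⟨hz0, hz1⟩ := scZ_mem_right ha
  have hell : scEll1 aj = 60 / 1000 := by unfold scEll1; rw [if_neg (by linarith), if_neg (not_lt.mpr h1), if_pos h2]
  refine (scTab_row H (zbar := 475 / 1000) (wbar := 1885 / 1000) (abar := 770 / 1000)
    (mbar := 1205 / 1000) (by norm_num) (by norm_num) hz0 hz1 (by norm_num) (by norm_num)
    ?_ (by norm_num)).trans ?_
  · intro b h P h1 h2 h3 h4 h5 h6
    simp only [abs_le]
    refine ⟨⟨?_, ?_⟩, ⟨?_, ?_⟩, ⟨?_, ?_⟩, ⟨?_, ?_⟩⟩ <;> linarith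
  · rw [hell]
    refine scTab_fin (scChi_pos a).le (scChi_le_right ha)
      (C := 82 / 37 + (475 / 1000) ^ 2 / (3 / 40) + 87 / 100 * (1885 / 1000) ^ 2
        + (770 / 1000) ^ 2 / (60 / 1000) + (1205 / 1000) ^ 2 / (3 / 4)) ?_ (by norm_num) (by norm_num)
    have := mul_le_mul_of_nonneg_right hD (sq_nonneg (1885 / 1000 : ℝ))
    linarith

theorem scFj_V1 {aj : ℝ} (h1 : 1 / 2 ≤ aj) (h2 : aj < 4) (a : ℝ) : scFj aj a ≤ 23 / 100 := by
  rcases le_total a (-1) with ha | ha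
  · exact scFj_V1_left h1 h2 ha
  · exact scFj_V1_right h1 h2 ha

theorem scFj_T1_left {aj a : ℝ} (h1 : 4 ≤ aj) (ha : a ≤ -1) :
    scFj aj a ≤ 39 / 100 := by
  obtain ⟨H, -, hD⟩ := scBdT1 h1
  obtain ⟨hz0, hz1⟩ := scZ_mem_left ha
  have hell : scEll1 aj = 22 / 1000 := by unfold scEll1; rw [if_neg (by linarith), if_neg (by linarith), if_neg (not_lt.mpr h1)]
  refine (scTab_row H (zbar := 7 / 10) (wbar := 913 / 1000) (abar := 869 / 1000)
    (mbar := 1386 / 1000) (by norm_num) (by norm_num) hz0 hz1 (by norm_num) (by norm_num)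
    ?_ (by norm_num)).trans ?_
  · intro b h P h1 h2 h3 h4 h5 h6
    simp only [abs_le]
    refine ⟨⟨?_, ?_⟩, ⟨?_, ?_⟩, ⟨?_, ?_⟩, ⟨?_, ?_⟩⟩ <;> linarith
  · rw [hell]
    refine scTab_fin (scChi_pos a).le (scChi_le_left ha)
      (C := 82 / 37 + (7 / 10) ^ 2 / (3 / 40) + 64 / 100 * (913 / 1000) ^ 2
        + (869 / 1000) ^ 2 / (22 / 1000) + (1386 / 1000) ^ 2 / (3 / 4)) ?_ (by norm_num) (by norm_num)
    have := mul_le_mul_of_nonneg_right hD (sq_nonneg (913 / 1000 : ℝ))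
    linarith

theorem scFj_T1_right {aj a : ℝ} (h1 : 4 ≤ aj) (ha : -1 ≤ a) :
    scFj aj a ≤ 39 / 100 := by
  obtain ⟨H, -, hD⟩ := scBdT1 h1
  obtain ⟨hz0, hz1⟩ := scZ_mem_right ha
  have hell : scEll1 aj = 22 / 1000 := by unfold scEll1; rw [if_neg (by linarith), if_neg (by linarith), if_neg (not_lt.mpr h1)]
  refine (scTab_row H (zbar := 475 / 1000) (wbar := 1071 / 1000) (abar := 840 / 1000)
    (mbar := 1251 / 1000) (by norm_num) (by norm_num) hz0 hz1 (by norm_num) (by norm_num)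
    ?_ (by norm_num)).trans ?_
  · intro b h P h1 h2 h3 h4 h5 h6
    simp only [abs_le]
    refine ⟨⟨?_, ?_⟩, ⟨?_, ?_⟩, ⟨?_, ?_⟩, ⟨?_, ?_⟩⟩ <;> linarith
  · rw [hell]
    refine scTab_fin (scChi_pos a).le (scChi_le_right ha)
      (C := 82 / 37 + (475 / 1000) ^ 2 / (3 / 40) + 64 / 100 * (1071 / 1000) ^ 2
        + (840 / 1000) ^ 2 / (22 / 1000) + (1251 / 1000) ^ 2 / (3 / 4)) ?_ (by norm_num) (by norm_num)
    have := mul_le_mul_of_nonneg_right hD (sq_nonneg (1071 / 1000 : ℝ))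
    linarith

theorem scFj_T1 {aj : ℝ} (h1 : 4 ≤ aj) (a : ℝ) : scFj aj a ≤ 39 / 100 := by
  rcases le_total a (-1) with ha | ha
  · exact scFj_T1_left h1 ha
  · exact scFj_T1_right h1 ha

end Claimed.Agent.R260
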