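/-
Row 260, SC, Prop 3.6, leaf PE: threshold lemma (sc:threshold) and the endpoint case analysis.
-/
import Claimed.Agent.R260.ScPairAlg
import Claimed.Agent.R260.ScPairTab
import Claimed.Agent.R260.ScPairInc
import Claimed.Agent.R260.ScPairMean

set_option autoImplicit false

namespace Claimed.Agent.R260

open Set

theorem scTheta_eq (m δ : ℝ) :
    scTheta m δ * (1 + δ ^ 2 / 36) = (1 + m) / 4 * (1 + δ ^ 2 / 30 + δ ^ 4 / 1680) := by
  unfold scTheta
  have h : (1 + δ ^ 2 / 36) ≠ 0 := by positivity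
  field_simp

/-- (sc:threshold) suffices. -/
theorem sc_threshold {am ap Pm Pp : ℝ} (h : am < ap) (hPm : 0 ≤ Pm) (hPp : 0 ≤ Pp)
    (hm : ScPartial am ap Pm) (hp : ScPartial ap am Pp)
    (hΘ : max Pm ((Pm + Pp) / 2) ≤ scTheta (scm0 am) (scXi ap - scXi am)) :
    (scNsq am (scDelta scK scB ap am) (scDelta scB scL ap am) (scPsi ap am)
        + scNsq ap (scDelta scK scB am ap) (scDelta scB scL am ap) (scPsi am ap)) / 2 ≤
      scRw am ap * scDel am ap ^ 2 := by
  have hδ : 0 < scXi ap - scXi am := sub_pos.2 (scXi_strictMono h)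
  set δ := scXi ap - scXi am with hδdef
  have h1 := scNsq_secant_le (ne_of_gt h) hPm hm
  have h2 := scNsq_secant_le (ne_of_lt h) hPp hp
  have hadd := scMeanDist_add h
  have hlo := scMeanDist_lower h
  have hup := scMeanDist_upper h
  have hnn := scMeanDist_nonneg ap am
  rw [← hδdef] at hadd hlo hup
  set U := scMeanDist am ap with hU
  set V := scMeanDist ap am with hV
  have hDel : scDel am ap = δ := by
    unfold scDel
    rw [abs_sub_comm, abs_of_pos]
    · rfl
    · exact hδ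
  have hRw : scRw am ap = (1 + scm0 am) / 16 * (1 + δ ^ 2 / 30 + δ ^ 4 / 1680) := by
    unfold scRw
    rw [hDel, min_eq_left h.le]
  rw [hRw, hDel]
  have hΘ1 : Pm ≤ scTheta (scm0 am) δ := le_trans (le_max_left _ _) hΘ
  have hΘ2 : (Pm + Pp) / 2 ≤ scTheta (scm0 am) δ := le_trans (le_max_right _ _) hΘ
  have hTe := scTheta_eq (scm0 am) δ
  set Θ := scTheta (scm0 am) δ with hΘdef
  -- e = U - δ/2
  have hVe : V = δ - U := by linarith
  have hsq : U ^ 2 + V ^ 2 ≤ δ ^ 2 / 2 * (1 + δ ^ 2 / 36) := by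
    rw [hVe]
    have he0 : 0 ≤ U - δ / 2 := by linarith
    have he1 : U - δ / 2 ≤ δ ^ 2 / 12 := by linarith
    have : (U - δ / 2) ^ 2 ≤ (δ ^ 2 / 12) ^ 2 := by
      apply pow_le_pow_left₀ he0 he1
    nlinarith [this]
  have hUV : V ^ 2 ≤ U ^ 2 := by
    apply pow_le_pow_left₀ hnn
    linarith
  have hmain : Pm * U ^ 2 + Pp * V ^ 2 ≤ Θ * (U ^ 2 + V ^ 2) := by
    have hV2 : 0 ≤ V ^ 2 := sq_nonneg V
    -- Pm U² + Pp V² = Pm (U² - V²) + (Pm + Pp) V²
    have e1 : Pm * (U ^ 2 - V ^ 2) ≤ Θ * (U ^ 2 - V ^ 2) :=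
      mul_le_mul_of_nonneg_right hΘ1 (by linarith)
    have e2 : (Pm + Pp) / 2 * (2 * V ^ 2) ≤ Θ * (2 * V ^ 2) :=
      mul_le_mul_of_nonneg_right hΘ2 (by linarith)
    nlinarith [e1, e2]
  have hΘ0 : 0 ≤ Θ := le_trans hPm hΘ1
  have h3 : Θ * (U ^ 2 + V ^ 2) ≤ Θ * (δ ^ 2 / 2 * (1 + δ ^ 2 / 36)) :=
    mul_le_mul_of_nonneg_left hsq hΘ0
  have h4 : Θ * (δ ^ 2 / 2 * (1 + δ ^ 2 / 36)) =
      δ ^ 2 / 2 * ((1 + scm0 am) / 4 * (1 + δ ^ 2 / 30 + δ ^ 4 / 1680)) := by
    rw [← hTe]; ring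
  nlinarith [h1, h2, hmain, h3, h4]

theorem scTheta_mono {m δ δ' : ℝ} (hm : 0 ≤ m) (h0 : 0 ≤ δ) (h : δ ≤ δ') :
    scTheta m δ ≤ scTheta m δ' := by
  unfold scTheta
  apply mul_le_mul_of_nonneg_left _ (by positivity)
  have hy : δ ^ 2 ≤ δ' ^ 2 := pow_le_pow_left₀ h0 h 2
  have hy0 : 0 ≤ δ ^ 2 := sq_nonneg δ
  have e4 : δ ^ 4 = (δ ^ 2) ^ 2 := by ring
  have e4' : δ' ^ 4 = (δ' ^ 2) ^ 2 := by ring
  rw [e4, e4']
  generalize δ ^ 2 = y at *
  generalize δ' ^ 2 = y' at *
  rw [div_le_div_iff₀ (by positivity) (by nlinarith)]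
  have hd : 0 ≤ y' - y := by linarith
  have hy'0 : 0 ≤ y' := by linarith
  nlinarith [mul_nonneg hd hy0, mul_nonneg hd hy'0, mul_nonneg hd (mul_nonneg hy0 hy'0)]

/-- (sc:theta-tail). -/
theorem scTheta_tail {δ : ℝ} (h : 4 ≤ δ) : 1 / 4 + (26 / 10000) * δ ^ 2 ≤ scTheta 0 δ := by
  unfold scTheta
  have hy : (16 : ℝ) ≤ δ ^ 2 := by nlinarith
  have e4 : δ ^ 4 = (δ ^ 2) ^ 2 := by ring
  rw [e4]
  generalize δ ^ 2 = y at *
  rw [← mul_div_assoc, le_div_iff₀ (by positivity)]
  nlinarith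

/-- existence of admissible `P₋, P₊` for every pair `a₋ < a₊`: the case analysis of the paper,
one lemma per position of the lower endpoint. -/
def ScCaseGoal (am ap : ℝ) : Prop :=
  ∃ Pm Pp : ℝ, 0 ≤ Pm ∧ 0 ≤ Pp ∧ ScPartial am ap Pm ∧ ScPartial ap am Pp ∧
    max Pm ((Pm + Pp) / 2) ≤ scTheta (scm0 am) (scXi ap - scXi am)

theorem scTheta_zero (m : ℝ) : scTheta m 0 = (1 + m) / 4 := by
  unfold scTheta; norm_num

theorem scTheta_ge_zero {m δ : ℝ} (hm : 0 ≤ m) (h0 : 0 ≤ δ) : (1 + m) / 4 ≤ scTheta m δ := by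
  rw [← scTheta_zero]; exact scTheta_mono hm le_rfl h0

/-- `ξ(a) + a²/2 = -log (tail)` is increasing. -/
theorem scXi_add_sq_mono {x y : ℝ} (h : x ≤ y) : scXi x + x ^ 2 / 2 ≤ scXi y + y ^ 2 / 2 := by
  have key : ∀ a, scXi a + a ^ 2 / 2 = -Real.log (scTail a) := by
    intro a
    unfold scXi scQ
    rw [Real.log_div (scW_pos a).ne' (scTail_pos a).ne']
    unfold scW
    rw [Real.log_exp]; ring
  rw [key, key]
  have : scTail y ≤ scTail x := scTail_strictAnti.antitone h
  have := Real.log_le_log (scTail_pos y) this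
  linarith

theorem scChi_mul_sq_le {a : ℝ} (h : a ≤ 0) : a ^ 2 * scChi a ^ 2 ≤ (9 / 100) ^ 2 := by
  have hl : scL a ≤ 9 / 100 := by
    have := scLL_le a
    unfold scLL scα at this
    rw [div_le_iff₀ (by norm_num)] at this
    linarith
  have hl0 := scL_pos a
  have hd := scD_pos a
  have hda : -a ≤ scD a := by
    unfold scD; have := scQ_pos a; linarith
  have h1 : (-a) * scChi a ≤ 9 / 100 := by
    unfold scChi
    rw [← mul_div_assoc, div_le_iff₀ hd]
    nlinarith
  have h0 : 0 ≤ (-a) * scChi a := mul_nonneg (by linarith) (scChi_pos a).le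
  have := pow_le_pow_left₀ h0 h1 2
  nlinarith

theorem scFj_O_low {aj a δ : ℝ} (hj : aj < -3) (ha : a ≤ -1) (hδ : 0 ≤ δ)
    (h : aj ^ 2 ≤ a ^ 2 + 2 * δ) : scFj aj a ≤ 144 / 1000 + 11 / 1000 * δ := by
  have h1 := scFj_O_left hj ha
  have h2 := scChi_mul_sq_le (a := a) (by linarith)
  have h3 := scChi_le_left ha
  have h4 := scChi_pos a
  have h5 : scChi a ^ 2 ≤ (7 / 100) ^ 2 := pow_le_pow_left₀ h4.le h3 2
  have h6 : 0 ≤ scChi a ^ 2 := sq_nonneg _
  have h7 : scChi a ^ 2 * aj ^ 2 ≤ scChi a ^ 2 * (a ^ 2 + 2 * δ) :=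
    mul_le_mul_of_nonneg_left h h6
  have h8 : scChi a ^ 2 * δ ≤ (7 / 100) ^ 2 * δ := mul_le_mul_of_nonneg_right h5 hδ
  nlinarith

theorem scFj_O_high {aj a δ : ℝ} (hj : aj < -3) (ha : -1 ≤ a) (hδ : 0 ≤ δ)
    (h : aj ^ 2 ≤ 1 + 2 * δ) : scFj aj a ≤ 236 / 1000 + 31 / 1000 * δ := by
  have h1 := scFj_O_right hj ha
  have h3 := scChi_le_right ha
  have h4 := scChi_pos a
  have h5 : scChi a ^ 2 ≤ (97 / 1000) ^ 2 := pow_le_pow_left₀ h4.le h3 2
  have h6 : 0 ≤ scChi a ^ 2 := sq_nonneg _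
  have h7 : scChi a ^ 2 * aj ^ 2 ≤ scChi a ^ 2 * (1 + 2 * δ) :=
    mul_le_mul_of_nonneg_left h h6
  have h8 : scChi a ^ 2 * δ ≤ (97 / 1000) ^ 2 * δ := mul_le_mul_of_nonneg_right h5 hδ
  nlinarith

/-- every endpoint `≥ -2` has `F ≤ .39`. -/
theorem scFj_upper {aj : ℝ} (h : -2 ≤ aj) (a : ℝ) : scFj aj a ≤ 39 / 100 := by
  rcases lt_or_ge aj (-1) with h1 | h1
  · have := scFj_R1 h h1 a; linarith
  rcases lt_or_ge aj (1 / 2) with h2 | h2
  · have := scFj_U1 h1 h2 a; linarith
  rcases lt_or_ge aj 4 with h3 | h3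
  · have := scFj_V1 h2 h3 a; linarith
  · exact scFj_T1 h3 a

/-- every endpoint in `[-1,4)` has `F ≤ .23`. -/
theorem scFj_mid {aj : ℝ} (h : -1 ≤ aj) (h4 : aj < 4) (a : ℝ) : scFj aj a ≤ 23 / 100 := by
  rcases lt_or_ge aj (1 / 2) with h2 | h2
  · exact scFj_U1 h h2 a
  · exact scFj_V1 h2 h4 a

theorem sc_case_upper {am ap : ℝ} (h : am < ap) (h1 : -2 ≤ am) : ScCaseGoal am ap := by
  have hδ : 0 ≤ scXi ap - scXi am := (sub_pos.2 (scXi_strictMono h)).le
  have hp : ScPartial ap am (39 / 100) :=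
    scPartial_of_pointwise (fun a _ => scFj_upper (by linarith) a)
  rcases lt_or_ge am (-1) with h2 | h2
  · refine ⟨295 / 1000, 39 / 100, by norm_num, by norm_num,
      scPartial_of_pointwise (fun a _ => scFj_R1 h1 h2 a), hp, ?_⟩
    have hm : scm0 am = 38 / 100 := by
      unfold scm0
      rw [if_neg (by linarith), if_neg (by linarith), if_pos h2]
    rw [hm]
    refine le_trans ?_ (scTheta_ge_zero (by norm_num) hδ)
    norm_num
  · have hm : scm0 am = 68 / 100 := by
      unfold scm0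
      rw [if_neg (by linarith), if_neg (by linarith), if_neg (by linarith)]
    refine ⟨39 / 100, 39 / 100, by norm_num, by norm_num,
      scPartial_of_pointwise (fun a _ => scFj_upper h1 a), hp, ?_⟩
    rw [hm]
    refine le_trans ?_ (scTheta_ge_zero (by norm_num) hδ)
    norm_num

theorem scTheta_19_four : 345394 / 1000000 ≤ scTheta (19 / 100) 4 := by
  unfold scTheta; norm_num

theorem scTheta_19_five : 38105 / 100000 ≤ scTheta (19 / 100) 5 := by
  unfold scTheta; norm_num

theorem scTheta_0_six : 39 / 100 ≤ scTheta 0 (65 / 10) := by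
  unfold scTheta; norm_num

theorem sc_case_P1 {am ap : ℝ} (h : am < ap) (h1 : -3 ≤ am) (h2 : am < -2) :
    ScCaseGoal am ap := by
  have hδ : 0 < scXi ap - scXi am := sub_pos.2 (scXi_strictMono h)
  have hm : scm0 am = 19 / 100 := by
    unfold scm0
    rw [if_neg (by linarith), if_pos h2]
  unfold ScCaseGoal
  rw [hm]
  rcases lt_or_ge ap (-1) with h3 | h3
  · -- whole interval below -1
    refine ⟨(42 / 100) ^ 2, 20 / 100, by norm_num, by norm_num,
      scPartial_of_pointwise (fun a ha => scFj_P1_left h1 h2 ?_),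
      scPartial_of_pointwise (fun a ha => ?_), ?_⟩
    · rw [uIcc_of_le h.le] at ha; linarith [ha.2]
    · rw [uIcc_of_ge h.le] at ha
      have ha1 : a ≤ -1 := by linarith [ha.2]
      rcases lt_or_ge ap (-2) with h4 | h4
      · have := scFj_P1_left (by linarith) h4 ha1; linarith
      · exact scFj_R1_left h4 h3 ha1
    · refine le_trans ?_ (scTheta_ge_zero (by norm_num) hδ.le)
      norm_num
  · -- upper endpoint above -1
    have hL : 162 / 100 ≤ scXi (-1) - scXi am := by
      have e1 := sc_log_q_neg1_neg2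
      have e2 : scXi am < scXi (-2) := scXi_strictMono h2
      unfold scXi at *
      linarith
    have hL' : 162 / 100 ≤ scXi ap - scXi am := by
      have : scXi (-1) ≤ scXi ap := scXi_strictMono.monotone h3
      linarith
    have hpm := scPartial_two_norm (aj := am) (ao := ap) (c1 := 42 / 100) (c2 := 61 / 100)
      (Lmin := 162 / 100) (by linarith) h3 (by norm_num) (by norm_num) (by norm_num) hL
      (fun a ha => scFj_P1_left h1 h2 ha.2) (fun a ha => scFj_P1_right h1 h2 ha.1)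
    set δ := scXi ap - scXi am with hδdef
    set c := 61 / 100 - (61 / 100 - 42 / 100) * (162 / 100) / δ with hc
    have hc0 : 42 / 100 ≤ c := by
      have : (61 / 100 - 42 / 100) * (162 / 100) / δ ≤ 19 / 100 := by
        rw [div_le_iff₀ hδ]; nlinarith
      rw [hc]; linarith
    have hcle : ∀ D : ℝ, δ ≤ D → c ≤ 61 / 100 - (61 / 100 - 42 / 100) * (162 / 100) / D := by
      intro D hD
      have : (61 / 100 - 42 / 100) * (162 / 100) / D ≤ (61 / 100 - 42 / 100) * (162 / 100) / δ :=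
        div_le_div_of_nonneg_left (by norm_num) hδ hD
      rw [hc]; linarith
    have hc1 : c ≤ 61 / 100 := by
      have : 0 ≤ (61 / 100 - 42 / 100) * (162 / 100) / δ := by positivity
      rw [hc]; linarith
    rcases le_total δ 4 with h4 | h4
    · -- then ap < 4
      have hap : ap < 4 := by
        by_contra hcon
        have e1 := sc_log_q_four_neg2
        have e2 : scXi am < scXi (-2) := scXi_strictMono h2
        have e3 : scXi 4 ≤ scXi ap := scXi_strictMono.monotone (not_lt.1 hcon)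
        unfold scXi at *
        linarith
      refine ⟨c ^ 2, 23 / 100, sq_nonneg _, by norm_num, hpm,
        scPartial_of_pointwise (fun a _ => scFj_mid h3 hap a), ?_⟩
      have hc4 := hcle 4 h4
      have hc2 : c ^ 2 ≤ 284143 / 1000000 := by
        have := pow_le_pow_left₀ (by linarith : (0:ℝ) ≤ c) hc4 2
        refine le_trans this ?_
        norm_num
      refine le_trans ?_ (scTheta_ge_zero (by norm_num) hδ.le)
      apply max_le <;> linarith
    · have hpp : ScPartial ap am (39 / 100) :=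
        scPartial_of_pointwise (fun a _ => scFj_upper (by linarith) a)
      refine ⟨c ^ 2, 39 / 100, sq_nonneg _, by norm_num, hpm, hpp, ?_⟩
      rcases le_total δ 5 with h5 | h5
      · have hc5 := hcle 5 h5
        have hc2 : c ^ 2 ≤ 300787 / 1000000 := by
          have := pow_le_pow_left₀ (by linarith : (0:ℝ) ≤ c) hc5 2
          refine le_trans this ?_
          norm_num
        refine le_trans ?_ (scTheta_mono (by norm_num) (by norm_num) h4)
        refine le_trans ?_ scTheta_19_four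
        apply max_le <;> linarith
      · have hc2 : c ^ 2 ≤ 3721 / 10000 := by
          have := pow_le_pow_left₀ (by linarith : (0:ℝ) ≤ c) hc1 2
          refine le_trans this ?_
          norm_num
        refine le_trans ?_ (scTheta_mono (by norm_num) (by norm_num) h5)
        refine le_trans ?_ scTheta_19_five
        apply max_le <;> linarith

theorem scm0_O {am : ℝ} (h : am < -3) : scm0 am = 0 := by
  unfold scm0; rw [if_pos h]

theorem sc_case_O_low {am ap : ℝ} (h : am < ap) (h1 : am < -3) (h2 : ap < -1) :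
    ScCaseGoal am ap := by
  have hδ : 0 < scXi ap - scXi am := sub_pos.2 (scXi_strictMono h)
  unfold ScCaseGoal
  rw [scm0_O h1]
  set δ := scXi ap - scXi am with hδdef
  have hPm : ScPartial am ap (144 / 1000 + 11 / 1000 * δ) := by
    refine scPartial_of_pointwise (fun a ha => ?_)
    rw [uIcc_of_le h.le] at ha
    refine scFj_O_low h1 (by linarith [ha.2]) hδ.le ?_
    have e1 := scXi_add_sq_mono ha.1
    have e2 : scXi a ≤ scXi ap := scXi_strictMono.monotone ha.2
    linarith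
  have hPp : ScPartial ap am (max (144 / 1000 + 11 / 1000 * δ) (20 / 100)) := by
    refine scPartial_of_pointwise (fun a ha => ?_)
    rw [uIcc_of_ge h.le] at ha
    have ha1 : a ≤ -1 := by linarith [ha.2]
    rcases lt_or_ge ap (-3) with h3 | h3
    · refine le_trans (scFj_O_low h3 ha1 hδ.le ?_) (le_max_left _ _)
      nlinarith [ha.2]
    refine le_trans ?_ (le_max_right _ _)
    rcases lt_or_ge ap (-2) with h4 | h4
    · have := scFj_P1_left h3 h4 ha1; linarith
    · exact scFj_R1_left h4 h2 ha1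
  refine ⟨_, _, by positivity, le_trans (by norm_num) (le_max_right _ _), hPm, hPp, ?_⟩
  have hkey : max (144 / 1000 + 11 / 1000 * δ) (20 / 100) ≤ scTheta 0 δ := by
    rcases le_total δ 4 with h4 | h4
    · refine le_trans ?_ (scTheta_ge_zero le_rfl hδ.le)
      apply max_le <;> linarith
    · refine le_trans ?_ (scTheta_tail h4)
      apply max_le <;> nlinarith
  have hle : 144 / 1000 + 11 / 1000 * δ ≤ max (144 / 1000 + 11 / 1000 * δ) (20 / 100) :=
    le_max_left _ _
  apply max_le <;> linarith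

theorem sc_case_O_high {am ap : ℝ} (h : am < ap) (h1 : am < -3) (h2 : -1 ≤ ap) :
    ScCaseGoal am ap := by
  have hδ : 0 < scXi ap - scXi am := sub_pos.2 (scXi_strictMono h)
  unfold ScCaseGoal
  rw [scm0_O h1]
  have hL : 4 ≤ scXi (-1) - scXi am := by
    have e1 := sc_log_q_neg1_neg3
    have e2 : scXi am < scXi (-3) := scXi_strictMono h1
    unfold scXi at *
    linarith
  have hL' : 4 ≤ scXi ap - scXi am := by
    have : scXi (-1) ≤ scXi ap := scXi_strictMono.monotone h2
    linarith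
  set δ := scXi ap - scXi am with hδdef
  have hpm := scPartial_two_sq (aj := am) (ao := ap) (f1 := 144 / 1000 + 11 / 1000 * δ)
    (f2 := 236 / 1000 + 31 / 1000 * δ) (Lmin := 4) (by linarith) h2 (by positivity)
    (by linarith) (by norm_num) hL
    (fun a ha => by
      refine scFj_O_low h1 ha.2 hδ.le ?_
      have e1 := scXi_add_sq_mono ha.1
      have e2 : scXi a ≤ scXi ap := scXi_strictMono.monotone (le_trans ha.2 h2)
      linarith)
    (fun a ha => by
      refine scFj_O_high h1 ha.1 hδ.le ?_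
      have e1 := scXi_add_sq_mono (x := am) (y := -1) (by linarith)
      have e2 : scXi (-1) ≤ scXi ap := scXi_strictMono.monotone h2
      linarith)
  rw [← hδdef] at hpm
  set Pm := 236 / 1000 + 31 / 1000 * δ - 4 / δ * (236 / 1000 + 31 / 1000 * δ - (144 / 1000 + 11 / 1000 * δ))
    with hPmdef
  have hPm_eq : Pm = 156 / 1000 + 31 / 1000 * δ - (368 / 1000) / δ := by
    rw [hPmdef]; field_simp; ring
  have hinv : (368 / 1000) / δ ≤ 92 / 1000 := by
    rw [div_le_iff₀ hδ]; linarith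
  have hinv0 : 0 < (368 / 1000) / δ := by positivity
  have hPm0 : 0 ≤ Pm := by rw [hPm_eq]; linarith
  have hT := scTheta_tail hL'
  have hPmT : Pm ≤ scTheta 0 δ := by
    refine le_trans ?_ hT
    rw [hPm_eq]
    nlinarith [sq_nonneg (δ - 6)]
  rcases lt_or_ge ap 4 with h4 | h4
  · refine ⟨Pm, 23 / 100, hPm0, by norm_num, hpm,
      scPartial_of_pointwise (fun a _ => scFj_mid h2 h4 a), ?_⟩
    have : (23 : ℝ) / 100 ≤ scTheta 0 δ := by nlinarith
    apply max_le <;> linarith
  · refine ⟨Pm, 39 / 100, hPm0, by norm_num, hpm,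
      scPartial_of_pointwise (fun a _ => scFj_upper (by linarith) a), ?_⟩
    have h65 : 65 / 10 ≤ δ := by
      have e1 := sc_log_q_four_neg3
      have e2 : scXi am < scXi (-3) := scXi_strictMono h1
      have e3 : scXi 4 ≤ scXi ap := scXi_strictMono.monotone h4
      rw [hδdef]
      unfold scXi at *
      linarith
    have : (39 : ℝ) / 100 ≤ scTheta 0 δ :=
      le_trans scTheta_0_six (scTheta_mono le_rfl (by norm_num) h65)
    apply max_le <;> linarith

theorem sc_case_all {am ap : ℝ} (h : am < ap) : ScCaseGoal am ap := by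
  rcases lt_or_ge am (-3) with h3 | h3
  · rcases lt_or_ge ap (-1) with h1 | h1
    · exact sc_case_O_low h h3 h1
    · exact sc_case_O_high h h3 h1
  · rcases lt_or_ge am (-2) with h2 | h2
    · exact sc_case_P1 h h3 h2
    · exact sc_case_upper h h2

/-- Prop 3.6 for ordered distinct endpoints. -/
theorem sc_pair_lt {am ap : ℝ} (h : am < ap) (G g Z : ℝ) :
    (scEndForm am ap G g Z + scEndForm ap am G g Z) / 2 ≤
      scQf G (g - G / 2) + scRw am ap * scDel am ap ^ 2 * Z ^ 2 := by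
  obtain ⟨Pm, Pp, hPm, hPp, hm, hp, hΘ⟩ := sc_case_all h
  have h1 := sc_threshold h hPm hPp hm hp hΘ
  have h2 := sc_endForm_le am ap G g Z
  have h3 := sc_endForm_le ap am G g Z
  have hZ : 0 ≤ Z ^ 2 := sq_nonneg Z
  nlinarith [mul_le_mul_of_nonneg_left h1 hZ]

/-- Prop 3.6 on the diagonal. -/
theorem sc_pair_diag (a G g Z : ℝ) :
    (scEndForm a a G g Z + scEndForm a a G g Z) / 2 ≤
      scQf G (g - G / 2) + scRw a a * scDel a a ^ 2 * Z ^ 2 := by
  have h := sc_endForm_le a a G g Z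
  have e1 : ∀ v v' : ℝ → ℝ, scDelta v v' a a = 0 := by
    intro v v'; unfold scDelta scDiv; simp
  have e2 : scPsi a a = 0 := by unfold scPsi; rw [e1, e1, e1]; ring
  have e3 : scNsq a 0 0 0 = 0 := by unfold scNsq; simp
  have e4 : scDel a a = 0 := by unfold scDel; simp
  rw [e1, e1, e2, e3] at h
  rw [e4]
  linarith

theorem scRw_comm (a a' : ℝ) : scRw a a' = scRw a' a := by
  unfold scRw scDel; rw [min_comm, abs_sub_comm]

theorem scDel_comm (a a' : ℝ) : scDel a a' = scDel a' a := by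
  unfold scDel; rw [abs_sub_comm]

/-- Proposition 3.6. -/
theorem sc_pair_all (ai aj G g Z : ℝ) :
    (scEndForm ai aj G g Z + scEndForm aj ai G g Z) / 2 ≤
      scQf G (g - G / 2) + scRw ai aj * scDel ai aj ^ 2 * Z ^ 2 := by
  rcases lt_trichotomy ai aj with h | h | h
  · exact sc_pair_lt h G g Z
  · subst h; exact sc_pair_diag ai G g Z
  · have := sc_pair_lt h G g Z
    rw [scRw_comm, scDel_comm, add_comm]; exact this

end Claimed.Agent.R260
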