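/-
Row 260, SC, "Pair": Proposition 3.6 (mat:scalar-pair), paper Section 4.2 (sc:pair-proof):
FINAL STATEMENT (interface for SEC3).  Proof = ScPairCase.lean (leaves PA-PE).
-/
import Claimed.Agent.R260.ScPairCase

set_option autoImplicit false

namespace Claimed.Agent.R260

/-- Proposition 3.6 (two-eigenvalue estimate). -/
theorem sc_pair_estimate (ai aj G g Z : ℝ) :
    (scEndForm ai aj G g Z + scEndForm aj ai G g Z) / 2 ≤
      scQf G (g - G / 2) + scRw ai aj * scDel ai aj ^ 2 * Z ^ 2 :=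
  sc_pair_all ai aj G g Z

/-- (mat:final-polynomial). -/
theorem sc_final_polynomial {u : ℝ} (h0 : 0 ≤ u) (h1 : u ≤ 1 / 2) :
    scQf 1 (u - 1 / 2) + (7 / 50) * u ≤ 1 - u := by
  unfold scQf
  nlinarith [mul_nonneg (sub_nonneg.mpr h1) h0, mul_nonneg h0 h0]

end Claimed.Agent.R260
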