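/-
Row 260, package SEC3, glue layer: the scalar functions of the paper as an instance of `M3Sc`.
OWNER: helper191.
-/
import Claimed.Agent.R260.M3GDefs
import Claimed.Agent.R260.ScPair
import Claimed.Agent.R260.ScAbsorb
import Claimed.Agent.R260.ScBasic2

set_option autoImplicit false

namespace Claimed.Agent.R260

/-- the scalar functions of the paper. -/
noncomputable def m3sc : M3Sc :=
  ⟨scQ, scT, scK, scB, scL, fun a a' => scRw a a' * scDel a a' ^ 2⟩

theorem m3sc_eqns_cite : True := by
  have := @m3sc.eq_1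
  trivial

theorem m3sc_f : m3sc.f = scF := rfl
theorem m3sc_f1 : m3sc.f1 = scF1 := rfl
theorem m3sc_p : m3sc.p = scP := rfl
theorem m3sc_e : m3sc.e = scE := rfl
theorem m3sc_h0 : m3sc.h0 = scH0 := rfl
theorem m3sc_ψ : m3sc.ψ = scPsi := rfl
theorem m3sc_endpt : m3sc.endpt = scEndForm := rfl

theorem m3sc_alg : m3sc.Alg where
  qk := scQ_mul_scK
  ql := scQ_sub_scK
  bk := fun _ => rfl
  ppos := scP_pos

theorem m3sc_pair : m3sc.Pair := by
  intro x y G g Z
  have h := sc_pair_estimate x y G g Z
  rw [m3sc_endpt]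
  have e : scQf G (g - G / 2) = 98 / 100 * G ^ 2 - 246 / 100 * (G * g) + 272 / 100 * g ^ 2 := by
    unfold scQf; ring
  rw [e] at h
  exact h

theorem m3sc_abs : m3sc.Abs where
  ycost := sc_ycost
  minorant := fun u hu0 hu a => sc_p_minorant hu0 hu a

theorem m3sc_reg : m3sc.Reg where
  dk := hasDerivAt_scK
  db := hasDerivAt_scB
  cl := contDiff_scL.continuous
  cq := scQ_continuous
  ct := scT_continuous

theorem m3ω_eq_scOmega {lam : ℝ} (h : 0 ≤ lam) : m3ω lam = scOmega lam := by
  unfold m3ω scOmega m3u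
  congr 1
  split_ifs with h0
  · subst h0
    rw [Real.sqrt_zero, max_eq_right (by norm_num)]
    norm_num
  · have hpos : 0 < Real.sqrt lam := Real.sqrt_pos.mpr (lt_of_le_of_ne h (Ne.symm h0))
    rcases le_total (Real.sqrt lam) (128 / 13) with hle | hle
    · rw [max_eq_right hle, min_eq_left]
      · norm_num
      · rw [le_div_iff₀ (by positivity)]
        nlinarith
    · rw [max_eq_left hle, min_eq_right]
      · field_simp
      · rw [div_le_iff₀ (by positivity)]
        nlinarith

end Claimed.Agent.R260
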