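/-
Row 260, package SEC3, glue layer, leaf M3G-CHAOS: the first chaos `X_r = E[x_r A] = E[Z_r]`, the
remainder `Y = A - Σ x_r X_r` and the `L²` identities between `A, Y, Z, G = Z - X`.
Statements by helper191; proofs by helper117.
Tools: `MxGH1.*` (MxChain.lean), `GH1.ibp`, `GH1.ibp_mul`, `GH1.coord_mul_memLp` (GKClosB),
`gk_gh1_coord`, `gk_gh1_const` (GKClosA), `GH1.poincare2` (GKClosD), `MxL2.*`, `MxBd.*` (MxInt).
-/
import Claimed.Agent.R260.M3GDefs

set_option autoImplicit false

namespace Claimed.Agent.R260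

open Matrix MeasureTheory

variable {m : ℕ} {A : EE m → Mat m} {Z : Fin m → EE m → Mat m}

/-- `E[x_r] = 0`. -/
theorem m3g_coord_mean (r : Fin m) : ∫ x : EE m, x r ∂gam m = 0 :=
  gk_existsG_integral_coord r

/-- `E[x_r x_s] = δ_rs`. -/
theorem m3g_coord_cov (r s : Fin m) : ∫ x : EE m, x r * x s ∂gam m = if r = s then 1 else 0 := by
  rw [(gk_gh1_coord (m := m) s).ibp r]
  simp

theorem m3g_coord_memLp (r : Fin m) : MemLp (fun x : EE m => x r) 2 (gam m) :=
  (gk_gh1_coord r).1

/-! ### scalar bookkeeping -/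

theorem m3gc_lin_memLp (c : Fin m → ℝ) : MemLp (fun x : EE m => ∑ r, c r * x r) 2 (gam m) :=
  memLp_finsetSum _ fun r _ => (m3g_coord_memLp r).const_mul (c r)

theorem m3gc_int_mul_lin {y : EE m → ℝ} (hy : MemLp y 2 (gam m)) (c : Fin m → ℝ) :
    ∫ x, y x * ∑ r, c r * x r ∂gam m = ∑ r, c r * ∫ x, x r * y x ∂gam m := by
  have hs : ∀ r ∈ (Finset.univ : Finset (Fin m)),
      Integrable (fun x : EE m => c r * (x r * y x)) (gam m) :=
    fun r _ => (gk_l2_integrable_mul (m3g_coord_memLp r) hy).const_mul _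
  have e : (fun x => y x * ∑ r, c r * x r) = fun x => ∑ r, c r * (x r * y x) := by
    funext x
    rw [Finset.mul_sum]
    exact Finset.sum_congr rfl fun r _ => by ring
  rw [e, integral_finsetSum _ hs]
  exact Finset.sum_congr rfl fun r _ => integral_const_mul _ _

theorem m3gc_int_coord_lin (s : Fin m) (c : Fin m → ℝ) :
    ∫ x : EE m, x s * ∑ r, c r * x r ∂gam m = c s := by
  rw [m3gc_int_mul_lin (m3g_coord_memLp s)]
  simp [m3g_coord_cov]

theorem m3gc_int_lin_lin (c c' : Fin m → ℝ) :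
    ∫ x : EE m, (∑ r, c r * x r) * (∑ s, c' s * x s) ∂gam m = ∑ r, c r * c' r := by
  rw [m3gc_int_mul_lin (m3gc_lin_memLp c)]
  refine Finset.sum_congr rfl fun r _ => ?_
  rw [m3gc_int_coord_lin, mul_comm]

/-- orthogonal decomposition of a product -/
theorem m3gc_int_decomp {y y' : EE m → ℝ} (hy : MemLp y 2 (gam m)) (hy' : MemLp y' 2 (gam m))
    (h : ∀ r, ∫ x, x r * y x ∂gam m = 0) (h' : ∀ r, ∫ x, x r * y' x ∂gam m = 0)
    (c c' : Fin m → ℝ) :
    ∫ x, (y x + ∑ r, c r * x r) * (y' x + ∑ s, c' s * x s) ∂gam m =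
      ∫ x, y x * y' x ∂gam m + ∑ r, c r * c' r := by
  have hL := m3gc_lin_memLp (m := m) c
  have hL' := m3gc_lin_memLp (m := m) c'
  have i1 : Integrable (fun x => y x * y' x) (gam m) := gk_l2_integrable_mul hy hy'
  have i2 : Integrable (fun x => y x * ∑ s, c' s * x s) (gam m) := gk_l2_integrable_mul hy hL'
  have i3 : Integrable (fun x => y' x * ∑ r, c r * x r) (gam m) := gk_l2_integrable_mul hy' hL
  have i4 : Integrable (fun x : EE m => (∑ r, c r * x r) * ∑ s, c' s * x s) (gam m) :=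
    gk_l2_integrable_mul hL hL'
  have i12 : Integrable (fun x => y x * y' x + y x * ∑ s, c' s * x s) (gam m) := i1.add i2
  have i123 : Integrable (fun x => y x * y' x + y x * (∑ s, c' s * x s) +
      y' x * ∑ r, c r * x r) (gam m) := i12.add i3
  have e : (fun x => (y x + ∑ r, c r * x r) * (y' x + ∑ s, c' s * x s)) =
      fun x => y x * y' x + y x * (∑ s, c' s * x s) + y' x * (∑ r, c r * x r) +
        (∑ r, c r * x r) * ∑ s, c' s * x s := by
    funext x
    ring
  rw [e, integral_add i123 i4, integral_add i12 i3, integral_add i1 i2, m3gc_int_mul_lin hy,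
    m3gc_int_mul_lin hy', m3gc_int_lin_lin]
  simp [h, h']

/-- `E (f - E f)² = E f² - (E f)²` -/
theorem m3gc_var_eq {f : EE m → ℝ} (hf : MemLp f 2 (gam m)) {a : ℝ} (ha : ∫ x, f x ∂gam m = a) :
    ∫ x, (f x - a) ^ 2 ∂gam m = ∫ x, (f x) ^ 2 ∂gam m - a ^ 2 := by
  have hi : Integrable f (gam m) := gk_l2_integrable hf
  have e1 : (fun x => (f x - a) ^ 2) = fun x => (f x) ^ 2 - (2 * a * f x - a ^ 2) := by
    funext x; ring
  have i1 : Integrable (fun x => 2 * a * f x) (gam m) := hi.const_mul _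
  have i2 : Integrable (fun _ : EE m => a ^ 2) (gam m) := integrable_const _
  have i3 : Integrable (fun x => 2 * a * f x - a ^ 2) (gam m) := i1.sub i2
  rw [e1, integral_sub hf.integrable_sq i3, integral_sub i1 i2, integral_const_mul,
    integral_const, ha]
  simp
  ring

theorem m3gc_int_frobSq {F : EE m → Mat m} (hF : ∀ i j, MemLp (fun x => F x i j) 2 (gam m)) :
    ∫ x, frobSq (F x) ∂gam m = ∑ i, ∑ j, ∫ x, (F x i j) ^ 2 ∂gam m := by
  unfold frobSq
  rw [integral_finsetSum _ fun i _ => integrable_finsetSum _ fun j _ => (hF i j).integrable_sq]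
  exact Finset.sum_congr rfl fun i _ => integral_finsetSum _ fun j _ => (hF i j).integrable_sq

theorem m3gc_trace_sq {M : Mat m} (hM : Mᵀ = M) : (M * M).trace = frobSq M := by
  unfold frobSq
  simp only [Matrix.trace, Matrix.diag_apply, Matrix.mul_apply]
  refine Finset.sum_congr rfl fun i _ => Finset.sum_congr rfl fun j _ => ?_
  have : M j i = M i j := congrFun (congrFun hM i) j
  rw [this, sq]

/-! ### the statements -/

/-- `E[Z_r] = X_r` (integration by parts). -/
theorem m3g_Z_mean (hS : M3Set A Z) (r i j : Fin m) :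
    ∫ x, Z r x i j ∂gam m = coreX A r i j :=
  ((hS.gh i j).ibp r).symm

theorem m3gc_Y_apply (A : EE m → Mat m) (x : EE m) (i j : Fin m) :
    coreY A x i j = A x i j - 0 - ∑ s, coreX A s i j * x s := by
  simp [coreY, Matrix.sub_apply, Matrix.sum_apply, Matrix.smul_apply, mul_comm]

theorem m3gc_A_apply (A : EE m → Mat m) (x : EE m) (i j : Fin m) :
    A x i j = coreY A x i j + ∑ s, coreX A s i j * x s := by
  rw [m3gc_Y_apply]
  ring

/-- `Y ∈ H¹` with `∂_r Y = G_r = Z_r - X_r`. -/
theorem m3g_Y_gh1 (hS : M3Set A Z) : MxGH1 (coreY A) (fun r x => Z r x - coreX A r) := by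
  intro i j
  have h := gk_existsG_center (hS.gh i j) 0 (fun s => coreX A s i j)
  have e : (fun x => coreY A x i j) = fun x => A x i j - 0 - ∑ s, coreX A s i j * x s :=
    funext fun x => m3gc_Y_apply A x i j
  rw [e]
  exact h

theorem m3g_Y_symm (hS : M3Set A Z) (x : EE m) : (coreY A x)ᵀ = coreY A x := by
  unfold coreY
  rw [Matrix.transpose_sub, Matrix.transpose_sum, hS.sb.symm x]
  congr 1
  refine Finset.sum_congr rfl fun r _ => ?_
  rw [Matrix.transpose_smul, coreX_transpose hS.sb.symm]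

theorem m3g_G_mean (hS : M3Set A Z) (r i j : Fin m) :
    ∫ x, (Z r x - coreX A r) i j ∂gam m = 0 := by
  have i1 : Integrable (fun x => Z r x i j) (gam m) := gk_l2_integrable ((hS.gh i j).2.1 r)
  have e : (fun x => (Z r x - coreX A r) i j) = fun x => Z r x i j - coreX A r i j := rfl
  rw [e, integral_sub i1 (integrable_const _), m3g_Z_mean hS, integral_const]
  simp

/-- `E[x_r Y] = 0`. -/
theorem m3g_coord_Y (hS : M3Set A Z) (r i j : Fin m) :
    ∫ x, x r * coreY A x i j ∂gam m = 0 := by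
  have hA2 := (hS.gh i j).1
  have i1 : Integrable (fun x => x r * A x i j) (gam m) :=
    gk_l2_integrable_mul (m3g_coord_memLp r) hA2
  have i2 : Integrable (fun x : EE m => x r * ∑ s, coreX A s i j * x s) (gam m) :=
    gk_l2_integrable_mul (m3g_coord_memLp r) (m3gc_lin_memLp _)
  have e : (fun x => x r * coreY A x i j) =
      fun x => x r * A x i j - x r * ∑ s, coreX A s i j * x s := by
    funext x
    rw [m3gc_Y_apply]
    ring
  rw [e, integral_sub i1 i2, m3gc_int_coord_lin]
  simp [coreX]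

theorem m3g_Y_mean (hS : M3Set A Z) (i j : Fin m) : ∫ x, coreY A x i j ∂gam m = 0 := by
  have hA2 := (hS.gh i j).1
  have i1 : Integrable (fun x => A x i j) (gam m) := gk_l2_integrable hA2
  have hs : ∀ s ∈ (Finset.univ : Finset (Fin m)),
      Integrable (fun x : EE m => coreX A s i j * x s) (gam m) :=
    fun s _ => (gk_l2_integrable (m3g_coord_memLp s)).const_mul _
  have i2 : Integrable (fun x : EE m => ∑ s, coreX A s i j * x s) (gam m) :=
    integrable_finsetSum _ hs
  have e : (fun x => coreY A x i j) = fun x => A x i j - ∑ s, coreX A s i j * x s := by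
    funext x
    rw [m3gc_Y_apply]
    ring
  rw [e, integral_sub i1 i2, hS.mean, integral_finsetSum _ hs]
  simp [integral_const_mul, m3g_coord_mean]

/-- `E[A²] = B + E[Y²]`. -/
theorem m3g_second (hS : M3Set A Z) (i j : Fin m) :
    ∫ x, (A x * A x) i j ∂gam m
      = m3B (coreX A) i j + ∫ x, (coreY A x * coreY A x) i j ∂gam m := by
  have hY := m3g_Y_gh1 hS
  have hA2 : ∀ a b, MemLp (fun x => A x a b) 2 (gam m) := fun a b => (hS.gh a b).1
  have hY2 : ∀ a b, MemLp (fun x => coreY A x a b) 2 (gam m) := fun a b => (hY a b).1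
  simp only [Matrix.mul_apply]
  rw [integral_finsetSum _ fun k _ => gk_l2_integrable_mul (hA2 i k) (hA2 k j),
    integral_finsetSum _ fun k _ => gk_l2_integrable_mul (hY2 i k) (hY2 k j)]
  have key : ∀ k, ∫ x, A x i k * A x k j ∂gam m =
      ∫ x, coreY A x i k * coreY A x k j ∂gam m + ∑ r, coreX A r i k * coreX A r k j := by
    intro k
    rw [← m3gc_int_decomp (hY2 i k) (hY2 k j) (fun r => m3g_coord_Y hS r i k)
      (fun r => m3g_coord_Y hS r k j)]
    refine integral_congr_ae (Filter.Eventually.of_forall fun x => ?_)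
    show A x i k * A x k j = _
    rw [m3gc_A_apply A x i k, m3gc_A_apply A x k j]
  simp only [key]
  rw [Finset.sum_add_distrib, add_comm]
  congr 1
  unfold m3B
  rw [Matrix.sum_apply, Finset.sum_comm]
  exact Finset.sum_congr rfl fun r _ => (Matrix.mul_apply).symm

/-- `E tr A² - Σ E|Z_r|² = E|Y|² - Σ E|G_r|²`. -/
theorem m3g_AZ (hS : M3Set A Z) :
    ∫ x, (A x * A x).trace ∂gam m - ∑ r, ∫ x, frobSq (Z r x) ∂gam m
      = ∫ x, frobSq (coreY A x) ∂gam m - ∑ r, ∫ x, frobSq (Z r x - coreX A r) ∂gam m := by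
  have hY := m3g_Y_gh1 hS
  have hA2 : ∀ a b, MemLp (fun x => A x a b) 2 (gam m) := fun a b => (hS.gh a b).1
  have hY2 : ∀ a b, MemLp (fun x => coreY A x a b) 2 (gam m) := fun a b => (hY a b).1
  have hAA : ∀ i, Integrable (fun x => (A x * A x) i i) (gam m) := by
    intro i
    simp only [Matrix.mul_apply]
    exact integrable_finsetSum _ fun k _ => gk_l2_integrable_mul (hA2 i k) (hA2 k i)
  have hYY : ∀ i, Integrable (fun x => (coreY A x * coreY A x) i i) (gam m) := by
    intro i
    simp only [Matrix.mul_apply]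
    exact integrable_finsetSum _ fun k _ => gk_l2_integrable_mul (hY2 i k) (hY2 k i)
  -- the trace of `A²`
  have e1 : ∫ x, (A x * A x).trace ∂gam m =
      ∑ r, frobSq (coreX A r) + ∫ x, frobSq (coreY A x) ∂gam m := by
    have t1 : ∫ x, (A x * A x).trace ∂gam m = ∑ i, ∫ x, (A x * A x) i i ∂gam m := by
      simp only [Matrix.trace, Matrix.diag_apply]
      exact integral_finsetSum _ fun i _ => hAA i
    have t2 : ∫ x, frobSq (coreY A x) ∂gam m = ∑ i, ∫ x, (coreY A x * coreY A x) i i ∂gam m := by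
      rw [← integral_finsetSum _ fun i _ => hYY i]
      refine integral_congr_ae (Filter.Eventually.of_forall fun x => ?_)
      exact (m3gc_trace_sq (m3g_Y_symm hS x)).symm
    have t3 : ∑ r, frobSq (coreX A r) = ∑ i, m3B (coreX A) i i := by
      have : ∀ r, frobSq (coreX A r) = ∑ i, (coreX A r * coreX A r) i i := fun r =>
        (m3gc_trace_sq (coreX_transpose hS.sb.symm r)).symm
      simp only [this]
      rw [Finset.sum_comm]
      refine Finset.sum_congr rfl fun i _ => ?_
      unfold m3B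
      rw [Matrix.sum_apply]
    rw [t1, t2, t3, ← Finset.sum_add_distrib]
    exact Finset.sum_congr rfl fun i _ => m3g_second hS i i
  -- the norms of `G`
  have e2 : ∀ r, ∫ x, frobSq (Z r x - coreX A r) ∂gam m =
      ∫ x, frobSq (Z r x) ∂gam m - frobSq (coreX A r) := by
    intro r
    rw [m3gc_int_frobSq fun i j => (hY i j).2.1 r, m3gc_int_frobSq fun i j => (hS.gh i j).2.1 r]
    unfold frobSq
    rw [← Finset.sum_sub_distrib]
    refine Finset.sum_congr rfl fun i _ => ?_
    rw [← Finset.sum_sub_distrib]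
    refine Finset.sum_congr rfl fun j _ => ?_
    exact m3gc_var_eq ((hS.gh i j).2.1 r) (m3g_Z_mean hS r i j)
  simp only [e2]
  rw [e1, Finset.sum_sub_distrib]
  ring

/-- second order Poincare inequality for `Y`: `2 E|Y|² ≤ Σ E|G_r|²`. -/
theorem m3g_P2 (hS : M3Set A Z) :
    2 * ∫ x, frobSq (coreY A x) ∂gam m ≤ ∑ r, ∫ x, frobSq (Z r x - coreX A r) ∂gam m := by
  have hY := m3g_Y_gh1 hS
  have key : ∀ i j, 2 * ∫ x, (coreY A x i j) ^ 2 ∂gam m ≤
      ∑ r, ∫ x, ((Z r x - coreX A r) i j) ^ 2 ∂gam m := by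
    intro i j
    have h := (hY i j).poincare2 fun r => m3g_G_mean hS r i j
    rw [m3g_Y_mean hS, integral_finsetSum _ fun r _ => ((hY i j).2.1 r).integrable_sq] at h
    linarith
  rw [m3gc_int_frobSq fun i j => (hY i j).1]
  have e : ∀ r, ∫ x, frobSq (Z r x - coreX A r) ∂gam m =
      ∑ i, ∑ j, ∫ x, ((Z r x - coreX A r) i j) ^ 2 ∂gam m :=
    fun r => m3gc_int_frobSq fun i j => (hY i j).2.1 r
  have e3 : ∑ r, ∑ i, ∑ j, ∫ x, ((Z r x - coreX A r) i j) ^ 2 ∂gam m =
      ∑ i, ∑ j, ∑ r, ∫ x, ((Z r x - coreX A r) i j) ^ 2 ∂gam m := by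
    rw [Finset.sum_comm]
    exact Finset.sum_congr rfl fun i _ => Finset.sum_comm
  simp only [e]
  rw [e3, Finset.mul_sum]
  refine Finset.sum_le_sum fun i _ => ?_
  rw [Finset.mul_sum]
  exact Finset.sum_le_sum fun j _ => key i j

end Claimed.Agent.R260
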