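/-
Row 260, package SEC3, glue layer, leaf M3G-FIELD: the auxiliary matrix field `g` from the scalar
g-lemma `gk_exists_g` (GKExistsG.lean), applied to every entry `Y_ij`.
Statements by helper191; proofs by helper117.
Symmetry of `g`: `Y_ij = Y_ji` as FUNCTIONS, and `g` is chosen as a function of the scalar
function `y` only.
-/
import Claimed.Agent.R260.M3GChaos

set_option autoImplicit false

namespace Claimed.Agent.R260

open Matrix MeasureTheory

variable {m : ℕ} {A : EE m → Mat m} {Z g : Fin m → EE m → Mat m}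

/-- the conclusion of the scalar g-lemma, as a predicate on `(y, g)` -/
def M3gfP (y : EE m → ℝ) (g : Fin m → EE m → ℝ) : Prop :=
  (∀ r, MemLp (g r) 2 (gam m)) ∧
    ∫ x, ∑ r, (g r x) ^ 2 ∂gam m ≤ (1 / 2) * ∫ x, (y x) ^ 2 ∂gam m ∧
    ∀ (ζ : EE m → ℝ) (dζ : Fin m → EE m → ℝ), GH1 ζ dζ →
      ∫ x, y x * ζ x ∂gam m = ∑ r, ∫ x, g r x * dζ r x ∂gam m

open Classical in
/-- a choice of `g` depending on the scalar function only -/
noncomputable def m3gfChoice (y : EE m → ℝ) : Fin m → EE m → ℝ :=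
  if h : ∃ g, M3gfP y g then h.choose else 0

theorem m3gf_choice_spec {y : EE m → ℝ} (h : ∃ g, M3gfP y g) : M3gfP y (m3gfChoice y) := by
  unfold m3gfChoice
  rw [dif_pos h]
  exact h.choose_spec

theorem m3gf_exists (hS : M3Set A Z) (i j : Fin m) : ∃ g, M3gfP (fun x => coreY A x i j) g := by
  obtain ⟨g, -, h2, h3, h4⟩ := gk_exists_g (m3g_Y_gh1 hS i j) (m3g_Y_mean hS i j)
    (fun r => m3g_G_mean hS r i j)
  exact ⟨g, h2, h3, h4⟩

theorem m3g_exists_g (hS : M3Set A Z) : ∃ g : Fin m → EE m → Mat m, M3G A g := by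
  have hsp : ∀ i j, M3gfP (fun x => coreY A x i j) (m3gfChoice fun x => coreY A x i j) :=
    fun i j => m3gf_choice_spec (m3gf_exists hS i j)
  have hY := m3g_Y_gh1 hS
  refine ⟨fun r x => Matrix.of fun i j => m3gfChoice (fun x => coreY A x i j) r x, ?_, ?_, ?_, ?_⟩
  · intro r x
    ext i j
    have e : (fun x => coreY A x j i) = fun x => coreY A x i j := by
      funext x
      exact congrFun (congrFun (m3g_Y_symm hS x) i) j
    simp only [Matrix.transpose_apply, Matrix.of_apply, e]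
  · intro r i j
    exact (hsp i j).1 r
  · have e : ∀ r, ∫ x, frobSq (Matrix.of fun i j => m3gfChoice (fun x => coreY A x i j) r x) ∂gam m =
        ∑ i, ∑ j, ∫ x, (m3gfChoice (fun x => coreY A x i j) r x) ^ 2 ∂gam m :=
      fun r => m3gc_int_frobSq (F := fun x => Matrix.of fun i j =>
        m3gfChoice (fun x => coreY A x i j) r x) fun i j => (hsp i j).1 r
    simp only [e]
    have e3 : ∑ r, ∑ i, ∑ j, ∫ x, (m3gfChoice (fun x => coreY A x i j) r x) ^ 2 ∂gam m =
        ∑ i, ∑ j, ∑ r, ∫ x, (m3gfChoice (fun x => coreY A x i j) r x) ^ 2 ∂gam m := by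
      rw [Finset.sum_comm]
      exact Finset.sum_congr rfl fun i _ => Finset.sum_comm
    rw [e3, m3gc_int_frobSq fun i j => (hY i j).1, Finset.mul_sum]
    refine Finset.sum_le_sum fun i _ => ?_
    rw [Finset.mul_sum]
    refine Finset.sum_le_sum fun j _ => ?_
    have h := (hsp i j).2.1
    rwa [integral_finsetSum _ fun r _ => ((hsp i j).1 r).integrable_sq] at h
  · intro i j ζ dζ hζ
    exact (hsp i j).2.2 ζ dζ hζ

/-- the pairing at the level of traces: `E tr(Y W) = Σ_r E tr(g_r ∂_r W)`. -/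
theorem m3g_pair_trace (hS : M3Set A Z) (hg : M3G A g) {W : EE m → Mat m}
    {dW : Fin m → EE m → Mat m} (hW : MxGH1 W dW) :
    ∫ x, (coreY A x * W x).trace ∂gam m = ∑ r, ∫ x, (g r x * dW r x).trace ∂gam m := by
  have hY := m3g_Y_gh1 hS
  have i1 : ∀ i j, Integrable (fun x => coreY A x i j * W x j i) (gam m) :=
    fun i j => gk_l2_integrable_mul (hY i j).1 (hW j i).1
  have i2 : ∀ r i j, Integrable (fun x => g r x i j * dW r x j i) (gam m) :=
    fun r i j => gk_l2_integrable_mul (hg.l2 r i j) ((hW j i).2.1 r)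
  have e1 : ∫ x, (coreY A x * W x).trace ∂gam m =
      ∑ i, ∑ j, ∫ x, coreY A x i j * W x j i ∂gam m := by
    simp only [Matrix.trace, Matrix.diag_apply, Matrix.mul_apply]
    rw [integral_finsetSum _ fun i _ => integrable_finsetSum _ fun j _ => i1 i j]
    exact Finset.sum_congr rfl fun i _ => integral_finsetSum _ fun j _ => i1 i j
  have e2 : ∀ r, ∫ x, (g r x * dW r x).trace ∂gam m =
      ∑ i, ∑ j, ∫ x, g r x i j * dW r x j i ∂gam m := by
    intro r
    simp only [Matrix.trace, Matrix.diag_apply, Matrix.mul_apply]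
    rw [integral_finsetSum _ fun i _ => integrable_finsetSum _ fun j _ => i2 r i j]
    exact Finset.sum_congr rfl fun i _ => integral_finsetSum _ fun j _ => i2 r i j
  simp only [e2]
  have e3 : ∑ r, ∑ i, ∑ j, ∫ x, g r x i j * dW r x j i ∂gam m =
      ∑ i, ∑ j, ∑ r, ∫ x, g r x i j * dW r x j i ∂gam m := by
    rw [Finset.sum_comm]
    exact Finset.sum_congr rfl fun i _ => Finset.sum_comm
  rw [e1, e3]
  exact Finset.sum_congr rfl fun i _ => Finset.sum_congr rfl fun j _ =>
    hg.pair i j _ _ (hW j i)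

/-- `Σ E tr(G_r g_r) = E|Y|²`. -/
theorem m3g_g1 (hS : M3Set A Z) (hg : M3G A g) :
    ∑ r, ∫ x, ((Z r x - coreX A r) * g r x).trace ∂gam m = ∫ x, frobSq (coreY A x) ∂gam m := by
  have h := m3g_pair_trace hS hg (m3g_Y_gh1 hS)
  have e1 : ∫ x, (coreY A x * coreY A x).trace ∂gam m = ∫ x, frobSq (coreY A x) ∂gam m :=
    integral_congr_ae (Filter.Eventually.of_forall fun x => m3gc_trace_sq (m3g_Y_symm hS x))
  rw [← e1, h]
  refine Finset.sum_congr rfl fun r _ => ?_
  exact integral_congr_ae (Filter.Eventually.of_forall fun x => Matrix.trace_mul_comm _ _)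

end Claimed.Agent.R260
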