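/-
Row 260, package SEC3, glue layer, leaf M3G-INT: all integrability side conditions of `m3_main`.
Statements by helper191; the prover who claims the leaf owns this file (keep names + statements).
Tools: MxInt.lean (`MxBd`, `MxL2` closure + `integrable_*`), MxCont.lean (`MxSymBd.toBd`,
`MxSymBd.mxFun_bd`, `MxSymBd.mxDK_L2`), bridges `m3F_*` of M3GDefs.lean, `frobSq_eq_mxSq`,
`m3nS_eq_mx` (M3Const.lean), `m3g_coord_memLp`.
-/
import Claimed.Agent.R260.M3GChaos

set_option autoImplicit false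

namespace Claimed.Agent.R260

open Matrix MeasureTheory

variable {m : ℕ} {A : EE m → Mat m} {Z g : Fin m → EE m → Mat m} {Sc : M3Sc}

/-! continuity of the derived scalar functions -/
theorem M3Sc.Reg.ck (hR : Sc.Reg) : Continuous Sc.k :=
  continuous_iff_continuousAt.mpr fun a => (hR.dk a).continuousAt
theorem M3Sc.Reg.cb (hR : Sc.Reg) : Continuous Sc.b :=
  continuous_iff_continuousAt.mpr fun a => (hR.db a).continuousAt
theorem M3Sc.Reg.cf (hR : Sc.Reg) : Continuous Sc.f := by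
  show Continuous fun a => Sc.k a * (1 + Sc.b a)
  exact hR.ck.mul (continuous_const.add hR.cb)
theorem M3Sc.Reg.cf1 (hR : Sc.Reg) : Continuous Sc.f1 := by
  show Continuous fun a => Sc.b a * (1 + Sc.b a) + Sc.k a * Sc.l a
  exact (hR.cb.mul (continuous_const.add hR.cb)).add (hR.ck.mul hR.cl)
theorem M3Sc.Reg.df (hR : Sc.Reg) (a : ℝ) : HasDerivAt Sc.f (Sc.f1 a) a := by
  have h := (hR.dk a).mul ((hR.db a).const_add 1)
  exact h
theorem M3Sc.Reg.cp (hR : Sc.Reg) : Continuous Sc.p := by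
  show Continuous fun a => Sc.f1 a - Sc.b a ^ 2 - Sc.l a ^ 2 / m3α
  exact (hR.cf1.sub (hR.cb.pow 2)).sub ((hR.cl.pow 2).div_const _)
theorem M3Sc.Reg.ch0 (hR : Sc.Reg) : Continuous Sc.h0 := by
  show Continuous fun a => Sc.f a - m3c * Sc.k a - 2 * (Sc.b a - m3β) * Sc.l a / m3α
  exact (hR.cf.sub (continuous_const.mul hR.ck)).sub
    (((continuous_const.mul (hR.cb.sub continuous_const)).mul hR.cl).div_const _)
theorem M3Sc.Reg.ccy (hR : Sc.Reg) (hA : Sc.Alg) : Continuous Sc.cy := by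
  show Continuous fun a => (Sc.b a - m3β) ^ 2 + m3α * Sc.h0 a ^ 2 / (4 * (1 - m3ε - m3κ) * Sc.p a)
  refine ((hR.cb.sub continuous_const).pow 2).add
    ((continuous_const.mul (hR.ch0.pow 2)).div (continuous_const.mul hR.cp) fun a => ?_)
  have h1 : (0 : ℝ) < 4 * (1 - m3ε - m3κ) := by
    unfold m3ε m3κ
    norm_num
  exact (mul_pos h1 (hA.ppos a)).ne'

/-! the basic fields -/
theorem m3g_Z_L2 (hS : M3Set A Z) (r : Fin m) : MxL2 (gam m) (Z r) := hS.gh.toL2.2 r
theorem m3g_Y_L2 (hS : M3Set A Z) : MxL2 (gam m) (coreY A) := (m3g_Y_gh1 hS).toL2.1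
theorem m3g_fn_bd (hS : M3Set A Z) {v : ℝ → ℝ} (hv : Continuous v) :
    MxBd (fun x => mxFun v (A x)) := hS.sb.mxFun_bd hv
theorem m3g_K_L2 (hS : M3Set A Z) (hR : Sc.Reg) (r : Fin m) :
    MxL2 (gam m) (fun x => mxDK Sc.k Sc.b (A x) (Z r x)) :=
  hS.sb.mxDK_L2 hR.dk hR.cb (m3g_Z_L2 hS r)
theorem m3g_dB_L2 (hS : M3Set A Z) (hR : Sc.Reg) (r : Fin m) :
    MxL2 (gam m) (fun x => mxDK Sc.b Sc.l (A x) (Z r x)) :=
  hS.sb.mxDK_L2 hR.db hR.cl (m3g_Z_L2 hS r)
theorem m3g_dF_L2 (hS : M3Set A Z) (hR : Sc.Reg) (r : Fin m) :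
    MxL2 (gam m) (fun x => mxDK Sc.f Sc.f1 (A x) (Z r x)) :=
  hS.sb.mxDK_L2 hR.df hR.cf1 (m3g_Z_L2 hS r)
/-- `x_r F` is in `L²` for a bounded field `F`. -/
theorem m3g_coord_smul_L2 {F : EE m → Mat m} (hF : MxBd F) (r : Fin m) :
    MxL2 (gam m) (fun x => x r • F x) := by
  obtain ⟨hFm, C, hC⟩ := hF
  intro i j
  have h := mxi_memLp_bdd_mul (hFm i j) (fun x => hC x i j) (m3g_coord_memLp (m := m) r)
  simpa only [Matrix.smul_apply, smul_eq_mul, mul_comm] using h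

/-- `L_r = ∂_r b(A) - X_r l(A)` is in `L²`. -/
theorem m3gi_L_L2 (hS : M3Set A Z) (hR : Sc.Reg) (r : Fin m) :
    MxL2 (gam m) (fun x => mxDK Sc.b Sc.l (A x) (Z r x) - coreX A r * mxFun Sc.l (A x)) :=
  (m3g_dB_L2 hS hR r).sub (((MxBd.const (coreX A r)).mul (m3g_fn_bd hS hR.cl)).toL2)

theorem m3g_u_L2 (hS : M3Set A Z) (_hg : M3G A g) (hR : Sc.Reg) :
    MxL2 (gam m) (fun x => ((m3F A Z g).pt x).u Sc) := by
  have e : (fun x => ((m3F A Z g).pt x).u Sc)
      = fun x => (coreY A x * (mxFun Sc.b (A x) - m3β • (1 : Mat m))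
        + ∑ r, coreX A r * (mxDK Sc.b Sc.l (A x) (Z r x) - coreX A r * mxFun Sc.l (A x)))
        + (m3B (coreX A) - 1) * mxFun Sc.l (A x) := by
    funext x
    unfold M3Pt.u M3Pt.F0
    rw [m3F_Y Z g (hS.sb.symm x)]
    rfl
  rw [e]
  refine MxL2.add (MxL2.add ?_ ?_) ?_
  · exact (m3g_Y_L2 hS).mul_Bd ((m3g_fn_bd hS hR.cb).sub (MxBd.const _))
  · exact MxL2.sum _ fun r _ => (MxBd.const (coreX A r)).mul_L2 (m3gi_L_L2 hS hR r)
  · exact ((MxBd.const _).mul (m3g_fn_bd hS hR.cl)).toL2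

theorem m3gi_const_L2 (M : Mat m) : MxL2 (gam m) (fun _ : EE m => M) := (MxBd.const M).toL2

/-- `tr (M * F)` is integrable for `F ∈ L²`. -/
theorem m3gi_int_trace_const_mul (M : Mat m) {F : EE m → Mat m} (hF : MxL2 (gam m) F) :
    Integrable (fun x => (M * F x).trace) (gam m) :=
  (m3gi_const_L2 M).integrable_trace_mul hF

theorem m3gi_d1 (hS : M3Set A Z) (hR : Sc.Reg) :
    Integrable (fun x => ((m3F A Z g).pt x).d1 Sc) (gam m) := by
  have e : (fun x => ((m3F A Z g).pt x).d1 Sc)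
      = fun x => ∑ r, (x r * (m3T (coreX A) * coreX A r * mxFun Sc.f (A x)).trace
        - (m3T (coreX A) * coreX A r * mxDK Sc.f Sc.f1 (A x) (Z r x)).trace) := rfl
  rw [e]
  refine integrable_finsetSum _ fun r _ => Integrable.sub ?_ ?_
  · have h := m3gi_int_trace_const_mul (m3T (coreX A) * coreX A r)
      (m3g_coord_smul_L2 (m3g_fn_bd hS hR.cf) r)
    simpa only [Matrix.mul_smul, Matrix.trace_smul, smul_eq_mul] using h
  · exact m3gi_int_trace_const_mul (m3T (coreX A) * coreX A r) (m3g_dF_L2 hS hR r)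

theorem m3gi_d2 (hS : M3Set A Z) (hg : M3G A g) (hR : Sc.Reg) :
    Integrable (fun x => ((m3F A Z g).pt x).d2 Sc) (gam m) := by
  have e : (fun x => ((m3F A Z g).pt x).d2 Sc)
      = fun x => (m3T (coreX A) * coreY A x * mxFun Sc.k (A x)).trace
        - ∑ r, (m3T (coreX A) * g r x * mxDK Sc.k Sc.b (A x) (Z r x)).trace := by
    funext x
    unfold M3Pt.d2
    rw [m3F_Y Z g (hS.sb.symm x)]
    rfl
  rw [e]
  refine Integrable.sub ?_ (integrable_finsetSum _ fun r _ => ?_)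
  · exact ((MxBd.const (m3T (coreX A))).mul_L2 (m3g_Y_L2 hS)).integrable_trace_mul
      ((m3g_fn_bd hS hR.ck).toL2)
  · exact ((MxBd.const (m3T (coreX A))).mul_L2 (hg.l2 r)).integrable_trace_mul (m3g_K_L2 hS hR r)

theorem m3gi_d3 (hS : M3Set A Z) (hR : Sc.Reg) :
    Integrable (fun x => ((m3F A Z g).pt x).d3 Sc) (gam m) := by
  have hk := m3g_fn_bd hS hR.ck
  have hb := m3g_fn_bd hS hR.cb
  have e : (fun x => ((m3F A Z g).pt x).d3 Sc)
      = fun x => ∑ r, ((mxDK Sc.k Sc.b (A x) (Z r x) * m3S (coreX A) * coreX A r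
          * mxFun Sc.b (A x)).trace
        + (mxFun Sc.k (A x) * m3S (coreX A) * coreX A r * mxDK Sc.b Sc.l (A x) (Z r x)).trace
        - x r * (mxFun Sc.k (A x) * m3S (coreX A) * coreX A r * mxFun Sc.b (A x)).trace) := rfl
  rw [e]
  refine integrable_finsetSum _ fun r _ => Integrable.sub (Integrable.add ?_ ?_) ?_
  · exact (((m3g_K_L2 hS hR r).mul_Bd (MxBd.const (m3S (coreX A)))).mul_Bd
      (MxBd.const (coreX A r))).integrable_trace_mul hb.toL2
  · exact (((hk.mul (MxBd.const (m3S (coreX A)))).mul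
      (MxBd.const (coreX A r))).toL2 (μ := gam m)).integrable_trace_mul (m3g_dB_L2 hS hR r)
  · have h := (m3g_coord_smul_L2 ((hk.mul (MxBd.const (m3S (coreX A)))).mul
      (MxBd.const (coreX A r))) r).integrable_trace_mul (hb.toL2 (μ := gam m))
    simpa only [Matrix.smul_mul, Matrix.trace_smul, smul_eq_mul] using h

theorem m3gi_d4 (hS : M3Set A Z) (hg : M3G A g) (hR : Sc.Reg) :
    Integrable (fun x => ((m3F A Z g).pt x).d4 Sc) (gam m) := by
  have hk := m3g_fn_bd hS hR.ck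
  have e : (fun x => ((m3F A Z g).pt x).d4 Sc)
      = fun x => ∑ r, (mxDK Sc.k Sc.b (A x) (Z r x) * m3S (coreX A) * g r x).trace
        - (mxFun Sc.k (A x) * m3S (coreX A) * coreY A x).trace := by
    funext x
    unfold M3Pt.d4
    rw [m3F_Y Z g (hS.sb.symm x)]
    rfl
  rw [e]
  refine Integrable.sub (integrable_finsetSum _ fun r _ => ?_) ?_
  · exact ((m3g_K_L2 hS hR r).mul_Bd (MxBd.const (m3S (coreX A)))).integrable_trace_mul (hg.l2 r)
  · exact ((hk.mul (MxBd.const (m3S (coreX A)))).toL2 (μ := gam m)).integrable_trace_mul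
      (m3g_Y_L2 hS)

theorem m3gi_cov (hS : M3Set A Z) (hg : M3G A g) (hR : Sc.Reg) :
    Integrable (fun x => ((m3F A Z g).pt x).Icov Sc) (gam m) := by
  have hk := m3g_fn_bd hS hR.ck
  have hb := m3g_fn_bd hS hR.cb
  have e : (fun x => ((m3F A Z g).pt x).Icov Sc)
      = fun x => mxSqS (m3S (coreX A)) (mxFun Sc.k (A x) + ((m3F A Z g).pt x).u Sc)
        + ∑ r, mxSqS (m3S (coreX A)) (coreX A r * mxFun Sc.b (A x) + m3β • g r x) := rfl
  rw [e]
  refine Integrable.add ?_ (integrable_finsetSum _ fun r _ => ?_)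
  · exact MxL2.integrable_mxSqS (m3S (coreX A)) (hk.toL2.add (m3g_u_L2 hS hg hR))
  · exact MxL2.integrable_mxSqS (m3S (coreX A))
      ((((MxBd.const (coreX A r)).mul hb).toL2).add ((hg.l2 r).smul m3β))

theorem m3gi_YYc (hS : M3Set A Z) (hR : Sc.Reg) (hA : Sc.Alg) :
    Integrable (fun x => (((m3F A Z g).pt x).Y * ((m3F A Z g).pt x).Y
      * ((m3F A Z g).pt x).fn Sc.cy).trace) (gam m) := by
  have hY := m3g_Y_L2 hS
  have e : (fun x => (((m3F A Z g).pt x).Y * ((m3F A Z g).pt x).Y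
      * ((m3F A Z g).pt x).fn Sc.cy).trace)
      = fun x => (coreY A x * (coreY A x * mxFun Sc.cy (A x))).trace := by
    funext x
    rw [m3F_Y Z g (hS.sb.symm x), Matrix.mul_assoc]
    rfl
  rw [e]
  exact hY.integrable_trace_mul (hY.mul_Bd (m3g_fn_bd hS (hR.ccy hA)))

/-- **all integrability side conditions.** -/
theorem m3g_int (hS : M3Set A Z) (hg : M3G A g) (hR : Sc.Reg) (hA : Sc.Alg) :
    (m3F A Z g).Int Sc := by
  have hAe : ∀ x, ((m3F A Z g).pt x).A = A x := fun x => m3F_A Z g (hS.sb.symm x)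
  have hYe : ∀ x, ((m3F A Z g).pt x).Y = coreY A x := fun x => m3F_Y Z g (hS.sb.symm x)
  have hAb : MxBd A := hS.sb.toBd
  have hY := m3g_Y_L2 hS
  have hk := m3g_fn_bd hS hR.ck
  have hGL : ∀ r, MxL2 (gam m) (fun x => Z r x - coreX A r) := fun r =>
    (m3g_Z_L2 hS r).sub (m3gi_const_L2 _)
  refine ⟨?_, ?_, ?_, ?_, ?_, ?_, m3gi_cov hS hg hR, ?_, ?_, ?_, ?_, m3gi_YYc hS hR hA,
    m3gi_d1 hS hR, m3gi_d2 hS hg hR, m3gi_d3 hS hR, m3gi_d4 hS hg hR⟩
  · intro i j
    simp only [hAe]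
    exact hAb.toL2.integrable_apply i j
  · intro i j
    simp only [hAe]
    exact hAb.toL2.integrable_mul_apply hAb.toL2 i j
  · intro i j
    simp only [hYe]
    exact hY.integrable_mul_apply hY i j
  · intro i j
    exact (m3g_fn_bd hS hR.cp).toL2.integrable_apply i j
  · exact (m3g_fn_bd hS hR.ct).toL2.integrable_trace
  · exact hk.toL2.integrable_trace_mul hk.toL2
  · intro r
    simp only [frobSq_eq_mxSq]
    exact (m3g_Z_L2 hS r).integrable_mxSq
  · intro r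
    simp only [frobSq_eq_mxSq]
    exact (hGL r).integrable_mxSq
  · intro r
    simp only [frobSq_eq_mxSq]
    exact (hg.l2 r).integrable_mxSq
  · intro r
    exact (hGL r).integrable_trace_mul (hg.l2 r)

end Claimed.Agent.R260
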