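/-
Row 260, package SEC3, glue layer, leaf M3G-DEFECT: the four integration-by-parts defects have
expectation zero.
Statements by helper191; the prover who claims the leaf owns this file (keep names + statements).
Maths: `d1`: `E[x_r tr(M f(A))] = E[tr(M ∂_r f(A))]` (`mx_gh1_chain`, `MxGH1.const_mul`, `.trace`,
`GH1.ibp`); `d2`, `d4`: `m3g_pair_trace` with `W = k(A) T`, `W = k(A) S` + cyclicity of the trace;
`d3`: `MxGH1.mul` for `k(A) * (S X_r b(A))` + `.trace` + `GH1.ibp`.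
Integrability: `m3g_int` (fields `i_d1..i_d4`) and the `L²` lemmas of M3GInt.lean.
-/
import Claimed.Agent.R260.M3GField
import Claimed.Agent.R260.M3GInt

set_option autoImplicit false

namespace Claimed.Agent.R260

open Matrix MeasureTheory

variable {m : ℕ} {A : EE m → Mat m} {Z g : Fin m → EE m → Mat m} {Sc : M3Sc}

/-- chain rule for the three functions used. -/
theorem m3g_k_gh1 (hS : M3Set A Z) (hR : Sc.Reg) :
    MxGH1 (fun x => mxFun Sc.k (A x)) (fun r x => mxDK Sc.k Sc.b (A x) (Z r x)) :=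
  mx_gh1_chain hS.sb hS.gh hR.dk hR.cb

theorem m3g_b_gh1 (hS : M3Set A Z) (hR : Sc.Reg) :
    MxGH1 (fun x => mxFun Sc.b (A x)) (fun r x => mxDK Sc.b Sc.l (A x) (Z r x)) :=
  mx_gh1_chain hS.sb hS.gh hR.db hR.cl

theorem m3g_f_gh1 (hS : M3Set A Z) (hR : Sc.Reg) :
    MxGH1 (fun x => mxFun Sc.f (A x)) (fun r x => mxDK Sc.f Sc.f1 (A x) (Z r x)) :=
  mx_gh1_chain hS.sb hS.gh hR.df hR.cf1

/-- trace form of the integration by parts. -/
theorem m3g_ibp_trace {F : EE m → Mat m} {dF : Fin m → EE m → Mat m} (hF : MxGH1 F dF)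
    (M : Mat m) (r : Fin m) :
    ∫ x, x r * (M * F x).trace ∂gam m = ∫ x, (M * dF r x).trace ∂gam m :=
  (hF.const_mul M).trace.ibp r

theorem m3gd_int_coord {u : EE m → ℝ} {du : Fin m → EE m → ℝ} (hu : GH1 u du) (r : Fin m) :
    Integrable (fun x => x r * u x) (gam m) :=
  (hu.coord_mul_memLp r).integrable one_le_two

theorem m3gd_int_du {u : EE m → ℝ} {du : Fin m → EE m → ℝ} (hu : GH1 u du) (r : Fin m) :
    Integrable (du r) (gam m) :=
  (hu.2.1 r).integrable one_le_two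

/-- the basic defect: `E[x_r u - ∂_r u] = 0`. -/
theorem m3gd_zero {u : EE m → ℝ} {du : Fin m → EE m → ℝ} (hu : GH1 u du) (r : Fin m) :
    ∫ x, (x r * u x - du r x) ∂gam m = 0 := by
  rw [integral_sub (m3gd_int_coord hu r) (m3gd_int_du hu r), hu.ibp r, sub_self]

theorem m3gd_int_zero {u : EE m → ℝ} {du : Fin m → EE m → ℝ} (hu : GH1 u du) (r : Fin m) :
    Integrable (fun x => x r * u x - du r x) (gam m) :=
  (m3gd_int_coord hu r).sub (m3gd_int_du hu r)

theorem m3gd_aeBd {F : EE m → Mat m} (hF : MxBd F) : MxAeBd F := by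
  obtain ⟨C, hC⟩ := hF.2
  exact ⟨C, Filter.Eventually.of_forall fun x i j => hC x i j⟩

theorem m3g_d1 (hS : M3Set A Z) (_hg : M3G A g) (hR : Sc.Reg) (_hA : Sc.Alg) :
    ∫ x, ((m3F A Z g).pt x).d1 Sc ∂gam m = 0 := by
  have h : ∀ r, GH1 (fun x => (m3T (coreX A) * coreX A r * mxFun Sc.f (A x)).trace)
      (fun s x => (m3T (coreX A) * coreX A r * mxDK Sc.f Sc.f1 (A x) (Z s x)).trace) :=
    fun r => ((m3g_f_gh1 hS hR).const_mul (m3T (coreX A) * coreX A r)).trace
  have e : (fun x => ((m3F A Z g).pt x).d1 Sc)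
      = fun x => ∑ r, (x r * (m3T (coreX A) * coreX A r * mxFun Sc.f (A x)).trace
        - (m3T (coreX A) * coreX A r * mxDK Sc.f Sc.f1 (A x) (Z r x)).trace) := rfl
  rw [e, integral_finsetSum _ fun r _ => m3gd_int_zero (h r) r]
  exact Finset.sum_eq_zero fun r _ => m3gd_zero (h r) r

theorem m3g_d2 (hS : M3Set A Z) (hg : M3G A g) (hR : Sc.Reg) (_hA : Sc.Alg) :
    ∫ x, ((m3F A Z g).pt x).d2 Sc ∂gam m = 0 := by
  set T := m3T (coreX A) with hT
  have hW : MxGH1 (fun x => mxFun Sc.k (A x) * T) (fun r x => mxDK Sc.k Sc.b (A x) (Z r x) * T) :=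
    (m3g_k_gh1 hS hR).mul_const T
  have hp := m3g_pair_trace hS hg hW
  have e : (fun x => ((m3F A Z g).pt x).d2 Sc)
      = fun x => (coreY A x * (mxFun Sc.k (A x) * T)).trace
        - ∑ r, (g r x * (mxDK Sc.k Sc.b (A x) (Z r x) * T)).trace := by
    funext x
    unfold M3Pt.d2
    rw [m3F_Y Z g (hS.sb.symm x)]
    congr 1
    · show (T * coreY A x * mxFun Sc.k (A x)).trace = _
      rw [Matrix.mul_assoc, Matrix.trace_mul_comm, Matrix.mul_assoc]
    · refine Finset.sum_congr rfl fun r _ => ?_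
      show (T * g r x * mxDK Sc.k Sc.b (A x) (Z r x)).trace = _
      rw [Matrix.mul_assoc, Matrix.trace_mul_comm, Matrix.mul_assoc]
  have i1 : Integrable (fun x => (coreY A x * (mxFun Sc.k (A x) * T)).trace) (gam m) :=
    (m3g_Y_L2 hS).integrable_trace_mul hW.toL2.1
  have i2 : ∀ r, Integrable (fun x => (g r x * (mxDK Sc.k Sc.b (A x) (Z r x) * T)).trace)
      (gam m) := fun r => (hg.l2 r).integrable_trace_mul (hW.toL2.2 r)
  rw [e, integral_sub i1 (integrable_finsetSum _ fun r _ => i2 r),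
    integral_finsetSum _ fun r _ => i2 r, hp, sub_self]

theorem m3g_d3 (hS : M3Set A Z) (_hg : M3G A g) (hR : Sc.Reg) (_hA : Sc.Alg) :
    ∫ x, ((m3F A Z g).pt x).d3 Sc ∂gam m = 0 := by
  set S := m3S (coreX A) with hSd
  have hk := m3g_k_gh1 hS hR
  have hb := m3g_b_gh1 hS hR
  have hkb : MxAeBd (fun x => mxFun Sc.k (A x)) := m3gd_aeBd (m3g_fn_bd hS hR.ck)
  have hbb : MxBd (fun x => mxFun Sc.b (A x)) := m3g_fn_bd hS hR.cb
  have h : ∀ r, GH1 (fun x => (mxFun Sc.k (A x) * (S * coreX A r * mxFun Sc.b (A x))).trace)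
      (fun s x => (mxDK Sc.k Sc.b (A x) (Z s x) * (S * coreX A r * mxFun Sc.b (A x))
        + mxFun Sc.k (A x) * (S * coreX A r * mxDK Sc.b Sc.l (A x) (Z s x))).trace) := by
    intro r
    refine (hk.mul (hb.const_mul (S * coreX A r)) hkb ?_).trace
    exact m3gd_aeBd ((MxBd.const (S * coreX A r)).mul hbb)
  have e : (fun x => ((m3F A Z g).pt x).d3 Sc)
      = fun x => -∑ r, (x r * (mxFun Sc.k (A x) * (S * coreX A r * mxFun Sc.b (A x))).trace
        - (mxDK Sc.k Sc.b (A x) (Z r x) * (S * coreX A r * mxFun Sc.b (A x))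
        + mxFun Sc.k (A x) * (S * coreX A r * mxDK Sc.b Sc.l (A x) (Z r x))).trace) := by
    funext x
    unfold M3Pt.d3
    rw [← Finset.sum_neg_distrib]
    refine Finset.sum_congr rfl fun r _ => ?_
    show (mxDK Sc.k Sc.b (A x) (Z r x) * S * coreX A r * mxFun Sc.b (A x)).trace
      + (mxFun Sc.k (A x) * S * coreX A r * mxDK Sc.b Sc.l (A x) (Z r x)).trace
      - x r * (mxFun Sc.k (A x) * S * coreX A r * mxFun Sc.b (A x)).trace = _
    rw [Matrix.trace_add]
    simp only [Matrix.mul_assoc]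
    ring
  rw [e, integral_neg, integral_finsetSum _ fun r _ => m3gd_int_zero (h r) r, neg_eq_zero]
  exact Finset.sum_eq_zero fun r _ => m3gd_zero (h r) r

theorem m3g_d4 (hS : M3Set A Z) (hg : M3G A g) (hR : Sc.Reg) (_hA : Sc.Alg) :
    ∫ x, ((m3F A Z g).pt x).d4 Sc ∂gam m = 0 := by
  set S := m3S (coreX A) with hSd
  have hW : MxGH1 (fun x => mxFun Sc.k (A x) * S) (fun r x => mxDK Sc.k Sc.b (A x) (Z r x) * S) :=
    (m3g_k_gh1 hS hR).mul_const S
  have hp := m3g_pair_trace hS hg hW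
  have e : (fun x => ((m3F A Z g).pt x).d4 Sc)
      = fun x => ∑ r, (g r x * (mxDK Sc.k Sc.b (A x) (Z r x) * S)).trace
        - (coreY A x * (mxFun Sc.k (A x) * S)).trace := by
    funext x
    unfold M3Pt.d4
    rw [m3F_Y Z g (hS.sb.symm x)]
    congr 1
    · refine Finset.sum_congr rfl fun r _ => ?_
      show (mxDK Sc.k Sc.b (A x) (Z r x) * S * g r x).trace = _
      rw [Matrix.trace_mul_comm]
    · show (mxFun Sc.k (A x) * S * coreY A x).trace = _
      rw [Matrix.trace_mul_comm]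
  have i1 : Integrable (fun x => (coreY A x * (mxFun Sc.k (A x) * S)).trace) (gam m) :=
    (m3g_Y_L2 hS).integrable_trace_mul hW.toL2.1
  have i2 : ∀ r, Integrable (fun x => (g r x * (mxDK Sc.k Sc.b (A x) (Z r x) * S)).trace)
      (gam m) := fun r => (hg.l2 r).integrable_trace_mul (hW.toL2.2 r)
  rw [e, integral_sub (integrable_finsetSum _ fun r _ => i2 r) i1,
    integral_finsetSum _ fun r _ => i2 r, hp, sub_self]

end Claimed.Agent.R260
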