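/-
Row 260, package SEC3, glue layer, leaf M3G-WEAK: the weak identity `q(A) = (k + u) + Σ_r ∂_r^* c_r`,
`c_r = X_r b + β g_r` (the completion behind Lemma 3.1 of the paper).
Statements by helper191; the prover who claims the leaf owns this file (keep names + statements).
Maths (entrywise, tested against `η ∈ NiceB ⊆ C1L`, so `GH1 η (pd · η)` by `gk_gh1_of_C1L`):
  `q - k = a b - l` (`Sc.Alg.ql`) gives `q(A) = k + A b - l`, `A = Y + Σ x_r X_r`;
  `E[x_r (X_r b)_ij η] = E[(X_r ∂_r b)_ij η] + E[(X_r b)_ij ∂_r η]`   (`GH1.ibp_mul`);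
  `∂_r b = L_r + X_r l`, `Σ X_r X_r = B`;  `Y b = Y (b - β) + β Y`, `E[Y_ij η] = Σ_r E[(g_r)_ij ∂_r η]`
  (`M3G.pair`).  Sum: `q(A) = k + [Y(b-β) + Σ X_r L_r + (B-1) l] + ∂^*(X_r b + β g_r)`.
-/
import Claimed.Agent.R260.M3GDefect

set_option autoImplicit false

namespace Claimed.Agent.R260

open Matrix MeasureTheory

variable {m : ℕ} {A : EE m → Mat m} {Z g : Fin m → EE m → Mat m} {Sc : M3Sc}

/-- pointwise algebra: `q(A) = k + u + β Y + Σ_r (x_r X_r b - X_r ∂_r b)`. -/
theorem m3g_q_eq (hS : M3Set A Z) (hg : M3G A g) (hA : Sc.Alg) (x : EE m) :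
    mxFun Sc.q (A x) = mxFun Sc.k (A x) + ((m3F A Z g).pt x).u Sc + m3β • coreY A x
      + ∑ r, (x r • (coreX A r * mxFun Sc.b (A x))
          - coreX A r * mxDK Sc.b Sc.l (A x) (Z r x)) := by
  have hP : ((m3F A Z g).pt x).Ok := m3F_ok hS hg x
  have hY : coreY A x = ((m3F A Z g).pt x).Y := (m3F_Y Z g (hS.sb.symm x)).symm
  generalize hPdef : (m3F A Z g).pt x = P at hP hY
  have hq : P.fn Sc.q = P.fn Sc.k + P.A * P.fn Sc.b - P.fn Sc.l := by
    rw [P.A_mul_fn hP, ← P.fn_add, ← P.fn_sub]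
    apply P.fn_congr
    intro a
    have := hA.ql a
    linarith
  have goal' : P.fn Sc.q = P.fn Sc.k + P.u Sc + m3β • P.Y
      + ∑ r, (P.ξ r • (P.X r * P.fn Sc.b) - P.X r * P.dB Sc r) := by
    rw [hq, P.A_eq]
    unfold M3Pt.u M3Pt.F0 M3Pt.L m3B
    simp only [Matrix.mul_sub, Matrix.sub_mul, Matrix.add_mul, Matrix.sum_mul,
      Finset.sum_sub_distrib, Matrix.smul_mul, Matrix.mul_smul, Matrix.mul_one, Matrix.one_mul,
      Matrix.mul_assoc]
    abel
  rw [hY]
  subst hPdef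
  exact goal'

theorem m3g_weak (hS : M3Set A Z) (hg : M3G A g) (hR : Sc.Reg) (hA : Sc.Alg) (i j : Fin m)
    {η : EE m → ℝ} (hη : NiceB η) :
    ∫ x, mxFun Sc.q (A x) i j * η x ∂gam m
      = ∫ x, (mxFun Sc.k (A x) + ((m3F A Z g).pt x).u Sc) i j * η x ∂gam m
        + ∑ r, ∫ x, (coreX A r * mxFun Sc.b (A x) + m3β • g r x) i j * pd r η x ∂gam m := by
  have hηL : C1L η := hη.toNiceL.toC1L
  have hηG : GH1 η (fun r => pd r η) := gk_gh1_of_C1L hηL
  have hη2 : MemLp η 2 (gam m) := hηL.memLp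
  have hdη2 : ∀ r, MemLp (pd r η) 2 (gam m) := fun r => hηL.pd_memLp r
  have hXb : ∀ r, MxGH1 (fun x => coreX A r * mxFun Sc.b (A x))
      (fun s x => coreX A r * mxDK Sc.b Sc.l (A x) (Z s x)) :=
    fun r => (m3g_b_gh1 hS hR).const_mul (coreX A r)
  -- integrability
  have i1 : Integrable
      (fun x => (mxFun Sc.k (A x) + ((m3F A Z g).pt x).u Sc) i j * η x) (gam m) :=
    gkb_mul_integrable (((m3g_fn_bd hS hR.ck).toL2.add (m3g_u_L2 hS hg hR)) i j) hη2
  have i2 : Integrable (fun x => coreY A x i j * η x) (gam m) :=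
    gkb_mul_integrable (m3g_Y_L2 hS i j) hη2
  have i3 : ∀ r, Integrable
      (fun x => x r * (coreX A r * mxFun Sc.b (A x)) i j * η x) (gam m) :=
    fun r => gkb_mul_integrable ((hXb r i j).coord_mul_memLp r) hη2
  have i4 : ∀ r, Integrable
      (fun x => (coreX A r * mxDK Sc.b Sc.l (A x) (Z r x)) i j * η x) (gam m) :=
    fun r => gkb_mul_integrable ((hXb r i j).2.1 r) hη2
  have i5 : ∀ r, Integrable
      (fun x => (coreX A r * mxFun Sc.b (A x)) i j * pd r η x) (gam m) :=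
    fun r => gkb_mul_integrable (hXb r i j).1 (hdη2 r)
  have i6 : ∀ r, Integrable (fun x => g r x i j * pd r η x) (gam m) :=
    fun r => gkb_mul_integrable (hg.l2 r i j) (hdη2 r)
  -- the pointwise identity, entrywise, multiplied by `η`
  have hpt : ∀ x, mxFun Sc.q (A x) i j * η x
      = (mxFun Sc.k (A x) + ((m3F A Z g).pt x).u Sc) i j * η x
        + m3β * (coreY A x i j * η x)
        + ∑ r, (x r * (coreX A r * mxFun Sc.b (A x)) i j * η x
            - (coreX A r * mxDK Sc.b Sc.l (A x) (Z r x)) i j * η x) := by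
    intro x
    have h := congrFun (congrFun (m3g_q_eq (Sc := Sc) hS hg hA x) i) j
    rw [h]
    simp only [Matrix.add_apply, Matrix.smul_apply, Matrix.sum_apply, Matrix.sub_apply,
      smul_eq_mul, add_mul, Finset.sum_mul, sub_mul]
    ring
  -- integrate
  have e1 : ∫ x, mxFun Sc.q (A x) i j * η x ∂gam m
      = ∫ x, (mxFun Sc.k (A x) + ((m3F A Z g).pt x).u Sc) i j * η x ∂gam m
        + m3β * ∫ x, coreY A x i j * η x ∂gam m
        + ∑ r, (∫ x, x r * (coreX A r * mxFun Sc.b (A x)) i j * η x ∂gam m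
            - ∫ x, (coreX A r * mxDK Sc.b Sc.l (A x) (Z r x)) i j * η x ∂gam m) := by
    have j2 : Integrable (fun x => m3β * (coreY A x i j * η x)) (gam m) := i2.const_mul m3β
    have j12 : Integrable (fun x => (mxFun Sc.k (A x) + ((m3F A Z g).pt x).u Sc) i j * η x
        + m3β * (coreY A x i j * η x)) (gam m) := i1.add j2
    have j34 : ∀ r, Integrable (fun x => x r * (coreX A r * mxFun Sc.b (A x)) i j * η x
        - (coreX A r * mxDK Sc.b Sc.l (A x) (Z r x)) i j * η x) (gam m) :=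
      fun r => (i3 r).sub (i4 r)
    have jS : Integrable (fun x => ∑ r, (x r * (coreX A r * mxFun Sc.b (A x)) i j * η x
        - (coreX A r * mxDK Sc.b Sc.l (A x) (Z r x)) i j * η x)) (gam m) :=
      integrable_finsetSum _ fun r _ => j34 r
    simp_rw [hpt]
    rw [integral_add j12 jS, integral_add i1 j2, integral_const_mul,
      integral_finsetSum _ fun r _ => j34 r]
    congr 1
    exact Finset.sum_congr rfl fun r _ => integral_sub (i3 r) (i4 r)
  have e2 : ∀ r, ∫ x, x r * (coreX A r * mxFun Sc.b (A x)) i j * η x ∂gam m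
      - ∫ x, (coreX A r * mxDK Sc.b Sc.l (A x) (Z r x)) i j * η x ∂gam m
      = ∫ x, (coreX A r * mxFun Sc.b (A x)) i j * pd r η x ∂gam m := by
    intro r
    have := (hXb r i j).ibp_mul hηG r
    rw [this]
    ring
  have e3 : ∫ x, coreY A x i j * η x ∂gam m = ∑ r, ∫ x, g r x i j * pd r η x ∂gam m :=
    hg.pair i j η _ hηG
  have e4 : ∀ r, ∫ x, (coreX A r * mxFun Sc.b (A x) + m3β • g r x) i j * pd r η x ∂gam m
      = ∫ x, (coreX A r * mxFun Sc.b (A x)) i j * pd r η x ∂gam m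
        + m3β * ∫ x, g r x i j * pd r η x ∂gam m := by
    intro r
    rw [← integral_const_mul, ← integral_add (i5 r) ((i6 r).const_mul m3β)]
    congr 1
    funext x
    simp only [Matrix.add_apply, Matrix.smul_apply, smul_eq_mul]
    ring
  rw [e1, e3]
  simp_rw [e2, e4]
  rw [Finset.sum_add_distrib, Finset.mul_sum]
  ring

end Claimed.Agent.R260
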