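/-
Row 260, SEC3 (leaf M3-LAM, helper89): `m3_lam_core` of M3Int.lean, from AbsCore.
-/
import Claimed.Agent.R260.M3IntDefs
import Claimed.Agent.R260.AbsCore

set_option autoImplicit false

namespace Claimed.Agent.R260

theorem m3x_lam_S {lam : ℝ} (hl : 0 ≤ lam) : (m3s⁻¹ + m3α * lam)⁻¹ = abscS lam := by
  have h : (37 + 3 * lam) ≠ 0 := by positivity
  unfold abscS m3s m3α
  rw [inv_eq_one_div, inv_eq_one_div]
  field_simp

theorem m3x_lam_U (lam : ℝ) : m3u lam = abscU lam := by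
  unfold m3u
  exact abscU_eq_div_max lam

theorem m3x_lam_HR {lam : ℝ} (hl : 0 ≤ lam) :
    (m3α * abscS lam * (lam - 1) ^ 2) * (m3ε + m3κ / m3s * abscS lam) = abscHR lam := by
  have h : (37 + 3 * lam) ≠ 0 := by positivity
  unfold abscS abscHR m3s m3α m3ε m3κ
  field_simp

/-- same statement as `m3_lam_core` -/
theorem m3x_lam_core (lam r pbar : ℝ) (hlam : 0 ≤ lam) (hr : 0 ≤ r)
    (hp : m3u lam - m3u lam ^ 3 / (16 * (46 / 100 - m3u lam)) * (lam + r) ≤ pbar) :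
    ((m3s⁻¹ + m3α * lam)⁻¹ - 1) - Real.log ((m3s⁻¹ + m3α * lam)⁻¹)
      - (m3α * (m3s⁻¹ + m3α * lam)⁻¹ * (lam - 1) ^ 2)
          * (m3ε + m3κ / m3s * (m3s⁻¹ + m3α * lam)⁻¹) * pbar
    ≤ -(1 / 1000) * m3ω lam + 27 / 1000 * r := by
  rw [m3x_lam_U] at hp
  have e : m3ω lam = abscHR lam * abscU lam := by
    unfold m3ω
    rw [m3x_lam_U]
    rfl
  rw [m3x_lam_S hlam, m3x_lam_HR hlam, e]
  exact absc_main hlam hr hp

end Claimed.Agent.R260
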