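/-
Row 260, SEC3, leaf M3-LOGDET (owner helper267): the supporting plane of `log det`.
-/
import Claimed.Agent.R260.Defs

set_option autoImplicit false

open Matrix
open scoped BigOperators MatrixOrder

namespace Claimed.Agent.R260

variable {m : ℕ}

/-- `log det M ≤ tr M - m` for a positive definite matrix. -/
theorem m3x_logdet_le_trace (M : Mat m) (hM : M.PosDef) :
    Real.log M.det ≤ M.trace - m := by
  have hdet : M.det = ∏ i, hM.1.eigenvalues i := by
    have := hM.1.det_eq_prod_eigenvalues
    simpa using this
  have htr : M.trace = ∑ i, hM.1.eigenvalues i := by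
    have := hM.1.trace_eq_sum_eigenvalues
    simpa using this
  rw [hdet, htr, Real.log_prod (fun i _ => (hM.eigenvalues_pos i).ne')]
  have : (m : ℝ) = ∑ _i : Fin m, (1 : ℝ) := by simp
  rw [this, ← Finset.sum_sub_distrib]
  exact Finset.sum_le_sum fun i _ => Real.log_le_sub_one_of_pos (hM.eigenvalues_pos i)

/-- LEAF M3-LOGDET: supporting plane of `log det`. -/
theorem m3x_logdet (C S : Mat m) (hC : C.PosDef) (hS : S.PosDef) :
    Real.log C.det + m ≤ (S * C).trace - Real.log S.det := by
  obtain ⟨B, hB⟩ := CStarAlgebra.nonneg_iff_eq_star_mul_self.mp hS.posSemidef.nonneg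
  have hBu : IsUnit B := by
    have h1 : IsUnit (star B * B) := hB ▸ hS.isUnit
    exact isUnit_of_mul_isUnit_right h1
  have hM : (B * C * star B).PosDef := (Matrix.IsUnit.posDef_star_right_conjugate_iff hBu).mpr hC
  have h := m3x_logdet_le_trace _ hM
  have htr : (B * C * star B).trace = (S * C).trace := by
    rw [hB, Matrix.trace_mul_comm, ← Matrix.mul_assoc]
  have hdet : (B * C * star B).det = S.det * C.det := by
    rw [hB, Matrix.det_mul, Matrix.det_mul, Matrix.det_mul]; ring
  rw [htr, hdet, Real.log_mul hS.det_pos.ne' hC.det_pos.ne'] at h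
  linarith

end Claimed.Agent.R260
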