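/-
Row 260, package SEC3, leaf M3-P35 (owner helper211): Prop 3.5, matrix part.
`m3x_prop35` = statement `m3_prop35` of M3Int.lean.
`m3x_prop35_of_core` is the same with the scalar core (`m3_lam_core`) and the simultaneous
diagonalisation (`m3_diag_of`) taken as hypotheses, so that it can be rewired freely.
-/
import Claimed.Agent.R260.M3IntDefs
import Claimed.Agent.R260.M3Lam

set_option autoImplicit false

namespace Claimed.Agent.R260

open Matrix MeasureTheory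

variable {m : ℕ}

/-! ### linear algebra of an orthogonal conjugation -/

/-- `tr (V D Vᵀ) = tr D`. -/
theorem m3p35_trace_conj (V D : Mat m) (hV : Vᵀ * V = 1) : (V * D * Vᵀ).trace = D.trace := by
  rw [Matrix.trace_mul_comm, ← Matrix.mul_assoc, hV, Matrix.one_mul]

/-- `tr (Vᵀ D V) = tr D`. -/
theorem m3p35_trace_conj' (V D : Mat m) (hV : Vᵀ * V = 1) : (Vᵀ * D * V).trace = D.trace := by
  have hV' : V * Vᵀ = 1 := mul_eq_one_comm.mp hV
  rw [Matrix.trace_mul_comm, ← Matrix.mul_assoc, hV', Matrix.one_mul]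

/-- `det (V D Vᵀ) = det D`. -/
theorem m3p35_det_conj (V D : Mat m) (hV : Vᵀ * V = 1) : (V * D * Vᵀ).det = D.det := by
  have h : Vᵀ.det * V.det = 1 := by rw [← Matrix.det_mul, hV, Matrix.det_one]
  rw [Matrix.det_mul, Matrix.det_mul]
  calc V.det * D.det * Vᵀ.det = D.det * (Vᵀ.det * V.det) := by ring
    _ = D.det := by rw [h, mul_one]

/-- the diagonal entry of `Vᵀ M V`. -/
theorem m3p35_quad_apply (V M : Mat m) (i : Fin m) :
    (Vᵀ * M * V) i i = ∑ j, ∑ k, V j i * M j k * V k i := by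
  simp only [Matrix.mul_apply, Matrix.transpose_apply, Finset.sum_mul]
  exact Finset.sum_comm

/-- `tr (V diag(d) Vᵀ M) = Σ d_i (Vᵀ M V)_ii`. -/
theorem m3p35_trace_diag_mul (V M : Mat m) (d : Fin m → ℝ) :
    (V * diagonal d * Vᵀ * M).trace = ∑ i, d i * (Vᵀ * M * V) i i := by
  have e : V * diagonal d * Vᵀ * M = V * (diagonal d * (Vᵀ * M)) := by
    simp only [Matrix.mul_assoc]
  rw [e, Matrix.trace_mul_comm, Matrix.mul_assoc]
  simp only [Matrix.trace, Matrix.diag_apply, Matrix.diagonal_mul]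

/-- product of two matrices diagonal in the frame `V`. -/
theorem m3p35_conj_mul (V : Mat m) (hV : Vᵀ * V = 1) (d e : Fin m → ℝ) :
    (V * diagonal d * Vᵀ) * (V * diagonal e * Vᵀ) = V * diagonal (fun i => d i * e i) * Vᵀ := by
  have h : (V * diagonal d * Vᵀ) * (V * diagonal e * Vᵀ)
      = V * (diagonal d * (Vᵀ * V) * diagonal e) * Vᵀ := by
    simp only [Matrix.mul_assoc]
  rw [h, hV, Matrix.mul_one, Matrix.diagonal_mul_diagonal]

/-- `Vᵀ (V D Vᵀ) V = D`. -/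
theorem m3p35_unconj (V D : Mat m) (hV : Vᵀ * V = 1) : Vᵀ * (V * D * Vᵀ) * V = D := by
  have h : Vᵀ * (V * D * Vᵀ) * V = (Vᵀ * V) * D * (Vᵀ * V) := by
    simp only [Matrix.mul_assoc]
  rw [h, hV, Matrix.one_mul, Matrix.mul_one]

/-- `(Vᵀ Y Y V)_ii ≥ 0` for symmetric `Y`. -/
theorem m3p35_quad_sq_nonneg (V Y : Mat m) (hY : Yᵀ = Y) (i : Fin m) :
    0 ≤ (Vᵀ * (Y * Y) * V) i i := by
  have e : Vᵀ * (Y * Y) * V = (Y * V)ᵀ * (Y * V) := by
    rw [Matrix.transpose_mul, hY]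
    simp only [Matrix.mul_assoc]
  rw [e, Matrix.mul_apply]
  refine Finset.sum_nonneg fun j _ => ?_
  rw [Matrix.transpose_apply]
  exact mul_self_nonneg _

/-! ### quadratic forms of the functional calculus -/

/-- `vᵀ f(A) v = Σ_l f(a_l) ⟨v, U_l⟩²`. -/
theorem m3p35_quad_fn (P : M3Pt m) (V : Mat m) (f : ℝ → ℝ) (i : Fin m) :
    (Vᵀ * P.fn f * V) i i = ∑ l, f (P.a l) * ((Vᵀ * P.U) i l) ^ 2 := by
  have e : Vᵀ * P.fn f * V = (Vᵀ * P.U) * diagonal (fun l => f (P.a l)) * (Vᵀ * P.U)ᵀ := by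
    simp only [M3Pt.fn, Matrix.transpose_mul, Matrix.transpose_transpose, Matrix.mul_assoc]
  rw [e, Matrix.mul_apply]
  refine Finset.sum_congr rfl fun l _ => ?_
  rw [Matrix.mul_diagonal, Matrix.transpose_apply]
  ring

/-- `Σ_l ⟨v, U_l⟩² = 1`. -/
theorem m3p35_weights (P : M3Pt m) (hP : P.Ok) (V : Mat m) (hV : Vᵀ * V = 1) (i : Fin m) :
    ∑ l, ((Vᵀ * P.U) i l) ^ 2 = 1 := by
  have e : (Vᵀ * P.U) * (Vᵀ * P.U)ᵀ = 1 := by
    rw [Matrix.transpose_mul, Matrix.transpose_transpose, Matrix.mul_assoc,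
      ← Matrix.mul_assoc P.U, hP.hU', Matrix.one_mul, hV]
  have h := congrFun (congrFun e i) i
  rw [Matrix.mul_apply, Matrix.one_apply_eq] at h
  rw [← h]
  exact Finset.sum_congr rfl fun l _ => by rw [Matrix.transpose_apply]; ring

/-- the quadratic minorant of `p`, in matrix form. -/
theorem m3p35_minorant (P : M3Pt m) (hP : P.Ok) (Sc : M3Sc) (hAbs : Sc.Abs) (V : Mat m)
    (hV : Vᵀ * V = 1) (i : Fin m) (u : ℝ) (hu : 0 < u) (hu' : u ≤ 13 / 100) :
    u + u * Real.sqrt u / 2 * (Vᵀ * P.A * V) i i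
      - u ^ 3 / (16 * (46 / 100 - u)) * (Vᵀ * (P.A * P.A) * V) i i
    ≤ (Vᵀ * P.fn Sc.p * V) i i := by
  have hAA : P.A * P.A = P.fn (fun a => a * id a) := P.A_mul_fn hP id
  rw [hAA, M3Pt.A, m3p35_quad_fn, m3p35_quad_fn, m3p35_quad_fn]
  have hw := m3p35_weights P hP V hV i
  have e : ∀ l, (u + u * Real.sqrt u / 2 * P.a l - u ^ 3 / (16 * (46 / 100 - u)) * P.a l ^ 2)
        * ((Vᵀ * P.U) i l) ^ 2
      = u * ((Vᵀ * P.U) i l) ^ 2 + u * Real.sqrt u / 2 * (id (P.a l) * ((Vᵀ * P.U) i l) ^ 2)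
        - u ^ 3 / (16 * (46 / 100 - u)) * (P.a l * id (P.a l) * ((Vᵀ * P.U) i l) ^ 2) := by
    intro l
    simp only [id]
    ring
  calc u + u * Real.sqrt u / 2 * ∑ l, id (P.a l) * ((Vᵀ * P.U) i l) ^ 2
        - u ^ 3 / (16 * (46 / 100 - u)) * ∑ l, P.a l * id (P.a l) * ((Vᵀ * P.U) i l) ^ 2
      = ∑ l, (u + u * Real.sqrt u / 2 * P.a l - u ^ 3 / (16 * (46 / 100 - u)) * P.a l ^ 2)
        * ((Vᵀ * P.U) i l) ^ 2 := by
        simp only [e]
        rw [Finset.sum_sub_distrib, Finset.sum_add_distrib, ← Finset.mul_sum, ← Finset.mul_sum,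
          ← Finset.mul_sum, hw, mul_one]
    _ ≤ ∑ l, Sc.p (P.a l) * ((Vᵀ * P.U) i l) ^ 2 :=
        Finset.sum_le_sum fun l _ =>
          mul_le_mul_of_nonneg_right (hAbs.minorant u hu hu' _) (sq_nonneg _)

/-- the `Y²`-cost, pointwise. -/
theorem m3p35_ycost (P : M3Pt m) (hP : P.Ok) (Sc : M3Sc) (hAbs : Sc.Abs) :
    m3s * (P.Y * P.Y * P.fn Sc.cy).trace ≤ 111 / 1000 * frobSq P.Y := by
  have hY := P.Y_transpose hP
  rw [P.trace_mul_fn hP, frobSq_eq_trace_of_symm hY, ← P.trace_inU hP (P.Y * P.Y),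
    Finset.mul_sum, Matrix.trace, Finset.mul_sum]
  refine Finset.sum_le_sum fun l _ => ?_
  rw [Matrix.diag_apply]
  have h0 : 0 ≤ P.inU (P.Y * P.Y) l l := m3p35_quad_sq_nonneg P.U P.Y hY l
  have h1 := hAbs.ycost (P.a l)
  calc m3s * (P.inU (P.Y * P.Y) l l * Sc.cy (P.a l))
      = (m3s * Sc.cy (P.a l)) * P.inU (P.Y * P.Y) l l := by ring
    _ ≤ 111 / 1000 * P.inU (P.Y * P.Y) l l := mul_le_mul_of_nonneg_right h1 h0

/-! ### integrals of quadratic forms -/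

theorem m3p35_integrable_quad {M : EE m → Mat m}
    (hM : ∀ j k, Integrable (fun x => M x j k) (gam m)) (V : Mat m) (i : Fin m) :
    Integrable (fun x => (Vᵀ * M x * V) i i) (gam m) := by
  simp only [m3p35_quad_apply]
  exact integrable_finsetSum _ fun j _ => integrable_finsetSum _ fun k _ =>
    ((hM j k).const_mul (V j i)).mul_const (V k i)

theorem m3p35_integral_quad {M : EE m → Mat m}
    (hM : ∀ j k, Integrable (fun x => M x j k) (gam m)) (V : Mat m) (i : Fin m) :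
    ∫ x, (Vᵀ * M x * V) i i ∂(gam m)
      = (Vᵀ * (Matrix.of fun j k => ∫ x, M x j k ∂(gam m)) * V) i i := by
  simp only [m3p35_quad_apply, Matrix.of_apply]
  rw [integral_finsetSum _ (fun j _ => integrable_finsetSum _ fun k _ =>
    ((hM j k).const_mul (V j i)).mul_const (V k i))]
  refine Finset.sum_congr rfl fun j _ => ?_
  rw [integral_finsetSum _ (fun k _ => ((hM j k).const_mul (V j i)).mul_const (V k i))]
  refine Finset.sum_congr rfl fun k _ => ?_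
  rw [integral_mul_const, integral_const_mul]

/-! ### the parameter `u(λ)` -/

theorem m3p35_u_pos (lam : ℝ) : 0 < m3u lam := by
  unfold m3u
  have : (0 : ℝ) < max (Real.sqrt lam) (128 / 13) := lt_max_of_lt_right (by norm_num)
  positivity

theorem m3p35_u_le (lam : ℝ) : m3u lam ≤ 13 / 100 := by
  unfold m3u
  have h : (128 / 13 : ℝ) ≤ max (Real.sqrt lam) (128 / 13) := le_max_right _ _
  have h0 : (0 : ℝ) < max (Real.sqrt lam) (128 / 13) := lt_of_lt_of_le (by norm_num) h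
  rw [div_le_iff₀ h0]
  linarith

/-! ### simultaneous diagonalisation of the constant matrices -/

/-- `c I + d V diag(e) Vᵀ = V diag(c + d e) Vᵀ`. -/
theorem m3p35_lin (V : Mat m) (hV : Vᵀ * V = 1) (c d : ℝ) (e : Fin m → ℝ) :
    c • (1 : Mat m) + d • (V * diagonal e * Vᵀ) = V * diagonal (fun i => c + d * e i) * Vᵀ := by
  have hV' : V * Vᵀ = 1 := mul_eq_one_comm.mp hV
  have h : diagonal (fun i => c + d * e i) = c • (1 : Mat m) + d • diagonal e := by
    ext i j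
    by_cases hij : i = j
    · subst hij; simp
    · simp [hij]
  rw [h, Matrix.mul_add, Matrix.add_mul, Matrix.mul_smul, Matrix.smul_mul, Matrix.mul_one, hV',
    Matrix.mul_smul, Matrix.smul_mul]

/-- = statement `m3_diag_of` of M3Const.lean: the constant matrices in ANY orthogonal
diagonalisation of `B`. -/
theorem m3x_diag_of (X : Fin m → Mat m) (hX : ∀ r, (X r)ᵀ = X r) (V : Mat m) (lam : Fin m → ℝ)
    (hV : Vᵀ * V = 1) (hB : m3B X = V * diagonal lam * Vᵀ) :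
    (∀ i, 0 ≤ lam i) ∧
      m3S X = V * diagonal (fun i => (m3s⁻¹ + m3α * lam i)⁻¹) * Vᵀ ∧
      m3T X = V * diagonal (fun i => (m3s⁻¹ + m3α * lam i)⁻¹ - 1) * Vᵀ ∧
      m3H X = V * diagonal (fun i => m3α * (m3s⁻¹ + m3α * lam i)⁻¹ * (lam i - 1) ^ 2) * Vᵀ ∧
      m3ρ X = V * diagonal (fun i => m3ε + m3κ / m3s * (m3s⁻¹ + m3α * lam i)⁻¹) * Vᵀ := by
  have hV' : V * Vᵀ = 1 := mul_eq_one_comm.mp hV
  have hlam : ∀ i, 0 ≤ lam i := by
    intro i
    have h1 : (Vᵀ * m3B X * V) i i = lam i := by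
      rw [hB, m3p35_unconj V _ hV, Matrix.diagonal_apply_eq]
    rw [← h1, m3B, Matrix.mul_sum, Matrix.sum_mul, Matrix.sum_apply]
    exact Finset.sum_nonneg fun r _ => m3p35_quad_sq_nonneg V (X r) (hX r) i
  have hpos : ∀ i, 0 < m3s⁻¹ + m3α * lam i := by
    intro i
    have h := hlam i
    unfold m3s m3α
    positivity
  have hS : m3S X = V * diagonal (fun i => (m3s⁻¹ + m3α * lam i)⁻¹) * Vᵀ := by
    unfold m3S
    rw [hB, m3p35_lin V hV]
    apply Matrix.inv_eq_right_inv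
    rw [m3p35_conj_mul V hV]
    have h : (fun i => (m3s⁻¹ + m3α * lam i) * (m3s⁻¹ + m3α * lam i)⁻¹) = fun _ => (1 : ℝ) := by
      funext i
      exact mul_inv_cancel₀ (hpos i).ne'
    rw [h, Matrix.diagonal_one, Matrix.mul_one, hV']
  have hT : m3T X = V * diagonal (fun i => (m3s⁻¹ + m3α * lam i)⁻¹ - 1) * Vᵀ := by
    have h := m3p35_lin V hV (-1) 1 (fun i => (m3s⁻¹ + m3α * lam i)⁻¹)
    have e : (fun i => -1 + 1 * (m3s⁻¹ + m3α * lam i)⁻¹)
        = fun i => (m3s⁻¹ + m3α * lam i)⁻¹ - 1 := by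
      funext i; ring
    rw [e] at h
    rw [← h, m3T, hS, one_smul, neg_one_smul]
    abel
  have hB1 : m3B X - 1 = V * diagonal (fun i => lam i - 1) * Vᵀ := by
    have h := m3p35_lin V hV (-1) 1 lam
    have e : (fun i => -1 + 1 * lam i) = fun i => lam i - 1 := by
      funext i; ring
    rw [e] at h
    rw [← h, hB, one_smul, neg_one_smul]
    abel
  refine ⟨hlam, hS, hT, ?_, ?_⟩
  · rw [m3H, hT, hB1, m3p35_conj_mul V hV, ← Matrix.neg_mul, ← Matrix.mul_neg,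
      Matrix.diagonal_neg]
    congr 3
    funext i
    have h := (hpos i).ne'
    have hs : m3s⁻¹ = 1 - m3α := by norm_num [m3s, m3α]
    have h1 : (m3s⁻¹ + m3α * lam i)⁻¹ * (m3s⁻¹ + m3α * lam i) = 1 := inv_mul_cancel₀ h
    have h2 : (m3s⁻¹ + m3α * lam i)⁻¹ - 1 = -(m3α * (m3s⁻¹ + m3α * lam i)⁻¹ * (lam i - 1)) := by
      rw [hs] at h1 ⊢
      linear_combination h1
    rw [h2]
    ring
  · rw [m3ρ, hS, m3p35_lin V hV]

/-! ### Prop 3.5 -/

/-- Prop 3.5 (matrix part), with the scalar core and the simultaneous diagonalisation of the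
constant matrices as hypotheses. -/
theorem m3x_prop35_of_core (F : M3Fld m) (Sc : M3Sc) (hOk : ∀ x, (F.pt x).Ok)
    (hAbs : Sc.Abs) (hI : F.Int Sc)
    (hmean : ∀ i j, ∫ x, (F.pt x).A i j ∂(gam m) = 0)
    (hsecond : ∀ i j, ∫ x, ((F.pt x).A * (F.pt x).A) i j ∂(gam m)
      = m3B F.X i j + ∫ x, ((F.pt x).Y * (F.pt x).Y) i j ∂(gam m))
    (V : Mat m) (lam : Fin m → ℝ) (hV : Vᵀ * V = 1) (hB : m3B F.X = V * diagonal lam * Vᵀ)
    (hlam : ∀ i, 0 ≤ lam i)
    (hSd : m3S F.X = V * diagonal (fun i => (m3s⁻¹ + m3α * lam i)⁻¹) * Vᵀ)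
    (hTd : m3T F.X = V * diagonal (fun i => (m3s⁻¹ + m3α * lam i)⁻¹ - 1) * Vᵀ)
    (hHd : m3H F.X
      = V * diagonal (fun i => m3α * (m3s⁻¹ + m3α * lam i)⁻¹ * (lam i - 1) ^ 2) * Vᵀ)
    (hρd : m3ρ F.X = V * diagonal (fun i => m3ε + m3κ / m3s * (m3s⁻¹ + m3α * lam i)⁻¹) * Vᵀ)
    (hcore : ∀ l r pbar : ℝ, 0 ≤ l → 0 ≤ r →
      m3u l - m3u l ^ 3 / (16 * (46 / 100 - m3u l)) * (l + r) ≤ pbar →
      ((m3s⁻¹ + m3α * l)⁻¹ - 1) - Real.log ((m3s⁻¹ + m3α * l)⁻¹)
        - (m3α * (m3s⁻¹ + m3α * l)⁻¹ * (l - 1) ^ 2)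
            * (m3ε + m3κ / m3s * (m3s⁻¹ + m3α * l)⁻¹) * pbar
      ≤ -(1 / 1000) * m3ω l + 27 / 1000 * r) :
    (m3T F.X).trace - Real.log (m3S F.X).det
      - ∫ x, (m3H F.X * m3ρ F.X * (F.pt x).fn Sc.p).trace ∂(gam m)
      + m3s * ∫ x, ((F.pt x).Y * (F.pt x).Y * (F.pt x).fn Sc.cy).trace ∂(gam m)
    ≤ 69 / 500 * ∫ x, frobSq (F.pt x).Y ∂(gam m) - 1 / 1000 * ∑ i, m3ω (lam i) := by
  classical
  set pbar : Fin m → ℝ := fun i => ∫ x, (Vᵀ * (F.pt x).fn Sc.p * V) i i ∂(gam m) with hpbar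
  set r : Fin m → ℝ := fun i => ∫ x, (Vᵀ * ((F.pt x).Y * (F.pt x).Y) * V) i i ∂(gam m) with hr
  have iP : ∀ i, Integrable (fun x => (Vᵀ * (F.pt x).fn Sc.p * V) i i) (gam m) :=
    fun i => m3p35_integrable_quad hI.i_p V i
  have iA : ∀ i, Integrable (fun x => (Vᵀ * (F.pt x).A * V) i i) (gam m) :=
    fun i => m3p35_integrable_quad hI.i_A V i
  have iAA : ∀ i, Integrable (fun x => (Vᵀ * ((F.pt x).A * (F.pt x).A) * V) i i) (gam m) :=
    fun i => m3p35_integrable_quad hI.i_AA V i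
  have iYY : ∀ i, Integrable (fun x => (Vᵀ * ((F.pt x).Y * (F.pt x).Y) * V) i i) (gam m) :=
    fun i => m3p35_integrable_quad hI.i_YY V i
  -- the remainders `r_i`
  have hr0 : ∀ i, 0 ≤ r i := fun i =>
    integral_nonneg fun x => m3p35_quad_sq_nonneg V _ ((F.pt x).Y_transpose (hOk x)) i
  have hfrob : ∀ x, frobSq (F.pt x).Y = ∑ i, (Vᵀ * ((F.pt x).Y * (F.pt x).Y) * V) i i := by
    intro x
    rw [frobSq_eq_trace_of_symm ((F.pt x).Y_transpose (hOk x)), ← m3p35_trace_conj' V _ hV]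
    rfl
  have iFrob : Integrable (fun x => frobSq (F.pt x).Y) (gam m) := by
    simp only [hfrob]
    exact integrable_finsetSum _ fun i _ => iYY i
  have hsumr : ∑ i, r i = ∫ x, frobSq (F.pt x).Y ∂(gam m) := by
    simp only [hfrob]
    rw [integral_finsetSum _ (fun i _ => iYY i)]
  -- first and second moments in the frame `V`
  have hA0 : ∀ i, ∫ x, (Vᵀ * (F.pt x).A * V) i i ∂(gam m) = 0 := by
    intro i
    rw [m3p35_integral_quad hI.i_A V i, m3p35_quad_apply]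
    simp [hmean]
  have hAA : ∀ i, ∫ x, (Vᵀ * ((F.pt x).A * (F.pt x).A) * V) i i ∂(gam m) = lam i + r i := by
    intro i
    rw [m3p35_integral_quad hI.i_AA V i]
    have e : (Matrix.of fun j k => ∫ x, ((F.pt x).A * (F.pt x).A) j k ∂(gam m))
        = m3B F.X + Matrix.of fun j k => ∫ x, ((F.pt x).Y * (F.pt x).Y) j k ∂(gam m) := by
      ext j k
      simp [hsecond]
    rw [e, Matrix.mul_add, Matrix.add_mul, Matrix.add_apply, ← m3p35_integral_quad hI.i_YY V i,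
      hB, m3p35_unconj V _ hV, Matrix.diagonal_apply_eq]
  -- lower bound for `pbar_i`
  have hpb : ∀ i, m3u (lam i) - m3u (lam i) ^ 3 / (16 * (46 / 100 - m3u (lam i))) * (lam i + r i)
      ≤ pbar i := by
    intro i
    have i1 : Integrable (fun x => m3u (lam i) * Real.sqrt (m3u (lam i)) / 2
        * (Vᵀ * (F.pt x).A * V) i i) (gam m) := (iA i).const_mul _
    have i2 : Integrable (fun x => m3u (lam i) ^ 3 / (16 * (46 / 100 - m3u (lam i)))
        * (Vᵀ * ((F.pt x).A * (F.pt x).A) * V) i i) (gam m) := (iAA i).const_mul _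
    have i0 : Integrable (fun _ : EE m => m3u (lam i)) (gam m) := integrable_const _
    have hmono := integral_mono ((i0.add i1).sub i2) (iP i)
      (fun x => m3p35_minorant (F.pt x) (hOk x) Sc hAbs V hV i _ (m3p35_u_pos _) (m3p35_u_le _))
    rw [integral_sub' (i0.add i1) i2, integral_add' i0 i1, integral_const_mul, integral_const_mul,
      hA0, hAA] at hmono
    simpa using hmono
  -- the spectral identities
  have hpos : ∀ i, 0 < m3s⁻¹ + m3α * lam i := by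
    intro i
    have h := hlam i
    unfold m3s m3α
    positivity
  have hT : (m3T F.X).trace = ∑ i, ((m3s⁻¹ + m3α * lam i)⁻¹ - 1) := by
    rw [hTd, m3p35_trace_conj V _ hV, Matrix.trace_diagonal]
  have hdet : Real.log (m3S F.X).det = ∑ i, Real.log ((m3s⁻¹ + m3α * lam i)⁻¹) := by
    rw [hSd, m3p35_det_conj V _ hV, Matrix.det_diagonal,
      Real.log_prod (fun i _ => (inv_pos.mpr (hpos i)).ne')]
  have hHρ : ∫ x, (m3H F.X * m3ρ F.X * (F.pt x).fn Sc.p).trace ∂(gam m)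
      = ∑ i, (m3α * (m3s⁻¹ + m3α * lam i)⁻¹ * (lam i - 1) ^ 2)
          * (m3ε + m3κ / m3s * (m3s⁻¹ + m3α * lam i)⁻¹) * pbar i := by
    rw [hHd, hρd, m3p35_conj_mul V hV]
    simp only [m3p35_trace_diag_mul]
    rw [integral_finsetSum _ (fun i _ => (iP i).const_mul _)]
    exact Finset.sum_congr rfl fun i _ => integral_const_mul _ _
  have hY : m3s * ∫ x, ((F.pt x).Y * (F.pt x).Y * (F.pt x).fn Sc.cy).trace ∂(gam m)
      ≤ 111 / 1000 * ∫ x, frobSq (F.pt x).Y ∂(gam m) := by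
    rw [← integral_const_mul, ← integral_const_mul]
    exact integral_mono (hI.i_YYc.const_mul _) (iFrob.const_mul _)
      fun x => m3p35_ycost (F.pt x) (hOk x) Sc hAbs
  have hsum := Finset.sum_le_sum (s := Finset.univ) fun i _ =>
    hcore (lam i) (r i) (pbar i) (hlam i) (hr0 i) (hpb i)
  rw [Finset.sum_sub_distrib, Finset.sum_sub_distrib, Finset.sum_add_distrib, ← Finset.mul_sum,
    ← Finset.mul_sum, hsumr] at hsum
  rw [hT, hdet, hHρ]
  linarith

/-- LEAF M3-P35: Prop 3.5 (absorption with a first-chaos remainder), matrix part. -/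
theorem m3x_prop35 (F : M3Fld m) (Sc : M3Sc) (hOk : ∀ x, (F.pt x).Ok) (_hS : Sc.Alg)
    (hAbs : Sc.Abs) (hI : F.Int Sc)
    (hmean : ∀ i j, ∫ x, (F.pt x).A i j ∂(gam m) = 0)
    (hsecond : ∀ i j, ∫ x, ((F.pt x).A * (F.pt x).A) i j ∂(gam m)
      = m3B F.X i j + ∫ x, ((F.pt x).Y * (F.pt x).Y) i j ∂(gam m))
    (V : Mat m) (lam : Fin m → ℝ) (hV : Vᵀ * V = 1) (hB : m3B F.X = V * diagonal lam * Vᵀ) :
    (m3T F.X).trace - Real.log (m3S F.X).det
      - ∫ x, (m3H F.X * m3ρ F.X * (F.pt x).fn Sc.p).trace ∂(gam m)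
      + m3s * ∫ x, ((F.pt x).Y * (F.pt x).Y * (F.pt x).fn Sc.cy).trace ∂(gam m)
    ≤ 69 / 500 * ∫ x, frobSq (F.pt x).Y ∂(gam m) - 1 / 1000 * ∑ i, m3ω (lam i) := by
  have hX : ∀ r, (F.X r)ᵀ = F.X r := (hOk 0).hX
  obtain ⟨hlam, hSd, hTd, hHd, hρd⟩ := m3x_diag_of F.X hX V lam hV hB
  exact m3x_prop35_of_core F Sc hOk hAbs hI hmean hsecond V lam hV hB hlam hSd hTd hHd hρd
    (fun l r pbar hl hr hp => m3x_lam_core l r pbar hl hr hp)

end Claimed.Agent.R260
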