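/-
Row 260, package SEC3.  OWNER: helper191.
The integral layer: abstract form of paper Theorem 3.1, from the pointwise inequality
`m3_pointwise` and a short list of integral identities (hypotheses, supplied by the glue file).
-/
import Claimed.Agent.R260.M3IntDefs
import Claimed.Agent.R260.M3LogDet
import Claimed.Agent.R260.M3Lam
import Claimed.Agent.R260.M3P35

set_option autoImplicit false

namespace Claimed.Agent.R260

open Matrix MeasureTheory

variable {m : ℕ}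

/-- the scalar core of Prop 3.5 in the variable `λ` (paper (4.7)-(4.12)); leaf M3-LAM, helper89. -/
theorem m3_lam_core (lam r pbar : ℝ) (hlam : 0 ≤ lam) (hr : 0 ≤ r)
    (hp : m3u lam - m3u lam ^ 3 / (16 * (46 / 100 - m3u lam)) * (lam + r) ≤ pbar) :
    ((m3s⁻¹ + m3α * lam)⁻¹ - 1) - Real.log ((m3s⁻¹ + m3α * lam)⁻¹)
      - (m3α * (m3s⁻¹ + m3α * lam)⁻¹ * (lam - 1) ^ 2)
          * (m3ε + m3κ / m3s * (m3s⁻¹ + m3α * lam)⁻¹) * pbar
    ≤ -(1 / 1000) * m3ω lam + 27 / 1000 * r :=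
  m3x_lam_core lam r pbar hlam hr hp

/-- Prop 3.5 (absorption with a first-chaos remainder), matrix part; leaf M3-P35, helper211. -/
theorem m3_prop35 (F : M3Fld m) (Sc : M3Sc) (hOk : ∀ x, (F.pt x).Ok) (hS : Sc.Alg)
    (hAbs : Sc.Abs) (hI : F.Int Sc)
    (hmean : ∀ i j, ∫ x, (F.pt x).A i j ∂(gam m) = 0)
    (hsecond : ∀ i j, ∫ x, ((F.pt x).A * (F.pt x).A) i j ∂(gam m)
      = m3B F.X i j + ∫ x, ((F.pt x).Y * (F.pt x).Y) i j ∂(gam m))
    (V : Mat m) (lam : Fin m → ℝ) (hV : Vᵀ * V = 1) (hB : m3B F.X = V * diagonal lam * Vᵀ) :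
    (m3T F.X).trace - Real.log (m3S F.X).det
      - ∫ x, (m3H F.X * m3ρ F.X * (F.pt x).fn Sc.p).trace ∂(gam m)
      + m3s * ∫ x, ((F.pt x).Y * (F.pt x).Y * (F.pt x).fn Sc.cy).trace ∂(gam m)
    ≤ 69 / 500 * ∫ x, frobSq (F.pt x).Y ∂(gam m) - 1 / 1000 * ∑ i, m3ω (lam i) :=
  m3x_prop35 F Sc hOk hS hAbs hI hmean hsecond V lam hV hB

/-- supporting plane of `log det` (leaf M3-LOGDET, helper267). -/
theorem m3_logdet (C S : Mat m) (hC : C.PosDef) (hS : S.PosDef) :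
    Real.log C.det + m ≤ (S * C).trace - Real.log S.det :=
  m3x_logdet C S hC hS

/-- `S` is positive definite (from M3Const). -/
theorem m3_S_posDef (X : Fin m → Mat m) (hX : ∀ r, (X r)ᵀ = X r) : (m3S X).PosDef :=
  m3S_posDef X hX

/-- linearity bookkeeping. -/
theorem m3_int8 {α : Type*} [MeasurableSpace α] (μ : Measure α) [IsProbabilityMeasure μ]
    (f1 f2 f4 f5 f6 f7 f8 : α → ℝ) (c a5 a6 a7 a8 : ℝ)
    (h1 : Integrable f1 μ) (h2 : Integrable f2 μ) (h4 : Integrable f4 μ) (h5 : Integrable f5 μ)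
    (h6 : Integrable f6 μ) (h7 : Integrable f7 μ) (h8 : Integrable f8 μ) :
    Integrable (fun x => f1 x - f2 x + c - f4 x + a5 * f5 x + a6 * f6 x - a7 * f7 x + a8 * f8 x) μ ∧
    ∫ x, (f1 x - f2 x + c - f4 x + a5 * f5 x + a6 * f6 x - a7 * f7 x + a8 * f8 x) ∂μ
      = ∫ x, f1 x ∂μ - ∫ x, f2 x ∂μ + c - ∫ x, f4 x ∂μ + a5 * ∫ x, f5 x ∂μ + a6 * ∫ x, f6 x ∂μ
        - a7 * ∫ x, f7 x ∂μ + a8 * ∫ x, f8 x ∂μ := by
  have e1 : Integrable (fun x => f1 x - f2 x) μ := h1.sub h2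
  have e2 : Integrable (fun x => f1 x - f2 x + c) μ := e1.add (integrable_const c)
  have e3 : Integrable (fun x => f1 x - f2 x + c - f4 x) μ := e2.sub h4
  have e4 : Integrable (fun x => f1 x - f2 x + c - f4 x + a5 * f5 x) μ := e3.add (h5.const_mul a5)
  have e5 : Integrable (fun x => f1 x - f2 x + c - f4 x + a5 * f5 x + a6 * f6 x) μ :=
    e4.add (h6.const_mul a6)
  have e6 : Integrable (fun x => f1 x - f2 x + c - f4 x + a5 * f5 x + a6 * f6 x - a7 * f7 x) μ :=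
    e5.sub (h7.const_mul a7)
  refine ⟨e6.add (h8.const_mul a8), ?_⟩
  rw [integral_add e6 (h8.const_mul a8), integral_sub e5 (h7.const_mul a7),
    integral_add e4 (h6.const_mul a6), integral_add e3 (h5.const_mul a5), integral_sub e2 h4,
    integral_add e1 (integrable_const c), integral_sub h1 h2, integral_const_mul,
    integral_const_mul, integral_const_mul, integral_const_mul]
  simp

/-- linearity bookkeeping. -/
theorem m3_int5 {α : Type*} [MeasurableSpace α] (μ : Measure α)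
    (f0 f1 f2 f3 f4 : α → ℝ) (a2 a3 a4 : ℝ)
    (h0 : Integrable f0 μ) (h1 : Integrable f1 μ) (h2 : Integrable f2 μ) (h3 : Integrable f3 μ)
    (h4 : Integrable f4 μ) :
    Integrable (fun x => f0 x + f1 x + a2 * f2 x + a3 * f3 x + a4 * f4 x) μ ∧
    ∫ x, (f0 x + f1 x + a2 * f2 x + a3 * f3 x + a4 * f4 x) ∂μ
      = ∫ x, f0 x ∂μ + ∫ x, f1 x ∂μ + a2 * ∫ x, f2 x ∂μ + a3 * ∫ x, f3 x ∂μ
        + a4 * ∫ x, f4 x ∂μ := by
  have e1 : Integrable (fun x => f0 x + f1 x) μ := h0.add h1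
  have e2 : Integrable (fun x => f0 x + f1 x + a2 * f2 x) μ := e1.add (h2.const_mul a2)
  have e3 : Integrable (fun x => f0 x + f1 x + a2 * f2 x + a3 * f3 x) μ := e2.add (h3.const_mul a3)
  refine ⟨e3.add (h4.const_mul a4), ?_⟩
  rw [integral_add e3 (h4.const_mul a4), integral_add e2 (h3.const_mul a3),
    integral_add e1 (h2.const_mul a2), integral_add h0 h1, integral_const_mul,
    integral_const_mul, integral_const_mul]

/-- **Abstract Theorem 3.1.** -/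
theorem m3_main (F : M3Fld m) (Sc : M3Sc) (hOk : ∀ x, (F.pt x).Ok) (hS : Sc.Alg)
    (hpair : Sc.Pair) (hAbs : Sc.Abs) (hI : F.Int Sc)
    (C : Mat m) (hC : C.PosDef)
    (hCov : (m3S F.X * C).trace ≤ ∫ x, (F.pt x).Icov Sc ∂(gam m))
    (Sfun : EE m → ℝ) (hSint : Integrable Sfun (gam m))
    (hSur1 : ∫ x, Sfun x ∂(gam m) ≤ ∫ x, ((F.pt x).fn Sc.k * (F.pt x).fn Sc.k).trace ∂(gam m))
    (hSur2 : ∀ᵐ x ∂(gam m), (F.pt x).sur Sc ≤ Sfun x)
    (hd1 : ∫ x, (F.pt x).d1 Sc ∂(gam m) = 0) (hd2 : ∫ x, (F.pt x).d2 Sc ∂(gam m) = 0)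
    (hd3 : ∫ x, (F.pt x).d3 Sc ∂(gam m) = 0) (hd4 : ∫ x, (F.pt x).d4 Sc ∂(gam m) = 0)
    (hmean : ∀ i j, ∫ x, (F.pt x).A i j ∂(gam m) = 0)
    (hsecond : ∀ i j, ∫ x, ((F.pt x).A * (F.pt x).A) i j ∂(gam m)
      = m3B F.X i j + ∫ x, ((F.pt x).Y * (F.pt x).Y) i j ∂(gam m))
    (hAZ : ∫ x, ((F.pt x).A * (F.pt x).A).trace ∂(gam m) - ∑ r, ∫ x, frobSq (F.Z r x) ∂(gam m)
      = ∫ x, frobSq (F.pt x).Y ∂(gam m) - ∑ r, ∫ x, frobSq ((F.pt x).G r) ∂(gam m))
    (hg1 : ∑ r, ∫ x, ((F.pt x).G r * F.g r x).trace ∂(gam m) = ∫ x, frobSq (F.pt x).Y ∂(gam m))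
    (hg2 : ∑ r, ∫ x, frobSq (F.g r x) ∂(gam m) ≤ 1 / 2 * ∫ x, frobSq (F.pt x).Y ∂(gam m))
    (hP2 : 2 * ∫ x, frobSq (F.pt x).Y ∂(gam m) ≤ ∑ r, ∫ x, frobSq ((F.pt x).G r) ∂(gam m))
    (V : Mat m) (lam : Fin m → ℝ) (hV : Vᵀ * V = 1) (hB : m3B F.X = V * diagonal lam * Vᵀ) :
    ∫ x, ((F.pt x).A * (F.pt x).A - (2 : ℝ) • (F.pt x).fn Sc.t).trace ∂(gam m)
      + Real.log C.det + m
    ≤ -(1 / 500) * ∫ x, frobSq (F.pt x).Y ∂(gam m) - 1 / 1000 * ∑ i, m3ω (lam i) := by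
  classical
  have hX : ∀ r, (F.X r)ᵀ = F.X r := (hOk 0).hX
  -- integrability of the pieces
  have iAAtr : Integrable (fun x => ((F.pt x).A * (F.pt x).A).trace) (gam m) := by
    simp only [Matrix.trace, Matrix.diag]
    exact integrable_finsetSum _ fun i _ => hI.i_AA i i
  have iHp : Integrable (fun x => (m3H F.X * m3ρ F.X * (F.pt x).fn Sc.p).trace) (gam m) := by
    simp only [Matrix.trace, Matrix.diag, Matrix.mul_apply (M := m3H F.X * m3ρ F.X)]
    exact integrable_finsetSum _ fun i _ => integrable_finsetSum _ fun j _ =>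
      (hI.i_p j i).const_mul _
  have iAt : Integrable
      (fun x => ((F.pt x).A * (F.pt x).A - (2 : ℝ) • (F.pt x).fn Sc.t).trace) (gam m) := by
    have : (fun x => ((F.pt x).A * (F.pt x).A - (2 : ℝ) • (F.pt x).fn Sc.t).trace)
        = fun x => ((F.pt x).A * (F.pt x).A).trace - 2 * ((F.pt x).fn Sc.t).trace := by
      funext x; rw [trace_sub, trace_smul]; simp
    rw [this]
    exact iAAtr.sub (hI.i_t.const_mul 2)
  have iZ : Integrable (fun x => ∑ r, frobSq (F.Z r x)) (gam m) :=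
    integrable_finsetSum _ fun r _ => hI.i_Z r
  have iG : Integrable (fun x => ∑ r, frobSq ((F.pt x).G r)) (gam m) :=
    integrable_finsetSum _ fun r _ => hI.i_G r
  have ig : Integrable (fun x => ∑ r, frobSq (F.g r x)) (gam m) :=
    integrable_finsetSum _ fun r _ => hI.i_g r
  have iGg : Integrable (fun x => ∑ r, ((F.pt x).G r * F.g r x).trace) (gam m) :=
    integrable_finsetSum _ fun r _ => hI.i_Gg r
  have istart : Integrable (fun x => (F.pt x).start Sc) (gam m) :=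
    (iAt.add hI.i_cov).add hI.i_kk
  -- the end integrand, written with named pieces
  have hIend : ∀ x, (F.pt x).Iend Sc =
      ((F.pt x).A * (F.pt x).A).trace - (∑ r, frobSq (F.Z r x)) + (m3T F.X).trace
        - (m3H F.X * m3ρ F.X * (F.pt x).fn Sc.p).trace
        + m3s * ((F.pt x).Y * (F.pt x).Y * (F.pt x).fn Sc.cy).trace
        + 98 / 100 * (∑ r, frobSq ((F.pt x).G r))
        - 246 / 100 * (∑ r, ((F.pt x).G r * F.g r x).trace)
        + 272 / 100 * (∑ r, frobSq (F.g r x)) := fun x => rfl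
  have h8 := m3_int8 (gam m) (fun x => ((F.pt x).A * (F.pt x).A).trace)
    (fun x => ∑ r, frobSq (F.Z r x)) (fun x => (m3H F.X * m3ρ F.X * (F.pt x).fn Sc.p).trace)
    (fun x => ((F.pt x).Y * (F.pt x).Y * (F.pt x).fn Sc.cy).trace)
    (fun x => ∑ r, frobSq ((F.pt x).G r)) (fun x => ∑ r, ((F.pt x).G r * F.g r x).trace)
    (fun x => ∑ r, frobSq (F.g r x)) (m3T F.X).trace m3s (98 / 100) (246 / 100) (272 / 100)
    iAAtr iZ iHp hI.i_YYc iG iGg ig
  have iEnd : Integrable (fun x => (F.pt x).Iend Sc) (gam m) := by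
    simp only [hIend]; exact h8.1
  have eEnd : ∫ x, (F.pt x).Iend Sc ∂(gam m) =
      ∫ x, ((F.pt x).A * (F.pt x).A).trace ∂(gam m) - ∑ r, ∫ x, frobSq (F.Z r x) ∂(gam m)
        + (m3T F.X).trace
        - ∫ x, (m3H F.X * m3ρ F.X * (F.pt x).fn Sc.p).trace ∂(gam m)
        + m3s * ∫ x, ((F.pt x).Y * (F.pt x).Y * (F.pt x).fn Sc.cy).trace ∂(gam m)
        + 98 / 100 * ∑ r, ∫ x, frobSq ((F.pt x).G r) ∂(gam m)
        - 246 / 100 * ∑ r, ∫ x, ((F.pt x).G r * F.g r x).trace ∂(gam m)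
        + 272 / 100 * ∑ r, ∫ x, frobSq (F.g r x) ∂(gam m) := by
    simp only [hIend]
    rw [h8.2, integral_finsetSum _ (fun r _ => hI.i_Z r),
      integral_finsetSum _ (fun r _ => hI.i_G r),
      integral_finsetSum _ (fun r _ => hI.i_g r), integral_finsetSum _ (fun r _ => hI.i_Gg r)]
  have eStart : ∫ x, (F.pt x).start Sc ∂(gam m) =
      ∫ x, ((F.pt x).A * (F.pt x).A - (2 : ℝ) • (F.pt x).fn Sc.t).trace ∂(gam m)
        + ∫ x, (F.pt x).Icov Sc ∂(gam m)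
        + ∫ x, ((F.pt x).fn Sc.k * (F.pt x).fn Sc.k).trace ∂(gam m) := by
    simp only [M3Pt.start]
    have e1 : Integrable (fun x => ((F.pt x).A * (F.pt x).A - (2 : ℝ) • (F.pt x).fn Sc.t).trace
        + (F.pt x).Icov Sc) (gam m) := iAt.add hI.i_cov
    rw [integral_add e1 hI.i_kk, integral_add iAt hI.i_cov]
  -- integrate the pointwise inequality
  have h5 := m3_int5 (gam m) (fun x => (F.pt x).Iend Sc) (fun x => (F.pt x).d1 Sc)
    (fun x => (F.pt x).d2 Sc) (fun x => (F.pt x).d3 Sc) (fun x => (F.pt x).d4 Sc)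
    m3c 2 (2 * m3β) iEnd hI.i_d1 hI.i_d2 hI.i_d3 hI.i_d4
  have hmono : ∫ x, ((F.pt x).start Sc - Sfun x) ∂(gam m) ≤
      ∫ x, ((F.pt x).Iend Sc + (F.pt x).d1 Sc + m3c * (F.pt x).d2 Sc
      + 2 * (F.pt x).d3 Sc + 2 * m3β * (F.pt x).d4 Sc) ∂(gam m) := by
    apply integral_mono_ae (istart.sub hSint) h5.1
    filter_upwards [hSur2] with x hx
    have := m3_pointwise (F.pt x) Sc (hOk x) hS hpair
    simp only [Pi.sub_apply]
    linarith
  rw [integral_sub istart hSint, h5.2, hd1, hd2, hd3, hd4, eStart, eEnd] at hmono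
  have h35 := m3_prop35 F Sc hOk hS hAbs hI hmean hsecond V lam hV hB
  have hld := m3_logdet C (m3S F.X) hC (m3_S_posDef F.X hX)
  linarith

end Claimed.Agent.R260
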