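/-
Row 260, package SEC3: the export `core_sec3` of Core.lean (paper Theorem 3.1, abstract form).
OWNER: helper191.
  m3_core_main : abstract scalar functions, "everywhere" input `M3Set`
  m3_core_sec3 : the statement of `core_sec3` verbatim
-/
import Claimed.Agent.R260.M3Int
import Claimed.Agent.R260.M3GWeak
import Claimed.Agent.R260.M3GCov
import Claimed.Agent.R260.M3GSc

set_option autoImplicit false

namespace Claimed.Agent.R260

open Matrix MeasureTheory

variable {m : ℕ}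

/-- the covariance bound in the form used by `m3_main`. -/
theorem m3g_cov {A : EE m → Mat m} {Z g : Fin m → EE m → Mat m} {Sc : M3Sc}
    (hS : M3Set A Z) (hg : M3G A g) (hR : Sc.Reg) (hA : Sc.Alg)
    {T : EE m → EE m} (hT : ∃ K : NNReal, LipschitzWith K T)
    (hjac : ∀ᵐ x ∂gam m, coreJ T x = mxFun Sc.q (A x)) :
    (m3S (coreX A) * coreCov T).trace ≤ ∫ x, ((m3F A Z g).pt x).Icov Sc ∂gam m := by
  have hX := coreX_transpose hS.sb.symm
  have ha : MxL2 (gam m) (fun x => mxFun Sc.k (A x) + ((m3F A Z g).pt x).u Sc) :=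
    ((m3g_fn_bd hS hR.ck).toL2).add (m3g_u_L2 hS hg hR)
  have hc : ∀ r, MxL2 (gam m) (fun x => coreX A r * mxFun Sc.b (A x) + m3β • g r x) := fun r =>
    (((MxBd.const (coreX A r)).mul (m3g_fn_bd hS hR.cb)).toL2).add ((hg.l2 r).smul m3β)
  have h := m3g_cov_abs hT ha hc (fun i j η hη => by
    rw [← m3g_weak hS hg hR hA i j hη]
    refine integral_congr_ae ?_
    filter_upwards [hjac] with x hx
    rw [hx]) (m3S_posDef (coreX A) hX).posSemidef
  refine h.trans (le_of_eq ?_)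
  have i1 : Integrable (fun x => m3nS (m3S (coreX A))
      (mxFun Sc.k (A x) + ((m3F A Z g).pt x).u Sc)) (gam m) := ha.integrable_mxSqS _
  have i2 : ∀ r, Integrable (fun x => m3nS (m3S (coreX A))
      (coreX A r * mxFun Sc.b (A x) + m3β • g r x)) (gam m) := fun r => (hc r).integrable_mxSqS _
  rw [← integral_finsetSum _ (fun r _ => i2 r), ← integral_add i1 (integrable_finsetSum _ fun r _ => i2 r)]
  rfl

/-- **Theorem 3.1**, abstract scalar functions. -/
theorem m3_core_main {T : EE m → EE m} {A : EE m → Mat m} {Z : Fin m → EE m → Mat m} (Sc : M3Sc)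
    (hAlg : Sc.Alg) (hPair : Sc.Pair) (hAbs : Sc.Abs) (hReg : Sc.Reg) (hS : M3Set A Z)
    (hT : ∃ K : NNReal, LipschitzWith K T)
    (hjac : ∀ᵐ x ∂gam m, coreJ T x = mxFun Sc.q (A x)) (hC : (coreCov T).PosDef)
    (Ξ : EE m → ℝ) (hΞi : Integrable Ξ (gam m))
    (hΞ1 : ∫ x, Ξ x ∂gam m ≤ ∫ x, (mxFun Sc.k (A x) * mxFun Sc.k (A x)).trace ∂gam m)
    (hΞ2 : ∀ᵐ x ∂gam m, ∑ r, mxSq (Z r x) - ∑ r, mxSq (mxDK Sc.k Sc.b (A x) (Z r x))
      + ∑ r, ∑ i, ∑ j, Sc.rw (mxEig (A x) i) (mxEig (A x) j) * (mxRot (A x) (Z r x) i j) ^ 2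
        ≤ Ξ x) :
    ∫ x, ((A x * A x).trace - 2 * (mxFun Sc.t (A x)).trace) ∂gam m
      + Real.log (coreCov T).det + m
    ≤ -(1 / 500) * ∫ x, mxSq (coreY A x) ∂gam m
      - 1 / 1000 * ∑ i, m3ω (mxEig (mxB (coreX A)) i) := by
  obtain ⟨g, hg⟩ := m3g_exists_g hS
  have hsym := hS.sb.symm
  have hX := coreX_transpose hsym
  have hA' : ∀ x, ((m3F A Z g).pt x).A = A x := fun x => m3F_A Z g (hsym x)
  have hY' : ∀ x, ((m3F A Z g).pt x).Y = coreY A x := fun x => m3F_Y Z g (hsym x)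
  have main := m3_main (m3F A Z g) Sc (m3F_ok hS hg) hAlg hPair hAbs (m3g_int hS hg hReg hAlg)
    (coreCov T) hC (m3g_cov hS hg hReg hAlg hT hjac) Ξ hΞi hΞ1
    (by
      filter_upwards [hΞ2] with x hx
      simp only [M3Pt.sur, M3Pt.sep, frobSq_eq_mxSq]
      exact hx)
    (m3g_d1 hS hg hReg hAlg) (m3g_d2 hS hg hReg hAlg) (m3g_d3 hS hg hReg hAlg)
    (m3g_d4 hS hg hReg hAlg)
    (by simp only [hA']; exact hS.mean)
    (by simp only [hA', hY']; exact m3g_second hS)
    (by simp only [hA', hY']; exact m3g_AZ hS)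
    (by simp only [hY']; exact m3g_g1 hS hg)
    (by simp only [hY']; exact hg.le)
    (by simp only [hY']; exact m3g_P2 hS)
    (mxU (mxB (coreX A))) (mxEig (mxB (coreX A))) (mxU_transpose_mul _)
    (mx_spectral (mxB_isSymm _ hX))
  simp only [hA', hY', frobSq_eq_mxSq] at main
  have e : ∀ x, (A x * A x - (2 : ℝ) • ((m3F A Z g).pt x).fn Sc.t).trace
      = (A x * A x).trace - 2 * (mxFun Sc.t (A x)).trace := fun x => by
    rw [trace_sub, trace_smul]; rfl
  simp only [e] at main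
  exact main

/-- bounded entries give a bounded spectrum. -/
theorem m3g_symBd {A : EE m → Mat m} (h1 : ∀ x, (A x).IsSymm)
    (h2 : ∀ i j, Measurable (fun x => A x i j)) (h3 : ∃ C : ℝ, ∀ x i j, |A x i j| ≤ C) :
    MxSymBd A := by
  obtain ⟨C, hC⟩ := h3
  refine ⟨h1, h2, Real.sqrt (∑ _i : Fin m, ∑ _j : Fin m, C ^ 2), fun x i => ?_⟩
  apply Real.abs_le_sqrt
  have e1 : mxRot (A x) (A x) = diagonal (fun i => mxEig (A x) i) := by
    have := mxRot_mxFun (fun a => a) (A x)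
    rwa [mxFun_id (h1 x)] at this
  have e2 : mxEig (A x) i ^ 2 = (mxRot (A x) (A x) i i) ^ 2 := by
    rw [e1, diagonal_apply_eq]
  calc mxEig (A x) i ^ 2 = (mxRot (A x) (A x) i i) ^ 2 := e2
    _ ≤ ∑ j, (mxRot (A x) (A x) i j) ^ 2 :=
        Finset.single_le_sum (f := fun j => (mxRot (A x) (A x) i j) ^ 2)
          (fun j _ => sq_nonneg _) (Finset.mem_univ i)
    _ ≤ ∑ k, ∑ j, (mxRot (A x) (A x) k j) ^ 2 :=
        Finset.single_le_sum (f := fun k => ∑ j, (mxRot (A x) (A x) k j) ^ 2)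
          (fun k _ => Finset.sum_nonneg fun j _ => sq_nonneg _) (Finset.mem_univ i)
    _ = mxSq (A x) := (mxSq_rot (A x) (A x)).symm
    _ = ∑ k, ∑ j, (A x k j) ^ 2 := mxSq_eq_sum _
    _ ≤ ∑ _k : Fin m, ∑ _j : Fin m, C ^ 2 :=
        Finset.sum_le_sum fun k _ => Finset.sum_le_sum fun j _ => sq_le_sq' (by
          have := hC x k j; rw [abs_le] at this; exact this.1) (by
          have := hC x k j; rw [abs_le] at this; exact this.2)

/-- **The export `core_sec3`.** -/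
theorem m3_core_sec3 {T : EE m → EE m} {A : EE m → Mat m} {Z : Fin m → EE m → Mat m}
    (hpre : CorePre T A Z) (hsur : CoreSurplus A Z)
    (hmean : ∀ i j, ∫ x, A x i j ∂gam m = 0) (hC : (coreCov T).PosDef) :
    coreDef A + Real.log (coreCov T).det + m ≤ -coreRem A := by
  -- symmetrise `Z`
  set Z' : Fin m → EE m → Mat m := fun r x => (1 / 2 : ℝ) • (Z r x + (Z r x)ᵀ) with hZ'
  have hZae : ∀ᵐ x ∂gam m, ∀ r, Z' r x = Z r x := by
    filter_upwards [hpre.Z_symm] with x hx r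
    have : (Z r x)ᵀ = Z r x := hx r
    simp only [hZ', this, ← two_smul ℝ (Z r x), smul_smul]
    norm_num
  have hS : M3Set A Z' := by
    refine ⟨m3g_symBd hpre.A_symm hpre.A_meas hpre.A_bdd, fun r x => ?_, ?_, hmean⟩
    · simp only [hZ', transpose_smul, transpose_add, transpose_transpose, add_comm]
    · refine MxGH1.congr_ae (F := A) (dF := Z) hpre.A_gh1 (Filter.EventuallyEq.refl _ _) fun r => ?_
      filter_upwards [hZae] with x hx
      exact (hx r).symm
  obtain ⟨Ξ, hΞi, hΞ1, hΞ2⟩ := hsur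
  have main := m3_core_main (T := T) m3sc m3sc_alg m3sc_pair m3sc_abs m3sc_reg hS hpre.T_lip
    hpre.jac hC Ξ hΞi hΞ1 (by
      filter_upwards [hΞ2, hZae] with x hx hz
      simp only [hz]
      exact hx)
  have hX := coreX_transpose hpre.A_symm
  have hω : ∑ i, m3ω (mxEig (mxB (coreX A)) i) = ∑ i, scOmega (mxEig (mxB (coreX A)) i) :=
    Finset.sum_congr rfl fun i _ => m3ω_eq_scOmega (mxB_eig_nonneg _ hX i)
  rw [hω] at main
  unfold coreDef coreRem
  have : ∫ x, ((A x * A x).trace - 2 * (mxFun m3sc.t (A x)).trace) ∂gam m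
      = ∫ x, ((A x * A x).trace - 2 * (mxFun scT (A x)).trace) ∂gam m := rfl
  rw [this] at main
  linarith

end Claimed.Agent.R260
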