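/-
Row 260, package GK (Gaussian kit): elementary `L²` toolbox in "integral of squares" language
(Cauchy--Schwarz, triangle inequality, continuity of the pairing).  General measure space.
Owner: helper175.  Everybody may use it.  (Was GKL2.lean for 10 minutes; that name now belongs to helper291.)
-/
import Claimed.Agent.R260.GKDefs

namespace Claimed.Agent.R260

open MeasureTheory ProbabilityTheory Filter Topology Set

variable {α : Type*} [MeasurableSpace α] {μ : Measure α}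

theorem gk_integrable_mul {a b : α → ℝ} (ha : MemLp a 2 μ) (hb : MemLp b 2 μ) :
    Integrable (fun x => a x * b x) μ := ha.integrable_mul hb

theorem gk_memLp_add {a b : α → ℝ} (ha : MemLp a 2 μ) (hb : MemLp b 2 μ) :
    MemLp (fun x => a x + b x) 2 μ := ha.add hb

theorem gk_memLp_sub {a b : α → ℝ} (ha : MemLp a 2 μ) (hb : MemLp b 2 μ) :
    MemLp (fun x => a x - b x) 2 μ := ha.sub hb

/-- Cauchy--Schwarz. -/
theorem gk_cs {a b : α → ℝ} (ha : MemLp a 2 μ) (hb : MemLp b 2 μ) :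
    (∫ x, a x * b x ∂μ) ^ 2 ≤ (∫ x, (a x) ^ 2 ∂μ) * ∫ x, (b x) ^ 2 ∂μ := by
  have hA := ha.integrable_sq
  have hB := hb.integrable_sq
  have hAB := gk_integrable_mul ha hb
  have key : ∀ t : ℝ, 0 ≤ (∫ x, (a x) ^ 2 ∂μ) * (t * t) + (2 * ∫ x, a x * b x ∂μ) * t
      + ∫ x, (b x) ^ 2 ∂μ := by
    intro t
    have e : ∫ x, (t * a x + b x) ^ 2 ∂μ = (∫ x, (a x) ^ 2 ∂μ) * (t * t)
        + (2 * ∫ x, a x * b x ∂μ) * t + ∫ x, (b x) ^ 2 ∂μ := by
      have e1 : ∀ x, (t * a x + b x) ^ 2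
          = ((a x) ^ 2 * (t * t) + (a x * b x) * (2 * t)) + (b x) ^ 2 := fun x => by ring
      simp_rw [e1]
      have i1 : Integrable (fun x => (a x) ^ 2 * (t * t)) μ := hA.mul_const _
      have i2 : Integrable (fun x => (a x * b x) * (2 * t)) μ := hAB.mul_const _
      have i3 : Integrable (fun x => (a x) ^ 2 * (t * t) + (a x * b x) * (2 * t)) μ := i1.add i2
      rw [integral_add i3 hB, integral_add i1 i2, integral_mul_const, integral_mul_const]
      ring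
    rw [← e]
    exact integral_nonneg fun x => sq_nonneg _
  have h := discrim_le_zero key
  unfold discrim at h
  nlinarith

theorem gk_abs_integral_mul_le {a b : α → ℝ} (ha : MemLp a 2 μ) (hb : MemLp b 2 μ) :
    |∫ x, a x * b x ∂μ| ≤ Real.sqrt (∫ x, (a x) ^ 2 ∂μ) * Real.sqrt (∫ x, (b x) ^ 2 ∂μ) := by
  rw [← Real.sqrt_mul (integral_nonneg fun x => sq_nonneg _), ← Real.sqrt_sq_eq_abs]
  exact Real.sqrt_le_sqrt (gk_cs ha hb)

theorem gk_integral_add_sq_le {a b : α → ℝ} (ha : MemLp a 2 μ) (hb : MemLp b 2 μ) :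
    ∫ x, (a x + b x) ^ 2 ∂μ ≤ 2 * ∫ x, (a x) ^ 2 ∂μ + 2 * ∫ x, (b x) ^ 2 ∂μ := by
  have i1 : Integrable (fun x => 2 * (a x) ^ 2) μ := ha.integrable_sq.const_mul 2
  have i2 : Integrable (fun x => 2 * (b x) ^ 2) μ := hb.integrable_sq.const_mul 2
  rw [← integral_const_mul, ← integral_const_mul, ← integral_add i1 i2]
  refine integral_mono (gk_memLp_add ha hb).integrable_sq (i1.add i2) fun x => ?_
  simp only
  nlinarith [sq_nonneg (a x - b x)]

theorem gk_integral_add3_sq_le {a b c : α → ℝ} (ha : MemLp a 2 μ) (hb : MemLp b 2 μ)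
    (hc : MemLp c 2 μ) :
    ∫ x, (a x + b x + c x) ^ 2 ∂μ
      ≤ 3 * ∫ x, (a x) ^ 2 ∂μ + 3 * ∫ x, (b x) ^ 2 ∂μ + 3 * ∫ x, (c x) ^ 2 ∂μ := by
  have i1 : Integrable (fun x => 3 * (a x) ^ 2) μ := ha.integrable_sq.const_mul 3
  have i2 : Integrable (fun x => 3 * (b x) ^ 2) μ := hb.integrable_sq.const_mul 3
  have i3 : Integrable (fun x => 3 * (c x) ^ 2) μ := hc.integrable_sq.const_mul 3
  have i12 : Integrable (fun x => 3 * (a x) ^ 2 + 3 * (b x) ^ 2) μ := i1.add i2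
  rw [← integral_const_mul, ← integral_const_mul, ← integral_const_mul, ← integral_add i1 i2,
    ← integral_add i12 i3]
  refine integral_mono (gk_memLp_add (gk_memLp_add ha hb) hc).integrable_sq (i12.add i3)
    fun x => ?_
  simp only
  nlinarith [sq_nonneg (a x - b x), sq_nonneg (a x - c x), sq_nonneg (b x - c x)]

/-- a quantity whose square tends to `0` tends to `0` -/
theorem gk_tendsto_zero_of_sq {ι : Type*} {l : Filter ι} {f : ι → ℝ}
    (h : Tendsto (fun i => (f i) ^ 2) l (𝓝 0)) : Tendsto f l (𝓝 0) := by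
  have h1 : Tendsto (fun i => Real.sqrt ((f i) ^ 2)) l (𝓝 0) := by
    have := (Real.continuous_sqrt.tendsto 0).comp h
    simpa [Function.comp_def] using this
  simp_rw [Real.sqrt_sq_eq_abs] at h1
  exact (tendsto_zero_iff_abs_tendsto_zero f).2 h1

/-- continuity of the pairing, one factor fixed -/
theorem gk_tendsto_integral_mul_left {ι : Type*} {l : Filter ι} {a : ι → α → ℝ} {a' b : α → ℝ}
    (ha : ∀ᶠ i in l, MemLp (a i) 2 μ) (ha' : MemLp a' 2 μ) (hb : MemLp b 2 μ)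
    (h : Tendsto (fun i => ∫ x, (a i x - a' x) ^ 2 ∂μ) l (𝓝 0)) :
    Tendsto (fun i => ∫ x, a i x * b x ∂μ) l (𝓝 (∫ x, a' x * b x ∂μ)) := by
  rw [← tendsto_sub_nhds_zero_iff]
  apply gk_tendsto_zero_of_sq
  have h0 : Tendsto (fun i => (∫ x, (a i x - a' x) ^ 2 ∂μ) * ∫ x, (b x) ^ 2 ∂μ) l (𝓝 0) := by
    simpa using h.mul_const (∫ x, (b x) ^ 2 ∂μ)
  refine tendsto_of_tendsto_of_tendsto_of_le_of_le' tendsto_const_nhds h0
    (Eventually.of_forall fun i => sq_nonneg _) ?_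
  filter_upwards [ha] with i hi
  have e : ∫ x, a i x * b x ∂μ - ∫ x, a' x * b x ∂μ = ∫ x, (a i x - a' x) * b x ∂μ := by
    rw [← integral_sub (gk_integrable_mul hi hb) (gk_integrable_mul ha' hb)]
    simp_rw [sub_mul]
  rw [e]
  exact gk_cs (gk_memLp_sub hi ha') hb

theorem gk_tendsto_integral_mul_right {ι : Type*} {l : Filter ι} {a : ι → α → ℝ} {a' b : α → ℝ}
    (ha : ∀ᶠ i in l, MemLp (a i) 2 μ) (ha' : MemLp a' 2 μ) (hb : MemLp b 2 μ)
    (h : Tendsto (fun i => ∫ x, (a i x - a' x) ^ 2 ∂μ) l (𝓝 0)) :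
    Tendsto (fun i => ∫ x, b x * a i x ∂μ) l (𝓝 (∫ x, b x * a' x ∂μ)) := by
  simp_rw [mul_comm (b _)]
  exact gk_tendsto_integral_mul_left ha ha' hb h

/-- convergence in `L²` of a finite measure implies convergence of the integrals -/
theorem gk_tendsto_integral [IsFiniteMeasure μ] {ι : Type*} {l : Filter ι} {a : ι → α → ℝ}
    {a' : α → ℝ} (ha : ∀ᶠ i in l, MemLp (a i) 2 μ) (ha' : MemLp a' 2 μ)
    (h : Tendsto (fun i => ∫ x, (a i x - a' x) ^ 2 ∂μ) l (𝓝 0)) :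
    Tendsto (fun i => ∫ x, a i x ∂μ) l (𝓝 (∫ x, a' x ∂μ)) := by
  have := gk_tendsto_integral_mul_left ha ha' (memLp_const (1 : ℝ)) h
  simpa using this

/-- the squared norms converge -/
theorem gk_tendsto_integral_sq {ι : Type*} {l : Filter ι} {a : ι → α → ℝ}
    {a' : α → ℝ} (ha : ∀ᶠ i in l, MemLp (a i) 2 μ) (ha' : MemLp a' 2 μ)
    (h : Tendsto (fun i => ∫ x, (a i x - a' x) ^ 2 ∂μ) l (𝓝 0)) :
    Tendsto (fun i => ∫ x, (a i x) ^ 2 ∂μ) l (𝓝 (∫ x, (a' x) ^ 2 ∂μ)) := by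
  have h1 := gk_tendsto_integral_mul_left ha ha' ha' h
  have h2 : Tendsto (fun i => ∫ x, (a i x - a' x) ^ 2 ∂μ + 2 * ∫ x, a i x * a' x ∂μ
      - ∫ x, (a' x) ^ 2 ∂μ) l (𝓝 (0 + 2 * ∫ x, a' x * a' x ∂μ - ∫ x, (a' x) ^ 2 ∂μ)) :=
    (h.add (h1.const_mul 2)).sub tendsto_const_nhds
  have e0 : 0 + 2 * ∫ x, a' x * a' x ∂μ - ∫ x, (a' x) ^ 2 ∂μ = ∫ x, (a' x) ^ 2 ∂μ := by
    simp_rw [← sq]; ring
  rw [e0] at h2
  refine h2.congr' ?_
  filter_upwards [ha] with i hi
  have i1 := (gk_memLp_sub hi ha').integrable_sq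
  have i2 : Integrable (fun x => 2 * (a i x * a' x)) μ := (gk_integrable_mul hi ha').const_mul 2
  have i12 : Integrable (fun x => (a i x - a' x) ^ 2 + 2 * (a i x * a' x)) μ := i1.add i2
  rw [← integral_const_mul, ← integral_add i1 i2, ← integral_sub i12 ha'.integrable_sq]
  refine integral_congr_ae (Eventually.of_forall fun x => ?_)
  simp only
  ring

/-- continuity of the pairing, both factors moving -/
theorem gk_tendsto_integral_mul {ι : Type*} {l : Filter ι} {a b : ι → α → ℝ} {a' b' : α → ℝ}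
    (ha : ∀ᶠ i in l, MemLp (a i) 2 μ) (ha' : MemLp a' 2 μ)
    (hb : ∀ᶠ i in l, MemLp (b i) 2 μ) (hb' : MemLp b' 2 μ)
    (h : Tendsto (fun i => ∫ x, (a i x - a' x) ^ 2 ∂μ) l (𝓝 0))
    (h' : Tendsto (fun i => ∫ x, (b i x - b' x) ^ 2 ∂μ) l (𝓝 0)) :
    Tendsto (fun i => ∫ x, a i x * b i x ∂μ) l (𝓝 (∫ x, a' x * b' x ∂μ)) := by
  -- `a_i b_i = (a_i - a')(b_i - b') + a' (b_i - b') + a_i b'`
  have h1 : Tendsto (fun i => ∫ x, (a i x - a' x) * (b i x - b' x) ∂μ) l (𝓝 0) := by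
    apply gk_tendsto_zero_of_sq
    have h0 : Tendsto (fun i => (∫ x, (a i x - a' x) ^ 2 ∂μ) * ∫ x, (b i x - b' x) ^ 2 ∂μ) l
        (𝓝 0) := by simpa using h.mul h'
    refine tendsto_of_tendsto_of_tendsto_of_le_of_le' tendsto_const_nhds h0
      (Eventually.of_forall fun i => sq_nonneg _) ?_
    filter_upwards [ha, hb] with i hi hi'
    exact gk_cs (gk_memLp_sub hi ha') (gk_memLp_sub hi' hb')
  have h2 := gk_tendsto_integral_mul_right hb hb' ha' h'
  have h3 := gk_tendsto_integral_mul_left ha ha' hb' h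
  have hc : Tendsto (fun _ : ι => ∫ x, a' x * b' x ∂μ) l (𝓝 (∫ x, a' x * b' x ∂μ)) :=
    tendsto_const_nhds
  have h4 := ((h1.add h2).sub hc).add h3
  simp only [zero_add, sub_self] at h4
  refine h4.congr' ?_
  filter_upwards [ha, hb] with i hi hi'
  have i1 := gk_integrable_mul (gk_memLp_sub hi ha') (gk_memLp_sub hi' hb')
  have i2 := gk_integrable_mul ha' hi'
  have i3 := gk_integrable_mul ha' hb'
  have i4 := gk_integrable_mul hi hb'
  have i12 : Integrable (fun x => (a i x - a' x) * (b i x - b' x) + a' x * b i x) μ := i1.add i2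
  have i123 : Integrable (fun x => (a i x - a' x) * (b i x - b' x) + a' x * b i x - a' x * b' x) μ :=
    i12.sub i3
  rw [← integral_add i1 i2, ← integral_sub i12 i3, ← integral_add i123 i4]
  refine integral_congr_ae (Eventually.of_forall fun x => ?_)
  simp only
  ring

end Claimed.Agent.R260
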