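/-
Row 260, PACKAGE R6 (Sec. 6 of the paper, rigidity): definitions and interfaces.
Owner: helper30.  Everything lives on `Fin m → ℝ` with matrices in coordinates, so that the
package depends on no decision of the core team (bridges are written at the end).

INTERFACES (hypotheses of the glue theorem `rig_main` in `RigTop.lean`):
* `RigScalar q t`   : the scalar facts on the hazard rate `q` and `t = -log (1 - Phi)`;
* `RigOmega om`     : the two facts on the weight `omega` of (3.1);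
* `RigPoincare m`   : Gaussian Poincare inequality for Lipschitz functions;
* `RigCoreData q om g` : conclusion of Theorem 3.1 (smooth entropy bound WITH remainder) for the
                      density `g`, in a form which only mentions a Lipschitz transport map.
-/
import Mathlib
import Claimed.Prelude.Def_0429

set_option autoImplicit false

open MeasureTheory ProbabilityTheory Matrix
open scoped BigOperators ENNReal NNReal

namespace Claimed.Agent.R260

/-- The standard Gaussian measure on `Fin m → ℝ`. -/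
noncomputable def rig_gam (m : ℕ) : Measure (Fin m → ℝ) :=
  Measure.pi (fun _ => gaussianReal 0 1)

/-- Squared Frobenius norm. -/
def rig_fsq {m : ℕ} (M : Matrix (Fin m) (Fin m) ℝ) : ℝ := ∑ i, ∑ k, M i k ^ 2

/-- `J = f(A)` in the sense of spectral calculus, stated without choosing a representation:
implied by `cfc`, by `Matrix.IsHermitian.cfc` and by any eigenbasis formula. -/
def rig_IsMatFun {m : ℕ} (f : ℝ → ℝ) (A J : Matrix (Fin m) (Fin m) ℝ) : Prop :=
  ∃ U : Matrix (Fin m) (Fin m) ℝ, U * Uᵀ = 1 ∧ ∃ d : Fin m → ℝ,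
    A = U * diagonal d * Uᵀ ∧ J = U * diagonal (fun i => f (d i)) * Uᵀ

/-- The entropy gap `h(f) - m - (1/2) log det Cov f` (frozen definitions). -/
noncomputable def rig_gap {m : ℕ} (f : (Fin m → ℝ) → ℝ) : ℝ :=
  Claims.C0429.diffEntropy f - (m : ℝ) - (1 / 2) * Real.log (Claims.C0429.densityCov f).det

/-- First chaos coefficients `X_r = E (x_r A)`. -/
noncomputable def rig_X {m : ℕ} (A : (Fin m → ℝ) → Matrix (Fin m) (Fin m) ℝ) (r : Fin m) :
    Matrix (Fin m) (Fin m) ℝ :=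
  fun i k => ∫ x, x r * A x i k ∂(rig_gam m)

/-- The linear matrix field with coefficients `X`. -/
def rig_lin {m : ℕ} (X : Fin m → Matrix (Fin m) (Fin m) ℝ) (x : Fin m → ℝ) :
    Matrix (Fin m) (Fin m) ℝ :=
  ∑ r, x r • X r

/-- `Y = A - sum_r x_r X_r`. -/
noncomputable def rig_Y {m : ℕ} (A : (Fin m → ℝ) → Matrix (Fin m) (Fin m) ℝ) (x : Fin m → ℝ) :
    Matrix (Fin m) (Fin m) ℝ :=
  A x - rig_lin (rig_X A) x

/-- `B = sum_r X_r ^ 2`. -/
noncomputable def rig_B {m : ℕ} (A : (Fin m → ℝ) → Matrix (Fin m) (Fin m) ℝ) :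
    Matrix (Fin m) (Fin m) ℝ :=
  ∑ r, rig_X A r * rig_X A r

/-- Scalar facts used by Sec. 6. (`q` = Gaussian hazard rate, `t = -log (1 - Phi)`.) -/
structure RigScalar (q t : ℝ → ℝ) : Prop where
  q_lip : LipschitzWith 1 q
  t_deriv : ∀ a, HasDerivAt t (q a) a
  t_law : (gaussianReal 0 1).map t =
    volume.withDensity (fun u => ENNReal.ofReal (Claims.C0429.oneSidedExpDensity u))
  taylor : ∃ q0 q1 q2 C δ : ℝ, q1 ≠ 0 ∧ q2 ≠ 0 ∧ 0 < δ ∧
    ∀ a, |a| ≤ δ → |q a - (q0 + q1 * a + q2 * a ^ 2)| ≤ C * |a| ^ 3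

/-- The two facts on the rigidity weight `omega`. -/
structure RigOmega (om : ℝ → ℝ) : Prop where
  nonneg : ∀ l, 0 ≤ l → 0 ≤ om l
  coercive : ∀ ε, 0 < ε → ∃ δ, 0 < δ ∧ ∀ l, 0 ≤ l → ε ≤ |l - 1| → δ ≤ om l

/-- Gaussian Poincare inequality for Lipschitz functions. -/
def RigPoincare (m : ℕ) : Prop :=
  ∀ f : (Fin m → ℝ) → ℝ, (∃ K : ℝ≥0, LipschitzWith K f) →
    ∫ x, (f x - ∫ y, f y ∂(rig_gam m)) ^ 2 ∂(rig_gam m) ≤
      ∫ x, ∑ s, (lineDeriv ℝ f x (Pi.single s 1)) ^ 2 ∂(rig_gam m)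

/-- A probability density with finite second moments. -/
structure RigDensity {m : ℕ} (g : (Fin m → ℝ) → ℝ) : Prop where
  meas : Measurable g
  nonneg : ∀ x, 0 ≤ g x
  int_one : ∫ x, g x = 1
  mom2 : ∀ i, Integrable (fun x => x i ^ 2 * g x)

/-- The measure with density `g`. -/
noncomputable def rig_law {m : ℕ} (g : (Fin m → ℝ) → ℝ) : Measure (Fin m → ℝ) :=
  volume.withDensity (fun x => ENNReal.ofReal (g x))

/-- Conclusion of Theorem 3.1 (with Prop. 2.3) for the density `g`, as used in Sec. 6. -/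
structure RigCoreData (q om : ℝ → ℝ) {m : ℕ} (g : (Fin m → ℝ) → ℝ) where
  P : Matrix (Fin m) (Fin m) ℝ
  T : (Fin m → ℝ) → (Fin m → ℝ)
  A : (Fin m → ℝ) → Matrix (Fin m) (Fin m) ℝ
  J : (Fin m → ℝ) → Matrix (Fin m) (Fin m) ℝ
  P_det : P.det ≠ 0
  T_lip : ∃ K : ℝ≥0, LipschitzWith K T
  A_meas : ∀ i k, Measurable (fun x => A x i k)
  J_meas : ∀ i k, Measurable (fun x => J x i k)
  A_sq : Integrable (fun x => rig_fsq (A x)) (rig_gam m)
  deriv : ∀ᵐ x ∂(rig_gam m), ∀ i s,
    HasLineDerivAt ℝ (fun y => T y i) (J x i s) x (Pi.single s 1)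
  matFun : ∀ᵐ x ∂(rig_gam m), rig_IsMatFun q (A x) (J x)
  push : (rig_gam m).map T = (rig_law g).map (fun x => P *ᵥ x)
  remainder : ∃ U : Matrix (Fin m) (Fin m) ℝ, U * Uᵀ = 1 ∧ ∃ d : Fin m → ℝ,
    rig_B A = U * diagonal d * Uᵀ ∧
    (1 / 500) * ∫ x, rig_fsq (rig_Y A x) ∂(rig_gam m) + (1 / 1000) * ∑ i, om (d i)
      ≤ 2 * rig_gap g

end Claimed.Agent.R260
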