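/-
Row 260, package R6 (rigidity).  Matrix functions in the representation-free form `rig_IsMatFun`.
Leaf file.  Owner: see table subtask (R6-Mat).
-/
import Claimed.Agent.R260.RigDefs

set_option autoImplicit false

open MeasureTheory ProbabilityTheory Matrix
open scoped BigOperators ENNReal NNReal

namespace Claimed.Agent.R260

variable {m : ℕ}

lemma rig_fsq_nonneg (M : Matrix (Fin m) (Fin m) ℝ) : 0 ≤ rig_fsq M := by
  unfold rig_fsq; positivity

lemma rig_fsq_eq_trace (M : Matrix (Fin m) (Fin m) ℝ) : rig_fsq M = (Mᵀ * M).trace := by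
  simp only [rig_fsq, Matrix.trace, Matrix.diag_apply, Matrix.mul_apply, Matrix.transpose_apply]
  rw [Finset.sum_comm]
  simp only [sq]

lemma rig_entry_sq_le_fsq_aux (M : Matrix (Fin m) (Fin m) ℝ) (i k : Fin m) :
    M i k ^ 2 ≤ rig_fsq M := by
  unfold rig_fsq
  calc M i k ^ 2 ≤ ∑ k', M i k' ^ 2 :=
        Finset.single_le_sum (f := fun k' => M i k' ^ 2) (fun k' _ => sq_nonneg _)
          (Finset.mem_univ k)
    _ ≤ ∑ i', ∑ k', M i' k' ^ 2 :=
        Finset.single_le_sum (f := fun i' => ∑ k', M i' k' ^ 2)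
          (fun i' _ => Finset.sum_nonneg fun k' _ => sq_nonneg _) (Finset.mem_univ i)

lemma rig_fsq_eq_zero {M : Matrix (Fin m) (Fin m) ℝ} (h : rig_fsq M = 0) : M = 0 := by
  ext i k
  have h1 := rig_entry_sq_le_fsq_aux M i k
  rw [h] at h1
  have h2 : M i k ^ 2 = 0 := le_antisymm h1 (sq_nonneg _)
  simpa using h2

lemma rig_entry_sq_le_fsq (M : Matrix (Fin m) (Fin m) ℝ) (i k : Fin m) :
    M i k ^ 2 ≤ rig_fsq M :=
  rig_entry_sq_le_fsq_aux M i k

lemma rig_fsq_add_le (M N : Matrix (Fin m) (Fin m) ℝ) :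
    rig_fsq (M + N) ≤ 2 * rig_fsq M + 2 * rig_fsq N := by
  unfold rig_fsq
  simp only [Finset.mul_sum, ← Finset.sum_add_distrib]
  refine Finset.sum_le_sum fun i _ => Finset.sum_le_sum fun k _ => ?_
  rw [Matrix.add_apply]
  nlinarith [sq_nonneg (M i k - N i k)]

lemma rig_fsq_neg (M : Matrix (Fin m) (Fin m) ℝ) : rig_fsq (-M) = rig_fsq M := by
  simp [rig_fsq]

lemma rig_fsq_sub_comm (M N : Matrix (Fin m) (Fin m) ℝ) : rig_fsq (M - N) = rig_fsq (N - M) := by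
  rw [← rig_fsq_neg (M - N), neg_sub]

/-- Invariance of the Frobenius norm under left multiplication by an orthogonal matrix. -/
lemma rig_fsq_mul_left {P : Matrix (Fin m) (Fin m) ℝ} (hP : Pᵀ * P = 1)
    (M : Matrix (Fin m) (Fin m) ℝ) : rig_fsq (P * M) = rig_fsq M := by
  rw [rig_fsq_eq_trace, rig_fsq_eq_trace, Matrix.transpose_mul, Matrix.mul_assoc,
    ← Matrix.mul_assoc Pᵀ, hP, Matrix.one_mul]

/-- Invariance of the Frobenius norm under right multiplication by an orthogonal matrix. -/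
lemma rig_fsq_mul_right {Q : Matrix (Fin m) (Fin m) ℝ} (hQ : Q * Qᵀ = 1)
    (M : Matrix (Fin m) (Fin m) ℝ) : rig_fsq (M * Q) = rig_fsq M := by
  rw [rig_fsq_eq_trace, rig_fsq_eq_trace, Matrix.transpose_mul, Matrix.mul_assoc,
    Matrix.trace_mul_comm, Matrix.mul_assoc, Matrix.mul_assoc, hQ, Matrix.mul_one]

/-- Invariance of the Frobenius norm under orthogonal conjugation. -/
lemma rig_fsq_conj {U : Matrix (Fin m) (Fin m) ℝ} (hU : U * Uᵀ = 1)
    (M : Matrix (Fin m) (Fin m) ℝ) : rig_fsq (U * M * Uᵀ) = rig_fsq M := by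
  have hU' : Uᵀ * U = 1 := mul_eq_one_comm.mp hU
  rw [rig_fsq_mul_right (Q := Uᵀ) (by rw [Matrix.transpose_transpose]; exact hU'),
    rig_fsq_mul_left hU']

lemma rig_fsq_diagonal (d : Fin m → ℝ) : rig_fsq (diagonal d) = ∑ i, d i ^ 2 := by
  unfold rig_fsq
  refine Finset.sum_congr rfl fun i _ => ?_
  rw [Finset.sum_eq_single i]
  · simp
  · intro k _ hk
    simp [Matrix.diagonal_apply_ne _ (Ne.symm hk)]
  · simp

/-- Cauchy-Schwarz for a linear matrix field. -/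
lemma rig_fsq_lin_le (Z : Fin m → Matrix (Fin m) (Fin m) ℝ) (x : Fin m → ℝ) :
    rig_fsq (rig_lin Z x) ≤ (∑ r, x r ^ 2) * ∑ r, rig_fsq (Z r) := by
  have h1 : ∀ i k, rig_lin Z x i k ^ 2 ≤ (∑ r, x r ^ 2) * ∑ r, Z r i k ^ 2 := by
    intro i k
    have : rig_lin Z x i k = ∑ r, x r * Z r i k := by
      simp [rig_lin, Matrix.sum_apply]
    rw [this]
    exact Finset.sum_mul_sq_le_sq_mul_sq _ _ _
  calc rig_fsq (rig_lin Z x) = ∑ i, ∑ k, rig_lin Z x i k ^ 2 := rfl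
    _ ≤ ∑ i, ∑ k, (∑ r, x r ^ 2) * ∑ r, Z r i k ^ 2 :=
        Finset.sum_le_sum fun i _ => Finset.sum_le_sum fun k _ => h1 i k
    _ = (∑ r, x r ^ 2) * ∑ r, rig_fsq (Z r) := by
        simp only [← Finset.mul_sum, rig_fsq]
        congr 1
        calc ∑ i, ∑ k, ∑ r, Z r i k ^ 2 = ∑ i, ∑ r, ∑ k, Z r i k ^ 2 :=
              Finset.sum_congr rfl fun i _ => Finset.sum_comm
          _ = ∑ r, ∑ i, ∑ k, Z r i k ^ 2 := Finset.sum_comm

lemma rig_isMatFun_symm {f : ℝ → ℝ} {A J : Matrix (Fin m) (Fin m) ℝ}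
    (h : rig_IsMatFun f A J) : A.IsSymm ∧ J.IsSymm := by
  obtain ⟨U, -, d, rfl, rfl⟩ := h
  constructor <;>
    simp [Matrix.IsSymm, Matrix.transpose_mul, Matrix.mul_assoc]

/-- Existence (spectral theorem). -/
lemma rig_isMatFun_exists (f : ℝ → ℝ) {A : Matrix (Fin m) (Fin m) ℝ} (hA : A.IsSymm) :
    ∃ J, rig_IsMatFun f A J := by
  have hH : A.IsHermitian := by
    rw [Matrix.IsHermitian, Matrix.conjTranspose_eq_transpose_of_trivial]
    exact hA
  set U : Matrix (Fin m) (Fin m) ℝ := (hH.eigenvectorUnitary : Matrix (Fin m) (Fin m) ℝ) with hU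
  have hstar : (star U : Matrix (Fin m) (Fin m) ℝ) = Uᵀ := by
    rw [Matrix.star_eq_conjTranspose, Matrix.conjTranspose_eq_transpose_of_trivial]
  have hUU : U * Uᵀ = 1 := by
    rw [← hstar]
    exact Unitary.mul_star_self_of_mem hH.eigenvectorUnitary.2
  refine ⟨U * diagonal (fun i => f (hH.eigenvalues i)) * Uᵀ, U, hUU, hH.eigenvalues, ?_, rfl⟩
  have h := hH.spectral_theorem
  rw [Unitary.conjStarAlgAut_apply] at h
  have h2 : (RCLike.ofReal ∘ hH.eigenvalues : Fin m → ℝ) = hH.eigenvalues := by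
    funext i; simp
  rw [h2] at h
  rw [← hstar]
  exact h

open Classical in
/-- A choice of `f(A)`. -/
noncomputable def rig_mf (f : ℝ → ℝ) (A : Matrix (Fin m) (Fin m) ℝ) : Matrix (Fin m) (Fin m) ℝ :=
  if h : ∃ J, rig_IsMatFun f A J then h.choose else 0

lemma rig_mf_spec (f : ℝ → ℝ) {A : Matrix (Fin m) (Fin m) ℝ} (hA : A.IsSymm) :
    rig_IsMatFun f A (rig_mf f A) := by
  have h := rig_isMatFun_exists f hA
  unfold rig_mf
  rw [dif_pos h]
  exact h.choose_spec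

/-- The Frobenius distance of two matrices given in (different) orthonormal eigenbases. -/
lemma rig_fsq_sub_conj {U V : Matrix (Fin m) (Fin m) ℝ} (hU : U * Uᵀ = 1) (hV : V * Vᵀ = 1)
    (a b : Fin m → ℝ) :
    rig_fsq (U * diagonal a * Uᵀ - V * diagonal b * Vᵀ) =
      ∑ i, ∑ k, ((a i - b k) * (Uᵀ * V) i k) ^ 2 := by
  have hU' : Uᵀ * U = 1 := mul_eq_one_comm.mp hU
  have hV' : Vᵀ * V = 1 := mul_eq_one_comm.mp hV
  have key : Uᵀ * (U * diagonal a * Uᵀ - V * diagonal b * Vᵀ) * V =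
      diagonal a * (Uᵀ * V) - (Uᵀ * V) * diagonal b := by
    rw [Matrix.mul_sub, Matrix.sub_mul]
    congr 1
    · calc Uᵀ * (U * diagonal a * Uᵀ) * V = (Uᵀ * U) * diagonal a * (Uᵀ * V) := by
            simp only [Matrix.mul_assoc]
        _ = _ := by rw [hU', Matrix.one_mul]
    · calc Uᵀ * (V * diagonal b * Vᵀ) * V = (Uᵀ * V) * diagonal b * (Vᵀ * V) := by
            simp only [Matrix.mul_assoc]
        _ = _ := by rw [hV', Matrix.mul_one]
  have h1 : rig_fsq (U * diagonal a * Uᵀ - V * diagonal b * Vᵀ) =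
      rig_fsq (Uᵀ * (U * diagonal a * Uᵀ - V * diagonal b * Vᵀ) * V) := by
    rw [rig_fsq_mul_right hV, rig_fsq_mul_left (P := Uᵀ) (by rw [Matrix.transpose_transpose, hU])]
  rw [h1, key]
  unfold rig_fsq
  refine Finset.sum_congr rfl fun i _ => Finset.sum_congr rfl fun k _ => ?_
  rw [Matrix.sub_apply, Matrix.diagonal_mul, Matrix.mul_diagonal]
  ring

/-- Lemma 6.2 of the paper (Frobenius-Lipschitz bound for matrix functions). -/
lemma rig_isMatFun_lipschitz {f : ℝ → ℝ} {K : ℝ} (hf : ∀ a b, |f a - f b| ≤ K * |a - b|)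
    {M N J J' : Matrix (Fin m) (Fin m) ℝ} (h1 : rig_IsMatFun f M J) (h2 : rig_IsMatFun f N J') :
    rig_fsq (J - J') ≤ K ^ 2 * rig_fsq (M - N) := by
  obtain ⟨U, hU, a, rfl, rfl⟩ := h1
  obtain ⟨V, hV, b, rfl, rfl⟩ := h2
  rw [rig_fsq_sub_conj hU hV, rig_fsq_sub_conj hU hV]
  simp only [Finset.mul_sum]
  refine Finset.sum_le_sum fun i _ => Finset.sum_le_sum fun k _ => ?_
  have h := pow_le_pow_left₀ (abs_nonneg _) (hf (a i) (b k)) 2
  rw [sq_abs, mul_pow, sq_abs] at h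
  rw [mul_pow, mul_pow, ← mul_assoc]
  exact mul_le_mul_of_nonneg_right h (sq_nonneg _)

/-- Uniqueness of `f(A)`. -/
lemma rig_isMatFun_unique {f : ℝ → ℝ} {A J J' : Matrix (Fin m) (Fin m) ℝ}
    (h1 : rig_IsMatFun f A J) (h2 : rig_IsMatFun f A J') : J = J' := by
  obtain ⟨U, hU, a, hA, rfl⟩ := h1
  obtain ⟨V, hV, b, hA', rfl⟩ := h2
  have h0 : rig_fsq (U * diagonal a * Uᵀ - V * diagonal b * Vᵀ) = 0 := by
    rw [← hA, ← hA', sub_self]
    simp [rig_fsq]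
  rw [rig_fsq_sub_conj hU hV] at h0
  have hz : ∀ i k, (a i - b k) * (Uᵀ * V) i k = 0 := by
    intro i k
    have h1 : ((a i - b k) * (Uᵀ * V) i k) ^ 2 ≤
        ∑ i, ∑ k, ((a i - b k) * (Uᵀ * V) i k) ^ 2 :=
      rig_entry_sq_le_fsq (Matrix.of fun i k => (a i - b k) * (Uᵀ * V) i k) i k
    rw [h0] at h1
    have h2 : ((a i - b k) * (Uᵀ * V) i k) ^ 2 = 0 := le_antisymm h1 (sq_nonneg _)
    simpa using h2
  have h3 : rig_fsq (U * diagonal (fun i => f (a i)) * Uᵀ - V * diagonal (fun i => f (b i)) * Vᵀ)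
      = 0 := by
    rw [rig_fsq_sub_conj hU hV]
    refine Finset.sum_eq_zero fun i _ => Finset.sum_eq_zero fun k _ => ?_
    rcases mul_eq_zero.mp (hz i k) with h | h
    · have : a i = b k := sub_eq_zero.mp h
      rw [this]; simp
    · rw [h]; simp
  exact sub_eq_zero.mp (rig_fsq_eq_zero h3)

/-- Cubic remainder bound: `|q(A) - (q0 + q1 A + q2 A^2)|_F <= C |A|_F^3` for small `A`. -/
lemma rig_isMatFun_taylor {q : ℝ → ℝ} {q0 q1 q2 C δ : ℝ}
    (hq : ∀ a, |a| ≤ δ → |q a - (q0 + q1 * a + q2 * a ^ 2)| ≤ C * |a| ^ 3)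
    {A J : Matrix (Fin m) (Fin m) ℝ} (h : rig_IsMatFun q A J) (hA : rig_fsq A ≤ δ ^ 2)
    (hδ : 0 < δ) :
    rig_fsq (J - (q0 • (1 : Matrix (Fin m) (Fin m) ℝ) + q1 • A + q2 • (A * A)))
      ≤ C ^ 2 * rig_fsq A ^ 3 := by
  obtain ⟨U, hU, d, rfl, rfl⟩ := h
  have hU' : Uᵀ * U = 1 := mul_eq_one_comm.mp hU
  have hAA : (U * diagonal d * Uᵀ) * (U * diagonal d * Uᵀ) =
      U * (diagonal d * diagonal d) * Uᵀ := by
    calc (U * diagonal d * Uᵀ) * (U * diagonal d * Uᵀ)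
        = U * diagonal d * (Uᵀ * U) * diagonal d * Uᵀ := by simp only [Matrix.mul_assoc]
      _ = _ := by rw [hU', Matrix.mul_one]; simp only [Matrix.mul_assoc]
  have hpoly : q0 • (1 : Matrix (Fin m) (Fin m) ℝ) + q1 • (U * diagonal d * Uᵀ) +
      q2 • ((U * diagonal d * Uᵀ) * (U * diagonal d * Uᵀ)) =
      U * diagonal (fun i => q0 + q1 * d i + q2 * d i ^ 2) * Uᵀ := by
    have hd : diagonal (fun i => q0 + q1 * d i + q2 * d i ^ 2) =
        q0 • (1 : Matrix (Fin m) (Fin m) ℝ) + q1 • diagonal d + q2 • (diagonal d * diagonal d) := by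
      rw [Matrix.diagonal_mul_diagonal]
      ext i k
      by_cases hik : i = k
      · subst hik
        simp [sq]
      · simp [hik, Matrix.one_apply_ne hik]
    rw [hd, hAA]
    simp only [Matrix.mul_add, Matrix.add_mul, Matrix.mul_smul, Matrix.smul_mul, Matrix.mul_one, hU]
  rw [hpoly, ← Matrix.sub_mul, ← Matrix.mul_sub, Matrix.diagonal_sub, rig_fsq_conj hU,
    rig_fsq_conj hU, rig_fsq_diagonal, rig_fsq_diagonal] 
  rw [rig_fsq_conj hU, rig_fsq_diagonal] at hA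
  set S := ∑ i, d i ^ 2 with hS
  have hS0 : 0 ≤ S := Finset.sum_nonneg fun i _ => sq_nonneg _
  have hdS : ∀ i, d i ^ 2 ≤ S := fun i =>
    Finset.single_le_sum (f := fun i => d i ^ 2) (fun i _ => sq_nonneg _) (Finset.mem_univ i)
  have hterm : ∀ i, (q (d i) - (q0 + q1 * d i + q2 * d i ^ 2)) ^ 2 ≤ C ^ 2 * (d i ^ 2 * S ^ 2) := by
    intro i
    have hdi : |d i| ≤ δ := abs_le_of_sq_le_sq ((hdS i).trans hA) hδ.le
    have h1 := pow_le_pow_left₀ (abs_nonneg _) (hq (d i) hdi) 2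
    rw [sq_abs, mul_pow] at h1
    refine h1.trans (mul_le_mul_of_nonneg_left ?_ (sq_nonneg _))
    have h2 : (|d i| ^ 3) ^ 2 = d i ^ 2 * (d i ^ 2) ^ 2 := by
      rw [← sq_abs (d i)]; ring
    rw [h2]
    exact mul_le_mul_of_nonneg_left (pow_le_pow_left₀ (sq_nonneg _) (hdS i) 2) (sq_nonneg _)
  calc ∑ i, (q (d i) - (q0 + q1 * d i + q2 * d i ^ 2)) ^ 2
      ≤ ∑ i, C ^ 2 * (d i ^ 2 * S ^ 2) := Finset.sum_le_sum fun i _ => hterm i
    _ = C ^ 2 * S ^ 3 := by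
        rw [← Finset.mul_sum, ← Finset.sum_mul, ← hS]; ring

end Claimed.Agent.R260
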