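/-
Row 260, package NORM, block NormCont (continuity of `P ↦ E q⁻¹(J_P)`), leaf A: matrix and scalar
facts.  Sub-owner of the block: helper30.  Leaf owner: helper223 (NORMC-A).
-/
import Claimed.Agent.R260.CorePre
import Claimed.Agent.R260.RigMat

set_option autoImplicit false

open MeasureTheory ProbabilityTheory Matrix Filter Topology Set
open scoped BigOperators ENNReal NNReal

namespace Claimed.Agent.R260

variable {m : ℕ}

theorem normc_mxSq_eq_fsq (F : Mat m) : mxSq F = rig_fsq F := mxSq_eq_sum F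

/-- polarisation of `rig_fsq_sub_conj`. -/
theorem normc_ip_sub_conj {U V : Mat m} (hU : U * Uᵀ = 1) (hV : V * Vᵀ = 1)
    (a b c d : Fin m → ℝ) :
    ∑ k, ∑ l, (U * diagonal a * Uᵀ - V * diagonal b * Vᵀ) k l *
        (U * diagonal c * Uᵀ - V * diagonal d * Vᵀ) k l =
      ∑ i, ∑ k, (a i - b k) * (c i - d k) * ((Uᵀ * V) i k) ^ 2 := by
  have hp := rig_fsq_sub_conj hU hV (fun i => a i + c i) (fun i => b i + d i)
  have hm := rig_fsq_sub_conj hU hV (fun i => a i - c i) (fun i => b i - d i)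
  have ep : U * diagonal (fun i => a i + c i) * Uᵀ - V * diagonal (fun i => b i + d i) * Vᵀ =
      (U * diagonal a * Uᵀ - V * diagonal b * Vᵀ) + (U * diagonal c * Uᵀ - V * diagonal d * Vᵀ) := by
    rw [← Matrix.diagonal_add, ← Matrix.diagonal_add]
    simp only [Matrix.mul_add, Matrix.add_mul]
    abel
  have em : U * diagonal (fun i => a i - c i) * Uᵀ - V * diagonal (fun i => b i - d i) * Vᵀ =
      (U * diagonal a * Uᵀ - V * diagonal b * Vᵀ) - (U * diagonal c * Uᵀ - V * diagonal d * Vᵀ) := by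
    rw [← Matrix.diagonal_sub, ← Matrix.diagonal_sub]
    simp only [Matrix.mul_sub, Matrix.sub_mul]
    abel
  rw [ep] at hp
  rw [em] at hm
  set X := U * diagonal a * Uᵀ - V * diagonal b * Vᵀ
  set Y := U * diagonal c * Uᵀ - V * diagonal d * Vᵀ
  have h1 : ∑ k, ∑ l, X k l * Y k l = (rig_fsq (X + Y) - rig_fsq (X - Y)) / 4 := by
    unfold rig_fsq
    rw [← Finset.sum_sub_distrib, Finset.sum_div]
    refine Finset.sum_congr rfl fun k _ => ?_
    rw [← Finset.sum_sub_distrib, Finset.sum_div]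
    refine Finset.sum_congr rfl fun l _ => ?_
    rw [Matrix.add_apply, Matrix.sub_apply]
    ring
  rw [h1, hp, hm, ← Finset.sum_sub_distrib, Finset.sum_div]
  refine Finset.sum_congr rfl fun i _ => ?_
  rw [← Finset.sum_sub_distrib, Finset.sum_div]
  refine Finset.sum_congr rfl fun k _ => ?_
  ring

/-- The inverse as a matrix function. -/
theorem normc_inv_eq {lam Lam : ℝ} (hlam : 0 < lam) {J : Mat m} (hs : J.IsSymm)
    (h : ∀ i, mxEig J i ∈ Icc lam Lam) : J⁻¹ = mxFun (fun a => a⁻¹) J := by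
  have h1 := mxFun_mul_inv (f := fun a => a) (A := J)
    (fun i => (lt_of_lt_of_le hlam (h i).1).ne')
  rw [mxFun_id hs] at h1
  exact Matrix.inv_eq_right_inv h1

/-- Strong monotonicity of `J ↦ -J⁻¹` on `[lam, Lam]` in the Frobenius pairing.
(Mixed eigenbases: `∑ (1/a_i - 1/b_k)(a_i - b_k) w_ik² = -∑ (a_i-b_k)²/(a_i b_k) w_ik²`.) -/
theorem normc_mat_mono {lam Lam : ℝ} (hlam : 0 < lam) {J1 J2 : Mat m}
    (h1s : J1.IsSymm) (h2s : J2.IsSymm)
    (h1 : ∀ i, mxEig J1 i ∈ Icc lam Lam) (h2 : ∀ i, mxEig J2 i ∈ Icc lam Lam) :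
    mxSq (J1 - J2) ≤ -(Lam ^ 2 * ∑ k, ∑ l, (J1⁻¹ - J2⁻¹) k l * (J1 - J2) k l) := by
  have hU := mxU_mul_transpose J1
  have hV := mxU_mul_transpose J2
  have e1 : J1⁻¹ - J2⁻¹ = mxU J1 * diagonal (fun i => (mxEig J1 i)⁻¹) * (mxU J1)ᵀ -
      mxU J2 * diagonal (fun i => (mxEig J2 i)⁻¹) * (mxU J2)ᵀ := by
    rw [normc_inv_eq hlam h1s h1, normc_inv_eq hlam h2s h2]
    rfl
  have e2 : J1 - J2 = mxU J1 * diagonal (mxEig J1) * (mxU J1)ᵀ -
      mxU J2 * diagonal (mxEig J2) * (mxU J2)ᵀ := by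
    rw [← mx_spectral h1s, ← mx_spectral h2s]
  rw [normc_mxSq_eq_fsq, e1]
  conv_lhs => rw [e2]
  conv_rhs => rw [e2]
  rw [rig_fsq_sub_conj hU hV, normc_ip_sub_conj hU hV, Finset.mul_sum, ← Finset.sum_neg_distrib]
  refine Finset.sum_le_sum fun i _ => ?_
  rw [Finset.mul_sum, ← Finset.sum_neg_distrib]
  refine Finset.sum_le_sum fun k _ => ?_
  set a := mxEig J1 i
  set b := mxEig J2 k
  set w := ((mxU J1)ᵀ * mxU J2) i k
  have ha : 0 < a := lt_of_lt_of_le hlam (h1 i).1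
  have hb : 0 < b := lt_of_lt_of_le hlam (h2 k).1
  have haL : a ≤ Lam := (h1 i).2
  have hbL : b ≤ Lam := (h2 k).2
  have e : -(Lam ^ 2 * ((a⁻¹ - b⁻¹) * (a - b) * w ^ 2)) =
      Lam ^ 2 / (a * b) * ((a - b) * w) ^ 2 := by
    field_simp
    ring
  rw [e]
  have hab : 1 ≤ Lam ^ 2 / (a * b) := by
    rw [le_div_iff₀ (mul_pos ha hb), one_mul, sq]
    exact mul_le_mul haL hbL hb.le (ha.le.trans haL)
  nlinarith [sq_nonneg ((a - b) * w)]

/-- Frobenius-Lipschitz bound for a function which is Lipschitz on `[lam, Lam]`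
(from `rig_isMatFun_lipschitz` applied to `f ∘ clamp`). -/
theorem normc_mat_lip {lam Lam K : ℝ} {f : ℝ → ℝ}
    (hf : ∀ a ∈ Icc lam Lam, ∀ b ∈ Icc lam Lam, |f a - f b| ≤ K * |a - b|) {J1 J2 : Mat m}
    (h1s : J1.IsSymm) (h2s : J2.IsSymm)
    (h1 : ∀ i, mxEig J1 i ∈ Icc lam Lam) (h2 : ∀ i, mxEig J2 i ∈ Icc lam Lam) :
    mxSq (mxFun f J1 - mxFun f J2) ≤ K ^ 2 * mxSq (J1 - J2) := by
  have hU := mxU_mul_transpose J1
  have hV := mxU_mul_transpose J2
  have e2 : J1 - J2 = mxU J1 * diagonal (mxEig J1) * (mxU J1)ᵀ -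
      mxU J2 * diagonal (mxEig J2) * (mxU J2)ᵀ := by
    rw [← mx_spectral h1s, ← mx_spectral h2s]
  rw [normc_mxSq_eq_fsq, normc_mxSq_eq_fsq, e2]
  unfold mxFun
  rw [rig_fsq_sub_conj hU hV, rig_fsq_sub_conj hU hV]
  simp only [Finset.mul_sum]
  refine Finset.sum_le_sum fun i _ => Finset.sum_le_sum fun k _ => ?_
  have h := pow_le_pow_left₀ (abs_nonneg _) (hf _ (h1 i) _ (h2 k)) 2
  rw [sq_abs, mul_pow, sq_abs] at h
  rw [mul_pow, mul_pow, ← mul_assoc]
  exact mul_le_mul_of_nonneg_right h (sq_nonneg _)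

/-- `q⁻¹` is Lipschitz on compact subintervals of `(0, ∞)`. -/
theorem normc_qinv_lip {lam Lam : ℝ} (hlam : 0 < lam) :
    ∃ K : ℝ, 0 ≤ K ∧ ∀ a ∈ Icc lam Lam, ∀ b ∈ Icc lam Lam,
      |scQinv a - scQinv b| ≤ K * |a - b| := by
  have hsub : Icc lam Lam ⊆ Ioi 0 := fun y hy => lt_of_lt_of_le hlam hy.1
  obtain ⟨C, hC⟩ := isCompact_Icc.exists_bound_of_continuousOn (cp_qinv1_continuousOn.mono hsub)
  refine ⟨max C 0, le_max_right _ _, fun a ha b hb => ?_⟩
  have h := (convex_Icc lam Lam).norm_image_sub_le_of_norm_hasDerivWithin_le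
    (f := scQinv) (f' := cpQinv1) (C := max C 0)
    (fun y hy => (hasDerivAt_scQinv (hsub hy)).hasDerivWithinAt)
    (fun y hy => (hC y hy).trans (le_max_left _ _)) hb ha
  simpa [Real.norm_eq_abs] using h

/-- Entries of the inverse. -/
theorem normc_inv_entry {lam Lam : ℝ} (hlam : 0 < lam) {J : Mat m} (hs : J.IsSymm)
    (h : ∀ i, mxEig J i ∈ Icc lam Lam) (k l : Fin m) : |J⁻¹ k l| ≤ 1 / lam := by
  rw [normc_inv_eq hlam hs h]
  refine mxFun_apply_abs_le (fun i => ?_) k l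
  have hi : 0 < mxEig J i := lt_of_lt_of_le hlam (h i).1
  rw [abs_of_pos (inv_pos.mpr hi), one_div]
  exact inv_anti₀ hlam (h i).1

/-- a.e.-measurability of the entries of `f(J)` for `f` continuous on `[lam, Lam]`, `J` a measurable
field which is a.e. symmetric with spectrum in `[lam, Lam]` (via `f ∘ clamp`, `mxFun_continuous`,
`cp_measurable_comp`). -/
theorem normc_aemeasurable_mxFun {lam Lam : ℝ} (hle : lam ≤ Lam) {f : ℝ → ℝ}
    (hf : ContinuousOn f (Icc lam Lam)) {J : EE m → Mat m}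
    (hJ : ∀ i j, Measurable fun x => J x i j)
    (hs : ∀ᵐ x ∂gam m, (J x).IsSymm) (hsp : ∀ᵐ x ∂gam m, ∀ i, mxEig (J x) i ∈ Icc lam Lam)
    (i j : Fin m) : AEStronglyMeasurable (fun x => mxFun f (J x) i j) (gam m) := by
  have hg : Continuous fun a => f (cpClamp lam Lam a) :=
    hf.comp_continuous (cpClamp_continuous lam Lam) fun a => cpClamp_mem hle a
  have hmeas := cp_measurable_comp (mxFun_continuous hg) hJ i j
  refine ⟨_, hmeas.stronglyMeasurable, ?_⟩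
  filter_upwards [hs, hsp] with x h1 h2
  have e : (1 / 2 : ℝ) • (J x + (J x)ᵀ) = J x := cpSym_of_isSymm h1
  rw [e]
  have : mxFun f (J x) = mxFun (fun a => f (cpClamp lam Lam a)) (J x) :=
    mxFun_congr fun k => by rw [cpClamp_of_mem (h2 k)]
  rw [this]

end Claimed.Agent.R260
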