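/-
Row 260, package T1 (architect helper220).  File OTClassLim: limits and compactness in the class.
Proofs: helper291.
-/
import Claimed.Agent.R260.OTClass

set_option autoImplicit false

namespace Claimed.Agent.R260

open MeasureTheory Set Filter Topology
open scoped InnerProductSpace

section NoDim

variable {E : Type*} [NormedAddCommGroup E] [InnerProductSpace ℝ E]

/-- convexity passes to pointwise limits -/
theorem ot_convexOn_of_tendsto {gn : ℕ → E → ℝ} {g : E → ℝ} (h : ∀ n, ConvexOn ℝ univ (gn n))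
    (hg : ∀ x, Tendsto (fun n => gn n x) atTop (𝓝 (g x))) : ConvexOn ℝ univ g := by
  refine ⟨convex_univ, fun x _ y _ s t hs ht hst => ?_⟩
  exact le_of_tendsto_of_tendsto' (hg _) (((hg x).const_smul s).add ((hg y).const_smul t))
    fun n => (h n).2 (mem_univ x) (mem_univ y) hs ht hst

end NoDim

variable {E : Type*} [NormedAddCommGroup E] [InnerProductSpace ℝ E] [FiniteDimensional ℝ E]

variable {a b : ℝ} {f : E → ℝ}

omit [FiniteDimensional ℝ E] in
/-- the class is closed under pointwise limits -/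
theorem otQC.of_tendsto {an bn : ℕ → ℝ} {fn : ℕ → E → ℝ} (h : ∀ n, otQC (an n) (bn n) (fn n))
    (ha : Tendsto an atTop (𝓝 a)) (hb : Tendsto bn atTop (𝓝 b))
    (hf : ∀ x, Tendsto (fun n => fn n x) atTop (𝓝 (f x))) : otQC a b f := by
  constructor
  · exact ot_convexOn_of_tendsto (fun n => (h n).1) fun x =>
      (hf x).sub ((ha.div_const 2).mul_const _)
  · exact ot_convexOn_of_tendsto (fun n => (h n).2) fun x =>
      ((hb.div_const 2).mul_const _).sub (hf x)

/-- one-sided estimate for the gradients of a converging sequence of convex functions -/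
theorem ot_eventually_inner_lt {a' b' : ℝ} {fn : ℕ → E → ℝ} (h : ∀ n, otQC 0 b' (fn n))
    (hf0 : otQC a' b f)
    (hf : ∀ x, Tendsto (fun n => fn n x) atTop (𝓝 (f x))) (x v : E) {ε : ℝ} (hε : 0 < ε) :
    ∀ᶠ n in atTop, ⟪gradient (fn n) x - gradient f x, v⟫_ℝ < ε := by
  set t : ℝ := ε / (|b| * ‖v‖ ^ 2 + 1) with ht
  have hden : 0 < |b| * ‖v‖ ^ 2 + 1 := by positivity
  have htpos : 0 < t := div_pos hε hden
  set U : ℕ → ℝ := fun n => (fn n (x + t • v) - fn n x) / t - ⟪gradient f x, v⟫_ℝ with hU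
  set L : ℝ := (f (x + t • v) - f x) / t - ⟪gradient f x, v⟫_ℝ with hL
  have hUL : Tendsto U atTop (𝓝 L) := (((hf _).sub (hf _)).div_const t).sub_const _
  have hLε : L < ε := by
    have h1 := hf0.upper x (x + t • v)
    rw [add_sub_cancel_left, inner_smul_right, norm_smul, Real.norm_of_nonneg htpos.le] at h1
    have h2 : (f (x + t • v) - f x) / t ≤ ⟪gradient f x, v⟫_ℝ + b / 2 * t * ‖v‖ ^ 2 := by
      rw [div_le_iff₀ htpos]
      nlinarith
    have h3 : b / 2 * t * ‖v‖ ^ 2 ≤ |b| * ‖v‖ ^ 2 * t / 2 := by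
      have : b ≤ |b| := le_abs_self b
      have h0 : 0 ≤ t * ‖v‖ ^ 2 := by positivity
      nlinarith
    have h4 : |b| * ‖v‖ ^ 2 * t ≤ ε := by
      rw [ht, mul_div_assoc', div_le_iff₀ hden]
      have : 0 ≤ |b| * ‖v‖ ^ 2 := by positivity
      nlinarith
    simp only [hL]
    linarith
  filter_upwards [hUL.eventually (gt_mem_nhds hLε)] with n hn
  refine lt_of_le_of_lt ?_ hn
  have h1 := (h n).lower x (x + t • v)
  rw [add_sub_cancel_left, inner_smul_right] at h1
  have h2 : ⟪gradient (fn n) x, v⟫_ℝ ≤ (fn n (x + t • v) - fn n x) / t := by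
    rw [le_div_iff₀ htpos]
    nlinarith
  simp only [hU]
  rw [inner_sub_left]
  linarith

/-- pointwise convergence in the class implies pointwise convergence of the gradients -/
theorem otQC.tendsto_gradient {a' b' : ℝ} {fn : ℕ → E → ℝ} (h : ∀ n, otQC 0 b' (fn n))
    (hf0 : otQC a' b f)
    (hf : ∀ x, Tendsto (fun n => fn n x) atTop (𝓝 (f x))) (x : E) :
    Tendsto (fun n => gradient (fn n) x) atTop (𝓝 (gradient f x)) := by
  have hweak : ∀ v : E,
      Tendsto (fun n => ⟪v, gradient (fn n) x - gradient f x⟫_ℝ) atTop (𝓝 0) := by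
    intro v
    rw [Metric.tendsto_nhds]
    intro ε hε
    filter_upwards [ot_eventually_inner_lt h hf0 hf x v hε,
      ot_eventually_inner_lt h hf0 hf x (-v) hε] with n h1 h2
    rw [Real.dist_eq, sub_zero, abs_lt, real_inner_comm]
    rw [inner_neg_right] at h2
    constructor <;> linarith
  set e := stdOrthonormalBasis ℝ E with he
  have hsum : Tendsto (fun n => ∑ i, ⟪e i, gradient (fn n) x - gradient f x⟫_ℝ • e i) atTop
      (𝓝 (∑ i, (0 : ℝ) • e i)) :=
    tendsto_finsetSum _ fun i _ => (hweak (e i)).smul_const (e i)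
  simp only [OrthonormalBasis.sum_repr', zero_smul, Finset.sum_const_zero] at hsum
  have := hsum.add_const (gradient f x)
  simpa using this

/-- functions of the normalised class are equi-Lipschitz on bounded sets -/
theorem ot_abs_sub_le {g : E → ℝ} {R : ℝ} (h : otQC 0 b g) (hR : ‖gradient g 0‖ ≤ R) (x y : E) :
    |g x - g y| ≤ (R + |b| * (‖x‖ + ‖y‖)) * ‖x - y‖ := by
  have hgr : ∀ z, ‖gradient g z‖ ≤ R + |b| * ‖z‖ := by
    intro z
    have h1 := h.grad_lipschitz le_rfl z 0
    rw [sub_zero] at h1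
    have h2 : ‖gradient g z‖ ≤ ‖gradient g z - gradient g 0‖ + ‖gradient g 0‖ := by
      have := norm_add_le (gradient g z - gradient g 0) (gradient g 0)
      simpa using this
    have h3 : b * ‖z‖ ≤ |b| * ‖z‖ := mul_le_mul_of_nonneg_right (le_abs_self b) (norm_nonneg z)
    linarith
  have hb0 : 0 ≤ |b| := abs_nonneg b
  have hxy : 0 ≤ ‖x - y‖ := norm_nonneg _
  have h1 := h.lower x y
  have h2 := h.lower y x
  have h3 : -(‖gradient g x‖ * ‖x - y‖) ≤ ⟪gradient g x, y - x⟫_ℝ := by
    have := abs_real_inner_le_norm (gradient g x) (y - x)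
    rw [norm_sub_rev y x] at this
    linarith [neg_abs_le ⟪gradient g x, y - x⟫_ℝ]
  have h4 : -(‖gradient g y‖ * ‖x - y‖) ≤ ⟪gradient g y, x - y⟫_ℝ := by
    have := abs_real_inner_le_norm (gradient g y) (x - y)
    linarith [neg_abs_le ⟪gradient g y, x - y⟫_ℝ]
  have h5 := mul_le_mul_of_nonneg_right (hgr x) hxy
  have h6 := mul_le_mul_of_nonneg_right (hgr y) hxy
  have h7 : 0 ≤ |b| * ‖x‖ * ‖x - y‖ := by positivity
  have h8 : 0 ≤ |b| * ‖y‖ * ‖x - y‖ := by positivity
  rw [_root_.abs_le]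
  constructor <;> nlinarith

/-- sequential compactness of the normalised class -/
theorem otQC.exists_subseq {fn : ℕ → E → ℝ} {R : ℝ} (h : ∀ n, otQC 0 b (fn n))
    (h0 : ∀ n, fn n 0 = 0) (hR : ∀ n, ‖gradient (fn n) 0‖ ≤ R) :
    ∃ (g : E → ℝ) (k : ℕ → ℕ), StrictMono k ∧
      ∀ x, Tendsto (fun n => fn (k n) x) atTop (𝓝 (g x)) := by
  have : ProperSpace E := FiniteDimensional.proper_real E
  set d : ℕ → E := TopologicalSpace.denseSeq E with hd
  -- bounds at the points of the dense sequence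
  set M : ℕ → ℝ := fun i => (R + |b| * ‖d i‖) * ‖d i‖ with hM
  have hbd : ∀ n i, fn n (d i) ∈ Icc (-M i) (M i) := by
    intro n i
    have := ot_abs_sub_le (h n) (hR n) (d i) 0
    rw [h0 n, sub_zero, sub_zero, norm_zero, add_zero] at this
    exact _root_.abs_le.1 this
  have hcomp : IsCompact (Set.pi univ fun i => Icc (-M i) (M i)) :=
    isCompact_univ_pi fun i => isCompact_Icc
  obtain ⟨c, -, k, hk, hc⟩ := hcomp.tendsto_subseq (x := fun n i => fn n (d i))
    (fun n i _ => hbd n i)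
  have hci : ∀ i, Tendsto (fun n => fn (k n) (d i)) atTop (𝓝 (c i)) := fun i =>
    (tendsto_pi_nhds.1 hc) i
  have hcauchy : ∀ x, CauchySeq fun n => fn (k n) x := by
    intro x
    rw [Metric.cauchySeq_iff]
    intro ε hε
    set L : ℝ := R + |b| * (2 * ‖x‖ + 1) with hL
    have hR0 : 0 ≤ R := (norm_nonneg _).trans (hR 0)
    have hL0 : 0 ≤ L := by positivity
    set δ : ℝ := min 1 (ε / (3 * (L + 1))) with hδ
    have hδpos : 0 < δ := lt_min one_pos (by positivity)
    obtain ⟨i, hi⟩ := (TopologicalSpace.denseRange_denseSeq E).exists_dist_lt x hδpos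
    rw [dist_eq_norm] at hi
    have hi1 : ‖x - d i‖ < 1 := lt_of_lt_of_le hi (min_le_left _ _)
    have hi2 : ‖x - d i‖ < ε / (3 * (L + 1)) := lt_of_lt_of_le hi (min_le_right _ _)
    have hdi : ‖d i‖ ≤ ‖x‖ + 1 := by
      have h1 : ‖d i‖ ≤ ‖x‖ + ‖x - d i‖ := by
        have := norm_sub_le x (x - d i)
        simpa using this
      linarith
    have hclose : ∀ n, |fn n x - fn n (d i)| < ε / 3 := by
      intro n
      have h1 := ot_abs_sub_le (h n) (hR n) x (d i)
      have h2 : R + |b| * (‖x‖ + ‖d i‖) ≤ L := by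
        have : |b| * (‖x‖ + ‖d i‖) ≤ |b| * (2 * ‖x‖ + 1) :=
          mul_le_mul_of_nonneg_left (by linarith) (abs_nonneg b)
        linarith
      have h3 : (R + |b| * (‖x‖ + ‖d i‖)) * ‖x - d i‖ ≤ L * ‖x - d i‖ :=
        mul_le_mul_of_nonneg_right h2 (norm_nonneg _)
      have h4 : (L + 1) * ‖x - d i‖ < ε / 3 := by
        have h5 : (L + 1) * ‖x - d i‖ < (L + 1) * (ε / (3 * (L + 1))) :=
          mul_lt_mul_of_pos_left hi2 (by linarith)
        have h6 : (L + 1) * (ε / (3 * (L + 1))) = ε / 3 := by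
          field_simp
        linarith
      have h7 : L * ‖x - d i‖ ≤ (L + 1) * ‖x - d i‖ :=
        mul_le_mul_of_nonneg_right (by linarith) (norm_nonneg _)
      linarith
    obtain ⟨N, hN⟩ := Metric.cauchySeq_iff.1 (hci i).cauchySeq (ε / 3) (by positivity)
    refine ⟨N, fun m hm n hn => ?_⟩
    have h1 := hN m hm n hn
    rw [Real.dist_eq] at h1 ⊢
    have h2 := hclose (k m)
    have h3 := hclose (k n)
    rw [abs_lt] at h1 h2 h3 ⊢
    constructor <;> linarith [h1.1, h1.2, h2.1, h2.2, h3.1, h3.2]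
  choose g hg using fun x => cauchySeq_tendsto_of_complete (hcauchy x)
  exact ⟨g, k, hk, hg⟩

end Claimed.Agent.R260
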