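/-
Row 260, packages T1 + T7 (owner helper220).  File OTLimit: compactness/limit, existence of the
Brenier potential with the two-sided Caffarelli bounds, uniqueness and stability.
Proofs: helper291.
-/
import Claimed.Agent.R260.OTMeas
import Claimed.Agent.R260.OTClassLim

set_option autoImplicit false

namespace Claimed.Agent.R260

open MeasureTheory Set Filter Topology
open scoped InnerProductSpace

variable {E : Type*} [NormedAddCommGroup E] [InnerProductSpace ℝ E] [FiniteDimensional ℝ E]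
  [MeasurableSpace E] [BorelSpace E]

/-- the cut-off `min 1 (max 0 (‖y‖ - ρ))` -/
noncomputable def otCut (ρ : ℝ) (y : E) : ℝ := min 1 (max 0 (‖y‖ - ρ))

omit [InnerProductSpace ℝ E] [FiniteDimensional ℝ E] [MeasurableSpace E] [BorelSpace E] in
theorem otCut_nonneg (ρ : ℝ) (y : E) : 0 ≤ otCut ρ y :=
  le_min zero_le_one (le_max_left _ _)

omit [InnerProductSpace ℝ E] [FiniteDimensional ℝ E] [MeasurableSpace E] [BorelSpace E] in
theorem otCut_le_one (ρ : ℝ) (y : E) : otCut ρ y ≤ 1 := min_le_left _ _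

omit [InnerProductSpace ℝ E] [FiniteDimensional ℝ E] [MeasurableSpace E] [BorelSpace E] in
theorem otCut_abs_le (ρ : ℝ) (y : E) : |otCut ρ y| ≤ 1 := by
  rw [abs_of_nonneg (otCut_nonneg ρ y)]
  exact otCut_le_one ρ y

omit [InnerProductSpace ℝ E] [FiniteDimensional ℝ E] [MeasurableSpace E] [BorelSpace E] in
theorem otCut_lipschitz (ρ : ℝ) : LipschitzWith 1 (otCut ρ : E → ℝ) := by
  have h1 : LipschitzWith 1 (fun y : E => ‖y‖ - ρ) := by
    refine LipschitzWith.of_dist_le_mul fun x y => ?_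
    rw [Real.dist_eq, NNReal.coe_one, one_mul, dist_eq_norm]
    have : ‖x‖ - ρ - (‖y‖ - ρ) = ‖x‖ - ‖y‖ := by ring
    rw [this]
    exact abs_norm_sub_norm_le x y
  exact (h1.const_max 0).const_min 1

omit [InnerProductSpace ℝ E] [FiniteDimensional ℝ E] [MeasurableSpace E] [BorelSpace E] in
theorem otCut_eq_zero {ρ : ℝ} {y : E} (h : ‖y‖ ≤ ρ) : otCut ρ y = 0 := by
  unfold otCut
  rw [max_eq_left (by linarith), min_eq_right zero_le_one]

omit [InnerProductSpace ℝ E] [FiniteDimensional ℝ E] [MeasurableSpace E] [BorelSpace E] in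
theorem otCut_eq_one {ρ : ℝ} {y : E} (h : ρ + 1 ≤ ‖y‖) : otCut ρ y = 1 := by
  unfold otCut
  rw [max_eq_right (by linarith), min_eq_left (by linarith)]

omit [InnerProductSpace ℝ E] [FiniteDimensional ℝ E] in
theorem otCut_integral_tendsto (μ : Measure E) [IsProbabilityMeasure μ] :
    Tendsto (fun k : ℕ => ∫ y, otCut (k : ℝ) y ∂μ) atTop (𝓝 0) := by
  have h := tendsto_integral_of_dominated_convergence (μ := μ) (F := fun (k : ℕ) y => otCut (k : ℝ) y)
    (f := fun _ => (0 : ℝ)) (fun _ => (1 : ℝ))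
    (fun k => (otCut_lipschitz (k : ℝ)).continuous.aestronglyMeasurable)
    (integrable_const 1)
    (fun k => Eventually.of_forall fun y => by
      rw [Real.norm_eq_abs]; exact otCut_abs_le _ y)
    (Eventually.of_forall fun y => by
      refine tendsto_const_nhds.congr' ?_
      filter_upwards [eventually_ge_atTop ⌈‖y‖⌉₊] with k hk
      exact (otCut_eq_zero ((Nat.le_ceil _).trans (by exact_mod_cast hk))).symm)
  simpa using h

/-- tightness: approximate push-forwards have bounded values at `0` -/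
theorem ot_grad_zero_bdd {μ : Measure E} [IsProbabilityMeasure μ] {b₀ : ℝ}
    {φn : ℕ → E → ℝ} (h : ∀ n, otQC 0 b₀ (φn n))
    (happ : ∀ g : E → ℝ, (∀ y, |g y| ≤ 1) → LipschitzWith 1 g →
      Tendsto (fun n => ∫ x, g (gradient (φn n) x) ∂(otGauss E)) atTop (𝓝 (∫ y, g y ∂μ))) :
    ∃ R : ℝ, ∀ n, ‖gradient (φn n) 0‖ ≤ R := by
  set γ : Measure E := otGauss E with hγ
  set c : ℝ := (γ (Metric.ball 0 1)).toReal with hc
  have hcpos : 0 < c := by
    refine ENNReal.toReal_pos ?_ (measure_ne_top _ _)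
    exact (otMeas_pos_of_isOpen (W := (otW0 : E → ℝ)) otW0_QC.continuous Metric.isOpen_ball
      ⟨0, Metric.mem_ball_self one_pos⟩).ne'
  obtain ⟨k, hk⟩ := ((otCut_integral_tendsto μ).eventually (gt_mem_nhds hcpos)).exists
  set ρ : ℝ := (k : ℝ) with hρ
  have hev : ∀ᶠ n in atTop, ∫ x, otCut ρ (gradient (φn n) x) ∂γ < c :=
    (happ (otCut ρ) (otCut_abs_le ρ) (otCut_lipschitz ρ)).eventually (gt_mem_nhds hk)
  have hbound : ∀ᶠ n in atTop, ‖gradient (φn n) 0‖ ≤ ρ + 1 + |b₀| := by
    filter_upwards [hev] with n hn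
    by_contra hcon
    rw [not_le] at hcon
    have hTc : Continuous (gradient (φn n)) := (h n).grad_continuous le_rfl
    have hint : Integrable (fun x => otCut ρ (gradient (φn n) x)) γ :=
      Integrable.of_bound ((otCut_lipschitz ρ).continuous.comp hTc).aestronglyMeasurable 1
        (Eventually.of_forall fun x => by rw [Real.norm_eq_abs]; exact otCut_abs_le _ _)
    have hle : ∀ x, (Metric.ball (0 : E) 1).indicator (fun _ => (1 : ℝ)) x
        ≤ otCut ρ (gradient (φn n) x) := by
      intro x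
      by_cases hx : x ∈ Metric.ball (0 : E) 1
      · rw [indicator_of_mem hx]
        have hx1 : ‖x‖ < 1 := by simpa using hx
        have h1 := (h n).grad_lipschitz le_rfl x 0
        rw [sub_zero] at h1
        have h2 : ‖gradient (φn n) 0‖ ≤ ‖gradient (φn n) x‖ +
            ‖gradient (φn n) x - gradient (φn n) 0‖ := by
          have := norm_sub_le (gradient (φn n) x) (gradient (φn n) x - gradient (φn n) 0)
          simpa using this
        have h3 : b₀ * ‖x‖ ≤ |b₀| := by
          calc b₀ * ‖x‖ ≤ |b₀| * ‖x‖ := mul_le_mul_of_nonneg_right (le_abs_self _) (norm_nonneg _)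
            _ ≤ |b₀| * 1 := mul_le_mul_of_nonneg_left hx1.le (abs_nonneg _)
            _ = |b₀| := mul_one _
        rw [otCut_eq_one (by linarith)]
      · rw [indicator_of_notMem hx]
        exact otCut_nonneg _ _
    have hi : Integrable ((Metric.ball (0 : E) 1).indicator (fun _ => (1 : ℝ))) γ :=
      (integrable_const 1).indicator measurableSet_ball
    have h4 := integral_mono hi hint hle
    rw [integral_indicator measurableSet_ball, setIntegral_const, smul_eq_mul, mul_one] at h4
    have h5 : γ.real (Metric.ball 0 1) = c := rfl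
    linarith
  have hbdd : BddAbove (range fun n => ‖gradient (φn n) 0‖) :=
    Filter.IsBoundedUnder.bddAbove_range ⟨_, by simpa using hbound⟩
  obtain ⟨R, hR⟩ := hbdd
  exact ⟨R, fun n => hR ⟨n, rfl⟩⟩

omit [FiniteDimensional ℝ E] [MeasurableSpace E] [BorelSpace E] in
theorem ot_gradient_add_const [CompleteSpace E] (f : E → ℝ) (c : ℝ) :
    gradient (fun x => f x + c) = gradient f := by
  funext x
  unfold gradient
  rw [fderiv_add_const]

/-- the general limit lemma -/
theorem ot_limit {μ : Measure E} [IsProbabilityMeasure μ] {a b : ℝ} {an bn : ℕ → ℝ}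
    {φn : ℕ → E → ℝ} (h : ∀ n, otQC (an n) (bn n) (φn n)) (han : ∀ n, 0 ≤ an n)
    (ha : Tendsto an atTop (𝓝 a)) (hb : Tendsto bn atTop (𝓝 b))
    (happ : ∀ g : E → ℝ, (∀ y, |g y| ≤ 1) → LipschitzWith 1 g →
      Tendsto (fun n => ∫ x, g (gradient (φn n) x) ∂(otGauss E)) atTop (𝓝 (∫ y, g y ∂μ))) :
    ∃ (φ : E → ℝ) (k : ℕ → ℕ), StrictMono k ∧ otQC a b φ ∧
      (∀ x, Tendsto (fun n => gradient (φn (k n)) x) atTop (𝓝 (gradient φ x))) ∧
      (otGauss E).map (gradient φ) = μ := by
  have : CompleteSpace E := FiniteDimensional.complete ℝ E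
  obtain ⟨b₀, hb₀⟩ := hb.bddAbove_range
  have hb₀' : ∀ n, bn n ≤ b₀ := fun n => hb₀ ⟨n, rfl⟩
  have ha0 : 0 ≤ a := ge_of_tendsto' ha han
  have h0 : ∀ n, otQC 0 b₀ (φn n) := fun n => (h n).mono (han n) (hb₀' n)
  obtain ⟨R, hR⟩ := ot_grad_zero_bdd h0 happ
  set ψ : ℕ → E → ℝ := fun n x => φn n x + -(φn n 0) with hψ
  have hψg : ∀ n, gradient (ψ n) = gradient (φn n) := fun n => ot_gradient_add_const _ _
  have hψQ : ∀ n, otQC (an n) (bn n) (ψ n) := fun n => (h n).add_const _
  have hψ0 : ∀ n, otQC 0 b₀ (ψ n) := fun n => (h0 n).add_const _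
  obtain ⟨φ, k, hk, hφ⟩ := otQC.exists_subseq hψ0 (fun n => by simp [hψ])
    (fun n => by rw [hψg]; exact hR n)
  have hQ : otQC a b φ := otQC.of_tendsto (fun n => hψQ (k n)) (ha.comp hk.tendsto_atTop)
    (hb.comp hk.tendsto_atTop) hφ
  have hgrad : ∀ x, Tendsto (fun n => gradient (φn (k n)) x) atTop (𝓝 (gradient φ x)) := by
    intro x
    have := otQC.tendsto_gradient (fun n => hψ0 (k n)) hQ hφ x
    simpa only [hψg] using this
  refine ⟨φ, k, hk, hQ, hgrad, ?_⟩
  have hTc : Continuous (gradient φ) := hQ.grad_continuous ha0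
  refine ot_measure_ext fun g hg1 hgL => ?_
  rw [integral_map hTc.aemeasurable hgL.continuous.aestronglyMeasurable]
  have l1 : Tendsto (fun n => ∫ x, g (gradient (φn (k n)) x) ∂(otGauss E)) atTop
      (𝓝 (∫ y, g y ∂μ)) := (happ g hg1 hgL).comp hk.tendsto_atTop
  have l2 : Tendsto (fun n => ∫ x, g (gradient (φn (k n)) x) ∂(otGauss E)) atTop
      (𝓝 (∫ x, g (gradient φ x) ∂(otGauss E))) := by
    refine tendsto_integral_of_dominated_convergence (fun _ => (1 : ℝ)) (fun n => ?_)
      (integrable_const 1) (fun n => Eventually.of_forall fun x => ?_)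
      (Eventually.of_forall fun x => ?_)
    · exact (hgL.continuous.comp ((h0 (k n)).grad_continuous le_rfl)).aestronglyMeasurable
    · rw [Real.norm_eq_abs]; exact hg1 _
    · exact (hgL.continuous.tendsto _).comp (hgrad x)
  exact tendsto_nhds_unique l2 l1

end Claimed.Agent.R260
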