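/-
Row 260, package T1 (owner helper220).  File OTSoft: the soft Legendre transform (one Sinkhorn
half-step), its kernel, conditional mean and conditional variance.
Owner of the proofs: helper88.
-/
import Claimed.Agent.R260.OTMeas
import Claimed.Agent.Lib.PLLaplace

set_option autoImplicit false

namespace Claimed.Agent.R260

open MeasureTheory Set Filter Topology
open scoped InnerProductSpace

variable {E : Type*} [NormedAddCommGroup E] [InnerProductSpace ℝ E] [FiniteDimensional ℝ E]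
  [MeasurableSpace E] [BorelSpace E]

/-- soft Legendre transform of `ψ` with respect to `μ` at temperature `ε` -/
noncomputable def otSL (ε : ℝ) (μ : Measure E) (ψ : E → ℝ) (x : E) : ℝ :=
  ε * Real.log (∫ y, Real.exp ((⟪x, y⟫_ℝ - ψ y) / ε) ∂μ)

/-- the Gibbs kernel -/
noncomputable def otK (ε : ℝ) (φ ψ : E → ℝ) (x y : E) : ℝ :=
  Real.exp ((⟪x, y⟫_ℝ - φ x - ψ y) / ε)

variable {ε α α' : ℝ} {ψ : E → ℝ} {μ : Measure E}

omit [MeasurableSpace E] [BorelSpace E] in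
/-- for `ψ` uniformly convex, `y ↦ (1+‖y‖²) exp((⟪x,y⟫-ψ y)/ε)` is bounded -/
theorem otSL_bdd (hε : 0 < ε) (hα : 0 < α) (hψ : otQC α α' ψ) (x : E) :
    ∃ M : ℝ, ∀ y, (1 + ‖y‖ ^ 2) * Real.exp ((⟪x, y⟫_ℝ - ψ y) / ε) ≤ M := by
  have hκ : 0 < α / ε := by positivity
  have hU : ConvexOn ℝ univ (fun y => ψ y / ε - (α / ε) / 2 * ‖y‖ ^ 2) := by
    have := hψ.1.smul (show (0:ℝ) ≤ 1 / ε by positivity)
    refine this.congr ?_
    intro y _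
    simp only [smul_eq_mul]
    field_simp
  obtain ⟨C, -, hC⟩ := PL.pl_exp_le_gaussian hκ hU
  refine ⟨Real.exp ((‖(1 / ε) • x‖ + C) ^ 2 / (α / ε) - ψ 0 / ε) * (1 + 4 / (α / ε)), fun y => ?_⟩
  have h1 := hC ((1 / ε) • x) y
  have e1 : ⟪(1 / ε) • x, y⟫_ℝ - ψ y / ε = (⟪x, y⟫_ℝ - ψ y) / ε := by
    rw [real_inner_smul_left]; field_simp
  rw [e1] at h1
  have h2 : (1 + ‖y‖ ^ 2) * Real.exp (-(α / ε / 4) * ‖y‖ ^ 2) ≤ 1 + 4 / (α / ε) := by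
    set u := (α / ε / 4) * ‖y‖ ^ 2 with hu
    have hu0 : 0 ≤ u := by positivity
    have h3 : Real.exp (-u) ≤ 1 := Real.exp_le_one_iff.2 (by linarith)
    have h4 : u * Real.exp (-u) ≤ 1 := by
      have h5 : u ≤ Real.exp u := by linarith [Real.add_one_le_exp u]
      rw [Real.exp_neg]
      rw [← div_eq_mul_inv, div_le_one (Real.exp_pos u)]
      exact h5
    have h6 : ‖y‖ ^ 2 = 4 / (α / ε) * u := by
      rw [hu]; field_simp
    have h7 : -(α / ε / 4) * ‖y‖ ^ 2 = -u := by rw [hu]; ring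
    rw [h7, h6]
    have h8 : 0 ≤ 4 / (α / ε) := by positivity
    nlinarith
  calc (1 + ‖y‖ ^ 2) * Real.exp ((⟪x, y⟫_ℝ - ψ y) / ε)
      ≤ (1 + ‖y‖ ^ 2) * (Real.exp ((‖(1 / ε) • x‖ + C) ^ 2 / (α / ε) - ψ 0 / ε)
          * Real.exp (-(α / ε / 4) * ‖y‖ ^ 2)) :=
        mul_le_mul_of_nonneg_left h1 (by positivity)
    _ = Real.exp ((‖(1 / ε) • x‖ + C) ^ 2 / (α / ε) - ψ 0 / ε)
          * ((1 + ‖y‖ ^ 2) * Real.exp (-(α / ε / 4) * ‖y‖ ^ 2)) := by ring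
    _ ≤ _ := mul_le_mul_of_nonneg_left h2 (Real.exp_pos _).le

omit [MeasurableSpace E] [BorelSpace E] in
theorem otSL_continuous_exp (hψ : otQC α α' ψ) (x : E) :
    Continuous (fun y => Real.exp ((⟪x, y⟫_ℝ - ψ y) / ε)) := by
  have := hψ.continuous
  fun_prop

theorem otSL_integrable [IsFiniteMeasure μ] (hε : 0 < ε) (hα : 0 < α) (hψ : otQC α α' ψ) (x : E) :
    Integrable (fun y => Real.exp ((⟪x, y⟫_ℝ - ψ y) / ε)) μ := by
  obtain ⟨M, hM⟩ := otSL_bdd hε hα hψ x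
  refine Integrable.of_bound (otSL_continuous_exp hψ x).aestronglyMeasurable M
    (Eventually.of_forall fun y => ?_)
  rw [Real.norm_of_nonneg (Real.exp_pos _).le]
  refine le_trans ?_ (hM y)
  have : 0 ≤ ‖y‖ ^ 2 * Real.exp ((⟪x, y⟫_ℝ - ψ y) / ε) := by positivity
  nlinarith

theorem otSL_integral_pos [IsProbabilityMeasure μ] (hε : 0 < ε) (hα : 0 < α) (hψ : otQC α α' ψ)
    (x : E) : 0 < ∫ y, Real.exp ((⟪x, y⟫_ℝ - ψ y) / ε) ∂μ :=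
  integral_exp_pos (otSL_integrable hε hα hψ x)

theorem otK_pos (φ ψ : E → ℝ) (x y : E) : 0 < otK ε φ ψ x y := Real.exp_pos _

omit [FiniteDimensional ℝ E] [MeasurableSpace E] [BorelSpace E] in
theorem otK_eq (φ ψ : E → ℝ) (x y : E) :
    otK ε φ ψ x y = Real.exp (-φ x / ε) * Real.exp ((⟪x, y⟫_ℝ - ψ y) / ε) := by
  unfold otK
  rw [← Real.exp_add]; congr 1; ring

theorem otK_integrable [IsFiniteMeasure μ] (hε : 0 < ε) (hα : 0 < α) (hψ : otQC α α' ψ)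
    (φ : E → ℝ) (x : E) : Integrable (fun y => otK ε φ ψ x y) μ := by
  simp_rw [otK_eq]
  exact (otSL_integrable hε hα hψ x).const_mul _

theorem otK_integrable_norm_sq [IsFiniteMeasure μ] (hε : 0 < ε) (hα : 0 < α) (hψ : otQC α α' ψ)
    (φ : E → ℝ) (x z : E) : Integrable (fun y => ‖y - z‖ ^ 2 * otK ε φ ψ x y) μ := by
  obtain ⟨M, hM⟩ := otSL_bdd hε hα hψ x
  have hc := otSL_continuous_exp (ε := ε) hψ x
  simp_rw [otK_eq]
  refine Integrable.of_bound (by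
    have : Continuous (fun y => ‖y - z‖ ^ 2 * (Real.exp (-φ x / ε)
      * Real.exp ((⟪x, y⟫_ℝ - ψ y) / ε))) := by fun_prop
    exact this.aestronglyMeasurable) (Real.exp (-φ x / ε) * ((2 + 2 * ‖z‖ ^ 2) * M))
    (Eventually.of_forall fun y => ?_)
  rw [Real.norm_of_nonneg (by positivity)]
  have h1 : ‖y - z‖ ^ 2 ≤ (2 + 2 * ‖z‖ ^ 2) * (1 + ‖y‖ ^ 2) := by
    have h2 : ‖y - z‖ ≤ ‖y‖ + ‖z‖ := norm_sub_le y z
    have h3 : ‖y - z‖ ^ 2 ≤ (‖y‖ + ‖z‖) ^ 2 := by gcongr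
    nlinarith [sq_nonneg (‖y‖ - ‖z‖), sq_nonneg (‖y‖ * ‖z‖), norm_nonneg y, norm_nonneg z]
  have hE := Real.exp_pos ((⟪x, y⟫_ℝ - ψ y) / ε)
  calc ‖y - z‖ ^ 2 * (Real.exp (-φ x / ε) * Real.exp ((⟪x, y⟫_ℝ - ψ y) / ε))
      ≤ ((2 + 2 * ‖z‖ ^ 2) * (1 + ‖y‖ ^ 2))
          * (Real.exp (-φ x / ε) * Real.exp ((⟪x, y⟫_ℝ - ψ y) / ε)) :=
        mul_le_mul_of_nonneg_right h1 (by positivity)
    _ = Real.exp (-φ x / ε) * ((2 + 2 * ‖z‖ ^ 2)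
          * ((1 + ‖y‖ ^ 2) * Real.exp ((⟪x, y⟫_ℝ - ψ y) / ε))) := by ring
    _ ≤ _ := by
        gcongr
        exact hM y

theorem otK_integrable_smul [IsFiniteMeasure μ] (hε : 0 < ε) (hα : 0 < α) (hψ : otQC α α' ψ)
    (φ : E → ℝ) (x : E) : Integrable (fun y => otK ε φ ψ x y • y) μ := by
  obtain ⟨M, hM⟩ := otSL_bdd hε hα hψ x
  have hc := otSL_continuous_exp (ε := ε) hψ x
  simp_rw [otK_eq]
  refine Integrable.of_bound (by
    have : Continuous (fun y => (Real.exp (-φ x / ε)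
      * Real.exp ((⟪x, y⟫_ℝ - ψ y) / ε)) • y) := by fun_prop
    exact this.aestronglyMeasurable) (Real.exp (-φ x / ε) * M)
    (Eventually.of_forall fun y => ?_)
  rw [norm_smul, Real.norm_of_nonneg (by positivity)]
  have h1 : ‖y‖ ≤ 1 + ‖y‖ ^ 2 := by nlinarith [sq_nonneg (‖y‖ - 1), norm_nonneg y]
  calc Real.exp (-φ x / ε) * Real.exp ((⟪x, y⟫_ℝ - ψ y) / ε) * ‖y‖
      ≤ Real.exp (-φ x / ε) * Real.exp ((⟪x, y⟫_ℝ - ψ y) / ε) * (1 + ‖y‖ ^ 2) :=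
        mul_le_mul_of_nonneg_left h1 (by positivity)
    _ = Real.exp (-φ x / ε) * ((1 + ‖y‖ ^ 2) * Real.exp ((⟪x, y⟫_ℝ - ψ y) / ε)) := by ring
    _ ≤ _ := by
        gcongr
        exact hM y

theorem otSL_exp_div [IsProbabilityMeasure μ] (hε : 0 < ε) (hα : 0 < α)
    (hψ : otQC α α' ψ) (x : E) :
    Real.exp (otSL ε μ ψ x / ε) = ∫ y, Real.exp ((⟪x, y⟫_ℝ - ψ y) / ε) ∂μ := by
  unfold otSL
  rw [mul_div_cancel_left₀ _ hε.ne', Real.exp_log (otSL_integral_pos hε hα hψ x)]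

/-- S2: the first marginal is exact after a half-step -/
theorem otK_integral_eq_one [IsProbabilityMeasure μ] (hε : 0 < ε) (hα : 0 < α)
    (hψ : otQC α α' ψ) (x : E) : ∫ y, otK ε (otSL ε μ ψ) ψ x y ∂μ = 1 := by
  simp_rw [otK_eq]
  rw [integral_const_mul, ← otSL_exp_div hε hα hψ x, ← Real.exp_add]
  simp [neg_div]

/-- the exponential moments of the conditional law -/
theorem otK_integral_exp [IsProbabilityMeasure μ] (hε : 0 < ε) (hα : 0 < α)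
    (hψ : otQC α α' ψ) (x v : E) :
    ∫ y, Real.exp (⟪v, y⟫_ℝ / ε) * otK ε (otSL ε μ ψ) ψ x y ∂μ =
      Real.exp ((otSL ε μ ψ (x + v) - otSL ε μ ψ x) / ε) := by
  have e : ∀ y, Real.exp (⟪v, y⟫_ℝ / ε) * otK ε (otSL ε μ ψ) ψ x y
      = Real.exp (-otSL ε μ ψ x / ε) * Real.exp ((⟪x + v, y⟫_ℝ - ψ y) / ε) := by
    intro y
    rw [otK_eq, ← Real.exp_add, ← Real.exp_add, ← Real.exp_add, inner_add_left]
    congr 1; ring
  simp_rw [e]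
  rw [integral_const_mul, ← otSL_exp_div hε hα hψ (x + v), ← Real.exp_add]
  congr 1; ring

/-- the conditional mean is a subgradient of the soft Legendre transform -/
theorem otSL_subgradient [IsProbabilityMeasure μ] (hε : 0 < ε) (hα : 0 < α) (hψ : otQC α α' ψ)
    (x v : E) :
    otSL ε μ ψ x + ⟪∫ y, otK ε (otSL ε μ ψ) ψ x y • y ∂μ, v⟫_ℝ ≤ otSL ε μ ψ (x + v) := by
  set φ := otSL ε μ ψ with hφ
  set m := ∫ y, otK ε φ ψ x y • y ∂μ with hm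
  have hK1 := otK_integral_eq_one (μ := μ) hε hα hψ x
  have hKi := otK_integrable (μ := μ) hε hα hψ φ x
  have hKs := otK_integrable_smul (μ := μ) hε hα hψ φ x
  have hexp := otK_integral_exp (μ := μ) hε hα hψ x v
  -- integrability of `exp (⟪v,y⟫/ε) K`
  have hEi : Integrable (fun y => Real.exp (⟪v, y⟫_ℝ / ε) * otK ε φ ψ x y) μ := by
    have e : ∀ y, Real.exp (⟪v, y⟫_ℝ / ε) * otK ε φ ψ x y
        = Real.exp (-φ x / ε) * Real.exp ((⟪x + v, y⟫_ℝ - ψ y) / ε) := by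
      intro y
      rw [otK_eq, ← Real.exp_add, ← Real.exp_add, ← Real.exp_add, inner_add_left]
      congr 1; ring
    simp_rw [e]
    exact (otSL_integrable hε hα hψ (x + v)).const_mul _
  -- `∫ ⟪v, y⟫ K = ⟪v, m⟫`
  have hin : ∫ y, ⟪v, y⟫_ℝ * otK ε φ ψ x y ∂μ = ⟪v, m⟫_ℝ := by
    rw [hm, ← integral_inner hKs v]
    refine integral_congr_ae (Eventually.of_forall fun y => ?_)
    show ⟪v, y⟫_ℝ * otK ε φ ψ x y = ⟪v, otK ε φ ψ x y • y⟫_ℝ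
    rw [real_inner_smul_right]; ring
  have hini : Integrable (fun y => ⟪v, y⟫_ℝ * otK ε φ ψ x y) μ := by
    refine (hKs.const_inner v).congr (Eventually.of_forall fun y => ?_)
    show ⟪v, otK ε φ ψ x y • y⟫_ℝ = ⟪v, y⟫_ℝ * otK ε φ ψ x y
    rw [real_inner_smul_right]; ring
  -- integrate `e^u ≥ 1 + u`, `u = ⟪v, y - m⟫ / ε`
  have hle : ∫ y, (otK ε φ ψ x y + (1 / ε) * (⟪v, y⟫_ℝ * otK ε φ ψ x y)
        - (⟪v, m⟫_ℝ / ε) * otK ε φ ψ x y) ∂μ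
      ≤ ∫ y, Real.exp (-(⟪v, m⟫_ℝ / ε)) * (Real.exp (⟪v, y⟫_ℝ / ε) * otK ε φ ψ x y) ∂μ := by
    refine integral_mono ((hKi.add (hini.const_mul _)).sub (hKi.const_mul _))
      (hEi.const_mul _) fun y => ?_
    show otK ε φ ψ x y + (1 / ε) * (⟪v, y⟫_ℝ * otK ε φ ψ x y) - (⟪v, m⟫_ℝ / ε) * otK ε φ ψ x y
      ≤ Real.exp (-(⟪v, m⟫_ℝ / ε)) * (Real.exp (⟪v, y⟫_ℝ / ε) * otK ε φ ψ x y)
    have h1 := Real.add_one_le_exp (⟪v, y⟫_ℝ / ε - ⟪v, m⟫_ℝ / ε)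
    have h2 : Real.exp (-(⟪v, m⟫_ℝ / ε)) * Real.exp (⟪v, y⟫_ℝ / ε)
        = Real.exp (⟪v, y⟫_ℝ / ε - ⟪v, m⟫_ℝ / ε) := by
      rw [← Real.exp_add]; congr 1; ring
    have h2' : Real.exp (-(⟪v, m⟫_ℝ / ε)) * (Real.exp (⟪v, y⟫_ℝ / ε) * otK ε φ ψ x y)
        = Real.exp (⟪v, y⟫_ℝ / ε - ⟪v, m⟫_ℝ / ε) * otK ε φ ψ x y := by
      rw [← mul_assoc, h2]
    rw [h2']
    have h3 := mul_le_mul_of_nonneg_right h1 (otK_pos (ε := ε) φ ψ x y).le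
    calc otK ε φ ψ x y + (1 / ε) * (⟪v, y⟫_ℝ * otK ε φ ψ x y) - (⟪v, m⟫_ℝ / ε) * otK ε φ ψ x y
        = (⟪v, y⟫_ℝ / ε - ⟪v, m⟫_ℝ / ε + 1) * otK ε φ ψ x y := by ring
      _ ≤ _ := h3
  have hL : ∫ y, (otK ε φ ψ x y + (1 / ε) * (⟪v, y⟫_ℝ * otK ε φ ψ x y)
        - (⟪v, m⟫_ℝ / ε) * otK ε φ ψ x y) ∂μ = 1 := by
    calc ∫ y, (otK ε φ ψ x y + (1 / ε) * (⟪v, y⟫_ℝ * otK ε φ ψ x y)
          - (⟪v, m⟫_ℝ / ε) * otK ε φ ψ x y) ∂μ
        = ∫ y, (otK ε φ ψ x y + (1 / ε) * (⟪v, y⟫_ℝ * otK ε φ ψ x y)) ∂μ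
          - ∫ y, (⟪v, m⟫_ℝ / ε) * otK ε φ ψ x y ∂μ :=
          integral_sub (hKi.add (hini.const_mul _)) (hKi.const_mul _)
      _ = (∫ y, otK ε φ ψ x y ∂μ + ∫ y, (1 / ε) * (⟪v, y⟫_ℝ * otK ε φ ψ x y) ∂μ)
          - ∫ y, (⟪v, m⟫_ℝ / ε) * otK ε φ ψ x y ∂μ := by
          rw [integral_add hKi (hini.const_mul _)]
      _ = 1 := by
          rw [integral_const_mul, integral_const_mul, hK1, hin]; ring
  rw [hL, integral_const_mul, hexp, ← Real.exp_add] at hle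
  have h4 : (1 : ℝ) ≤ Real.exp (-(⟪v, m⟫_ℝ / ε) + (φ (x + v) - φ x) / ε) := hle
  have h5 : 0 ≤ -(⟪v, m⟫_ℝ / ε) + (φ (x + v) - φ x) / ε := by
    by_contra hneg
    rw [not_le] at hneg
    have := Real.exp_lt_one_iff.2 hneg
    linarith
  have h6 : 0 ≤ (φ (x + v) - φ x - ⟪v, m⟫_ℝ) / ε := by
    have : (φ (x + v) - φ x - ⟪v, m⟫_ℝ) / ε = -(⟪v, m⟫_ℝ / ε) + (φ (x + v) - φ x) / ε := by ring
    rw [this]; exact h5
  have h7 : 0 ≤ φ (x + v) - φ x - ⟪v, m⟫_ℝ := by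
    have := mul_nonneg h6 hε.le
    rwa [div_mul_cancel₀ _ hε.ne'] at this
  rw [real_inner_comm m v] at h7
  linarith

/-- S3: the gradient of the soft Legendre transform is the conditional mean.
(`e^u ≥ 1+u` shows that the conditional mean is a subgradient.) -/
theorem otSL_gradient [IsProbabilityMeasure μ] (hε : 0 < ε) (hα : 0 < α) (hψ : otQC α α' ψ)
    {l L : ℝ} (hφ : otQC l L (otSL ε μ ψ)) (x : E) :
    gradient (otSL ε μ ψ) x = ∫ y, otK ε (otSL ε μ ψ) ψ x y • y ∂μ := by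
  set φ := otSL ε μ ψ with hφdef
  set m := ∫ y, otK ε φ ψ x y • y ∂μ with hm
  set w := m - gradient φ x with hw
  -- `⟪w, v⟫ ≤ L/2 |v|²` for all `v`
  have key : ∀ v : E, ⟪w, v⟫_ℝ ≤ L / 2 * ‖v‖ ^ 2 := by
    intro v
    have h1 := otSL_subgradient (μ := μ) hε hα hψ x v
    have h2 := hφ.upper x (x + v)
    rw [add_sub_cancel_left] at h2
    rw [hw, inner_sub_left]
    linarith
  set t : ℝ := 1 / (|L| + 1) with ht
  have ht0 : 0 < t := by positivity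
  have h3 := key (t • w)
  rw [real_inner_smul_right, real_inner_self_eq_norm_sq, norm_smul, Real.norm_of_nonneg ht0.le,
    mul_pow] at h3
  have h4 : L / 2 * t ≤ 1 / 2 := by
    have : L * t ≤ 1 := by
      rw [ht, mul_one_div, div_le_one (by positivity)]
      linarith [le_abs_self L]
    linarith
  have h5 : ‖w‖ ^ 2 ≤ 0 := by
    have h6 : t * ‖w‖ ^ 2 ≤ (L / 2 * t) * (t * ‖w‖ ^ 2) := by
      calc t * ‖w‖ ^ 2 ≤ L / 2 * (t ^ 2 * ‖w‖ ^ 2) := h3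
        _ = (L / 2 * t) * (t * ‖w‖ ^ 2) := by ring
    have h7 : 0 ≤ t * ‖w‖ ^ 2 := by positivity
    have h8 : (L / 2 * t) * (t * ‖w‖ ^ 2) ≤ 1 / 2 * (t * ‖w‖ ^ 2) :=
      mul_le_mul_of_nonneg_right h4 h7
    have h9 : t * ‖w‖ ^ 2 ≤ 0 := by linarith
    by_contra hpos
    rw [not_le] at hpos
    have := mul_pos ht0 hpos
    linarith
  have h10 : w = 0 := by
    have : ‖w‖ = 0 := by
      have := sq_nonneg ‖w‖
      exact pow_eq_zero_iff (two_ne_zero) |>.1 (le_antisymm h5 this)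
    exact norm_eq_zero.1 this
  rw [hw, sub_eq_zero] at h10
  exact h10.symm

end Claimed.Agent.R260
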