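/-
Row 260, package T1 (owner helper220; proofs helper83).  File OTPair: one full Sinkhorn step for a
pair of probability measures: marginals of the Gibbs coupling, decrease of the dual functional,
Hellinger control of the marginal error.
-/
import Claimed.Agent.R260.OTSoft

set_option autoImplicit false

namespace Claimed.Agent.R260

open MeasureTheory Set Filter Topology
open scoped InnerProductSpace

variable {E : Type*} [NormedAddCommGroup E] [InnerProductSpace ℝ E] [FiniteDimensional ℝ E]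
  [MeasurableSpace E] [BorelSpace E]

variable {ε α α' l L : ℝ} {φ ψ : E → ℝ} {μ₁ μ₂ : Measure E}

/-- the second marginal of the Gibbs coupling built on `(φ, ψ)`, as a density w.r.t. `μ₂` -/
noncomputable def otR (ε : ℝ) (μ₁ : Measure E) (φ ψ : E → ℝ) (y : E) : ℝ :=
  Real.exp ((otSL ε μ₁ φ y - ψ y) / ε)

theorem otK_integral_left [IsProbabilityMeasure μ₁] (hε : 0 < ε) (hl : 0 < l) (hφ : otQC l L φ)
    (ψ : E → ℝ) (y : E) : ∫ x, otK ε φ ψ x y ∂μ₁ = otR ε μ₁ φ ψ y := by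
  have hZ := otSL_integral_pos (μ := μ₁) hε hl hφ y
  have h1 : ∀ x, otK ε φ ψ x y = Real.exp ((⟪y, x⟫_ℝ - φ x) / ε) * Real.exp (-(ψ y / ε)) := by
    intro x
    rw [otK, ← Real.exp_add, real_inner_comm]
    congr 1
    ring
  simp_rw [h1]
  rw [integral_mul_const, otR, otSL]
  have h2 : (ε * Real.log (∫ x, Real.exp ((⟪y, x⟫_ℝ - φ x) / ε) ∂μ₁) - ψ y) / ε
      = Real.log (∫ x, Real.exp ((⟪y, x⟫_ℝ - φ x) / ε) ∂μ₁) + -(ψ y / ε) := by
    field_simp
    ring
  rw [h2, Real.exp_add, Real.exp_log hZ]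

omit [FiniteDimensional ℝ E] [MeasurableSpace E] [BorelSpace E] in
theorem otK_continuous (hφ : Continuous φ) (hψ : Continuous ψ) :
    Continuous (fun p : E × E => otK ε φ ψ p.1 p.2) := by
  unfold otK
  fun_prop

/-- the Gibbs coupling is a probability measure: integrability on the product -/
theorem otK_integrable_prod [IsProbabilityMeasure μ₁] [IsProbabilityMeasure μ₂] (hε : 0 < ε)
    (hα : 0 < α) (hψ : otQC α α' ψ) (hφc : Continuous (otSL ε μ₂ ψ)) :
    Integrable (fun p : E × E => otK ε (otSL ε μ₂ ψ) ψ p.1 p.2) (μ₁.prod μ₂) := by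
  rw [integrable_prod_iff (otK_continuous hφc hψ.continuous).aestronglyMeasurable]
  constructor
  · exact Eventually.of_forall fun x => otK_integrable hε hα hψ _ x
  · have : (fun x => ∫ y, ‖otK ε (otSL ε μ₂ ψ) ψ x y‖ ∂μ₂) = fun _ => (1 : ℝ) := by
      ext x
      simp_rw [Real.norm_eq_abs, abs_of_pos (otK_pos _ _ _ _)]
      exact otK_integral_eq_one hε hα hψ x
    simp only
    rw [this]
    exact integrable_const _

theorem otK_integrable_prod_mul [IsProbabilityMeasure μ₁] [IsProbabilityMeasure μ₂] (hε : 0 < ε)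
    (hα : 0 < α) (hψ : otQC α α' ψ) (hφc : Continuous (otSL ε μ₂ ψ))
    {g : E → ℝ} (hg : Continuous g) (hg1 : ∀ y, |g y| ≤ 1) :
    Integrable (fun p : E × E => g p.2 * otK ε (otSL ε μ₂ ψ) ψ p.1 p.2) (μ₁.prod μ₂) := by
  refine (otK_integrable_prod (μ₁ := μ₁) hε hα hψ hφc).mono'
    ((hg.comp continuous_snd).mul (otK_continuous hφc hψ.continuous)).aestronglyMeasurable
    (Eventually.of_forall fun p => ?_)
  rw [Real.norm_eq_abs, abs_mul, abs_of_pos (otK_pos _ _ _ _)]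
  exact mul_le_of_le_one_left (otK_pos _ _ _ _).le (hg1 p.2)

/-- Fubini for the Gibbs coupling built on `(φ, ψ)`, `φ = otSL ε μ₂ ψ` -/
theorem otR_integral_mul [IsProbabilityMeasure μ₁] [IsProbabilityMeasure μ₂] (hε : 0 < ε)
    (hα : 0 < α) (hψ : otQC α α' ψ) (hl : 0 < l) (hφ : otQC l L (otSL ε μ₂ ψ))
    {g : E → ℝ} (hg : Continuous g) (hg1 : ∀ y, |g y| ≤ 1) :
    ∫ y, g y * otR ε μ₁ (otSL ε μ₂ ψ) ψ y ∂μ₂ =
      ∫ x, (∫ y, g y * otK ε (otSL ε μ₂ ψ) ψ x y ∂μ₂) ∂μ₁ := by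
  have hint := otK_integrable_prod_mul (μ₁ := μ₁) (μ₂ := μ₂) hε hα hψ hφ.continuous hg hg1
  rw [integral_integral_swap (f := fun x y => g y * otK ε (otSL ε μ₂ ψ) ψ x y) hint]
  refine integral_congr_ae (Eventually.of_forall fun y => ?_)
  simp only
  rw [integral_const_mul, otK_integral_left hε hl hφ]

theorem otR_integrable [IsProbabilityMeasure μ₁] [IsProbabilityMeasure μ₂] (hε : 0 < ε)
    (hα : 0 < α) (hψ : otQC α α' ψ) (hl : 0 < l) (hφ : otQC l L (otSL ε μ₂ ψ)) :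
    Integrable (otR ε μ₁ (otSL ε μ₂ ψ) ψ) μ₂ := by
  have hint := otK_integrable_prod (μ₁ := μ₁) (μ₂ := μ₂) hε hα hψ hφ.continuous
  have := hint.integral_prod_right
  refine this.congr (Eventually.of_forall fun y => ?_)
  simp only
  rw [otK_integral_left hε hl hφ]

theorem otR_integral [IsProbabilityMeasure μ₁] [IsProbabilityMeasure μ₂] (hε : 0 < ε)
    (hα : 0 < α) (hψ : otQC α α' ψ) (hl : 0 < l) (hφ : otQC l L (otSL ε μ₂ ψ)) :
    ∫ y, otR ε μ₁ (otSL ε μ₂ ψ) ψ y ∂μ₂ = 1 := by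
  have := otR_integral_mul (μ₁ := μ₁) (μ₂ := μ₂) hε hα hψ hl hφ (g := fun _ => 1)
    continuous_const (by simp)
  simp only [one_mul] at this
  rw [this]
  simp_rw [otK_integral_eq_one hε hα hψ]
  simp

end Claimed.Agent.R260
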