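/-
Row 260, package T1 (architect helper220; proofs helper83).  File OTPairLog: Hellinger control of the
marginal error.
-/
import Claimed.Agent.R260.OTPair

set_option autoImplicit false

namespace Claimed.Agent.R260

open MeasureTheory Set Filter Topology
open scoped InnerProductSpace

variable {E : Type*} [NormedAddCommGroup E] [InnerProductSpace ℝ E] [FiniteDimensional ℝ E]
  [MeasurableSpace E] [BorelSpace E]

variable {ε α α' l L : ℝ} {φ ψ : E → ℝ} {μ₁ μ₂ : Measure E}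

/-- abstract: `∫ r = 1`, `r > 0` ⇒ `∫ |r-1| ≤ 2 sqrt (∫ (-log r))`
(`r - 1 - log r ≥ (√r - 1)²`, Cauchy–Schwarz) -/
theorem ot_l1_le_of_log {Ω : Type*} [MeasurableSpace Ω] {ν : Measure Ω} [IsProbabilityMeasure ν]
    {r : Ω → ℝ} (hr : ∀ ω, 0 < r ω) (hri : Integrable r ν) (hr1 : ∫ ω, r ω ∂ν = 1)
    (hlog : Integrable (fun ω => Real.log (r ω)) ν) :
    0 ≤ ∫ ω, -Real.log (r ω) ∂ν ∧
      ∫ ω, |r ω - 1| ∂ν ≤ 2 * Real.sqrt (∫ ω, -Real.log (r ω) ∂ν) := by
  set h : Ω → ℝ := fun ω => Real.sqrt (r ω) with hh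
  have hpos : ∀ ω, 0 < h ω := fun ω => Real.sqrt_pos.2 (hr ω)
  have hsq : ∀ ω, h ω ^ 2 = r ω := fun ω => Real.sq_sqrt (hr ω).le
  have hle : ∀ ω, h ω ≤ (1 + r ω) / 2 := by
    intro ω
    nlinarith [sq_nonneg (h ω - 1), hsq ω]
  have hmeas : AEStronglyMeasurable h ν :=
    Real.continuous_sqrt.comp_aestronglyMeasurable hri.aestronglyMeasurable
  have hone : Integrable (fun _ : Ω => (1 : ℝ)) ν := integrable_const _
  have hhi : Integrable h ν := by
    refine ((hone.add hri).div_const 2).mono' hmeas (Eventually.of_forall fun ω => ?_)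
    rw [Real.norm_eq_abs, abs_of_pos (hpos ω)]
    exact hle ω
  have hH : Integrable (fun ω => (h ω - 1) ^ 2) ν := by
    have : (fun ω => (h ω - 1) ^ 2) = fun ω => r ω - 2 * h ω + 1 := by
      ext ω; rw [← hsq ω]; ring
    rw [this]
    exact (hri.sub (hhi.const_mul 2)).add hone
  have hP : Integrable (fun ω => (h ω + 1) ^ 2) ν := by
    have : (fun ω => (h ω + 1) ^ 2) = fun ω => r ω + 2 * h ω + 1 := by
      ext ω; rw [← hsq ω]; ring
    rw [this]
    exact (hri.add (hhi.const_mul 2)).add hone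
  set H : ℝ := ∫ ω, (h ω - 1) ^ 2 ∂ν with hHdef
  have hH0 : 0 ≤ H := integral_nonneg fun ω => sq_nonneg _
  set KL : ℝ := ∫ ω, -Real.log (r ω) ∂ν with hKL
  have hHKL : H ≤ KL := by
    have h1 : ∫ ω, ((h ω - 1) ^ 2 - (r ω - 1)) ∂ν ≤ KL := by
      refine integral_mono (hH.sub (hri.sub hone)) hlog.neg fun ω => ?_
      simp only
      have h2 : Real.log (r ω) = 2 * Real.log (h ω) := by
        rw [← hsq ω, Real.log_pow]; norm_num
      have h3 := Real.log_le_sub_one_of_pos (hpos ω)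
      rw [h2]
      nlinarith [hsq ω]
    have hr1' : Integrable (fun ω => r ω - 1) ν := hri.sub hone
    have h4 : ∫ ω, (r ω - 1) ∂ν = 0 := by
      rw [integral_sub hri hone, hr1]; simp
    rw [integral_sub hH hr1', h4, sub_zero] at h1
    exact h1
  have hP4 : ∫ ω, (h ω + 1) ^ 2 ∂ν ≤ 4 := by
    have h1 : ∫ ω, (h ω + 1) ^ 2 ∂ν ≤ ∫ ω, (2 * r ω + 2 * 1) ∂ν := by
      refine integral_mono hP ((hri.const_mul 2).add (hone.const_mul 2)) fun ω => ?_
      simp only
      nlinarith [hle ω, hsq ω]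
    rw [integral_add (hri.const_mul 2) (hone.const_mul 2), integral_const_mul, hr1] at h1
    simp at h1
    linarith
  have hKL0 : 0 ≤ KL := hH0.trans hHKL
  refine ⟨hKL0, ?_⟩
  have key : ∀ t : ℝ, 0 < t → ∫ ω, |r ω - 1| ∂ν ≤ KL / (2 * t) + 2 * t := by
    intro t ht
    calc ∫ ω, |r ω - 1| ∂ν
        ≤ ∫ ω, ((1 / (2 * t)) * (h ω - 1) ^ 2 + (t / 2) * (h ω + 1) ^ 2) ∂ν := by
          refine integral_mono_of_nonneg (Eventually.of_forall fun ω => abs_nonneg _)
            ((hH.const_mul _).add (hP.const_mul _)) (Eventually.of_forall fun ω => ?_)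
          simp only
          have h1 : r ω - 1 = (h ω - 1) * (h ω + 1) := by rw [← hsq ω]; ring
          rw [h1, abs_mul, abs_of_pos (by linarith [hpos ω] : 0 < h ω + 1)]
          have h2 : 0 ≤ (|h ω - 1| - t * (h ω + 1)) ^ 2 / (2 * t) := by positivity
          have h3 : (|h ω - 1| - t * (h ω + 1)) ^ 2 / (2 * t)
              = (1 / (2 * t)) * |h ω - 1| ^ 2 + (t / 2) * (h ω + 1) ^ 2
                - |h ω - 1| * (h ω + 1) := by
            field_simp; ring
          rw [sq_abs] at h3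
          linarith
      _ = (1 / (2 * t)) * H + (t / 2) * ∫ ω, (h ω + 1) ^ 2 ∂ν := by
          rw [integral_add (hH.const_mul _) (hP.const_mul _), integral_const_mul,
            integral_const_mul]
      _ ≤ KL / (2 * t) + 2 * t := by
          have h1 : (1 / (2 * t)) * H ≤ (1 / (2 * t)) * KL :=
            mul_le_mul_of_nonneg_left hHKL (by positivity)
          have h2 : (t / 2) * ∫ ω, (h ω + 1) ^ 2 ∂ν ≤ (t / 2) * 4 :=
            mul_le_mul_of_nonneg_left hP4 (by positivity)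
          have h3 : (1 / (2 * t)) * KL = KL / (2 * t) := by ring
          linarith
  rcases hKL0.eq_or_lt with h0 | hpos'
  · rw [← h0, Real.sqrt_zero, mul_zero]
    refine le_of_forall_pos_le_add fun δ hδ => ?_
    have := key (δ / 2) (by positivity)
    rw [← h0] at this
    simp only [zero_div, zero_add] at this
    linarith
  · have hs : 0 < Real.sqrt KL := Real.sqrt_pos.2 hpos'
    have := key (Real.sqrt KL / 2) (by positivity)
    have h7 : KL / (2 * (Real.sqrt KL / 2)) + 2 * (Real.sqrt KL / 2) = 2 * Real.sqrt KL := by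
      have h8 : Real.sqrt KL * Real.sqrt KL = KL := Real.mul_self_sqrt hKL0
      field_simp
      nlinarith
    linarith

/-- decrease of the dual functional in a half-step and control of the marginal error -/
theorem otR_l1_le [IsProbabilityMeasure μ₁] [IsProbabilityMeasure μ₂] (hε : 0 < ε)
    (hα : 0 < α) (hψ : otQC α α' ψ) (hl : 0 < l) (hφ : otQC l L (otSL ε μ₂ ψ))
    {β β' : ℝ} (hβ : 0 ≤ β) (hψ' : otQC β β' (otSL ε μ₁ (otSL ε μ₂ ψ)))
    (hm₂ : Integrable (fun y => ‖y‖ ^ 2) μ₂) :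
    0 ≤ ∫ y, (ψ y - otSL ε μ₁ (otSL ε μ₂ ψ) y) ∂μ₂ ∧
      ∫ y, |otR ε μ₁ (otSL ε μ₂ ψ) ψ y - 1| ∂μ₂ ≤
        2 * Real.sqrt ((∫ y, (ψ y - otSL ε μ₁ (otSL ε μ₂ ψ) y) ∂μ₂) / ε) := by
  set ψ' := otSL ε μ₁ (otSL ε μ₂ ψ) with hψ'def
  have hi1 : Integrable ψ μ₂ := hψ.integrable hα.le hm₂
  have hi2 : Integrable ψ' μ₂ := hψ'.integrable hβ hm₂
  have hlogeq : ∀ y, Real.log (otR ε μ₁ (otSL ε μ₂ ψ) ψ y) = (ψ' y - ψ y) / ε := by
    intro y
    rw [otR, Real.log_exp]
  have hlog : Integrable (fun y => Real.log (otR ε μ₁ (otSL ε μ₂ ψ) ψ y)) μ₂ := by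
    simp_rw [hlogeq]
    exact (hi2.sub hi1).div_const ε
  have := ot_l1_le_of_log (ν := μ₂) (r := otR ε μ₁ (otSL ε μ₂ ψ) ψ) (fun y => Real.exp_pos _)
    (otR_integrable hε hα hψ hl hφ) (otR_integral hε hα hψ hl hφ) hlog
  have heq : ∫ y, -Real.log (otR ε μ₁ (otSL ε μ₂ ψ) ψ y) ∂μ₂ = (∫ y, (ψ y - ψ' y) ∂μ₂) / ε := by
    simp_rw [hlogeq]
    rw [← integral_div]
    congr 1
    ext y
    ring
  rw [heq] at this
  refine ⟨?_, this.2⟩
  have h1 := this.1
  have h2 : (∫ y, (ψ y - ψ' y) ∂μ₂) = ((∫ y, (ψ y - ψ' y) ∂μ₂) / ε) * ε := by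
    field_simp
  rw [h2]
  positivity

end Claimed.Agent.R260
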