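/-
Row 260, package T1 (architect helper220; proofs helper83).  File OTSoftVar: conditional variance of
the Gibbs kernel.
-/
import Claimed.Agent.R260.OTSoft

set_option autoImplicit false

namespace Claimed.Agent.R260

open MeasureTheory Set Filter Topology
open scoped InnerProductSpace

variable {E : Type*} [NormedAddCommGroup E] [InnerProductSpace ℝ E] [FiniteDimensional ℝ E]
  [MeasurableSpace E] [BorelSpace E]

variable {ε α α' : ℝ} {ψ : E → ℝ} {μ : Measure E}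

theorem ot_two_add_sq_le_exp (u : ℝ) : 2 + u ^ 2 ≤ Real.exp u + Real.exp (-u) := by
  have h1 : Real.cosh u = 1 + 2 * Real.sinh (u / 2) ^ 2 := by
    have : u = 2 * (u / 2) := by ring
    conv_lhs => rw [this]
    rw [Real.cosh_two_mul, Real.cosh_sq]
    ring
  have h2 : (u / 2) ^ 2 ≤ Real.sinh (u / 2) ^ 2 := by
    rcases le_total 0 (u / 2) with h | h
    · have := Real.self_le_sinh_iff.2 h
      nlinarith
    · have := Real.sinh_le_self_iff.2 h
      nlinarith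
  have h3 := Real.cosh_eq u
  nlinarith

/-- weighted form of `ot_sq_le_of_mgf` -/
theorem ot_sq_le_of_mgf_weight {Ω : Type*} [MeasurableSpace Ω] {ν : Measure Ω}
    {Z k : Ω → ℝ} {σ : ℝ} (hσ : 0 < σ) (hk0 : ∀ ω, 0 ≤ k ω) (hk : Integrable k ν)
    (hk1 : ∫ ω, k ω ∂ν = 1) (hZ : Integrable (fun ω => Z ω ^ 2 * k ω) ν)
    (hi : ∀ θ : ℝ, Integrable (fun ω => Real.exp (θ * Z ω) * k ω) ν)
    (h : ∀ θ : ℝ, ∫ ω, Real.exp (θ * Z ω) * k ω ∂ν ≤ Real.exp (σ * θ ^ 2 / 2)) :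
    ∫ ω, Z ω ^ 2 * k ω ∂ν ≤ 2 * σ := by
  set θ : ℝ := Real.sqrt (2 / σ) with hθ
  have hθ2 : θ ^ 2 = 2 / σ := Real.sq_sqrt (by positivity)
  have h1 := h θ
  have h2 := h (-θ)
  have he : σ * θ ^ 2 / 2 = 1 := by rw [hθ2]; field_simp
  have he' : σ * (-θ) ^ 2 / 2 = 1 := by rw [neg_sq, he]
  rw [he] at h1
  rw [he'] at h2
  have h3 : ∫ ω, (2 + θ ^ 2 * Z ω ^ 2) * k ω ∂ν
      ≤ ∫ ω, (Real.exp (θ * Z ω) * k ω + Real.exp (-θ * Z ω) * k ω) ∂ν := by
    refine integral_mono ?_ ((hi θ).add (hi (-θ))) fun ω => ?_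
    · have : (fun ω => (2 + θ ^ 2 * Z ω ^ 2) * k ω)
          = fun ω => 2 * k ω + θ ^ 2 * (Z ω ^ 2 * k ω) := by
        ext ω; ring
      rw [this]
      exact (hk.const_mul 2).add (hZ.const_mul _)
    · have := ot_two_add_sq_le_exp (θ * Z ω)
      have h4 : (2 + θ ^ 2 * Z ω ^ 2) ≤ Real.exp (θ * Z ω) + Real.exp (-θ * Z ω) := by
        have h5 : -θ * Z ω = -(θ * Z ω) := by ring
        rw [h5]
        nlinarith
      have := mul_le_mul_of_nonneg_right h4 (hk0 ω)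
      simp only
      linarith
  rw [integral_add (hi θ) (hi (-θ))] at h3
  have h4 : ∫ ω, (2 + θ ^ 2 * Z ω ^ 2) * k ω ∂ν = 2 + θ ^ 2 * ∫ ω, Z ω ^ 2 * k ω ∂ν := by
    have : (fun ω => (2 + θ ^ 2 * Z ω ^ 2) * k ω)
        = fun ω => 2 * k ω + θ ^ 2 * (Z ω ^ 2 * k ω) := by
      ext ω; ring
    rw [this, integral_add (hk.const_mul 2) (hZ.const_mul _), integral_const_mul,
      integral_const_mul, hk1]
    ring
  rw [h4, hθ2] at h3
  have h5 : Real.exp 1 < 3 := lt_trans Real.exp_one_lt_d9 (by norm_num)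
  have h6 : 2 / σ * ∫ ω, Z ω ^ 2 * k ω ∂ν ≤ 4 := by linarith
  have h7 : (∫ ω, Z ω ^ 2 * k ω ∂ν) = σ / 2 * (2 / σ * ∫ ω, Z ω ^ 2 * k ω ∂ν) := by
    field_simp
  rw [h7]
  have : σ / 2 * (2 / σ * ∫ ω, Z ω ^ 2 * k ω ∂ν) ≤ σ / 2 * 4 :=
    mul_le_mul_of_nonneg_left h6 (by positivity)
  linarith

/-- an abstract lemma: a subgaussian bound on the Laplace transform bounds the second moment -/
theorem ot_sq_le_of_mgf {Ω : Type*} [MeasurableSpace Ω] {ν : Measure Ω} [IsProbabilityMeasure ν]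
    {Z : Ω → ℝ} {σ : ℝ} (hσ : 0 < σ) (hZ : Integrable (fun ω => Z ω ^ 2) ν)
    (hi : ∀ θ : ℝ, Integrable (fun ω => Real.exp (θ * Z ω)) ν)
    (h : ∀ θ : ℝ, ∫ ω, Real.exp (θ * Z ω) ∂ν ≤ Real.exp (σ * θ ^ 2 / 2)) :
    ∫ ω, Z ω ^ 2 ∂ν ≤ 2 * σ := by
  have := ot_sq_le_of_mgf_weight (ν := ν) (Z := Z) (k := fun _ => 1) hσ (fun _ => zero_le_one)
    (integrable_const _) (by simp) (by simpa using hZ) (by simpa using hi) (by simpa using h)
  simpa using this

/-- the exponential moments of the recentred conditional law -/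
theorem otK_mgf_le [IsProbabilityMeasure μ] (hε : 0 < ε) (hα : 0 < α) (hψ : otQC α α' ψ)
    {l L : ℝ} (hφ : otQC l L (otSL ε μ ψ)) (x e : E) (he : ‖e‖ = 1) (θ : ℝ) :
    Integrable (fun y => Real.exp (θ * ⟪e, y - gradient (otSL ε μ ψ) x⟫_ℝ)
        * otK ε (otSL ε μ ψ) ψ x y) μ ∧
    ∫ y, Real.exp (θ * ⟪e, y - gradient (otSL ε μ ψ) x⟫_ℝ) * otK ε (otSL ε μ ψ) ψ x y ∂μ
      ≤ Real.exp ((L * ε) * θ ^ 2 / 2) := by
  set Φ := otSL ε μ ψ with hΦ
  set T := gradient Φ x with hT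
  set v : E := (ε * θ) • e with hv
  have hpt : ∀ y, Real.exp (θ * ⟪e, y - T⟫_ℝ) * otK ε Φ ψ x y
      = Real.exp (-(θ * ⟪e, T⟫_ℝ)) * (Real.exp (⟪v, y⟫_ℝ / ε) * otK ε Φ ψ x y) := by
    intro y
    rw [← mul_assoc, ← Real.exp_add]
    congr 2
    rw [hv, inner_smul_left, inner_sub_right]
    simp only [conj_trivial]
    field_simp
    ring
  have hint : Integrable (fun y => Real.exp (⟪v, y⟫_ℝ / ε) * otK ε Φ ψ x y) μ := by
    have h1 := otK_integrable (μ := μ) hε hα hψ (fun _ => Φ x) (x + v)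
    refine h1.congr (Eventually.of_forall fun y => ?_)
    simp only [otK]
    rw [← Real.exp_add]
    congr 1
    rw [inner_add_left]
    ring
  constructor
  · simp_rw [hpt]
    exact hint.const_mul _
  · simp_rw [hpt]
    rw [integral_const_mul, otK_integral_exp hε hα hψ x v, ← Real.exp_add]
    apply Real.exp_le_exp.2
    have h1 := hφ.upper x (x + v)
    rw [add_sub_cancel_left] at h1
    have h2 : ⟪T, v⟫_ℝ = ε * θ * ⟪e, T⟫_ℝ := by
      rw [hv, inner_smul_right, real_inner_comm]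
    have h3 : ‖v‖ ^ 2 = (ε * θ) ^ 2 := by
      rw [hv, norm_smul, he, mul_one, Real.norm_eq_abs, sq_abs]
    rw [← hT, h2, h3] at h1
    have h4 : (Φ (x + v) - Φ x) / ε ≤ θ * ⟪e, T⟫_ℝ + L * ε * θ ^ 2 / 2 := by
      rw [div_le_iff₀ hε]
      nlinarith
    rw [← hΦ]
    linarith

/-- S4: the conditional variance is `O(ε)` -/
theorem otK_variance_le [IsProbabilityMeasure μ] (hε : 0 < ε) (hα : 0 < α) (hψ : otQC α α' ψ)
    {l L : ℝ} (hL : 0 < L) (hφ : otQC l L (otSL ε μ ψ)) (x : E) :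
    ∫ y, ‖y - gradient (otSL ε μ ψ) x‖ ^ 2 * otK ε (otSL ε μ ψ) ψ x y ∂μ ≤
      2 * (Module.finrank ℝ E : ℝ) * L * ε := by
  set Φ := otSL ε μ ψ with hΦ
  set T := gradient Φ x with hT
  let B := stdOrthonormalBasis ℝ E
  have hsq : ∀ w : E, ‖w‖ ^ 2 = ∑ i, ⟪B i, w⟫_ℝ ^ 2 := by
    intro w
    have := B.sum_sq_norm_inner_right w
    rw [← this]
    refine Finset.sum_congr rfl fun i _ => ?_
    rw [Real.norm_eq_abs, sq_abs]
  have hKc : Continuous fun y => otK ε Φ ψ x y := by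
    unfold otK
    have := hψ.continuous
    fun_prop
  have hint : ∀ i, Integrable (fun y => ⟪B i, y - T⟫_ℝ ^ 2 * otK ε Φ ψ x y) μ := by
    intro i
    refine (otK_integrable_norm_sq (μ := μ) hε hα hψ Φ x T).mono' ?_ (Eventually.of_forall fun y => ?_)
    · exact (by fun_prop : Continuous fun y => ⟪B i, y - T⟫_ℝ ^ 2 * otK ε Φ ψ x y).aestronglyMeasurable
    · rw [Real.norm_eq_abs, abs_of_nonneg (mul_nonneg (sq_nonneg _) (otK_pos _ _ _ _).le)]
      refine mul_le_mul_of_nonneg_right ?_ (otK_pos _ _ _ _).le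
      have h1 := abs_real_inner_le_norm (B i) (y - T)
      rw [B.orthonormal.1 i, one_mul] at h1
      calc ⟪B i, y - T⟫_ℝ ^ 2 = |⟪B i, y - T⟫_ℝ| ^ 2 := (sq_abs _).symm
        _ ≤ ‖y - T‖ ^ 2 := by gcongr
  have hone : ∀ i, ∫ y, ⟪B i, y - T⟫_ℝ ^ 2 * otK ε Φ ψ x y ∂μ ≤ 2 * (L * ε) := by
    intro i
    refine ot_sq_le_of_mgf_weight (by positivity) (fun y => (otK_pos _ _ _ _).le)
      (otK_integrable hε hα hψ Φ x) (otK_integral_eq_one hε hα hψ x) (hint i)
      (fun θ => (otK_mgf_le hε hα hψ hφ x (B i) (B.orthonormal.1 i) θ).1)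
      (fun θ => (otK_mgf_le hε hα hψ hφ x (B i) (B.orthonormal.1 i) θ).2)
  calc ∫ y, ‖y - T‖ ^ 2 * otK ε Φ ψ x y ∂μ
      = ∫ y, ∑ i, ⟪B i, y - T⟫_ℝ ^ 2 * otK ε Φ ψ x y ∂μ := by
        congr 1; ext y; rw [hsq, Finset.sum_mul]
    _ = ∑ i, ∫ y, ⟪B i, y - T⟫_ℝ ^ 2 * otK ε Φ ψ x y ∂μ :=
        integral_finsetSum _ fun i _ => hint i
    _ ≤ ∑ _i : Fin (Module.finrank ℝ E), 2 * (L * ε) := Finset.sum_le_sum fun i _ => hone i
    _ = 2 * (Module.finrank ℝ E : ℝ) * L * ε := by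
        rw [Finset.sum_const, Finset.card_univ, Fintype.card_fin, nsmul_eq_mul]; ring

/-- consequence: bounded 1-Lipschitz functions almost do not see the conditional law -/
theorem otK_lipschitz_le [IsProbabilityMeasure μ] (hε : 0 < ε) (hα : 0 < α) (hψ : otQC α α' ψ)
    {l L : ℝ} (hL : 0 < L) (hφ : otQC l L (otSL ε μ ψ)) (x : E)
    {g : E → ℝ} (hg1 : ∀ y, |g y| ≤ 1) (hg : LipschitzWith 1 g) :
    |∫ y, g y * otK ε (otSL ε μ ψ) ψ x y ∂μ - g (gradient (otSL ε μ ψ) x)| ≤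
      Real.sqrt (2 * (Module.finrank ℝ E : ℝ) * L * ε) := by
  set Φ := otSL ε μ ψ with hΦ
  set T := gradient Φ x with hT
  set V : ℝ := 2 * (Module.finrank ℝ E : ℝ) * L * ε with hV
  have hV0 : 0 ≤ V := by positivity
  have hvar : ∫ y, ‖y - T‖ ^ 2 * otK ε Φ ψ x y ∂μ ≤ V := otK_variance_le hε hα hψ hL hφ x
  have hK := otK_integrable (μ := μ) hε hα hψ Φ x
  have hK1 : ∫ y, otK ε Φ ψ x y ∂μ = 1 := otK_integral_eq_one hε hα hψ x
  have hK2 := otK_integrable_norm_sq (μ := μ) hε hα hψ Φ x T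
  have hKc : Continuous fun y => otK ε Φ ψ x y := by
    unfold otK
    have := hψ.continuous
    fun_prop
  have hgK : Integrable (fun y => g y * otK ε Φ ψ x y) μ := by
    refine hK.mono' (hg.continuous.mul hKc).aestronglyMeasurable (Eventually.of_forall fun y => ?_)
    rw [Real.norm_eq_abs, abs_mul, abs_of_pos (otK_pos _ _ _ _)]
    exact mul_le_of_le_one_left (otK_pos _ _ _ _).le (hg1 y)
  have h1 : ∫ y, g y * otK ε Φ ψ x y ∂μ - g T = ∫ y, (g y - g T) * otK ε Φ ψ x y ∂μ := by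
    have : (fun y => (g y - g T) * otK ε Φ ψ x y)
        = fun y => g y * otK ε Φ ψ x y - g T * otK ε Φ ψ x y := by ext y; ring
    rw [this, integral_sub hgK (hK.const_mul _), integral_const_mul, hK1, mul_one]
  rw [h1]
  -- bound for every `t > 0`
  have key : ∀ t : ℝ, 0 < t → |∫ y, (g y - g T) * otK ε Φ ψ x y ∂μ| ≤ V / (2 * t) + t / 2 := by
    intro t ht
    have hdom : Integrable (fun y => (1 / (2 * t)) * (‖y - T‖ ^ 2 * otK ε Φ ψ x y)
        + (t / 2) * otK ε Φ ψ x y) μ := (hK2.const_mul _).add (hK.const_mul _)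
    calc |∫ y, (g y - g T) * otK ε Φ ψ x y ∂μ|
        ≤ ∫ y, |(g y - g T) * otK ε Φ ψ x y| ∂μ := abs_integral_le_integral_abs
      _ ≤ ∫ y, ((1 / (2 * t)) * (‖y - T‖ ^ 2 * otK ε Φ ψ x y) + (t / 2) * otK ε Φ ψ x y) ∂μ := by
          refine integral_mono_of_nonneg (Eventually.of_forall fun y => abs_nonneg _) hdom
            (Eventually.of_forall fun y => ?_)
          simp only
          rw [abs_mul, abs_of_pos (otK_pos _ _ _ _)]
          have h2 : |g y - g T| ≤ ‖y - T‖ := by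
            have := hg.dist_le_mul y T
            simpa [Real.dist_eq, dist_eq_norm] using this
          have h3 : ‖y - T‖ ≤ (1 / (2 * t)) * ‖y - T‖ ^ 2 + t / 2 := by
            have h4 : 0 ≤ (‖y - T‖ - t) ^ 2 / (2 * t) := by positivity
            have h5 : (‖y - T‖ - t) ^ 2 / (2 * t)
                = (1 / (2 * t)) * ‖y - T‖ ^ 2 + t / 2 - ‖y - T‖ := by
              field_simp; ring
            linarith
          have := mul_le_mul_of_nonneg_right (h2.trans h3) (otK_pos (ε := ε) Φ ψ x y).le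
          linarith
      _ = (1 / (2 * t)) * ∫ y, ‖y - T‖ ^ 2 * otK ε Φ ψ x y ∂μ + t / 2 := by
          rw [integral_add (hK2.const_mul _) (hK.const_mul _), integral_const_mul,
            integral_const_mul, hK1, mul_one]
      _ ≤ V / (2 * t) + t / 2 := by
          have : (1 / (2 * t)) * ∫ y, ‖y - T‖ ^ 2 * otK ε Φ ψ x y ∂μ ≤ (1 / (2 * t)) * V :=
            mul_le_mul_of_nonneg_left hvar (by positivity)
          have h6 : (1 / (2 * t)) * V = V / (2 * t) := by ring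
          linarith
  rcases hV0.eq_or_lt with h0 | hpos
  · rw [← h0, Real.sqrt_zero]
    refine le_of_forall_pos_le_add fun δ hδ => ?_
    have := key (2 * δ) (by positivity)
    rw [← h0] at this
    simp only [zero_div, zero_add] at this
    linarith
  · have hs : 0 < Real.sqrt V := Real.sqrt_pos.2 hpos
    have := key (Real.sqrt V) hs
    have h7 : V / (2 * Real.sqrt V) + Real.sqrt V / 2 = Real.sqrt V := by
      have h8 : Real.sqrt V * Real.sqrt V = V := Real.mul_self_sqrt hV0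
      field_simp
      nlinarith
    linarith

end Claimed.Agent.R260
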