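/-
Row 260, package T1 (architect helper220; proofs helper83).  File OTPairApprox: approximate
push-forward for one pair.
-/
import Claimed.Agent.R260.OTPairLog
import Claimed.Agent.R260.OTSoftVar

set_option autoImplicit false

namespace Claimed.Agent.R260

open MeasureTheory Set Filter Topology
open scoped InnerProductSpace

variable {E : Type*} [NormedAddCommGroup E] [InnerProductSpace ℝ E] [FiniteDimensional ℝ E]
  [MeasurableSpace E] [BorelSpace E]

variable {ε α α' l L : ℝ} {φ ψ : E → ℝ} {μ₁ μ₂ : Measure E}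

/-- `otK_lipschitz_le` without the hypothesis `0 < L` -/
theorem otK_lipschitz_le' [IsProbabilityMeasure μ₂] (hε : 0 < ε) (hα : 0 < α) (hψ : otQC α α' ψ)
    (hl : 0 < l) (hφ : otQC l L (otSL ε μ₂ ψ)) (x : E)
    {g : E → ℝ} (hg1 : ∀ y, |g y| ≤ 1) (hg : LipschitzWith 1 g) :
    |∫ y, g y * otK ε (otSL ε μ₂ ψ) ψ x y ∂μ₂ - g (gradient (otSL ε μ₂ ψ) x)| ≤
      Real.sqrt (2 * (Module.finrank ℝ E : ℝ) * L * ε) := by
  by_cases hL : 0 < L
  · exact otK_lipschitz_le hε hα hψ hL hφ x hg1 hg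
  · push Not at hL
    have hsub : Subsingleton E := by
      refine ⟨fun a b => ?_⟩
      have h1 := hφ.lower a b
      have h2 := hφ.upper a b
      have h3 : l / 2 * ‖b - a‖ ^ 2 ≤ L / 2 * ‖b - a‖ ^ 2 := by linarith
      have h4 : ‖b - a‖ ^ 2 ≤ 0 := by
        by_contra hcon
        push Not at hcon
        nlinarith
      have h5 : ‖b - a‖ = 0 := by
        have : ‖b - a‖ ^ 2 = 0 := le_antisymm h4 (by positivity)
        exact pow_eq_zero_iff (two_ne_zero) |>.1 this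
      exact (sub_eq_zero.1 (norm_eq_zero.1 h5)).symm
    have hd : (Module.finrank ℝ E : ℝ) = 0 := by
      rw [Module.finrank_zero_of_subsingleton]; simp
    have := otK_lipschitz_le hε hα hψ (L := 1) one_pos (hφ.mono le_rfl (by linarith)) x hg1 hg
    rw [hd] at this ⊢
    simpa using this

/-- the approximate push-forward estimate for one pair -/
theorem ot_pair_approx [IsProbabilityMeasure μ₁] [IsProbabilityMeasure μ₂] (hε : 0 < ε)
    (hα : 0 < α) (hψ : otQC α α' ψ) (hl : 0 < l) (hφ : otQC l L (otSL ε μ₂ ψ))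
    {β β' : ℝ} (hβ : 0 ≤ β) (hψ' : otQC β β' (otSL ε μ₁ (otSL ε μ₂ ψ)))
    (hm₂ : Integrable (fun y => ‖y‖ ^ 2) μ₂)
    {g : E → ℝ} (hg1 : ∀ y, |g y| ≤ 1) (hg : LipschitzWith 1 g) :
    |∫ x, g (gradient (otSL ε μ₂ ψ) x) ∂μ₁ - ∫ y, g y ∂μ₂| ≤
      Real.sqrt (2 * (Module.finrank ℝ E : ℝ) * L * ε) +
        2 * Real.sqrt ((∫ y, (ψ y - otSL ε μ₁ (otSL ε μ₂ ψ) y) ∂μ₂) / ε) := by
  set Φ := otSL ε μ₂ ψ with hΦ
  set V : ℝ := Real.sqrt (2 * (Module.finrank ℝ E : ℝ) * L * ε) with hV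
  have hgc : Continuous g := hg.continuous
  have hTc : Continuous (gradient Φ) := hφ.grad_continuous hl.le
  have hbdd : ∀ {μ : Measure E} [IsProbabilityMeasure μ] {f : E → ℝ}, Continuous f →
      (∀ y, |f y| ≤ 1) → Integrable f μ := by
    intro μ _ f hf hf1
    exact (integrable_const (1 : ℝ)).mono' hf.aestronglyMeasurable
      (Eventually.of_forall fun y => by rw [Real.norm_eq_abs]; exact hf1 y)
  have hA : Integrable (fun x => g (gradient Φ x)) μ₁ :=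
    hbdd (hgc.comp hTc) fun y => hg1 _
  have hB : Integrable (fun x => ∫ y, g y * otK ε Φ ψ x y ∂μ₂) μ₁ :=
    (otK_integrable_prod_mul (μ₁ := μ₁) (μ₂ := μ₂) hε hα hψ hφ.continuous hgc hg1).integral_prod_left
  have hC : Integrable g μ₂ := hbdd hgc hg1
  have hR := otR_integrable (μ₁ := μ₁) (μ₂ := μ₂) hε hα hψ hl hφ
  have hRc : AEStronglyMeasurable (otR ε μ₁ Φ ψ) μ₂ := hR.aestronglyMeasurable
  have hgR : Integrable (fun y => g y * otR ε μ₁ Φ ψ y) μ₂ := by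
    refine hR.mono' (hgc.aestronglyMeasurable.mul hRc) (Eventually.of_forall fun y => ?_)
    rw [Real.norm_eq_abs, abs_mul, otR, abs_of_pos (Real.exp_pos _)]
    exact mul_le_of_le_one_left (Real.exp_pos _).le (hg1 y)
  have h1 : |∫ x, g (gradient Φ x) ∂μ₁ - ∫ x, (∫ y, g y * otK ε Φ ψ x y ∂μ₂) ∂μ₁| ≤ V := by
    rw [← integral_sub hA hB]
    calc |∫ x, (g (gradient Φ x) - ∫ y, g y * otK ε Φ ψ x y ∂μ₂) ∂μ₁|
        ≤ ∫ x, |g (gradient Φ x) - ∫ y, g y * otK ε Φ ψ x y ∂μ₂| ∂μ₁ :=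
          abs_integral_le_integral_abs
      _ ≤ ∫ _x, V ∂μ₁ := by
          refine integral_mono (hA.sub hB).abs (integrable_const _) fun x => ?_
          simp only
          rw [abs_sub_comm]
          exact otK_lipschitz_le' hε hα hψ hl hφ x hg1 hg
      _ = V := by simp
  have h2 : |∫ y, g y * otR ε μ₁ Φ ψ y ∂μ₂ - ∫ y, g y ∂μ₂| ≤
      2 * Real.sqrt ((∫ y, (ψ y - otSL ε μ₁ Φ y) ∂μ₂) / ε) := by
    rw [← integral_sub hgR hC]
    calc |∫ y, (g y * otR ε μ₁ Φ ψ y - g y) ∂μ₂|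
        ≤ ∫ y, |g y * otR ε μ₁ Φ ψ y - g y| ∂μ₂ := abs_integral_le_integral_abs
      _ ≤ ∫ y, |otR ε μ₁ Φ ψ y - 1| ∂μ₂ := by
          refine integral_mono (hgR.sub hC).abs (hR.sub (integrable_const _)).abs fun y => ?_
          simp only
          have : g y * otR ε μ₁ Φ ψ y - g y = g y * (otR ε μ₁ Φ ψ y - 1) := by ring
          rw [this, abs_mul]
          exact mul_le_of_le_one_left (abs_nonneg _) (hg1 y)
      _ ≤ _ := (otR_l1_le hε hα hψ hl hφ hβ hψ' hm₂).2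
  rw [otR_integral_mul hε hα hψ hl hφ hgc hg1] at h2
  have h3 := abs_sub_le (∫ x, g (gradient Φ x) ∂μ₁)
    (∫ x, (∫ y, g y * otK ε Φ ψ x y ∂μ₂) ∂μ₁) (∫ y, g y ∂μ₂)
  linarith

end Claimed.Agent.R260
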