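/-
Row 260, package T1 (architect helper220; proofs helper83).  File OTPairDual: lower bound of the dual
functional.
-/
import Claimed.Agent.R260.OTPair

set_option autoImplicit false

namespace Claimed.Agent.R260

open MeasureTheory Set Filter Topology
open scoped InnerProductSpace

variable {E : Type*} [NormedAddCommGroup E] [InnerProductSpace ℝ E] [FiniteDimensional ℝ E]
  [MeasurableSpace E] [BorelSpace E]

variable {ε α α' l L : ℝ} {φ ψ : E → ℝ} {μ₁ μ₂ : Measure E}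

theorem ot_integrable_id {μ : Measure E} [IsFiniteMeasure μ]
    (hμ : Integrable (fun x => ‖x‖ ^ 2) μ) : Integrable (fun x : E => x) μ :=
  (integrable_norm_iff aestronglyMeasurable_id).1 (ot_integrable_norm hμ)

/-- pointwise form of the lower bound -/
theorem ot_dual_lower_pointwise [IsProbabilityMeasure μ₂] (hε : 0 < ε)
    (hα : 0 < α) (hψ : otQC α α' ψ) (hm₂ : Integrable (fun y => ‖y‖ ^ 2) μ₂) (x : E) :
    ⟪x, ∫ y, y ∂μ₂⟫_ℝ ≤ otSL ε μ₂ ψ x + ∫ y, ψ y ∂μ₂ := by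
  set Φ := otSL ε μ₂ ψ with hΦ
  have hid := ot_integrable_id hm₂
  have hi1 : Integrable ψ μ₂ := hψ.integrable hα.le hm₂
  have hin : Integrable (fun y => ⟪x, y⟫_ℝ) μ₂ := hid.const_inner x
  have hu : Integrable (fun y => (⟪x, y⟫_ℝ - Φ x - ψ y) / ε) μ₂ :=
    ((hin.sub (integrable_const _)).sub hi1).div_const ε
  have h1 : ∫ y, (1 + (⟪x, y⟫_ℝ - Φ x - ψ y) / ε) ∂μ₂ ≤ ∫ y, otK ε Φ ψ x y ∂μ₂ := by
    refine integral_mono ((integrable_const _).add hu) (otK_integrable hε hα hψ Φ x) fun y => ?_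
    simp only [otK]
    linarith [Real.add_one_le_exp ((⟪x, y⟫_ℝ - Φ x - ψ y) / ε)]
  rw [otK_integral_eq_one hε hα hψ x, integral_add (integrable_const _) hu] at h1
  simp only [integral_const, probReal_univ, smul_eq_mul, mul_one] at h1
  have hin' : Integrable (fun y => ⟪x, y⟫_ℝ - Φ x) μ₂ := hin.sub (integrable_const _)
  have h5 : ∫ y, (⟪x, y⟫_ℝ - Φ x - ψ y) ∂μ₂ = ⟪x, ∫ y, y ∂μ₂⟫_ℝ - Φ x - ∫ y, ψ y ∂μ₂ := by
    rw [integral_sub hin' hi1, integral_sub hin (integrable_const _), integral_inner hid]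
    simp
  rw [integral_div, h5] at h1
  have h2 : (⟪x, ∫ y, y ∂μ₂⟫_ℝ - Φ x - ∫ y, ψ y ∂μ₂) / ε ≤ 0 := by linarith
  have h3 : ⟪x, ∫ y, y ∂μ₂⟫_ℝ - Φ x - ∫ y, ψ y ∂μ₂ ≤ 0 := by
    by_contra hcon
    push Not at hcon
    have : 0 < (⟪x, ∫ y, y ∂μ₂⟫_ℝ - Φ x - ∫ y, ψ y ∂μ₂) / ε := div_pos hcon hε
    linarith
  linarith

/-- lower bound of the dual functional (`e^u ≥ 1 + u` on the Gibbs coupling) -/
theorem ot_dual_lower [IsProbabilityMeasure μ₁] [IsProbabilityMeasure μ₂] (hε : 0 < ε)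
    (hα : 0 < α) (hψ : otQC α α' ψ) (hl : 0 < l) (hφ : otQC l L (otSL ε μ₂ ψ))
    (hm₁ : Integrable (fun y => ‖y‖ ^ 2) μ₁) (hm₂ : Integrable (fun y => ‖y‖ ^ 2) μ₂) :
    ⟪∫ x, x ∂μ₁, ∫ y, y ∂μ₂⟫_ℝ ≤ ∫ x, otSL ε μ₂ ψ x ∂μ₁ + ∫ y, ψ y ∂μ₂ := by
  have hid := ot_integrable_id hm₁
  have hi : Integrable (otSL ε μ₂ ψ) μ₁ := hφ.integrable hl.le hm₁
  have h1 : ∫ x, ⟪∫ y, y ∂μ₂, x⟫_ℝ ∂μ₁ ≤ ∫ x, (otSL ε μ₂ ψ x + ∫ y, ψ y ∂μ₂) ∂μ₁ := by
    refine integral_mono (hid.const_inner _) (hi.add (integrable_const _)) fun x => ?_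
    simp only
    rw [real_inner_comm]
    exact ot_dual_lower_pointwise hε hα hψ hm₂ x
  rw [integral_inner hid, integral_add hi (integrable_const _)] at h1
  simp only [integral_const, probReal_univ, smul_eq_mul, one_mul] at h1
  rw [real_inner_comm]
  exact h1

end Claimed.Agent.R260
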