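/-
Row 260, package T1 (architect helper220).  File OTSinkL: the constants of the invariant box.
-/
import Mathlib

set_option autoImplicit false

namespace Claimed.Agent.R260

open Filter Topology

/-- the positive root of `c L (L + ε) = 1` -/
noncomputable def otL (c ε : ℝ) : ℝ := (-ε + Real.sqrt (ε ^ 2 + 4 / c)) / 2

theorem otL_pos {c ε : ℝ} (hc : 0 < c) : 0 < otL c ε := by
  have h4 : 0 < 4 / c := by positivity
  have h1 : |ε| < Real.sqrt (ε ^ 2 + 4 / c) := by
    rw [← Real.sqrt_sq_eq_abs]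
    exact Real.sqrt_lt_sqrt (sq_nonneg ε) (by linarith)
  have h2 : ε ≤ |ε| := le_abs_self ε
  unfold otL
  linarith

theorem otL_eq {c ε : ℝ} (hc : 0 < c) : c * otL c ε * (otL c ε + ε) = 1 := by
  have h4 : 0 < 4 / c := by positivity
  have hs : Real.sqrt (ε ^ 2 + 4 / c) ^ 2 = ε ^ 2 + 4 / c :=
    Real.sq_sqrt (by positivity)
  unfold otL
  have : c * ((-ε + Real.sqrt (ε ^ 2 + 4 / c)) / 2) *
      ((-ε + Real.sqrt (ε ^ 2 + 4 / c)) / 2 + ε) =
      c * (Real.sqrt (ε ^ 2 + 4 / c) ^ 2 - ε ^ 2) / 4 := by ring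
  rw [this, hs]
  field_simp
  ring

theorem otL_le {c ε : ℝ} (hc : 0 < c) (hε : 0 ≤ ε) : otL c ε ≤ 1 / Real.sqrt c := by
  have hL := otL_pos (ε := ε) hc
  have he := otL_eq (ε := ε) hc
  have hsc : 0 < Real.sqrt c := Real.sqrt_pos.2 hc
  have hsq : Real.sqrt c ^ 2 = c := Real.sq_sqrt hc.le
  rw [le_div_iff₀ hsc]
  have h1 : (otL c ε * Real.sqrt c) ^ 2 ≤ 1 ^ 2 := by
    rw [mul_pow, hsq]
    have : 0 ≤ c * otL c ε * ε := by positivity
    nlinarith
  exact (abs_le_of_sq_le_sq' h1 zero_le_one).2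

theorem otL_anti {c C ε : ℝ} (hc : 0 < c) (hcC : c ≤ C) : otL C ε ≤ otL c ε := by
  have h : 4 / C ≤ 4 / c := div_le_div_of_nonneg_left (by norm_num) hc hcC
  have h1 : Real.sqrt (ε ^ 2 + 4 / C) ≤ Real.sqrt (ε ^ 2 + 4 / c) :=
    Real.sqrt_le_sqrt (by linarith)
  unfold otL
  linarith

theorem otL_tendsto {c : ℝ} (hc : 0 < c) {e : ℕ → ℝ} (he : Tendsto e atTop (𝓝 0)) :
    Tendsto (fun n => otL c (e n)) atTop (𝓝 (1 / Real.sqrt c)) := by
  have hcont : Continuous (fun ε : ℝ => otL c ε) := by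
    unfold otL
    fun_prop
  have h0 : otL c 0 = 1 / Real.sqrt c := by
    unfold otL
    have h4 : Real.sqrt 4 = 2 := by
      rw [show (4 : ℝ) = 2 ^ 2 by norm_num]
      exact Real.sqrt_sq (by norm_num)
    rw [neg_zero, zero_add, zero_pow two_ne_zero, zero_add, Real.sqrt_div (by norm_num), h4]
    ring
  have := (hcont.tendsto 0).comp he
  rw [h0] at this
  exact this

/-- the fixed point relations of the invariant box -/
theorem otL_fix {c ε : ℝ} (hc : 0 < c) (hε : 0 < ε) :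
    1 / (1 / (otL c ε + ε * 1) + ε * c) = otL c ε := by
  have hL := otL_pos (ε := ε) hc
  have he := otL_eq (ε := ε) hc
  have hLe : 0 < otL c ε + ε := by linarith
  rw [mul_one]
  have h1 : 1 / (otL c ε + ε) = c * otL c ε := by
    rw [div_eq_iff hLe.ne']
    linarith
  rw [h1, div_eq_iff (by positivity)]
  nlinarith

end Claimed.Agent.R260
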