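/-
Row 260, package T1 (architect helper220).  File OTSoftQC: invariance of the class under a half-step (bridge to Lib/PL*).
Owner of the proofs: helper88.
-/
import Claimed.Agent.R260.OTSoft
import Claimed.Agent.Lib.PLLaplace

set_option autoImplicit false

namespace Claimed.Agent.R260

open MeasureTheory Set Filter Topology
open scoped InnerProductSpace

variable {E : Type*} [NormedAddCommGroup E] [InnerProductSpace ℝ E] [FiniteDimensional ℝ E]
  [MeasurableSpace E] [BorelSpace E]

variable {ε α α' : ℝ} {ψ : E → ℝ} {μ : Measure E}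

omit [FiniteDimensional ℝ E] [MeasurableSpace E] [BorelSpace E] in
/-- on a nontrivial space the two constants of a nonempty class are ordered -/
theorem otQC.le_of_nontrivial [Nontrivial E] {a b : ℝ} {f : E → ℝ} (h : otQC a b f) : a ≤ b := by
  obtain ⟨x, hx⟩ := exists_ne (0 : E)
  have hn : 0 < ‖x‖ := norm_pos_iff.2 hx
  have h1 := h.1.2 (mem_univ x) (mem_univ (-x)) (show (0:ℝ) ≤ 1 / 2 by norm_num)
    (show (0:ℝ) ≤ 1 / 2 by norm_num) (by norm_num)
  have h2 := h.2.2 (mem_univ x) (mem_univ (-x)) (show (0:ℝ) ≤ 1 / 2 by norm_num)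
    (show (0:ℝ) ≤ 1 / 2 by norm_num) (by norm_num)
  have hz : (1 / 2 : ℝ) • x + (1 / 2 : ℝ) • (-x) = 0 := by simp
  rw [hz] at h1 h2
  simp only [norm_zero, norm_neg, smul_eq_mul] at h1 h2
  have h3 : 0 ≤ (b - a) * ‖x‖ ^ 2 := by nlinarith
  by_contra hlt
  rw [not_le] at hlt
  have : (b - a) * ‖x‖ ^ 2 < 0 := mul_neg_of_neg_of_pos (by linarith) (by positivity)
  linarith

omit [FiniteDimensional ℝ E] [MeasurableSpace E] [BorelSpace E] in
theorem otQC_of_subsingleton [Subsingleton E] (a b : ℝ) (f : E → ℝ) : otQC a b f := by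
  have key : ∀ g : E → ℝ, ConvexOn ℝ univ g := by
    intro g
    refine ⟨convex_univ, ?_⟩
    intro x _ y _ s t _ _ hst
    have h1 : s • x + t • y = x := Subsingleton.elim _ _
    have h2 : y = x := Subsingleton.elim _ _
    rw [h1, h2, ← add_smul, hst, one_smul]
  exact ⟨key _, key _⟩

omit [FiniteDimensional ℝ E] [MeasurableSpace E] [BorelSpace E] in
/-- `ψ/ε + W` belongs to the class `(α/ε + c, α'/ε + c')`. -/
theorem otQC.div_add {c c' : ℝ} {W : E → ℝ} (hε : 0 < ε)
    (hψ : otQC α α' ψ) (hW : otQC c c' W) :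
    otQC (α / ε + c) (α' / ε + c') (fun y => ψ y / ε + W y) := by
  constructor
  · have := (hψ.1.smul (show (0:ℝ) ≤ 1 / ε by positivity)).add hW.1
    refine this.congr ?_
    intro y _
    simp only [Pi.add_apply, smul_eq_mul]
    field_simp
    ring
  · have := (hψ.2.smul (show (0:ℝ) ≤ 1 / ε by positivity)).add hW.2
    refine this.congr ?_
    intro y _
    simp only [Pi.add_apply, smul_eq_mul]
    field_simp
    ring

/-- the soft Legendre transform as a rescaled log-Laplace transform -/
theorem otSL_eq_logLaplace {W : E → ℝ} (hWc : Continuous W) (hε : 0 < ε) (x : E) :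
    otSL ε (otMeas W) ψ x
      = ε * Real.log (∫ y : E, Real.exp (⟪(1 / ε) • x, y⟫_ℝ - (ψ y / ε + W y))) := by
  unfold otSL
  rw [integral_otMeas hWc]
  congr 2
  refine integral_congr_ae (Eventually.of_forall fun y => ?_)
  show Real.exp ((⟪x, y⟫_ℝ - ψ y) / ε) * Real.exp (-W y)
    = Real.exp (⟪(1 / ε) • x, y⟫_ℝ - (ψ y / ε + W y))
  rw [← Real.exp_add, real_inner_smul_left]
  congr 1
  field_simp
  ring

/-- S1: invariance of the class under a half-step (Prékopa for the upper bound, Hölder for the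
lower bound).  To be derived from helper88's `Claimed/Agent/Lib/PL*.lean` (PL6). -/
theorem otSL_QC {c c' : ℝ} {W : E → ℝ} (hε : 0 < ε) (hα : 0 < α) (hc : 0 < c)
    (hψ : otQC α α' ψ) (hW : otQC c c' W) :
    otQC (1 / (α' + ε * c')) (1 / (α + ε * c)) (otSL ε (otMeas W) ψ) := by
  rcases subsingleton_or_nontrivial E with hE | hE
  · exact otQC_of_subsingleton _ _ _
  have hαα : α ≤ α' := hψ.le_of_nontrivial
  have hcc : c ≤ c' := hW.le_of_nontrivial
  have hα' : 0 < α' := lt_of_lt_of_le hα hαα
  have hc' : 0 < c' := lt_of_lt_of_le hc hcc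
  have hU := hψ.div_add hε hW
  have hκ : 0 < α / ε + c := by positivity
  have hK : 0 < α' / ε + c' := by positivity
  have hWc : Continuous W := hW.continuous
  set L : E →ₗ[ℝ] E := (1 / ε) • LinearMap.id with hL
  have hLx : ∀ x, L x = (1 / ε) • x := fun x => by simp [hL]
  constructor
  · have h1 := PL.pl_logLaplace_lower hκ hK hU.1 hU.2
    have h2 := (h1.comp_linearMap L).smul hε.le
    rw [preimage_univ] at h2
    refine h2.congr ?_
    intro x _
    simp only [Function.comp_apply, smul_eq_mul, hLx]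
    rw [otSL_eq_logLaplace hWc hε, norm_smul, Real.norm_of_nonneg (by positivity : (0:ℝ) ≤ 1 / ε)]
    field_simp
  · have h1 := PL.pl_logLaplace_upper hκ hU.1
    have h2 := (h1.comp_linearMap L).smul hε.le
    rw [preimage_univ] at h2
    refine h2.congr ?_
    intro x _
    simp only [Function.comp_apply, smul_eq_mul, hLx]
    rw [otSL_eq_logLaplace hWc hε, norm_smul, Real.norm_of_nonneg (by positivity : (0:ℝ) ≤ 1 / ε)]
    field_simp

end Claimed.Agent.R260
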