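/-
Row 260, package T1 (owner helper220).  File OTSink: the Sinkhorn iterates between the Gaussian
and `e^{-V}dy` stay in an invariant box; some iterate has a small marginal error.
-/
import Claimed.Agent.R260.OTPairApprox
import Claimed.Agent.R260.OTPairDual
import Claimed.Agent.R260.OTSoftQC
import Claimed.Agent.R260.OTSinkL

set_option autoImplicit false

namespace Claimed.Agent.R260

open MeasureTheory Set Filter Topology
open scoped InnerProductSpace

variable {E : Type*} [NormedAddCommGroup E] [InnerProductSpace ℝ E] [FiniteDimensional ℝ E]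
  [MeasurableSpace E] [BorelSpace E]

/-- the Sinkhorn iterates `ψ_n` (functions on the target side) -/
noncomputable def otPsi (ε c : ℝ) (V : E → ℝ) : ℕ → E → ℝ
  | 0 => fun y => (1 / (otL c ε + ε * 1)) / 2 * ‖y‖ ^ 2
  | n + 1 => otSL ε (otGauss E) (otSL ε (otMeas V) (otPsi ε c V n))

/-- the Sinkhorn iterates `φ_n` (functions on the Gaussian side) -/
noncomputable def otPhi (ε c : ℝ) (V : E → ℝ) (n : ℕ) : E → ℝ :=
  otSL ε (otMeas V) (otPsi ε c V n)

variable {ε c C : ℝ} {V : E → ℝ}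

theorem otPsi_zero (ε c : ℝ) (V : E → ℝ) :
    otPsi ε c V 0 = fun y => (1 / (otL c ε + ε * 1)) / 2 * ‖y‖ ^ 2 := rfl

theorem otPsi_succ (ε c : ℝ) (V : E → ℝ) (n : ℕ) :
    otPsi ε c V (n + 1) = otSL ε (otGauss E) (otPhi ε c V n) := rfl

theorem otPhi_eq (ε c : ℝ) (V : E → ℝ) (n : ℕ) :
    otPhi ε c V n = otSL ε (otMeas V) (otPsi ε c V n) := rfl

/-- the lower constant of the `ψ`-box is positive -/
theorem otSink_alpha_pos (hε : 0 < ε) (hc : 0 < c) : 0 < 1 / (otL c ε + ε * 1) := by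
  have := otL_pos (ε := ε) hc
  positivity

/-- one half-step from the `ψ`-box to the `φ`-box -/
theorem otSink_half_one (hε : 0 < ε) (hc : 0 < c) (hcC : c ≤ C) (hV : otQC c C V) {ψ : E → ℝ}
    (hψ : otQC (1 / (otL c ε + ε * 1)) (1 / (otL C ε + ε * 1)) ψ) :
    otQC (otL C ε) (otL c ε) (otSL ε (otMeas V) ψ) := by
  have h := otSL_QC hε (otSink_alpha_pos hε hc) hc hψ hV
  rwa [otL_fix hc hε, otL_fix (hc.trans_le hcC) hε] at h

/-- one half-step from the `φ`-box to the `ψ`-box -/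
theorem otSink_half_two (hε : 0 < ε) (hc : 0 < c) (hcC : c ≤ C) {φ : E → ℝ}
    (hφ : otQC (otL C ε) (otL c ε) φ) :
    otQC (1 / (otL c ε + ε * 1)) (1 / (otL C ε + ε * 1)) (otSL ε (otGauss E) φ) :=
  otSL_QC hε (otL_pos (hc.trans_le hcC)) one_pos hφ otW0_QC

theorem otPsi_QC (hε : 0 < ε) (hc : 0 < c) (hcC : c ≤ C) (hV : otQC c C V) (n : ℕ) :
    otQC (1 / (otL c ε + ε * 1)) (1 / (otL C ε + ε * 1)) (otPsi ε c V n) := by
  induction n with
  | zero =>
    rw [otPsi_zero]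
    refine (otQC_sq (1 / (otL c ε + ε * 1))).mono le_rfl ?_
    have h1 := otL_pos (ε := ε) (hc.trans_le hcC)
    have h2 := otL_anti (ε := ε) hc hcC
    exact one_div_le_one_div_of_le (by linarith) (by linarith)
  | succ n ih =>
    rw [otPsi_succ, otPhi_eq]
    exact otSink_half_two hε hc hcC (otSink_half_one hε hc hcC hV ih)

theorem otPhi_QC (hε : 0 < ε) (hc : 0 < c) (hcC : c ≤ C) (hV : otQC c C V) (n : ℕ) :
    otQC (otL C ε) (otL c ε) (otPhi ε c V n) :=
  otSink_half_one hε hc hcC hV (otPsi_QC hε hc hcC hV n)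

/-- the dual functional -/
noncomputable def otD (ε c : ℝ) (V : E → ℝ) (n : ℕ) : ℝ :=
  ∫ x, otPhi ε c V n x ∂(otGauss E) + ∫ y, otPsi ε c V n y ∂(otMeas V)

theorem otD_lower (hε : 0 < ε) (hc : 0 < c) (hcC : c ≤ C) (hV : otQC c C V)
    (h1 : ∫ y, Real.exp (-V y) = 1) :
    ∃ D₀ : ℝ, ∀ n, D₀ ≤ otD ε c V n := by
  have : IsProbabilityMeasure (otMeas V) := otMeas_isProbabilityMeasure hV.continuous h1
  refine ⟨⟪∫ x, x ∂(otGauss E), ∫ y, y ∂(otMeas V)⟫_ℝ, fun n => ?_⟩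
  exact ot_dual_lower hε (otSink_alpha_pos hε hc) (otPsi_QC hε hc hcC hV n)
    (otL_pos (hc.trans_le hcC)) (otPhi_QC hε hc hcC hV n) otGauss_integrable_norm_sq
    (hV.integrable_norm_sq hc)

theorem otPsi_integrable (hε : 0 < ε) (hc : 0 < c) (hcC : c ≤ C) (hV : otQC c C V)
    (h1 : ∫ y, Real.exp (-V y) = 1) (n : ℕ) : Integrable (otPsi ε c V n) (otMeas V) := by
  have : IsProbabilityMeasure (otMeas V) := otMeas_isProbabilityMeasure hV.continuous h1
  exact (otPsi_QC hε hc hcC hV n).integrable (otSink_alpha_pos hε hc).le (hV.integrable_norm_sq hc)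

theorem otPhi_integrable (hε : 0 < ε) (hc : 0 < c) (hcC : c ≤ C) (hV : otQC c C V) (n : ℕ) :
    Integrable (otPhi ε c V n) (otGauss E) :=
  (otPhi_QC hε hc hcC hV n).integrable (otL_pos (hc.trans_le hcC)).le otGauss_integrable_norm_sq

theorem otD_step (hε : 0 < ε) (hc : 0 < c) (hcC : c ≤ C) (hV : otQC c C V)
    (h1 : ∫ y, Real.exp (-V y) = 1) (n : ℕ) :
    ∫ y, (otPsi ε c V n y - otPsi ε c V (n + 1) y) ∂(otMeas V) ≤
      otD ε c V n - otD ε c V (n + 1) := by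
  have : IsProbabilityMeasure (otMeas V) := otMeas_isProbabilityMeasure hV.continuous h1
  have hC : 0 < C := hc.trans_le hcC
  have key : 0 ≤ ∫ x, (otPhi ε c V n x - otPhi ε c V (n + 1) x) ∂(otGauss E) :=
    (otR_l1_le (μ₁ := otMeas V) (μ₂ := otGauss E) hε (otL_pos hC) (otPhi_QC hε hc hcC hV n)
      (otSink_alpha_pos hε hc) (otPsi_QC hε hc hcC hV (n + 1)) (otL_pos hC).le
      (otPhi_QC hε hc hcC hV (n + 1)) otGauss_integrable_norm_sq).1
  rw [integral_sub (otPhi_integrable hε hc hcC hV n) (otPhi_integrable hε hc hcC hV (n + 1))] at key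
  rw [integral_sub (otPsi_integrable hε hc hcC hV h1 n) (otPsi_integrable hε hc hcC hV h1 (n + 1))]
  unfold otD
  linarith

theorem otD_exists_small (hε : 0 < ε) (hc : 0 < c) (hcC : c ≤ C) (hV : otQC c C V)
    (h1 : ∫ y, Real.exp (-V y) = 1) {η : ℝ} (hη : 0 < η) :
    ∃ n, ∫ y, (otPsi ε c V n y - otPsi ε c V (n + 1) y) ∂(otMeas V) ≤ η := by
  by_contra hcon
  push Not at hcon
  obtain ⟨D₀, hD₀⟩ := otD_lower hε hc hcC hV h1
  have hdec : ∀ N : ℕ, otD ε c V N ≤ otD ε c V 0 - N * η := by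
    intro N
    induction N with
    | zero => simp
    | succ N ih =>
      have h2 := otD_step hε hc hcC hV h1 N
      have h3 := hcon N
      push_cast
      linarith
  obtain ⟨N, hN⟩ := exists_nat_gt ((otD ε c V 0 - D₀) / η)
  rw [div_lt_iff₀ hη] at hN
  have h4 := hdec N
  have h5 := hD₀ N
  linarith

/-- the output of the Sinkhorn stage -/
theorem ot_approx (hε : 0 < ε) (hc : 0 < c) (hcC : c ≤ C) (hV : otQC c C V)
    (h1 : ∫ y, Real.exp (-V y) = 1) {η : ℝ} (hη : 0 < η) :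
    ∃ φ : E → ℝ, otQC (otL C ε) (otL c ε) φ ∧
      ∀ g : E → ℝ, (∀ y, |g y| ≤ 1) → LipschitzWith 1 g →
        |∫ x, g (gradient φ x) ∂(otGauss E) - ∫ y, g y ∂(otMeas V)| ≤
          Real.sqrt (2 * (Module.finrank ℝ E : ℝ) * otL c ε * ε) + η := by
  have : IsProbabilityMeasure (otMeas V) := otMeas_isProbabilityMeasure hV.continuous h1
  have hC : 0 < C := hc.trans_le hcC
  obtain ⟨n, hn⟩ := otD_exists_small hε hc hcC hV h1 (η := ε * (η / 2) ^ 2) (by positivity)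
  refine ⟨otPhi ε c V n, otPhi_QC hε hc hcC hV n, fun g hg1 hg => ?_⟩
  have h := ot_pair_approx (μ₁ := otGauss E) (μ₂ := otMeas V) hε (otSink_alpha_pos hε hc)
    (otPsi_QC hε hc hcC hV n) (otL_pos hC) (otPhi_QC hε hc hcC hV n)
    (otSink_alpha_pos hε hc).le (otPsi_QC hε hc hcC hV (n + 1)) (hV.integrable_norm_sq hc) hg1 hg
  refine h.trans ?_
  have h2 : Real.sqrt ((∫ y, (otPsi ε c V n y -
      otSL ε (otGauss E) (otSL ε (otMeas V) (otPsi ε c V n)) y) ∂(otMeas V)) / ε) ≤ η / 2 := by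
    rw [← Real.sqrt_sq (by positivity : (0 : ℝ) ≤ η / 2)]
    refine Real.sqrt_le_sqrt ?_
    rw [div_le_iff₀ hε]
    calc _ ≤ ε * (η / 2) ^ 2 := hn
      _ = (η / 2) ^ 2 * ε := mul_comm _ _
  linarith

end Claimed.Agent.R260
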