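/-
Row 260, package T1 (architect helper220).  File OTExists: existence of the Brenier potential with two-sided bounds.
-/
import Claimed.Agent.R260.OTLimit
import Claimed.Agent.R260.OTSink

set_option autoImplicit false

namespace Claimed.Agent.R260

open MeasureTheory Set Filter Topology
open scoped InnerProductSpace

variable {E : Type*} [NormedAddCommGroup E] [InnerProductSpace ℝ E] [FiniteDimensional ℝ E]
  [MeasurableSpace E] [BorelSpace E]

/-- **T1**: existence of the Brenier potential with Caffarelli's two-sided bounds. -/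
theorem ot_exists {c C : ℝ} {V : E → ℝ} (hc : 0 < c) (hcC : c ≤ C) (hV : otQC c C V)
    (h1 : ∫ y, Real.exp (-V y) = 1) :
    ∃ φ : E → ℝ, otQC (1 / Real.sqrt C) (1 / Real.sqrt c) φ ∧
      (otGauss E).map (gradient φ) = otMeas V := by
  haveI : IsProbabilityMeasure (otMeas V) := otMeas_isProbabilityMeasure hV.continuous h1
  have hC : 0 < C := hc.trans_le hcC
  set e : ℕ → ℝ := fun k => 1 / ((k : ℝ) + 1) with he
  have hepos : ∀ k, 0 < e k := fun k => by positivity
  have het : Tendsto e atTop (𝓝 0) := tendsto_one_div_add_atTop_nhds_zero_nat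
  choose φn hQ happ using fun k => ot_approx (E := E) (hepos k) hc hcC hV h1 (hepos k)
  have hbound : Tendsto (fun k => Real.sqrt (2 * (Module.finrank ℝ E : ℝ) * otL c (e k) * e k)
      + e k) atTop (𝓝 0) := by
    have h1 : Tendsto (fun k => 2 * (Module.finrank ℝ E : ℝ) * otL c (e k) * e k) atTop
        (𝓝 (2 * (Module.finrank ℝ E : ℝ) * (1 / Real.sqrt c) * 0)) :=
      ((otL_tendsto hc het).const_mul _).mul het
    have h2 := (Real.continuous_sqrt.tendsto _).comp h1
    have h3 := h2.add het
    simpa using h3
  obtain ⟨φ, k, -, hφ, -, hmap⟩ := ot_limit (μ := otMeas V) hQ (fun n => (otL_pos hC).le)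
    (otL_tendsto hC het) (otL_tendsto hc het) (by
      intro g hg1 hg2
      rw [tendsto_iff_dist_tendsto_zero]
      refine squeeze_zero (fun _ => dist_nonneg) (fun n => ?_) hbound
      rw [Real.dist_eq]
      exact happ n g hg1 hg2)
  exact ⟨φ, hφ, hmap⟩

end Claimed.Agent.R260
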