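/-
Row 260, package T1 (architect helper220).  File OTUniq: uniqueness in the class.
Proof: helper291.
-/
import Claimed.Agent.R260.OTMeas

set_option autoImplicit false

namespace Claimed.Agent.R260

open MeasureTheory Set Filter Topology
open scoped InnerProductSpace

variable {E : Type*} [NormedAddCommGroup E] [InnerProductSpace ℝ E] [FiniteDimensional ℝ E]
  [MeasurableSpace E] [BorelSpace E]

/-- **T7**: uniqueness in the class. -/
theorem ot_unique {a₁ b₁ a₂ b₂ : ℝ} {φ₁ φ₂ : E → ℝ} (ha₁ : 0 < a₁) (ha₂ : 0 < a₂)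
    (h₁ : otQC a₁ b₁ φ₁) (h₂ : otQC a₂ b₂ φ₂)
    (h : (otGauss E).map (gradient φ₁) = (otGauss E).map (gradient φ₂)) :
    gradient φ₁ = gradient φ₂ := by
  set γ : Measure E := otGauss E with hγ
  set T₁ : E → E := gradient φ₁ with hT₁
  set T₂ : E → E := gradient φ₂ with hT₂
  have hc₁ : Continuous T₁ := h₁.grad_continuous ha₁.le
  have hc₂ : Continuous T₂ := h₂.grad_continuous ha₂.le
  -- the inverse of `T₁`
  set e : E ≃ E := Equiv.ofBijective T₁ ⟨h₁.grad_injective ha₁, h₁.grad_surjective ha₁⟩ with he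
  have he1 : ∀ x, T₁ (e.symm x) = x := fun x => e.apply_symm_apply x
  have he2 : ∀ x, e.symm (T₁ x) = x := fun x => e.symm_apply_apply x
  have hinvL : LipschitzWith (Real.toNNReal (1 / a₁)) e.symm := by
    refine LipschitzWith.of_dist_le_mul fun u v => ?_
    rw [dist_eq_norm, dist_eq_norm, Real.coe_toNNReal _ (by positivity)]
    have := h₁.grad_antilipschitz (e.symm u) (e.symm v)
    rw [← hT₁, he1, he1] at this
    rw [div_mul_eq_mul_div, one_mul, le_div_iff₀ ha₁]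
    linarith
  have hinvc : Continuous e.symm := hinvL.continuous
  set S : E → E := fun x => e.symm (T₂ x) with hS
  have hSc : Continuous S := hinvc.comp hc₂
  have hTS : ∀ x, T₁ (S x) = T₂ x := fun x => he1 _
  -- `S` preserves the Gaussian measure
  have hSγ : γ.map S = γ := by
    have e1 : γ.map S = (γ.map T₂).map e.symm :=
      (Measure.map_map hinvc.measurable hc₂.measurable).symm
    rw [e1, ← h, Measure.map_map hinvc.measurable hc₁.measurable]
    have : (e.symm ∘ T₁) = id := funext he2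
    rw [this, Measure.map_id]
  have hsq : Integrable (fun x : E => ‖x‖ ^ 2) γ := otGauss_integrable_norm_sq
  have hi₁ : Integrable φ₁ γ := h₁.integrable ha₁.le hsq
  have hi₂ : Integrable φ₂ γ := h₂.integrable ha₂.le hsq
  have hcomp : ∀ φ : E → ℝ, Continuous φ → Integrable φ γ →
      Integrable (fun x => φ (S x)) γ ∧ ∫ x, φ (S x) ∂γ = ∫ x, φ x ∂γ := by
    intro φ hφc hφ
    constructor
    · have h3 : Integrable φ (γ.map S) := by rw [hSγ]; exact hφ
      exact (integrable_map_measure hφc.aestronglyMeasurable hSc.aemeasurable).1 h3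
    · have h3 := integral_map (μ := γ) hSc.aemeasurable (f := φ) hφc.aestronglyMeasurable
      rw [hSγ] at h3
      exact h3.symm
  obtain ⟨hj₁, hI₁⟩ := hcomp φ₁ h₁.continuous hi₁
  obtain ⟨hj₂, hI₂⟩ := hcomp φ₂ h₂.continuous hi₂
  set F : E → ℝ := fun x => φ₁ x - φ₁ (S x) + (φ₂ (S x) - φ₂ x) with hF
  have hFlow : ∀ x, (a₁ + a₂) / 2 * ‖x - S x‖ ^ 2 ≤ F x := by
    intro x
    have k1 := h₁.lower (S x) x
    have k2 := h₂.lower x (S x)
    rw [← hT₁, hTS] at k1
    rw [← hT₂] at k2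
    have k3 : ⟪T₂ x, S x - x⟫_ℝ = -⟪T₂ x, x - S x⟫_ℝ := by
      rw [← inner_neg_right, neg_sub]
    rw [k3, norm_sub_rev (S x) x] at k2
    simp only [hF]
    nlinarith
  have hF0 : 0 ≤ F := fun x =>
    le_trans (by positivity) (hFlow x)
  have hFi : Integrable F γ := (hi₁.sub hj₁).add (hj₂.sub hi₂)
  have hFint : ∫ x, F x ∂γ = 0 := by
    have k1 : ∫ x, F x ∂γ = ∫ x, (φ₁ x - φ₁ (S x)) ∂γ + ∫ x, (φ₂ (S x) - φ₂ x) ∂γ :=
      integral_add (hi₁.sub hj₁) (hj₂.sub hi₂)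
    have k2 : ∫ x, (φ₁ x - φ₁ (S x)) ∂γ = ∫ x, φ₁ x ∂γ - ∫ x, φ₁ (S x) ∂γ := integral_sub hi₁ hj₁
    have k3 : ∫ x, (φ₂ (S x) - φ₂ x) ∂γ = ∫ x, φ₂ (S x) ∂γ - ∫ x, φ₂ x ∂γ := integral_sub hj₂ hi₂
    rw [k1, k2, k3, hI₁, hI₂]
    ring
  have hFae : F =ᵐ[γ] 0 := (integral_eq_zero_iff_of_nonneg hF0 hFi).1 hFint
  have hae : T₁ =ᵐ[γ] T₂ := by
    filter_upwards [hFae] with x hx
    have k1 := hFlow x
    rw [hx] at k1
    have k2 : ‖x - S x‖ ^ 2 ≤ 0 := by
      have : 0 < (a₁ + a₂) / 2 := by positivity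
      simp only [Pi.zero_apply] at k1
      nlinarith
    have k3 : ‖x - S x‖ = 0 := by
      have := norm_nonneg (x - S x)
      nlinarith
    have k4 : x = S x := sub_eq_zero.1 (norm_eq_zero.1 k3)
    rw [← hTS x, ← k4]
  exact otMeas_eq_of_ae_eq (W := (otW0 : E → ℝ)) otW0_QC.continuous hc₁ hc₂ hae

end Claimed.Agent.R260
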