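/-
Row 260, package T1 (architect helper220).  File OTStable: stability of the Brenier maps.
-/
import Claimed.Agent.R260.OTLimit
import Claimed.Agent.R260.OTUniq

set_option autoImplicit false

namespace Claimed.Agent.R260

open MeasureTheory Set Filter Topology
open scoped InnerProductSpace

variable {E : Type*} [NormedAddCommGroup E] [InnerProductSpace ℝ E] [FiniteDimensional ℝ E]
  [MeasurableSpace E] [BorelSpace E]

/-- stability: weak convergence of the targets implies pointwise convergence of the maps -/
theorem ot_stable {a b a' b' : ℝ} {φn : ℕ → E → ℝ} {φ : E → ℝ} (ha : 0 < a) (ha' : 0 < a')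
    (h : ∀ n, otQC a b (φn n)) (hφ : otQC a' b' φ)
    (hw : ∀ g : E → ℝ, (∀ y, |g y| ≤ 1) → LipschitzWith 1 g →
      Tendsto (fun n => ∫ x, g (gradient (φn n) x) ∂(otGauss E)) atTop
        (𝓝 (∫ x, g (gradient φ x) ∂(otGauss E)))) (x : E) :
    Tendsto (fun n => gradient (φn n) x) atTop (𝓝 (gradient φ x)) := by
  have hmeas : Measurable (gradient φ) := (hφ.grad_continuous ha'.le).measurable
  haveI : IsProbabilityMeasure ((otGauss E).map (gradient φ)) :=
    Measure.isProbabilityMeasure_map hmeas.aemeasurable
  refine tendsto_of_subseq_tendsto fun ns hns => ?_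
  have hw' : ∀ g : E → ℝ, (∀ y, |g y| ≤ 1) → LipschitzWith 1 g →
      Tendsto (fun n => ∫ x, g (gradient (φn (ns n)) x) ∂(otGauss E)) atTop
        (𝓝 (∫ y, g y ∂((otGauss E).map (gradient φ)))) := by
    intro g hg1 hg2
    rw [integral_map hmeas.aemeasurable hg2.continuous.aestronglyMeasurable]
    exact (hw g hg1 hg2).comp hns
  obtain ⟨ψ, k, -, hψ, hconv, hmap⟩ := ot_limit (μ := (otGauss E).map (gradient φ))
    (an := fun _ => a) (bn := fun _ => b) (fun n => h (ns n)) (fun _ => ha.le)
    tendsto_const_nhds tendsto_const_nhds hw'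
  have heq : gradient ψ = gradient φ := ot_unique ha ha' hψ hφ hmap
  refine ⟨k, ?_⟩
  have := hconv x
  rwa [heq] at this

end Claimed.Agent.R260
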