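/-
Row 260, package T1 (owner helper220).  File OTBridge: the output of the OT package in the
vocabulary of `Defs.lean` (`EE m`, `gam m`, `QC`, `NicePot`).
-/
import Claimed.Agent.R260.Defs
import Claimed.Agent.R260.OTExists
import Claimed.Agent.R260.OTStable

set_option autoImplicit false

namespace Claimed.Agent.R260

open MeasureTheory Set Filter Topology ProbabilityTheory
open scoped InnerProductSpace

theorem otQC_iff_QC {E : Type*} [NormedAddCommGroup E] [InnerProductSpace ℝ E] {a b : ℝ}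
    {f : E → ℝ} : otQC a b f ↔ QC a b f := Iff.rfl

section gauss

variable {E : Type*} [NormedAddCommGroup E] [InnerProductSpace ℝ E] [FiniteDimensional ℝ E]
  [MeasurableSpace E] [BorelSpace E]

theorem otGauss_charFun (t : E) : charFun (otGauss E) t = Complex.exp (- ‖t‖ ^ 2 / 2) := by
  have hmeas : Measurable (fun x : E => ENNReal.ofReal (Real.exp (-otW0 x))) := by
    unfold otW0
    fun_prop
  rw [charFun_apply, otGauss, otMeas,
    integral_withDensity_eq_integral_toReal_smul hmeas (by simp)]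
  have h1 := GaussianFourier.integral_cexp_neg_mul_sq_norm_add (V := E) (b := (1/2 : ℂ))
    (by norm_num) Complex.I t
  set d : ℝ := (Module.finrank ℝ E : ℝ) with hd
  have hK : ∀ x : E, (ENNReal.ofReal (Real.exp (-otW0 x))).toReal • Complex.exp (⟪x, t⟫_ℝ * Complex.I)
      = ((Real.exp (-(d / 2 * Real.log (2 * Real.pi))) : ℝ) : ℂ) *
        Complex.exp (-(1/2 : ℂ) * ‖x‖ ^ 2 + Complex.I * ⟪t, x⟫_ℝ) := by
    intro x
    rw [ENNReal.toReal_ofReal (Real.exp_pos _).le, Complex.real_smul]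
    unfold otW0
    rw [neg_add, Real.exp_add, Complex.ofReal_mul, Complex.exp_add, real_inner_comm]
    rw [hd]
    push_cast
    ring_nf
  simp_rw [hK]
  rw [integral_const_mul, h1]
  have h2 : (Complex.I ^ 2 * (‖t‖ : ℂ) ^ 2 / (4 * (1 / 2 : ℂ))) = - (‖t‖ : ℂ) ^ 2 / 2 := by
    rw [Complex.I_sq]; ring
  rw [h2, ← mul_assoc]
  have h3 : ((Real.exp (-(d / 2 * Real.log (2 * Real.pi))) : ℝ) : ℂ) *
      ((Real.pi : ℂ) / (1 / 2 : ℂ)) ^ ((Module.finrank ℝ E : ℂ) / 2) = 1 := by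
    have h4 : ((Real.pi : ℂ) / (1 / 2 : ℂ)) = ((2 * Real.pi : ℝ) : ℂ) := by push_cast; ring
    have h5 : ((Module.finrank ℝ E : ℂ) / 2) = ((d / 2 : ℝ) : ℂ) := by rw [hd]; push_cast; ring
    rw [h4, h5, ← Complex.ofReal_cpow (by positivity), ← Complex.ofReal_mul,
      Real.rpow_def_of_pos (by positivity), ← Real.exp_add]
    have : -(d / 2 * Real.log (2 * Real.pi)) + Real.log (2 * Real.pi) * (d / 2) = 0 := by ring
    rw [this]; simp
  rw [h3, one_mul]

theorem otb_gauss_eq_stdGaussian : otGauss E = stdGaussian E := by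
  apply Measure.ext_of_charFun
  funext t
  rw [otGauss_charFun, charFun_stdGaussian]

end gauss

variable {m : ℕ}

/-- the Gaussian of the OT package is the Gaussian of `Defs.lean` -/
theorem otGauss_eq_gam : otGauss (EE m) = gam m := otb_gauss_eq_stdGaussian

/-- **T1** in the vocabulary of `Defs.lean`, explicit constants. -/
theorem otb_exists {c C : ℝ} {V : EE m → ℝ} (hc : 0 < c) (hcC : c ≤ C) (hV : QC c C V)
    (h1 : ∫ y, Real.exp (-V y) = 1) :
    ∃ φ : EE m → ℝ, QC (1 / Real.sqrt C) (1 / Real.sqrt c) φ ∧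
      (gam m).map (gradient φ) =
        volume.withDensity (fun y => ENNReal.ofReal (Real.exp (-V y))) := by
  obtain ⟨φ, h1, h2⟩ := ot_exists hc hcC hV h1
  exact ⟨φ, h1, by rw [← otGauss_eq_gam]; exact h2⟩

/-- **T1** for `NicePot`. -/
theorem otb_exists_nicePot {V : EE m → ℝ} (hV : NicePot V) :
    ∃ (lam Lam : ℝ) (φ : EE m → ℝ), 0 < lam ∧ lam ≤ Lam ∧ QC lam Lam φ ∧
      (gam m).map (gradient φ) =
        volume.withDensity (fun y => ENNReal.ofReal (Real.exp (-V y))) := by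
  obtain ⟨⟨c, C, hc, hQ⟩, h1⟩ := hV
  have hQ' : QC c (max c C) V := otQC.mono hQ le_rfl (le_max_right _ _)
  have hC : 0 < max c C := lt_of_lt_of_le hc (le_max_left _ _)
  obtain ⟨φ, h2, h3⟩ := otb_exists hc (le_max_left _ _) hQ' h1
  refine ⟨1 / Real.sqrt (max c C), 1 / Real.sqrt c, φ, by positivity, ?_, h2, h3⟩
  exact one_div_le_one_div_of_le (Real.sqrt_pos.2 hc) (Real.sqrt_le_sqrt (le_max_left _ _))

/-- **T7** in the vocabulary of `Defs.lean`. -/
theorem otb_unique {a₁ b₁ a₂ b₂ : ℝ} {φ₁ φ₂ : EE m → ℝ} (ha₁ : 0 < a₁) (ha₂ : 0 < a₂)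
    (h₁ : QC a₁ b₁ φ₁) (h₂ : QC a₂ b₂ φ₂)
    (h : (gam m).map (gradient φ₁) = (gam m).map (gradient φ₂)) :
    gradient φ₁ = gradient φ₂ := by
  apply ot_unique ha₁ ha₂ h₁ h₂
  rw [otGauss_eq_gam]; exact h

/-- stability in the vocabulary of `Defs.lean`. -/
theorem otb_stable {a b a' b' : ℝ} {φn : ℕ → EE m → ℝ} {φ : EE m → ℝ} (ha : 0 < a) (ha' : 0 < a')
    (h : ∀ n, QC a b (φn n)) (hφ : QC a' b' φ)
    (hw : ∀ g : EE m → ℝ, (∀ y, |g y| ≤ 1) → LipschitzWith 1 g →
      Tendsto (fun n => ∫ x, g (gradient (φn n) x) ∂(gam m)) atTop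
        (𝓝 (∫ x, g (gradient φ x) ∂(gam m)))) (x : EE m) :
    Tendsto (fun n => gradient (φn n) x) atTop (𝓝 (gradient φ x)) := by
  apply ot_stable ha ha' h hφ
  rw [otGauss_eq_gam]; exact hw

end Claimed.Agent.R260
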