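/-
Row 260, package NORM, block NormCont, leaf B: partial derivatives of Lipschitz functions and the
uniform `L²` bound for `N = ∇W ∘ ∇φ`.  Leaf owner: helper181 (NORMC-B).
-/
import Claimed.Agent.R260.NormContMat
import Claimed.Agent.R260.OTBridge

set_option autoImplicit false

open MeasureTheory ProbabilityTheory Matrix Filter Topology Set
open scoped BigOperators ENNReal NNReal

namespace Claimed.Agent.R260

variable {m : ℕ}

theorem normc_gam_ac : gam m ≪ (volume : Measure (EE m)) := by
  rw [← otGauss_eq_gam]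
  exact otMeas_absolutelyContinuous _

theorem normc_pd_sub {u v : EE m → ℝ} {K K' : ℝ≥0} (hu : LipschitzWith K u)
    (hv : LipschitzWith K' v) (l : Fin m) :
    ∀ᵐ x ∂gam m, pd l (fun y => u y - v y) x = pd l u x - pd l v x := by
  filter_upwards [normc_gam_ac.ae_le hu.ae_differentiableAt,
    normc_gam_ac.ae_le hv.ae_differentiableAt] with x h1 h2
  simp only [pd]
  rw [fderiv_fun_sub h1 h2]
  rfl

theorem normc_pd_abs_le {u : EE m → ℝ} {K : ℝ≥0} (hu : LipschitzWith K u) (l : Fin m) (x : EE m) :
    |pd l u x| ≤ K := by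
  have h1 := (fderiv ℝ u x).le_opNorm (eb l)
  have h2 : ‖eb l‖ = 1 := by simp [eb]
  rw [h2, mul_one, Real.norm_eq_abs] at h1
  exact h1.trans (norm_fderiv_le_of_lipschitz ℝ hu)

theorem normc_pd_measurable (u : EE m → ℝ) (l : Fin m) : Measurable (pd l u) :=
  measurable_fderiv_apply_const ℝ u (eb l)

theorem normc_grad_lip {a b : ℝ} {f : EE m → ℝ} (ha : 0 ≤ a) (h : QC a b f) :
    LipschitzWith (Real.toNNReal b) (gradient f) := by
  refine LipschitzWith.of_dist_le_mul fun x y => ?_
  rw [dist_eq_norm, dist_eq_norm]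
  refine (otQC.grad_lipschitz h ha x y).trans ?_
  exact mul_le_mul_of_nonneg_right (Real.le_coe_toNNReal b) (norm_nonneg _)

/-- the gradient of a `QC` function is Lipschitz, coordinatewise -/
theorem normc_grad_coord_lip {a b : ℝ} {f : EE m → ℝ} (ha : 0 ≤ a) (h : QC a b f) (k : Fin m) :
    LipschitzWith (Real.toNNReal b) (fun x => gradient f x k) := by
  refine LipschitzWith.of_dist_le_mul fun x y => ?_
  have h1 := (normc_grad_lip ha h).dist_le_mul x y
  refine le_trans ?_ h1
  rw [Real.dist_eq, dist_eq_norm]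
  have := PiLp.norm_apply_le (gradient f x - gradient f y) k
  simpa using this

/-- Lipschitz functions are in `L²(gam)`. -/
theorem normc_memLp_of_lip {u : EE m → ℝ} {K : ℝ≥0} (hu : LipschitzWith K u) :
    MemLp u 2 (gam m) := by
  have h0 : MemLp (id : EE m → EE m) 2 (gam m) := IsGaussian.memLp_id (gam m) 2 (by simp)
  have h0' : MemLp (fun x : EE m => ‖x‖) 2 (gam m) := h0.norm
  have h0'' : MemLp (fun x : EE m => (K : ℝ) * ‖x‖) 2 (gam m) := h0'.const_mul (K : ℝ)
  have hc : MemLp (fun _ : EE m => |u 0|) 2 (gam m) := memLp_const _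
  have h1 : MemLp (fun x : EE m => |u 0| + K * ‖x‖) 2 (gam m) := hc.add h0''
  refine h1.mono' hu.continuous.aestronglyMeasurable (Eventually.of_forall fun x => ?_)
  have h2 := hu.dist_le_mul x 0
  rw [Real.dist_eq, dist_zero_right] at h2
  rw [Real.norm_eq_abs]
  have h3 : |u x| ≤ |u 0| + |u x - u 0| := by
    have := abs_add_le (u 0) (u x - u 0)
    simpa using this
  linarith

/-- Uniform second moment of `N_k`: test (W) with `ζ = N_k`. -/
theorem normc_N_sq {W φ : EE m → ℝ} {lam Lam c' C' : ℝ} (hlam : 0 < lam) (hc' : 0 < c')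
    (hW : QC c' C' W) (hφ : QC lam Lam φ) (htr : TrOut W φ lam Lam) (k : Fin m) :
    ∫ x, (gradient W (gradient φ x) k) ^ 2 ∂gam m ≤ m * (1 / lam) * (C' * Lam) := by
  have hnb : ‖eb k - (0 : EE m)‖ = 1 := by simp [eb]
  have hC' : 0 ≤ C' := by
    have := (norm_nonneg _).trans (otQC.grad_lipschitz hW hc'.le (eb k) 0)
    rwa [hnb, mul_one] at this
  have hLam : 0 ≤ Lam := by
    have := (norm_nonneg _).trans (otQC.grad_lipschitz hφ hlam.le (eb k) 0)
    rwa [hnb, mul_one] at this
  have hζ : LipschitzWith (Real.toNNReal C' * Real.toNNReal Lam)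
      (fun x => gradient W (gradient φ x) k) :=
    (normc_grad_coord_lip hc'.le hW k).comp (normc_grad_lip hlam.le hφ)
  have hw := htr.weak k _ _ hζ
  have hsq : ∫ x, (gradient W (gradient φ x) k) ^ 2 ∂gam m
      = ∫ x, gradient W (gradient φ x) k * gradient W (gradient φ x) k ∂gam m := by
    simp only [sq]
  rw [hsq, ← hw]
  have hB : 0 ≤ (m : ℝ) * (1 / lam) * (C' * Lam) := by positivity
  have hbd : ∀ᵐ x ∂gam m, ∑ l, (coreJ (gradient φ) x)⁻¹ k l *
      pd l (fun x => gradient W (gradient φ x) k) x ≤ (m : ℝ) * (1 / lam) * (C' * Lam) := by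
    filter_upwards [htr.J_symm, htr.J_spec] with x h1 h2
    have : ∀ l ∈ (Finset.univ : Finset (Fin m)), (coreJ (gradient φ) x)⁻¹ k l *
        pd l (fun x => gradient W (gradient φ x) k) x ≤ (1 / lam) * (C' * Lam) := by
      intro l _
      have a1 := normc_inv_entry hlam h1 h2 k l
      have a2 := normc_pd_abs_le hζ l x
      rw [NNReal.coe_mul, Real.coe_toNNReal _ hC', Real.coe_toNNReal _ hLam] at a2
      calc _ ≤ |(coreJ (gradient φ) x)⁻¹ k l * pd l (fun x => gradient W (gradient φ x) k) x| :=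
            le_abs_self _
        _ = |(coreJ (gradient φ) x)⁻¹ k l| * |pd l (fun x => gradient W (gradient φ x) k) x| :=
            abs_mul _ _
        _ ≤ (1 / lam) * (C' * Lam) := mul_le_mul a1 a2 (abs_nonneg _) (by positivity)
    have h3 := Finset.sum_le_sum this
    simp only [Finset.sum_const, Finset.card_univ, Fintype.card_fin, nsmul_eq_mul] at h3
    linarith
  by_cases hint : Integrable (fun x => ∑ l, (coreJ (gradient φ) x)⁻¹ k l *
      pd l (fun x => gradient W (gradient φ x) k) x) (gam m)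
  · have := integral_mono_ae hint (integrable_const _) hbd
    simpa using this
  · rw [integral_undef hint]
    exact hB

end Claimed.Agent.R260
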