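/-
Row 260, package NORM, block NormCont, leaf C: the energy inequality
`E |J₁ - J₂|² ≤ Lam² ∑_k ‖T₁ₖ - T₂ₖ‖ ‖N₁ₖ - N₂ₖ‖` from (W) for both maps.
Owner: helper30.
-/
import Claimed.Agent.R260.NormContN
import Claimed.Agent.R260.GKCs

set_option autoImplicit false

open MeasureTheory ProbabilityTheory Matrix Filter Topology Set
open scoped BigOperators ENNReal NNReal

namespace Claimed.Agent.R260

variable {m : ℕ}

theorem normck_le_of_spec {W φ : EE m → ℝ} {lam Lam : ℝ} (hm : 0 < m) (htr : TrOut W φ lam Lam) :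
    lam ≤ Lam := by
  obtain ⟨x, hx⟩ := htr.J_spec.exists
  exact (hx ⟨0, hm⟩).1.trans (hx ⟨0, hm⟩).2

theorem normck_inv_aesm {W φ : EE m → ℝ} {lam Lam : ℝ} (hlam : 0 < lam) (hle : lam ≤ Lam)
    (htr : TrOut W φ lam Lam) (k l : Fin m) :
    AEStronglyMeasurable (fun x => (coreJ (gradient φ) x)⁻¹ k l) (gam m) := by
  have hc : ContinuousOn (fun a : ℝ => a⁻¹) (Icc lam Lam) :=
    continuousOn_inv₀.mono fun a ha => (lt_of_lt_of_le hlam ha.1).ne'
  have h := normc_aemeasurable_mxFun hle hc (cp_coreJ_measurable (gradient φ)) htr.J_symm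
    htr.J_spec k l
  refine h.congr ?_
  filter_upwards [htr.J_symm, htr.J_spec] with x hs hsp
  rw [normc_inv_eq hlam hs hsp]

theorem normck_inv_mul_integrable {W φ : EE m → ℝ} {lam Lam : ℝ} (hlam : 0 < lam) (hle : lam ≤ Lam)
    (htr : TrOut W φ lam Lam) (k l : Fin m) {u : EE m → ℝ} (hu : Measurable u) {C : ℝ}
    (hC : ∀ x, |u x| ≤ C) :
    Integrable (fun x => (coreJ (gradient φ) x)⁻¹ k l * u x) (gam m) := by
  refine Integrable.of_bound ((normck_inv_aesm hlam hle htr k l).mul hu.aestronglyMeasurable)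
    (1 / lam * C) ?_
  filter_upwards [htr.J_symm, htr.J_spec] with x hs hsp
  rw [Real.norm_eq_abs, abs_mul]
  have h1 := normc_inv_entry hlam hs hsp k l
  have h0 : 0 ≤ C := (abs_nonneg _).trans (hC x)
  exact mul_le_mul h1 (hC x) (abs_nonneg _) (by positivity)

theorem normck_sq_integrable {φ1 φ2 : EE m → ℝ} {lam Lam : ℝ} (hlam : 0 ≤ lam)
    (hφ1 : QC lam Lam φ1) (hφ2 : QC lam Lam φ2) :
    Integrable (fun x => mxSq (coreJ (gradient φ1) x - coreJ (gradient φ2) x)) (gam m) := by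
  set L : ℝ≥0 := Real.toNNReal Lam with hL
  have hT1 := fun k => normc_grad_coord_lip hlam hφ1 k
  have hT2 := fun k => normc_grad_coord_lip hlam hφ2 k
  simp only [mxSq_eq_sum]
  refine integrable_finsetSum _ fun i _ => integrable_finsetSum _ fun j _ => ?_
  have hmeas : Measurable (fun x => ((coreJ (gradient φ1) x - coreJ (gradient φ2) x) i j) ^ 2) := by
    simp only [Matrix.sub_apply]
    exact ((cp_coreJ_measurable _ i j).sub (cp_coreJ_measurable _ i j)).pow_const 2
  refine Integrable.of_bound hmeas.aestronglyMeasurable (((L : ℝ) + L) ^ 2)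
    (Eventually.of_forall fun x => ?_)
  rw [Real.norm_eq_abs, abs_of_nonneg (sq_nonneg _)]
  have b1 : |coreJ (gradient φ1) x i j| ≤ L := normc_pd_abs_le (hT1 i) j x
  have b2 : |coreJ (gradient φ2) x i j| ≤ L := normc_pd_abs_le (hT2 i) j x
  simp only [Matrix.sub_apply]
  rw [← sq_abs]
  have := abs_sub (coreJ (gradient φ1) x i j) (coreJ (gradient φ2) x i j)
  gcongr
  linarith

/-- (W) for `φ₁` and for `φ₂` with `ζ = (T₁ - T₂)_k`, subtract, sum over `k`, `normc_mat_mono`
pointwise a.e., Cauchy-Schwarz on the right. -/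
theorem normc_energy {W1 W2 φ1 φ2 : EE m → ℝ} {lam Lam c' C' : ℝ} (hlam : 0 < lam) (hc' : 0 < c')
    (hW1 : QC c' C' W1) (hW2 : QC c' C' W2) (hφ1 : QC lam Lam φ1) (hφ2 : QC lam Lam φ2)
    (htr1 : TrOut W1 φ1 lam Lam) (htr2 : TrOut W2 φ2 lam Lam) :
    ∫ x, mxSq (coreJ (gradient φ1) x - coreJ (gradient φ2) x) ∂gam m ≤
      Lam ^ 2 * ∑ k, Real.sqrt (∫ x, (gradient φ1 x k - gradient φ2 x k) ^ 2 ∂gam m) *
        Real.sqrt (∫ x, (gradient W1 (gradient φ1 x) k - gradient W2 (gradient φ2 x) k) ^ 2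
          ∂gam m) := by
  rcases Nat.eq_zero_or_pos m with hm | hm
  · subst hm
    simp [mxSq, Matrix.trace]
  have hle : lam ≤ Lam := normck_le_of_spec hm htr1
  set L : ℝ≥0 := Real.toNNReal Lam with hL
  have hT1 := fun k => normc_grad_coord_lip hlam.le hφ1 k
  have hT2 := fun k => normc_grad_coord_lip hlam.le hφ2 k
  -- the test functions
  set ζ : Fin m → EE m → ℝ := fun k x => gradient φ1 x k - gradient φ2 x k with hζ
  have hζL : ∀ k, LipschitzWith (L + L) (ζ k) := fun k => (hT1 k).sub (hT2 k)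
  have hpdm : ∀ k l, Measurable (pd l (ζ k)) := fun k l => normc_pd_measurable _ _
  have hpdb : ∀ k l x, |pd l (ζ k) x| ≤ ((L + L : ℝ≥0) : ℝ) := fun k l x =>
    normc_pd_abs_le (hζL k) l x
  have hw1 := fun k => htr1.weak k (ζ k) _ (hζL k)
  have hw2 := fun k => htr2.weak k (ζ k) _ (hζL k)
  -- integrability
  have hi1 : ∀ k, Integrable (fun x => ∑ l, (coreJ (gradient φ1) x)⁻¹ k l * pd l (ζ k) x)
      (gam m) := fun k => integrable_finsetSum _ fun l _ =>
    normck_inv_mul_integrable hlam hle htr1 k l (hpdm k l) (hpdb k l)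
  have hi2 : ∀ k, Integrable (fun x => ∑ l, (coreJ (gradient φ2) x)⁻¹ k l * pd l (ζ k) x)
      (gam m) := fun k => integrable_finsetSum _ fun l _ =>
    normck_inv_mul_integrable hlam hle htr2 k l (hpdm k l) (hpdb k l)
  have hζ2 : ∀ k, MemLp (ζ k) 2 (gam m) := fun k => normc_memLp_of_lip (hζL k)
  have hN1 : ∀ k, MemLp (fun x => gradient W1 (gradient φ1 x) k) 2 (gam m) := fun k =>
    normc_memLp_of_lip ((normc_grad_coord_lip hc'.le hW1 k).comp (normc_grad_lip hlam.le hφ1))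
  have hN2 : ∀ k, MemLp (fun x => gradient W2 (gradient φ2 x) k) 2 (gam m) := fun k =>
    normc_memLp_of_lip ((normc_grad_coord_lip hc'.le hW2 k).comp (normc_grad_lip hlam.le hφ2))
  -- the integrated identity
  have hid : ∀ k, ∫ x, ((∑ l, (coreJ (gradient φ1) x)⁻¹ k l * pd l (ζ k) x)
        - ∑ l, (coreJ (gradient φ2) x)⁻¹ k l * pd l (ζ k) x) ∂gam m
      = ∫ x, ζ k x * (gradient W1 (gradient φ1 x) k - gradient W2 (gradient φ2 x) k) ∂gam m := by
    intro k
    rw [integral_sub (hi1 k) (hi2 k), hw1 k, hw2 k,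
      ← integral_sub (gk_integrable_mul (hζ2 k) (hN1 k)) (gk_integrable_mul (hζ2 k) (hN2 k))]
    congr 1
    ext x
    ring
  -- the pointwise inequality
  have hpt : ∀ᵐ x ∂gam m, mxSq (coreJ (gradient φ1) x - coreJ (gradient φ2) x) ≤
      -(Lam ^ 2 * ∑ k, ((∑ l, (coreJ (gradient φ1) x)⁻¹ k l * pd l (ζ k) x)
        - ∑ l, (coreJ (gradient φ2) x)⁻¹ k l * pd l (ζ k) x)) := by
    have hpd : ∀ᵐ x ∂gam m, ∀ k l, pd l (ζ k) x
        = coreJ (gradient φ1) x k l - coreJ (gradient φ2) x k l := by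
      rw [ae_all_iff]; intro k
      rw [ae_all_iff]; intro l
      exact normc_pd_sub (hT1 k) (hT2 k) l
    filter_upwards [hpd, htr1.J_symm, htr1.J_spec, htr2.J_symm, htr2.J_spec]
      with x hx h1s h1 h2s h2
    refine (normc_mat_mono hlam h1s h2s h1 h2).trans (le_of_eq ?_)
    congr 2
    refine Finset.sum_congr rfl fun k _ => ?_
    rw [← Finset.sum_sub_distrib]
    refine Finset.sum_congr rfl fun l _ => ?_
    rw [hx k l]
    simp only [Matrix.sub_apply]
    ring
  have hi12 : ∀ k, Integrable (fun x => (∑ l, (coreJ (gradient φ1) x)⁻¹ k l * pd l (ζ k) x)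
        - ∑ l, (coreJ (gradient φ2) x)⁻¹ k l * pd l (ζ k) x) (gam m) := fun k =>
    (hi1 k).sub (hi2 k)
  have hsqi := normck_sq_integrable hlam.le hφ1 hφ2
  have hsumi : Integrable (fun x => -(Lam ^ 2 * ∑ k,
      ((∑ l, (coreJ (gradient φ1) x)⁻¹ k l * pd l (ζ k) x)
        - ∑ l, (coreJ (gradient φ2) x)⁻¹ k l * pd l (ζ k) x))) (gam m) :=
    ((integrable_finsetSum _ fun k _ => hi12 k).const_mul _).neg
  calc ∫ x, mxSq (coreJ (gradient φ1) x - coreJ (gradient φ2) x) ∂gam m
      ≤ ∫ x, -(Lam ^ 2 * ∑ k, ((∑ l, (coreJ (gradient φ1) x)⁻¹ k l * pd l (ζ k) x)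
        - ∑ l, (coreJ (gradient φ2) x)⁻¹ k l * pd l (ζ k) x)) ∂gam m :=
        integral_mono_ae hsqi hsumi hpt
    _ = Lam ^ 2 * ∑ k, -∫ x, ζ k x *
          (gradient W1 (gradient φ1 x) k - gradient W2 (gradient φ2 x) k) ∂gam m := by
        rw [integral_neg, integral_const_mul,
          integral_finsetSum _ fun k _ => hi12 k]
        simp only [hid]
        rw [Finset.sum_neg_distrib]
        ring
    _ ≤ Lam ^ 2 * ∑ k, Real.sqrt (∫ x, (gradient φ1 x k - gradient φ2 x k) ^ 2 ∂gam m) *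
        Real.sqrt (∫ x, (gradient W1 (gradient φ1 x) k - gradient W2 (gradient φ2 x) k) ^ 2
          ∂gam m) := by
        gcongr with k _
        exact (neg_le_abs _).trans (gk_abs_integral_mul_le (hζ2 k) ((hN1 k).sub (hN2 k)))

/-- From Jacobians to `q⁻¹` of the Jacobians. -/
theorem normc_mean_diff {W1 W2 φ1 φ2 : EE m → ℝ} {lam Lam K : ℝ} (hlam : 0 < lam)
    (hK : ∀ a ∈ Icc lam Lam, ∀ b ∈ Icc lam Lam, |scQinv a - scQinv b| ≤ K * |a - b|)
    (hφ1 : QC lam Lam φ1) (hφ2 : QC lam Lam φ2)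
    (htr1 : TrOut W1 φ1 lam Lam) (htr2 : TrOut W2 φ2 lam Lam) (i j : Fin m) :
    (∫ x, mxFun scQinv (coreJ (gradient φ1) x) i j ∂gam m
        - ∫ x, mxFun scQinv (coreJ (gradient φ2) x) i j ∂gam m) ^ 2 ≤
      K ^ 2 * ∫ x, mxSq (coreJ (gradient φ1) x - coreJ (gradient φ2) x) ∂gam m := by
  have hm : 0 < m := lt_of_le_of_lt (Nat.zero_le _) i.2
  have hle : lam ≤ Lam := normck_le_of_spec hm htr1
  have hqc : ContinuousOn scQinv (Icc lam Lam) :=
    cp_scQinv_continuousOn.mono fun a ha => lt_of_lt_of_le hlam ha.1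
  -- a bound for `q⁻¹` on `[lam, Lam]`
  set B : ℝ := |scQinv lam| + K * (Lam - lam) with hB
  have hqb : ∀ a ∈ Icc lam Lam, |scQinv a| ≤ B := by
    intro a ha
    have h1 := hK a ha lam ⟨le_rfl, hle⟩
    have hK0 : 0 ≤ K ∨ a = lam := by
      by_cases h : a = lam
      · exact Or.inr h
      · left
        have hpos : 0 < |a - lam| := abs_pos.2 (sub_ne_zero.2 h)
        by_contra hneg
        have := (abs_nonneg _).trans h1
        nlinarith [not_le.1 hneg]
    have h2 : |scQinv a| ≤ |scQinv lam| + |scQinv a - scQinv lam| := by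
      have := abs_add_le (scQinv lam) (scQinv a - scQinv lam)
      simpa using this
    rcases hK0 with hK0 | rfl
    · have h3 : |a - lam| ≤ Lam - lam := by
        rw [abs_of_nonneg (by linarith [ha.1])]; linarith [ha.2]
      have h4 : K * |a - lam| ≤ K * (Lam - lam) := mul_le_mul_of_nonneg_left h3 hK0
      linarith
    · have h5 := hK Lam ⟨hle, le_rfl⟩ a ⟨le_rfl, hle⟩
      have h6 : 0 ≤ K * (Lam - a) := by
        have := (abs_nonneg _).trans h5
        rwa [abs_of_nonneg (by linarith)] at this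
      linarith
  have hmem : ∀ {W φ : EE m → ℝ}, TrOut W φ lam Lam →
      MemLp (fun x => mxFun scQinv (coreJ (gradient φ) x) i j) 2 (gam m) := by
    intro W φ htr
    refine MemLp.of_bound (normc_aemeasurable_mxFun hle hqc (cp_coreJ_measurable (gradient φ))
      htr.J_symm htr.J_spec i j) B ?_
    filter_upwards [htr.J_spec] with x hsp
    rw [Real.norm_eq_abs]
    exact mxFun_apply_abs_le (fun l => hqb _ (hsp l)) i j
  have h1 := hmem htr1
  have h2 := hmem htr2
  have hI1 : Integrable (fun x => mxFun scQinv (coreJ (gradient φ1) x) i j) (gam m) :=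
    h1.integrable (by norm_num)
  have hI2 : Integrable (fun x => mxFun scQinv (coreJ (gradient φ2) x) i j) (gam m) :=
    h2.integrable (by norm_num)
  rw [← integral_sub hI1 hI2]
  have hone : MemLp (fun _ : EE m => (1 : ℝ)) 2 (gam m) := memLp_const 1
  have hcs := gk_cs (h1.sub h2) hone
  simp only [Pi.sub_apply, mul_one, one_pow, integral_const, probReal_univ, smul_eq_mul] at hcs
  refine hcs.trans ?_
  rw [← integral_const_mul]
  refine integral_mono_ae (h1.sub h2).integrable_sq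
    ((normck_sq_integrable hlam.le hφ1 hφ2).const_mul _) ?_
  filter_upwards [htr1.J_symm, htr1.J_spec, htr2.J_symm, htr2.J_spec] with x h1s h1sp h2s h2sp
  have e := mxi_apply_sq_le (mxFun scQinv (coreJ (gradient φ1) x)
    - mxFun scQinv (coreJ (gradient φ2) x)) i j
  simp only [Matrix.sub_apply] at e
  exact e.trans (normc_mat_lip hK h1s h2s h1sp h2sp)

end Claimed.Agent.R260
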