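/-
Row 260, package NORM, block NormCont, leaf D: convergence of the laws of `corePush P_n V` and
`L²(gam)` convergence of the transport maps.  Leaf owner: see table subtask (NORMC-D).
-/
import Claimed.Agent.R260.NormContN
import Claimed.Agent.R260.CorePush

set_option autoImplicit false

open MeasureTheory ProbabilityTheory Matrix Filter Topology Set
open scoped BigOperators ENNReal NNReal

namespace Claimed.Agent.R260

variable {m : ℕ}

/-- Pointwise convergence of uniformly Lipschitz maps implies `L²(gam)` convergence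
(dominated convergence: `|T_n x - T x| ≤ sup_n |T_n 0 - T 0| + 2 Lam |x|`). -/
theorem normc_L2_T {lam Lam : ℝ} (hlam : 0 ≤ lam) {φn : ℕ → EE m → ℝ} {φ : EE m → ℝ}
    (hφn : ∀ n, QC lam Lam (φn n)) (hφ : QC lam Lam φ)
    (hpt : ∀ x, Tendsto (fun n => gradient (φn n) x) atTop (𝓝 (gradient φ x))) (k : Fin m) :
    Tendsto (fun n => ∫ x, (gradient (φn n) x k - gradient φ x k) ^ 2 ∂gam m) atTop (𝓝 0) := by
  -- a uniform bound at the origin
  have h0 : Tendsto (fun n => ‖gradient (φn n) 0 - gradient φ 0‖) atTop (𝓝 0) := by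
    have := (hpt 0).sub_const (gradient φ 0)
    rw [sub_self] at this
    simpa using this.norm
  obtain ⟨B, hB⟩ := h0.bddAbove_range
  have hB' : ∀ n, ‖gradient (φn n) 0 - gradient φ 0‖ ≤ B := fun n => hB ⟨n, rfl⟩
  have hbd : ∀ n x, |gradient (φn n) x k - gradient φ x k| ≤ B + 2 * Lam * ‖x‖ := by
    intro n x
    have h1 : |gradient (φn n) x k - gradient φ x k| ≤ ‖gradient (φn n) x - gradient φ x‖ := by
      have := PiLp.norm_apply_le (gradient (φn n) x - gradient φ x) k
      simpa [Real.norm_eq_abs] using this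
    have h2 := otQC.grad_lipschitz (hφn n) hlam x 0
    have h3 := otQC.grad_lipschitz hφ hlam 0 x
    rw [sub_zero] at h2
    rw [zero_sub, norm_neg] at h3
    have h4 : gradient (φn n) x - gradient φ x
        = (gradient (φn n) x - gradient (φn n) 0) + (gradient (φn n) 0 - gradient φ 0)
          + (gradient φ 0 - gradient φ x) := by abel
    have h5 : ‖gradient (φn n) x - gradient φ x‖ ≤ Lam * ‖x‖ + B + Lam * ‖x‖ := by
      rw [h4]
      refine (norm_add_le _ _).trans (add_le_add ((norm_add_le _ _).trans (add_le_add h2 (hB' n))) h3)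
    linarith
  have hcont : ∀ {f : EE m → ℝ}, QC lam Lam f → Continuous (fun x => gradient f x k) := fun h =>
    (normc_grad_coord_lip hlam h k).continuous
  have hint : Integrable (fun x : EE m => (B + 2 * Lam * ‖x‖) ^ 2) (gam m) := by
    refine PG.integrable ⟨by fun_prop, (|B| + 2 * |Lam|) ^ 2, 2, fun x => ?_⟩
    rw [abs_of_nonneg (sq_nonneg _), ← mul_pow]
    refine sq_le_sq' ?_ ?_
    · have := neg_abs_le B
      have := neg_abs_le Lam
      have hx := norm_nonneg x
      nlinarith [abs_nonneg B, abs_nonneg Lam, mul_nonneg (abs_nonneg Lam) hx,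
        mul_nonneg (abs_nonneg B) hx, mul_le_mul_of_nonneg_right (neg_abs_le Lam) hx]
    · have hx := norm_nonneg x
      nlinarith [le_abs_self B, le_abs_self Lam, abs_nonneg B, abs_nonneg Lam,
        mul_nonneg (abs_nonneg Lam) hx, mul_nonneg (abs_nonneg B) hx,
        mul_le_mul_of_nonneg_right (le_abs_self Lam) hx]
  have := tendsto_integral_of_dominated_convergence (μ := gam m)
    (F := fun n x => (gradient (φn n) x k - gradient φ x k) ^ 2) (f := fun _ => (0 : ℝ))
    (fun x => (B + 2 * Lam * ‖x‖) ^ 2)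
    (fun n => (((hcont (hφn n)).sub (hcont hφ)).pow 2).aestronglyMeasurable) hint
    (fun n => Eventually.of_forall fun x => by
      rw [Real.norm_eq_abs, abs_of_nonneg (sq_nonneg _), ← sq_abs]
      exact pow_le_pow_left₀ (abs_nonneg _) (hbd n x) 2)
    (Eventually.of_forall fun x => by
      have h1 : Tendsto (fun n => gradient (φn n) x k) atTop (𝓝 (gradient φ x k)) :=
        ((EuclideanSpace.proj k).continuous.tendsto _).comp (hpt x)
      have h2 := (h1.sub_const (gradient φ x k)).pow 2
      simpa using h2)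
  simpa using this

/-- Convergence of the target laws: `∫ g d(P_n # μ) = ∫ g(P_n y) e^{-V y} dy → ∫ g(P y) e^{-V y} dy`
(`lcp_push_map`, dominated convergence). -/
theorem normc_weak {V : EE m → ℝ} (hV : NicePot V) {Pn : ℕ → Mat m} {P : Mat m}
    (hPn : ∀ n, (Pn n).PosDef) (hP : P.PosDef) (hlim : Tendsto Pn atTop (𝓝 P))
    {lam Lam : ℝ} (hlam : 0 ≤ lam) {φn : ℕ → EE m → ℝ} {φ : EE m → ℝ}
    (hφn : ∀ n, QC lam Lam (φn n)) (hφ : QC lam Lam φ)
    (hmapn : ∀ n, (gam m).map (gradient (φn n)) = otMeas (corePush (Pn n) V))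
    (hmap : (gam m).map (gradient φ) = otMeas (corePush P V))
    (g : EE m → ℝ) (hg1 : ∀ y, |g y| ≤ 1) (hg : LipschitzWith 1 g) :
    Tendsto (fun n => ∫ x, g (gradient (φn n) x) ∂(gam m)) atTop
      (𝓝 (∫ x, g (gradient φ x) ∂(gam m))) := by
  obtain ⟨⟨c, C, hc, hQ⟩, hint⟩ := id hV
  have hVc := lc_QC_continuous hc.le hQ
  have hprob : IsProbabilityMeasure (otMeas V) := otMeas_isProbabilityMeasure hVc hint
  -- transfer to the fixed measure `otMeas V`
  have key : ∀ {Q : Mat m} {ψ : EE m → ℝ}, Q.PosDef → QC lam Lam ψ →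
      (gam m).map (gradient ψ) = otMeas (corePush Q V) →
      ∫ x, g (gradient ψ x) ∂(gam m) = ∫ y, g (coreLin Q y) ∂(otMeas V) := by
    intro Q ψ hQ' hψ hm
    have h1 : AEMeasurable (gradient ψ) (gam m) :=
      (normc_grad_lip hlam hψ).continuous.measurable.aemeasurable
    rw [← integral_map h1 hg.continuous.aestronglyMeasurable, hm, lcp_push_map hV hQ',
      integral_map (lcp_coreLin_continuous Q).measurable.aemeasurable
        hg.continuous.aestronglyMeasurable]
  rw [key hP hφ hmap]
  simp only [fun n => key (hPn n) (hφn n) (hmapn n)]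
  refine tendsto_integral_of_dominated_convergence (fun _ => (1 : ℝ))
    (fun n => (hg.continuous.comp (lcp_coreLin_continuous (Pn n))).aestronglyMeasurable)
    (integrable_const 1)
    (fun n => Eventually.of_forall fun y => by rw [Real.norm_eq_abs]; exact hg1 _)
    (Eventually.of_forall fun y => ?_)
  refine (hg.continuous.tendsto _).comp ?_
  have hc2 : Continuous (fun Q : Mat m => coreLin Q y) := by
    unfold coreLin
    refine (PiLp.continuous_toLp 2 _).comp ?_
    exact Continuous.matrix_mulVec continuous_id continuous_const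
  exact (hc2.tendsto P).comp hlim

end Claimed.Agent.R260
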