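/-
Row 260, package NORM, block NormCont: GLUE.  Continuity of `P ↦ E q⁻¹(J_P)` along sequences.
Owner: helper30.
-/
import Claimed.Agent.R260.NormContKey
import Claimed.Agent.R260.NormContLim

set_option autoImplicit false

open MeasureTheory ProbabilityTheory Matrix Filter Topology Set
open scoped BigOperators ENNReal NNReal

namespace Claimed.Agent.R260

variable {m : ℕ}

/-- Quantitative stability: the constant depends only on `m, lam, Lam, C'`. -/
theorem normc_pair {lam Lam c' C' : ℝ} (hlam : 0 < lam) (hc' : 0 < c') :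
    ∃ K0 : ℝ, 0 ≤ K0 ∧ ∀ (W1 W2 φ1 φ2 : EE m → ℝ), QC c' C' W1 → QC c' C' W2 → QC lam Lam φ1 →
      QC lam Lam φ2 → TrOut W1 φ1 lam Lam → TrOut W2 φ2 lam Lam → ∀ i j : Fin m,
      (∫ x, mxFun scQinv (coreJ (gradient φ1) x) i j ∂gam m
        - ∫ x, mxFun scQinv (coreJ (gradient φ2) x) i j ∂gam m) ^ 2 ≤
      K0 * ∑ k, Real.sqrt (∫ x, (gradient φ1 x k - gradient φ2 x k) ^ 2 ∂gam m) := by
  obtain ⟨K, hK0, hK⟩ := normc_qinv_lip (Lam := Lam) hlam
  set B : ℝ := m * (1 / lam) * (C' * Lam) with hB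
  refine ⟨K ^ 2 * (Lam ^ 2 * Real.sqrt (4 * |B|)), by positivity, ?_⟩
  intro W1 W2 φ1 φ2 hW1 hW2 hφ1 hφ2 htr1 htr2 i j
  have h1 := normc_mean_diff hlam hK hφ1 hφ2 htr1 htr2 i j
  have h2 := normc_energy hlam hc' hW1 hW2 hφ1 hφ2 htr1 htr2
  have hN : ∀ k, ∫ x, (gradient W1 (gradient φ1 x) k - gradient W2 (gradient φ2 x) k) ^ 2 ∂gam m
      ≤ 4 * |B| := by
    intro k
    have hL1 : MemLp (fun x => gradient W1 (gradient φ1 x) k) 2 (gam m) :=
      normc_memLp_of_lip ((normc_grad_coord_lip hc'.le hW1 k).comp (normc_grad_lip hlam.le hφ1))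
    have hL2 : MemLp (fun x => gradient W2 (gradient φ2 x) k) 2 (gam m) :=
      normc_memLp_of_lip ((normc_grad_coord_lip hc'.le hW2 k).comp (normc_grad_lip hlam.le hφ2))
    have b1 := normc_N_sq hlam hc' hW1 hφ1 htr1 k
    have b2 := normc_N_sq hlam hc' hW2 hφ2 htr2 k
    have hle : ∀ x, (gradient W1 (gradient φ1 x) k - gradient W2 (gradient φ2 x) k) ^ 2
        ≤ 2 * (gradient W1 (gradient φ1 x) k) ^ 2 + 2 * (gradient W2 (gradient φ2 x) k) ^ 2 := by
      intro x
      nlinarith [sq_nonneg (gradient W1 (gradient φ1 x) k + gradient W2 (gradient φ2 x) k)]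
    calc ∫ x, (gradient W1 (gradient φ1 x) k - gradient W2 (gradient φ2 x) k) ^ 2 ∂gam m
        ≤ ∫ x, (2 * (gradient W1 (gradient φ1 x) k) ^ 2
            + 2 * (gradient W2 (gradient φ2 x) k) ^ 2) ∂gam m :=
          integral_mono (hL1.sub hL2).integrable_sq
            ((hL1.integrable_sq.const_mul 2).add (hL2.integrable_sq.const_mul 2)) hle
      _ = 2 * ∫ x, (gradient W1 (gradient φ1 x) k) ^ 2 ∂gam m
            + 2 * ∫ x, (gradient W2 (gradient φ2 x) k) ^ 2 ∂gam m := by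
          rw [integral_add (hL1.integrable_sq.const_mul 2) (hL2.integrable_sq.const_mul 2),
            integral_const_mul, integral_const_mul]
      _ ≤ 4 * |B| := by
          have := le_abs_self B
          linarith
  calc (∫ x, mxFun scQinv (coreJ (gradient φ1) x) i j ∂gam m
        - ∫ x, mxFun scQinv (coreJ (gradient φ2) x) i j ∂gam m) ^ 2
      ≤ K ^ 2 * ∫ x, mxSq (coreJ (gradient φ1) x - coreJ (gradient φ2) x) ∂gam m := h1
    _ ≤ K ^ 2 * (Lam ^ 2 * ∑ k, Real.sqrt (∫ x, (gradient φ1 x k - gradient φ2 x k) ^ 2 ∂gam m) *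
        Real.sqrt (∫ x, (gradient W1 (gradient φ1 x) k - gradient W2 (gradient φ2 x) k) ^ 2
          ∂gam m)) := by gcongr
    _ ≤ K ^ 2 * (Lam ^ 2 * ∑ k, Real.sqrt (∫ x, (gradient φ1 x k - gradient φ2 x k) ^ 2 ∂gam m) *
        Real.sqrt (4 * |B|)) := by
          gcongr with k _
          exact hN k
    _ = K ^ 2 * (Lam ^ 2 * Real.sqrt (4 * |B|)) *
        ∑ k, Real.sqrt (∫ x, (gradient φ1 x k - gradient φ2 x k) ^ 2 ∂gam m) := by
          rw [← Finset.sum_mul]; ring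

/-- **Continuity of the normalisation map along sequences.** -/
theorem normc_main {V : EE m → ℝ} (hV : NicePot V) {lam Lam c' C' : ℝ} (hlam : 0 < lam)
    (hc' : 0 < c') {Pn : ℕ → Mat m} {P : Mat m}
    (hPn : ∀ n, (Pn n).PosDef) (hP : P.PosDef) (hlim : Tendsto Pn atTop (𝓝 P))
    {φn : ℕ → EE m → ℝ} {φ : EE m → ℝ}
    (hφn : ∀ n, QC lam Lam (φn n)) (hφ : QC lam Lam φ)
    (hWn : ∀ n, QC c' C' (corePush (Pn n) V)) (hW : QC c' C' (corePush P V))
    (hmapn : ∀ n, (gam m).map (gradient (φn n)) = otMeas (corePush (Pn n) V))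
    (hmap : (gam m).map (gradient φ) = otMeas (corePush P V))
    (htrn : ∀ n, TrOut (corePush (Pn n) V) (φn n) lam Lam)
    (htr : TrOut (corePush P V) φ lam Lam) (i j : Fin m) :
    Tendsto (fun n => ∫ x, mxFun scQinv (coreJ (gradient (φn n)) x) i j ∂gam m) atTop
      (𝓝 (∫ x, mxFun scQinv (coreJ (gradient φ) x) i j ∂gam m)) := by
  obtain ⟨K0, hK0, hpair⟩ := normc_pair (m := m) (Lam := Lam) (C' := C') hlam hc'
  have hpt : ∀ x, Tendsto (fun n => gradient (φn n) x) atTop (𝓝 (gradient φ x)) :=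
    otb_stable hlam hlam hφn hφ
      (fun g hg1 hg => normc_weak hV hPn hP hlim hlam.le hφn hφ hmapn hmap g hg1 hg)
  have hL2 := fun k => normc_L2_T hlam.le hφn hφ hpt k
  have hsum : Tendsto (fun n => K0 * ∑ k, Real.sqrt
      (∫ x, (gradient (φn n) x k - gradient φ x k) ^ 2 ∂gam m)) atTop (𝓝 0) := by
    have h1 : Tendsto (fun n => ∑ k, Real.sqrt
        (∫ x, (gradient (φn n) x k - gradient φ x k) ^ 2 ∂gam m)) atTop (𝓝 (∑ _k : Fin m, 0)) := by
      refine tendsto_finsetSum _ fun k _ => ?_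
      have := (Real.continuous_sqrt.tendsto 0).comp (hL2 k)
      simpa [Function.comp_def] using this
    simpa using h1.const_mul K0
  have hsq : Tendsto (fun n => (∫ x, mxFun scQinv (coreJ (gradient (φn n)) x) i j ∂gam m
      - ∫ x, mxFun scQinv (coreJ (gradient φ) x) i j ∂gam m) ^ 2) atTop (𝓝 0) :=
    squeeze_zero (fun n => sq_nonneg _)
      (fun n => hpair _ _ _ _ (hWn n) hW (hφn n) hφ (htrn n) htr i j) hsum
  have habs : Tendsto (fun n => |∫ x, mxFun scQinv (coreJ (gradient (φn n)) x) i j ∂gam m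
      - ∫ x, mxFun scQinv (coreJ (gradient φ) x) i j ∂gam m|) atTop (𝓝 0) := by
    have := (Real.continuous_sqrt.tendsto 0).comp hsq
    simpa [Function.comp_def, Real.sqrt_sq_eq_abs] using this
  have h0 := (tendsto_zero_iff_abs_tendsto_zero _).2 habs
  simpa using h0.add_const (∫ x, mxFun scQinv (coreJ (gradient φ) x) i j ∂gam m)

end Claimed.Agent.R260
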