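/-
Row 260, package NORM (paper Prop 2.3, affine normalisation).  Owner: helper181.
Definitions.  Proof strategy: Hartman--Stampacchia on the box `{ε I ≤ P ≤ R I}` (no homotopy).
Vocabulary of `CoreDefs.lean`: `coreJ`, `coreLin`, `corePush`, `otMeas`, `TrOut`.
-/
import Claimed.Agent.R260.CoreDefs
import Claimed.Agent.R260.ScLemma21

set_option autoImplicit false

namespace Claimed.Agent.R260

open MeasureTheory ProbabilityTheory Filter Topology Matrix

variable {m : ℕ}

/-- `M` is symmetric and `a |v|² ≤ ⟨v, M v⟩ ≤ b |v|²`. -/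
def normBetween (a b : ℝ) (M : Mat m) : Prop :=
  M.IsSymm ∧ ∀ v : Fin m → ℝ, a * (v ⬝ᵥ v) ≤ v ⬝ᵥ (M *ᵥ v) ∧ v ⬝ᵥ (M *ᵥ v) ≤ b * (v ⬝ᵥ v)

/-- The box `{a I ≤ P ≤ b I}` of symmetric matrices. -/
def normBox (a b : ℝ) : Set (Mat m) := {P | normBetween a b P}

/-- `φ` is a Brenier potential from `gam m` to `e^{-W}` with `lam I ≤ D²φ ≤ Lam I`. -/
def NormPot (W φ : EE m → ℝ) (lam Lam : ℝ) : Prop :=
  QC lam Lam φ ∧ (gam m).map (gradient φ) = otMeas W

/-- A choice of the Brenier potential for the target `P_# e^{-V}`. -/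
noncomputable def normPhi (V : EE m → ℝ) (lam Lam : ℝ) (P : Mat m) : EE m → ℝ :=
  Classical.epsilon (fun φ => NormPot (corePush P V) φ lam Lam)

/-- The field `A = q⁻¹(J)` of a map `T`. -/
noncomputable def normA (T : EE m → EE m) (x : EE m) : Mat m := mxFun scQinv (coreJ T x)

/-- The vector field of the variational inequality: `P ↦ E q⁻¹(D T_P)`. -/
noncomputable def normF (V : EE m → ℝ) (lam Lam : ℝ) (P : Mat m) : Mat m :=
  meanE (normA (gradient (normPhi V lam Lam P)))

/-- The scalar function `⟨T, e⟩`. -/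
def normDir (T : EE m → EE m) (e : Fin m → ℝ) (x : EE m) : ℝ := ∑ i, e i * T x i

/-- Gaussian variance. -/
noncomputable def normVarG (u : EE m → ℝ) : ℝ :=
  ∫ x, (u x) ^ 2 ∂gam m - (∫ x, u x ∂gam m) ^ 2

/-- What NORM uses of one transport map (follows from `QC lam Lam φ` + `TrOut`, `T = gradient φ`). -/
structure NormTr (lam Lam : ℝ) (T : EE m → EE m) : Prop where
  lip : LipschitzWith (Real.toNNReal Lam) T
  meas : ∀ i j, Measurable (fun x => coreJ T x i j)
  between : ∀ᵐ x ∂gam m, normBetween lam Lam (coreJ T x)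

/-- The first variation identity (W) = T3 of the TR package, summed over the components. -/
def NormW (W : EE m → ℝ) (T : EE m → EE m) : Prop :=
  ∀ ζ : EE m → EE m, (∃ K : NNReal, LipschitzWith K ζ) →
    ∫ x, ((coreJ T x)⁻¹ * (coreJ ζ x)ᵀ).trace ∂gam m
      = ∫ x, inner ℝ (ζ x) (gradient W (T x)) ∂gam m

/-- The input from the TR package (= the statement of `core_tr` in `Core.lean`). -/
def NormTRHyp (m : ℕ) : Prop :=
  ∀ (W φ : EE m → ℝ) (lam Lam : ℝ), NicePot W → 0 < lam → QC lam Lam φ →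
    (gam m).map (gradient φ) = otMeas W → TrOut W φ lam Lam

theorem norm_defs_eqns_cite : True := by
  have := @normBetween.eq_1
  have := @normBox.eq_1
  have := @NormPot.eq_1
  have := @normPhi.eq_1
  have := @normA.eq_1
  have := @normF.eq_1
  have := @normDir.eq_1
  have := @normVarG.eq_1
  have := @NormW.eq_1
  have := @NormTRHyp.eq_1
  trivial

end Claimed.Agent.R260
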