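/-
Row 260, package NORM, leaf NORM-VI: a continuous symmetric-matrix valued field on the box
`{ε I ≤ P ≤ R I}` which is "negative on ε-eigenvectors" and "positive on R-eigenvectors" has a zero.
Pure linear algebra + Hartman--Stampacchia (`Claimed.Agent.Lib.bfp_hartman_stampacchia`).

PROOF.  Identify `Mat m` with `EuclideanSpace ℝ (Fin m × Fin m)` (Frobenius inner product); the box
is compact, convex, nonempty (`ε • 1`).  HS gives `P* ∈ box` with `⟨F P*, P - P*⟩ ≥ 0` for all `P` in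
the box.  Write `P* = U diag(d) Uᵀ` (`mx_spectral`), `d i ∈ [ε,R]`, `u_i` = i-th column of `U`.
Replacing `d i` by `d'∈[ε,R]` stays in the box and changes `P*` by `(d' - d i) u_i u_iᵀ`, hence
`(d' - d i) ⟨u_i, F(P*) u_i⟩ ≥ 0`.  `d i = ε` (take `d' = R`) contradicts `hlow`, `d i = R`
(take `d' = ε`) contradicts `hup`.  So `ε < d i < R` for all `i`; then `P* - η F(P*)` is in the box
for small `η > 0` and HS gives `-η |F(P*)|² ≥ 0`.
-/
import Claimed.Agent.R260.NormDefs
import Claimed.Agent.R260.MxFun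
import Claimed.Agent.Lib.BfpCor

set_option autoImplicit false

namespace Claimed.Agent.R260

open MeasureTheory Filter Topology Matrix

variable {m : ℕ}

/-- quadratic form of `U diag(c) Uᵀ` -/
theorem normvi_quad (U : Mat m) (c v : Fin m → ℝ) :
    v ⬝ᵥ ((U * Matrix.diagonal c * Uᵀ) *ᵥ v) = ∑ i, c i * ((Uᵀ *ᵥ v) i) ^ 2 := by
  rw [← Matrix.mulVec_mulVec, ← Matrix.mulVec_mulVec, Matrix.dotProduct_mulVec,
    ← Matrix.mulVec_transpose]
  simp only [dotProduct, Matrix.mulVec_diagonal]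
  refine Finset.sum_congr rfl fun i _ => ?_
  ring

theorem normvi_sumsq {U : Mat m} (hU : U * Uᵀ = 1) (v : Fin m → ℝ) :
    ∑ i, ((Uᵀ *ᵥ v) i) ^ 2 = v ⬝ᵥ v := by
  have := normvi_quad U (fun _ => 1) v
  rw [Matrix.diagonal_one, Matrix.mul_one, hU, Matrix.one_mulVec] at this
  simpa using this.symm

theorem normvi_between {U : Mat m} (hU : U * Uᵀ = 1) {a b : ℝ} {c : Fin m → ℝ}
    (hc : ∀ i, a ≤ c i ∧ c i ≤ b) : normBetween a b (U * Matrix.diagonal c * Uᵀ) := by
  refine ⟨?_, fun v => ?_⟩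
  · unfold Matrix.IsSymm
    rw [Matrix.transpose_mul, Matrix.transpose_mul, Matrix.transpose_transpose,
      Matrix.diagonal_transpose, Matrix.mul_assoc]
  · rw [normvi_quad, ← normvi_sumsq hU v, Finset.mul_sum, Finset.mul_sum]
    exact ⟨Finset.sum_le_sum fun i _ => mul_le_mul_of_nonneg_right (hc i).1 (sq_nonneg _),
      Finset.sum_le_sum fun i _ => mul_le_mul_of_nonneg_right (hc i).2 (sq_nonneg _)⟩

theorem normvi_col_dot (A : Mat m) (i : Fin m) :
    (fun k => mxU A k i) ⬝ᵥ (fun k => mxU A k i) = 1 := by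
  have h1 := congrFun (congrFun (mxU_transpose_mul A) i) i
  simpa [Matrix.mul_apply, dotProduct] using h1

theorem normvi_col_eig {A : Mat m} (hA : A.IsSymm) (i : Fin m) :
    A *ᵥ (fun k => mxU A k i) = mxEig A i • (fun k => mxU A k i) := by
  have h : A * mxU A = mxU A * Matrix.diagonal (mxEig A) := by
    have hs := mx_spectral hA
    calc A * mxU A = (mxU A * Matrix.diagonal (mxEig A) * (mxU A)ᵀ) * mxU A := by rw [← hs]
      _ = _ := by rw [Matrix.mul_assoc, mxU_transpose_mul, Matrix.mul_one]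
  funext k
  have := congrFun (congrFun h k) i
  rw [Matrix.mul_diagonal, Matrix.mul_apply] at this
  simp only [Matrix.mulVec, dotProduct, Pi.smul_apply, smul_eq_mul]
  rw [this, mul_comm]

theorem normvi_eig_mem {a b : ℝ} {A : Mat m} (hA : normBetween a b A) (i : Fin m) :
    a ≤ mxEig A i ∧ mxEig A i ≤ b := by
  have h := hA.2 (fun k => mxU A k i)
  rw [normvi_col_eig hA.1, dotProduct_smul, normvi_col_dot, smul_eq_mul, mul_one, mul_one,
    mul_one] at h
  exact h

theorem normvi_rot_diag (A G : Mat m) (i : Fin m) :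
    mxRot A G i i = (fun k => mxU A k i) ⬝ᵥ (G *ᵥ (fun k => mxU A k i)) := by
  simp only [mxRot, Matrix.mul_apply, Matrix.transpose_apply, dotProduct, Matrix.mulVec,
    Finset.sum_mul, Finset.mul_sum]
  rw [Finset.sum_comm]
  refine Finset.sum_congr rfl fun k _ => Finset.sum_congr rfl fun l _ => ?_
  ring

/-- Frobenius pairing with `U diag(c) Uᵀ`, `U` the eigenframe of `A`. -/
theorem normvi_ip_diag (A G : Mat m) (c : Fin m → ℝ) :
    mxIP G (mxU A * Matrix.diagonal c * (mxU A)ᵀ) = ∑ i, mxRot A G i i * c i := by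
  rw [mxIP_rot A, ]
  refine Finset.sum_congr rfl fun i _ => ?_
  rw [mxRot_conj]
  rw [Finset.sum_eq_single i (fun j _ hj => by rw [Matrix.diagonal_apply_ne _ (Ne.symm hj), mul_zero])
    (fun h => absurd (Finset.mem_univ i) h), Matrix.diagonal_apply_eq]

theorem normvi_quad_continuous (v : Fin m → ℝ) :
    Continuous (fun M : Mat m => v ⬝ᵥ (M *ᵥ v)) := by
  simp only [dotProduct, Matrix.mulVec]
  refine continuous_finsetSum _ fun i _ => continuous_const.mul ?_
  refine continuous_finsetSum _ fun j _ => Continuous.mul ?_ continuous_const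
  exact continuous_apply_apply i j

theorem normvi_box_isClosed (ε R : ℝ) : IsClosed (normBox (m := m) ε R) := by
  have : normBox (m := m) ε R = {M : Mat m | Mᵀ = M} ∩ ⋂ v : Fin m → ℝ,
      ({M : Mat m | ε * (v ⬝ᵥ v) ≤ v ⬝ᵥ (M *ᵥ v)} ∩ {M : Mat m | v ⬝ᵥ (M *ᵥ v) ≤ R * (v ⬝ᵥ v)}) := by
    ext M
    simp only [normBox, normBetween, Matrix.IsSymm, Set.mem_inter_iff, Set.mem_iInter]
    rfl
  rw [this]
  refine IsClosed.inter (isClosed_eq (by fun_prop) continuous_id) (isClosed_iInter fun v =>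
    IsClosed.inter (isClosed_le continuous_const (normvi_quad_continuous v))
      (isClosed_le (normvi_quad_continuous v) continuous_const))

theorem normvi_box_isCompact {ε R : ℝ} (hε : 0 < ε) : IsCompact (normBox (m := m) ε R) := by
  have hsub : normBox (m := m) ε R ⊆ (Set.pi Set.univ (fun _ : Fin m =>
      Set.pi Set.univ (fun _ : Fin m => Set.Icc (-R) R)) : Set (Fin m → Fin m → ℝ)) := by
    intro M hM i _ j _
    have h := mxFun_apply_abs_le (f := fun a => a) (C := R) (A := M) (fun l => by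
       have := normvi_eig_mem hM l
       rw [abs_le]; constructor <;> linarith) i j
    rw [mxFun_id hM.1] at h
    exact abs_le.1 h
  exact IsCompact.of_isClosed_subset
    (isCompact_univ_pi fun _ => isCompact_univ_pi fun _ => isCompact_Icc)
    (normvi_box_isClosed ε R) hsub

theorem normvi_dot_self_nonneg (v : Fin m → ℝ) : 0 ≤ v ⬝ᵥ v :=
  Finset.sum_nonneg fun _ _ => mul_self_nonneg _

theorem normvi_smul_one_mem {ε R : ℝ} (hεR : ε ≤ R) : ε • (1 : Mat m) ∈ normBox (m := m) ε R := by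
  refine ⟨(Matrix.isSymm_one).smul ε, fun v => ?_⟩
  rw [Matrix.smul_mulVec, Matrix.one_mulVec, dotProduct_smul, smul_eq_mul]
  exact ⟨le_rfl, mul_le_mul_of_nonneg_right hεR (normvi_dot_self_nonneg v)⟩

theorem normvi_quad_comb (A B : Mat m) (s t : ℝ) (v : Fin m → ℝ) :
    v ⬝ᵥ ((s • A + t • B) *ᵥ v) = s * (v ⬝ᵥ (A *ᵥ v)) + t * (v ⬝ᵥ (B *ᵥ v)) := by
  rw [Matrix.add_mulVec, Matrix.smul_mulVec, Matrix.smul_mulVec, dotProduct_add, dotProduct_smul,
    dotProduct_smul, smul_eq_mul, smul_eq_mul]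

theorem normvi_box_convex (ε R : ℝ) : Convex ℝ (normBox (m := m) ε R) := by
  intro A hA B hB s t hs ht hst
  refine ⟨(hA.1.smul s).add (hB.1.smul t), fun v => ?_⟩
  rw [normvi_quad_comb]
  obtain ⟨a1, a2⟩ := hA.2 v
  obtain ⟨b1, b2⟩ := hB.2 v
  have e1 : ε * (v ⬝ᵥ v) = s * (ε * (v ⬝ᵥ v)) + t * (ε * (v ⬝ᵥ v)) := by
    rw [← add_mul, hst, one_mul]
  have e2 : R * (v ⬝ᵥ v) = s * (R * (v ⬝ᵥ v)) + t * (R * (v ⬝ᵥ v)) := by
    rw [← add_mul, hst, one_mul]
  rw [e1, e2]
  constructor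
  · exact add_le_add (mul_le_mul_of_nonneg_left a1 hs) (mul_le_mul_of_nonneg_left b1 ht)
  · exact add_le_add (mul_le_mul_of_nonneg_left a2 hs) (mul_le_mul_of_nonneg_left b2 ht)

/-- Hartman--Stampacchia on the box, in matrix language. -/
theorem normvi_hs {ε R : ℝ} (hε : 0 < ε) (hεR : ε < R) (F : Mat m → Mat m)
    (hcont : ContinuousOn F (normBox ε R)) :
    ∃ P ∈ normBox (m := m) ε R, ∀ Q ∈ normBox (m := m) ε R, 0 ≤ mxIP (F P) (Q - P) := by
  let ι : Mat m → EuclideanSpace ℝ (Fin m × Fin m) :=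
    fun M => WithLp.toLp 2 (fun p : Fin m × Fin m => M p.1 p.2)
  let κ : EuclideanSpace ℝ (Fin m × Fin m) → Mat m := fun x i j => x (i, j)
  have hι : Continuous ι := by
    refine (PiLp.continuous_toLp 2 _).comp ?_
    exact continuous_pi fun p => continuous_apply_apply p.1 p.2
  have hκ : Continuous κ := by
    refine continuous_pi fun i => continuous_pi fun j => ?_
    exact (continuous_apply (i, j)).comp (PiLp.continuous_ofLp 2 _)
  have hinner : ∀ A B : Mat m, inner ℝ (ι A) (ι B) = mxIP A B := by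
    intro A B
    rw [mxIP_eq_sum, PiLp.inner_apply, Fintype.sum_prod_type]
    refine Finset.sum_congr rfl fun i _ => Finset.sum_congr rfl fun j _ => ?_
    simp [ι, mul_comm]
  have hK : IsCompact (ι '' normBox ε R) := (normvi_box_isCompact hε).image hι
  have hconv : Convex ℝ (ι '' normBox (m := m) ε R) := by
    rintro _ ⟨A, hA, rfl⟩ _ ⟨B, hB, rfl⟩ s t hs ht hst
    exact ⟨s • A + t • B, normvi_box_convex ε R hA hB hs ht hst, rfl⟩
  have hne : (ι '' normBox (m := m) ε R).Nonempty :=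
    ⟨_, _, normvi_smul_one_mem hεR.le, rfl⟩
  have hF : ContinuousOn (fun x => ι (F (κ x))) (ι '' normBox (m := m) ε R) := by
    refine hι.comp_continuousOn (hcont.comp hκ.continuousOn ?_)
    rintro _ ⟨A, hA, rfl⟩
    exact hA
  obtain ⟨x, ⟨P, hP, rfl⟩, hvi⟩ :=
    Claimed.Agent.Lib.bfp_hartman_stampacchia hK hconv hne (fun x => ι (F (κ x))) hF
  refine ⟨P, hP, fun Q hQ => ?_⟩
  have := hvi (ι Q) ⟨Q, hQ, rfl⟩
  have h2 : ι Q - ι P = ι (Q - P) := rfl
  rw [h2] at this
  exact (hinner _ _) ▸ this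

/-- moving one eigenvalue of the Hartman--Stampacchia point -/
theorem normvi_move {ε R : ℝ} {P G : Mat m} (hP : P ∈ normBox (m := m) ε R)
    (hvi : ∀ Q ∈ normBox (m := m) ε R, 0 ≤ mxIP G (Q - P)) (i : Fin m) {t : ℝ}
    (h1 : ε ≤ t) (h2 : t ≤ R) : 0 ≤ mxRot P G i i * (t - mxEig P i) := by
  classical
  set d' : Fin m → ℝ := fun l => if l = i then t else mxEig P l with hd'
  have hmem : mxU P * Matrix.diagonal d' * (mxU P)ᵀ ∈ normBox (m := m) ε R := by
    refine normvi_between (mxU_mul_transpose P) fun l => ?_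
    by_cases hl : l = i
    · simp [hd', hl, h1, h2]
    · simpa [hd', hl] using normvi_eig_mem hP l
  have hdiff : mxU P * Matrix.diagonal d' * (mxU P)ᵀ - P
      = mxU P * Matrix.diagonal (fun l => d' l - mxEig P l) * (mxU P)ᵀ := by
    have hs := mx_spectral hP.1
    calc mxU P * Matrix.diagonal d' * (mxU P)ᵀ - P
        = mxU P * Matrix.diagonal d' * (mxU P)ᵀ
            - mxU P * Matrix.diagonal (mxEig P) * (mxU P)ᵀ := by rw [← hs]
      _ = _ := by
          rw [← Matrix.sub_mul, ← Matrix.mul_sub, Matrix.diagonal_sub]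
  have := hvi _ hmem
  rw [hdiff, normvi_ip_diag] at this
  rw [Finset.sum_eq_single i (fun l _ hl => by simp [hd', hl])
    (fun h => absurd (Finset.mem_univ i) h)] at this
  simpa [hd'] using this

theorem norm_vi {ε R : ℝ} (hε : 0 < ε) (hεR : ε < R) (F : Mat m → Mat m)
    (hcont : ContinuousOn F (normBox ε R))
    (hsymm : ∀ P ∈ normBox (m := m) ε R, (F P).IsSymm)
    (hlow : ∀ P ∈ normBox (m := m) ε R, ∀ e : Fin m → ℝ, e ⬝ᵥ e = 1 → P *ᵥ e = ε • e →
      e ⬝ᵥ (F P *ᵥ e) < 0)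
    (hup : ∀ P ∈ normBox (m := m) ε R, ∀ e : Fin m → ℝ, e ⬝ᵥ e = 1 → P *ᵥ e = R • e →
      0 < e ⬝ᵥ (F P *ᵥ e)) :
    ∃ P ∈ normBox (m := m) ε R, F P = 0 := by
  rcases isEmpty_or_nonempty (Fin m) with hm | hm
  · exact ⟨ε • 1, normvi_smul_one_mem hεR.le, by ext i j; exact (hm.false i).elim⟩
  obtain ⟨P, hP, hvi⟩ := normvi_hs hε hεR F hcont
  refine ⟨P, hP, ?_⟩
  set G := F P with hG
  have hGs : G.IsSymm := hsymm P hP
  have hd := normvi_eig_mem hP
  -- the eigenvalues are strictly inside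
  have hlo : ∀ i, ε < mxEig P i := by
    intro i
    refine lt_of_le_of_ne (hd i).1 fun heq => ?_
    have h1 := hlow P hP _ (normvi_col_dot P i) (by rw [normvi_col_eig hP.1 i, ← heq])
    rw [← hG, ← normvi_rot_diag] at h1
    have h2 := normvi_move hP hvi i hεR.le le_rfl
    rw [← heq] at h2
    nlinarith
  have hhi : ∀ i, mxEig P i < R := by
    intro i
    refine lt_of_le_of_ne (hd i).2 fun heq => ?_
    have h1 := hup P hP _ (normvi_col_dot P i) (by rw [normvi_col_eig hP.1 i, heq])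
    rw [← hG, ← normvi_rot_diag] at h1
    have h2 := normvi_move hP hvi i le_rfl hεR.le
    rw [heq] at h2
    nlinarith
  -- uniform margin
  obtain ⟨i₀, hi₀⟩ := Finite.exists_min (fun i => min (mxEig P i - ε) (R - mxEig P i))
  set δ := min (mxEig P i₀ - ε) (R - mxEig P i₀) with hδ
  have hδ0 : 0 < δ := lt_min (by linarith [hlo i₀]) (by linarith [hhi i₀])
  have hPb : normBetween (ε + δ) (R - δ) P := by
    have hs := mx_spectral hP.1
    rw [hs]
    refine normvi_between (mxU_mul_transpose P) fun l => ?_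
    have := hi₀ l
    have h1 := min_le_left (mxEig P l - ε) (R - mxEig P l)
    have h2 := min_le_right (mxEig P l - ε) (R - mxEig P l)
    constructor <;> linarith
  set C := ∑ l, |mxEig G l| with hC
  have hC0 : 0 ≤ C := Finset.sum_nonneg fun _ _ => abs_nonneg _
  have hGb : normBetween (-C) C G := by
    have hs := mx_spectral hGs
    rw [hs]
    refine normvi_between (mxU_mul_transpose G) fun l => ?_
    have : |mxEig G l| ≤ C :=
      Finset.single_le_sum (f := fun l => |mxEig G l|) (fun _ _ => abs_nonneg _) (Finset.mem_univ l)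
    exact abs_le.1 this
  set η := δ / (C + 1) with hη
  have hη0 : 0 < η := by positivity
  have hηC : η * C ≤ δ := by
    rw [hη, div_mul_eq_mul_div, div_le_iff₀ (by positivity)]
    nlinarith
  have hQ : P - η • G ∈ normBox (m := m) ε R := by
    refine ⟨hP.1.sub (hGs.smul η), fun v => ?_⟩
    have e : P - η • G = (1 : ℝ) • P + (-η) • G := by
      rw [one_smul, neg_smul, sub_eq_add_neg]
    rw [e, normvi_quad_comb, one_mul]
    obtain ⟨p1, p2⟩ := hPb.2 v
    obtain ⟨g1, g2⟩ := hGb.2 v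
    have hv := normvi_dot_self_nonneg v
    have k1 : η * (v ⬝ᵥ (G *ᵥ v)) ≤ δ * (v ⬝ᵥ v) := by
      calc η * (v ⬝ᵥ (G *ᵥ v)) ≤ η * (C * (v ⬝ᵥ v)) := by gcongr
        _ = η * C * (v ⬝ᵥ v) := by ring
        _ ≤ δ * (v ⬝ᵥ v) := by gcongr
    have k2 : -(δ * (v ⬝ᵥ v)) ≤ η * (v ⬝ᵥ (G *ᵥ v)) := by
      calc -(δ * (v ⬝ᵥ v)) ≤ -(η * C * (v ⬝ᵥ v)) := by
            rw [neg_le_neg_iff]; gcongr
        _ = η * (-C * (v ⬝ᵥ v)) := by ring
        _ ≤ η * (v ⬝ᵥ (G *ᵥ v)) := by gcongr
    constructor <;> nlinarith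
  have h0 := hvi _ hQ
  have e : P - η • G - P = -(η • G) := by abel
  rw [e, mxIP_eq_sum] at h0
  have hsq : mxSq G ≤ 0 := by
    rw [mxSq_eq_sum]
    have : ∑ i, ∑ j, G i j * (-(η • G)) i j = -(η * ∑ i, ∑ j, G i j ^ 2) := by
      rw [Finset.mul_sum, ← Finset.sum_neg_distrib]
      refine Finset.sum_congr rfl fun i _ => ?_
      rw [Finset.mul_sum, ← Finset.sum_neg_distrib]
      refine Finset.sum_congr rfl fun j _ => ?_
      simp only [Matrix.neg_apply, Matrix.smul_apply, smul_eq_mul]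
      ring
    rw [this] at h0
    by_contra hpos
    push Not at hpos
    nlinarith
  have hsq0 : ∑ i, ∑ j, G i j ^ 2 = 0 := by
    rw [← mxSq_eq_sum]
    exact le_antisymm hsq (mxSq_nonneg G)
  ext i j
  have h1 := (Finset.sum_eq_zero_iff_of_nonneg
    (fun i _ => Finset.sum_nonneg fun j _ => sq_nonneg (G i j))).1 hsq0 i (Finset.mem_univ i)
  have h2 := (Finset.sum_eq_zero_iff_of_nonneg (fun j _ => sq_nonneg (G i j))).1 h1 j
    (Finset.mem_univ j)
  simpa using h2

end Claimed.Agent.R260
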