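/-
Row 260, package TR, part T4 (owner helper162).  File TrShiftKlein: strong concavity of `log det`
on symmetric matrices with spectrum in `[lam, Lam]` (Klein's inequality):
`log det B ≤ log det A + tr (A⁻¹ (B - A)) - |B - A|_F² / (2 Lam²)`.
-/
import Claimed.Agent.R260.MxConst

set_option autoImplicit false

namespace Claimed.Agent.R260

open Matrix

variable {m : ℕ}

/-- the scalar inequality behind Klein's inequality. -/
theorem trs_log_strong {a b L : ℝ} (ha : 0 < a) (hb : 0 < b) (haL : a ≤ L) (hbL : b ≤ L) :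
    Real.log b - Real.log a ≤ (b - a) / a - (b - a) ^ 2 / (2 * L ^ 2) := by
  have hL : 0 < L := ha.trans_le haL
  -- `ψ t = (t-a)/a - (t-a)²/(2L²) - log t`
  set ψ : ℝ → ℝ := fun t => (t - a) / a - (t - a) ^ 2 / (2 * L ^ 2) - Real.log t with hψ
  set ψ' : ℝ → ℝ := fun t => 1 / a - (t - a) / L ^ 2 - 1 / t with hψ'
  have hder : ∀ t, 0 < t → HasDerivAt ψ (ψ' t) t := by
    intro t ht
    have h1 : HasDerivAt (fun t : ℝ => (t - a) / a) (1 / a) t :=
      ((hasDerivAt_id' t).sub_const a).div_const a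
    have h2 : HasDerivAt (fun t : ℝ => (t - a) ^ 2 / (2 * L ^ 2)) ((t - a) / L ^ 2) t := by
      have h0 : HasDerivAt (fun t : ℝ => (t - a) ^ 2) (2 * (t - a)) t := by
        have := ((hasDerivAt_id' t).sub_const a).fun_pow 2
        simpa using this
      refine (h0.div_const (2 * L ^ 2)).congr_deriv ?_
      field_simp
    have h3 := Real.hasDerivAt_log ht.ne'
    refine ((h1.fun_sub h2).fun_sub h3).congr_deriv ?_
    simp only [hψ', one_div]
  have hsign : ∀ t, 0 < t → t ≤ L → ψ' t = (t - a) * ((L ^ 2 - a * t) / (a * t * L ^ 2)) := by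
    intro t ht _
    simp only [hψ']
    field_simp
    ring
  have hfac : ∀ t, 0 < t → t ≤ L → 0 ≤ (L ^ 2 - a * t) / (a * t * L ^ 2) := by
    intro t ht htL
    refine div_nonneg ?_ (by positivity)
    nlinarith
  have hψa : ψ a = -Real.log a := by simp [hψ]
  suffices h : ψ a ≤ ψ b by
    rw [hψa] at h
    simp only [hψ] at h
    linarith
  rcases lt_trichotomy a b with hab | hab | hab
  · obtain ⟨c, hc, hc'⟩ := exists_hasDerivAt_eq_slope ψ ψ' hab
      (fun t ht => (hder t (ha.trans_le ht.1)).continuousAt.continuousWithinAt)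
      (fun t ht => hder t (ha.trans ht.1))
    have hc0 : 0 < c := ha.trans hc.1
    have h1 : 0 ≤ ψ' c := by
      rw [hsign c hc0 (hc.2.le.trans hbL)]
      exact mul_nonneg (sub_nonneg.mpr hc.1.le) (hfac c hc0 (hc.2.le.trans hbL))
    rw [hc'] at h1
    have h2 : 0 < b - a := sub_pos.mpr hab
    have := (div_nonneg_iff.mp h1)
    rcases this with h3 | h3
    · linarith [h3.1]
    · linarith [h3.2]
  · rw [hab]
  · obtain ⟨c, hc, hc'⟩ := exists_hasDerivAt_eq_slope ψ ψ' hab
      (fun t ht => (hder t (hb.trans_le ht.1)).continuousAt.continuousWithinAt)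
      (fun t ht => hder t (hb.trans ht.1))
    have hc0 : 0 < c := hb.trans hc.1
    have h1 : ψ' c ≤ 0 := by
      rw [hsign c hc0 (hc.2.le.trans haL)]
      exact mul_nonpos_of_nonpos_of_nonneg (sub_nonpos.mpr hc.2.le)
        (hfac c hc0 (hc.2.le.trans haL))
    rw [hc'] at h1
    have h2 : 0 < a - b := sub_pos.mpr hab
    have := (div_nonpos_iff.mp h1)
    rcases this with h3 | h3
    · linarith [h3.2]
    · linarith [h3.1]

/-- the overlap weights `c_ij = ⟨u_i, v_j⟩²` of the eigenbases of `A` and `B`. -/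
noncomputable def trsC (A B : Mx m) (i j : Fin m) : ℝ := (((mxU A)ᵀ * mxU B) i j) ^ 2

theorem trsC_nonneg (A B : Mx m) (i j : Fin m) : 0 ≤ trsC A B i j := sq_nonneg _

/-- `tr (f(A) g(B)) = ∑ c_ij f(a_i) g(b_j)`. -/
theorem trs_trace_fun_fun (f g : ℝ → ℝ) (A B : Mx m) :
    (mxFun f A * mxFun g B).trace = ∑ i, ∑ j, trsC A B i j * (f (mxEig A i) * g (mxEig B j)) := by
  set O : Mx m := (mxU A)ᵀ * mxU B with hO
  have e : (mxFun f A * mxFun g B).trace
      = (diagonal (fun i => f (mxEig A i)) * O * diagonal (fun j => g (mxEig B j)) * Oᵀ).trace := by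
    unfold mxFun
    rw [hO, Matrix.transpose_mul, Matrix.transpose_transpose]
    have : mxU A * diagonal (fun i => f (mxEig A i)) * (mxU A)ᵀ
          * (mxU B * diagonal (fun i => g (mxEig B i)) * (mxU B)ᵀ)
        = mxU A * (diagonal (fun i => f (mxEig A i)) * ((mxU A)ᵀ * mxU B)
          * diagonal (fun j => g (mxEig B j)) * (mxU B)ᵀ) := by
      simp only [Matrix.mul_assoc]
    rw [this, Matrix.trace_mul_comm]
    simp only [Matrix.mul_assoc]
  rw [e]
  simp only [Matrix.trace, Matrix.diag_apply]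
  refine Finset.sum_congr rfl fun i _ => ?_
  rw [Matrix.mul_apply]
  refine Finset.sum_congr rfl fun j _ => ?_
  rw [Matrix.mul_diagonal, Matrix.diagonal_mul, Matrix.transpose_apply]
  unfold trsC
  rw [← hO]
  ring

/-- **Klein's inequality** for `-log`, with the quadratic gain. -/
theorem trs_klein {A B : Mx m} (hA : A.IsSymm) (hB : B.IsSymm) {lam Lam : ℝ} (hlam : 0 < lam)
    (hAs : ∀ i, mxEig A i ∈ Set.Icc lam Lam) (hBs : ∀ i, mxEig B i ∈ Set.Icc lam Lam) :
    Real.log B.det ≤ Real.log A.det + (A⁻¹ * (B - A)).trace - mxSq (B - A) / (2 * Lam ^ 2) := by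
  have hA0 : ∀ i, 0 < mxEig A i := fun i => hlam.trans_le (hAs i).1
  have hB0 : ∀ i, 0 < mxEig B i := fun i => hlam.trans_le (hBs i).1
  have idA : mxFun (fun a => a) A = A := mxFun_id hA
  have idB : mxFun (fun a => a) B = B := mxFun_id hB
  have oneA : mxFun (fun _ => (1 : ℝ)) A = 1 := by rw [mxFun_const, one_smul]
  have oneB : mxFun (fun _ => (1 : ℝ)) B = 1 := by rw [mxFun_const, one_smul]
  -- the inverse
  have invA : A⁻¹ = mxFun (fun a => a⁻¹) A := by
    have h := mxFun_mul_inv (f := fun a => a) (A := A) (fun i => (hA0 i).ne')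
    rw [idA] at h
    exact Matrix.inv_eq_right_inv h
  have hAA : A⁻¹ * A = 1 := by
    have h := mxFun_mul_inv (f := fun a => a) (A := A) (fun i => (hA0 i).ne')
    rw [mxFun_commute, idA, ← invA] at h
    exact h
  -- log det
  have ldA : Real.log A.det = ∑ i, ∑ j, trsC A B i j * (Real.log (mxEig A i) * 1) := by
    rw [← trs_trace_fun_fun Real.log (fun _ => 1) A B, oneB, Matrix.mul_one, mxFun_trace]
    conv_lhs => rw [← idA, mxFun_det]
    exact Real.log_prod fun i _ => (hA0 i).ne'
  have ldB : Real.log B.det = ∑ i, ∑ j, trsC A B i j * (1 * Real.log (mxEig B j)) := by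
    rw [← trs_trace_fun_fun (fun _ => 1) Real.log A B, oneA, Matrix.one_mul, mxFun_trace]
    conv_lhs => rw [← idB, mxFun_det]
    exact Real.log_prod fun i _ => (hB0 i).ne'
  -- the linear term
  have lin : (A⁻¹ * (B - A)).trace
      = ∑ i, ∑ j, trsC A B i j * ((mxEig A i)⁻¹ * mxEig B j)
        - ∑ i, ∑ j, trsC A B i j * (1 * 1) := by
    rw [Matrix.mul_sub, Matrix.trace_sub, ← trs_trace_fun_fun (fun a => a⁻¹) (fun a => a) A B,
      ← trs_trace_fun_fun (fun _ => 1) (fun _ => 1) A B, idB, oneA, oneB, ← invA, Matrix.mul_one,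
      hAA]
  -- the quadratic term
  have quad : mxSq (B - A) = ∑ i, ∑ j, trsC A B i j * (1 * mxEig B j ^ 2)
      - 2 * ∑ i, ∑ j, trsC A B i j * (mxEig A i * mxEig B j)
      + ∑ i, ∑ j, trsC A B i j * (mxEig A i ^ 2 * 1) := by
    rw [← trs_trace_fun_fun (fun _ => 1) (fun a => a ^ 2) A B,
      ← trs_trace_fun_fun (fun a => a) (fun a => a) A B,
      ← trs_trace_fun_fun (fun a => a ^ 2) (fun _ => 1) A B, idA, idB, oneA, oneB,
      Matrix.one_mul, Matrix.mul_one]
    have sqA : mxFun (fun a => a ^ 2) A = A * A := by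
      have := mxFun_mul (fun a => a) (fun a => a) A
      rw [idA] at this
      rw [← this]; congr 1; funext a; ring
    have sqB : mxFun (fun a => a ^ 2) B = B * B := by
      have := mxFun_mul (fun a => a) (fun a => a) B
      rw [idB] at this
      rw [← this]; congr 1; funext a; ring
    rw [sqA, sqB]
    unfold mxSq
    rw [Matrix.transpose_sub, hA.eq, hB.eq, Matrix.sub_mul, Matrix.mul_sub, Matrix.mul_sub,
      Matrix.trace_sub, Matrix.trace_sub, Matrix.trace_sub, Matrix.trace_mul_comm B A]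
    ring
  rw [ldA, ldB, lin, quad]
  -- termwise
  have key : ∀ i j, trsC A B i j * (1 * Real.log (mxEig B j))
      ≤ trsC A B i j * (Real.log (mxEig A i) * 1)
        + (trsC A B i j * ((mxEig A i)⁻¹ * mxEig B j) - trsC A B i j * (1 * 1))
        - (trsC A B i j * (1 * mxEig B j ^ 2) - 2 * (trsC A B i j * (mxEig A i * mxEig B j))
          + trsC A B i j * (mxEig A i ^ 2 * 1)) / (2 * Lam ^ 2) := by
    intro i j
    have h := trs_log_strong (hA0 i) (hB0 j) (hAs i).2 (hBs j).2
    have hc := trsC_nonneg A B i j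
    have h2 := mul_le_mul_of_nonneg_left h hc
    have ha := (hA0 i).ne'
    have e : trsC A B i j * ((mxEig B j - mxEig A i) / mxEig A i
          - (mxEig B j - mxEig A i) ^ 2 / (2 * Lam ^ 2))
        = (trsC A B i j * ((mxEig A i)⁻¹ * mxEig B j) - trsC A B i j * (1 * 1))
        - (trsC A B i j * (1 * mxEig B j ^ 2) - 2 * (trsC A B i j * (mxEig A i * mxEig B j))
          + trsC A B i j * (mxEig A i ^ 2 * 1)) / (2 * Lam ^ 2) := by
      field_simp
      ring
    rw [e] at h2
    linarith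
  have hsum := Finset.sum_le_sum fun i (_ : i ∈ Finset.univ) =>
    Finset.sum_le_sum fun j (_ : j ∈ Finset.univ) => key i j
  simp only [Finset.sum_add_distrib, Finset.sum_sub_distrib, ← Finset.sum_div,
    ← Finset.mul_sum] at hsum ⊢
  linarith

end Claimed.Agent.R260
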