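/-
Row 260, package TR: pointwise matrix facts for T3/T4 (also useful for NORM).
Statements by helper200; proofs by helper162 (leaf TR-Mat).
-/
import Claimed.Agent.R260.MxFunB
import Claimed.Agent.R260.CoreDefs
import Claimed.Agent.R260.TrShiftKlein

set_option autoImplicit false

namespace Claimed.Agent.R260

open MeasureTheory ProbabilityTheory Matrix

variable {m : ℕ}

/-- the inverse of a symmetric matrix with positive spectrum is `(1/·)(A)` -/
theorem trm_inv_eq {A : Mat m} {lam Lam : ℝ} (hlam : 0 < lam) (hA : A.IsSymm)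
    (hAs : ∀ i, mxEig A i ∈ Set.Icc lam Lam) : A⁻¹ = mxFun (fun a => a⁻¹) A := by
  have h := mxFun_mul_inv (f := fun a => a) (A := A) (fun i => (hlam.trans_le (hAs i).1).ne')
  rw [mxFun_id hA] at h
  exact Matrix.inv_eq_right_inv h

theorem trm_inv_isSymm {A : Mat m} (hA : A.IsSymm) : (A⁻¹).IsSymm := by
  unfold Matrix.IsSymm
  rw [Matrix.transpose_nonsing_inv, hA.eq]

theorem trm_det_ne_zero {A : Mat m} {lam Lam : ℝ} (hlam : 0 < lam) (hA : A.IsSymm)
    (hAs : ∀ i, mxEig A i ∈ Set.Icc lam Lam) : A.det ≠ 0 := by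
  rw [← mxFun_id hA, mxFun_det]
  exact Finset.prod_ne_zero_iff.mpr fun i _ => (hlam.trans_le (hAs i).1).ne'

theorem trm_inv_mul_self {A : Mat m} {lam Lam : ℝ} (hlam : 0 < lam) (hA : A.IsSymm)
    (hAs : ∀ i, mxEig A i ∈ Set.Icc lam Lam) : A⁻¹ * A = 1 :=
  Matrix.nonsing_inv_mul A (Ne.isUnit (trm_det_ne_zero hlam hA hAs))

theorem trm_mul_inv_self {A : Mat m} {lam Lam : ℝ} (hlam : 0 < lam) (hA : A.IsSymm)
    (hAs : ∀ i, mxEig A i ∈ Set.Icc lam Lam) : A * A⁻¹ = 1 :=
  Matrix.mul_nonsing_inv A (Ne.isUnit (trm_det_ne_zero hlam hA hAs))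

theorem trm_inv_abs_le {A : Mat m} {lam Lam : ℝ} (hlam : 0 < lam) (hA : A.IsSymm)
    (hAs : ∀ i, mxEig A i ∈ Set.Icc lam Lam) (k l : Fin m) : |A⁻¹ k l| ≤ 1 / lam := by
  rw [trm_inv_eq hlam hA hAs]
  refine mxFun_apply_abs_le (fun i => ?_) k l
  have h0 : 0 < mxEig A i := hlam.trans_le (hAs i).1
  rw [abs_of_pos (inv_pos.mpr h0), one_div]
  exact inv_anti₀ hlam (hAs i).1

/-- `∑ M_kl N_kl = tr (M N)` for symmetric `N`. -/
theorem trm_sum_mul_eq_trace (M : Mat m) {N : Mat m} (hN : N.IsSymm) :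
    ∑ k, ∑ l, M k l * N k l = (M * N).trace := by
  simp only [Matrix.trace, Matrix.diag_apply, Matrix.mul_apply]
  refine Finset.sum_congr rfl fun k _ => Finset.sum_congr rfl fun l _ => ?_
  rw [hN.apply]

/-- `tr (A⁻¹ A) = m`, entrywise -/
theorem trm_sum_inv_mul {A : Mat m} {lam Lam : ℝ} (hlam : 0 < lam) (hA : A.IsSymm)
    (hAs : ∀ i, mxEig A i ∈ Set.Icc lam Lam) : ∑ k, ∑ l, A⁻¹ k l * A k l = (m : ℝ) := by
  rw [trm_sum_mul_eq_trace _ hA, trm_inv_mul_self hlam hA hAs, Matrix.trace_one]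
  simp

/-- **the monotonicity inequality of the inverse**:
`tr ((A⁻¹ - B⁻¹)(A - B)) = - tr (A⁻¹ X B⁻¹ X) ≤ - Λ⁻² |X|_F²`, `X = A - B`. -/
theorem trm_inv_mono {A B : Mat m} {lam Lam : ℝ} (hlam : 0 < lam) (hA : A.IsSymm) (hB : B.IsSymm)
    (hAs : ∀ i, mxEig A i ∈ Set.Icc lam Lam) (hBs : ∀ i, mxEig B i ∈ Set.Icc lam Lam) :
    ∑ k, ∑ l, (A⁻¹ k l - B⁻¹ k l) * (A k l - B k l)
      ≤ -(1 / Lam ^ 2) * ∑ k, ∑ l, (A k l - B k l) ^ 2 := by
  have hA0 : ∀ i, 0 < mxEig A i := fun i => hlam.trans_le (hAs i).1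
  have hB0 : ∀ i, 0 < mxEig B i := fun i => hlam.trans_le (hBs i).1
  have idA : mxFun (fun a => a) A = A := mxFun_id hA
  have idB : mxFun (fun a => a) B = B := mxFun_id hB
  have oneA : mxFun (fun _ => (1 : ℝ)) A = 1 := by rw [mxFun_const, one_smul]
  have oneB : mxFun (fun _ => (1 : ℝ)) B = 1 := by rw [mxFun_const, one_smul]
  have invA := trm_inv_eq hlam hA hAs
  have invB := trm_inv_eq hlam hB hBs
  have hsub : (A - B).IsSymm := hA.sub hB
  have sqA : mxFun (fun a => a ^ 2) A = A * A := by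
    have := mxFun_mul (fun a => a) (fun a => a) A
    rw [idA] at this
    rw [← this]; congr 1; funext a; ring
  have sqB : mxFun (fun a => a ^ 2) B = B * B := by
    have := mxFun_mul (fun a => a) (fun a => a) B
    rw [idB] at this
    rw [← this]; congr 1; funext a; ring
  -- left side
  have L : ∑ k, ∑ l, (A⁻¹ k l - B⁻¹ k l) * (A k l - B k l)
      = ∑ i, ∑ j, trsC A B i j * (1 * 1) - ∑ i, ∑ j, trsC A B i j * ((mxEig A i)⁻¹ * mxEig B j)
        - ∑ i, ∑ j, trsC A B i j * (mxEig A i * (mxEig B j)⁻¹)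
        + ∑ i, ∑ j, trsC A B i j * (1 * 1) := by
    have e := trm_sum_mul_eq_trace (A⁻¹ - B⁻¹) hsub
    simp only [Matrix.sub_apply] at e
    rw [e, ← trs_trace_fun_fun (fun _ => 1) (fun _ => 1) A B,
      ← trs_trace_fun_fun (fun a => a⁻¹) (fun a => a) A B,
      ← trs_trace_fun_fun (fun a => a) (fun a => a⁻¹) A B, idA, idB, oneA, oneB, ← invA, ← invB,
      Matrix.mul_one, Matrix.sub_mul, Matrix.mul_sub, Matrix.mul_sub, Matrix.trace_sub,
      Matrix.trace_sub, Matrix.trace_sub, trm_inv_mul_self hlam hA hAs,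
      trm_inv_mul_self hlam hB hBs, Matrix.trace_mul_comm B⁻¹ A]
    ring
  -- right side
  have R : ∑ k, ∑ l, (A k l - B k l) ^ 2 = ∑ i, ∑ j, trsC A B i j * (mxEig A i ^ 2 * 1)
      - 2 * ∑ i, ∑ j, trsC A B i j * (mxEig A i * mxEig B j)
      + ∑ i, ∑ j, trsC A B i j * (1 * mxEig B j ^ 2) := by
    have e := trm_sum_mul_eq_trace (A - B) hsub
    simp only [Matrix.sub_apply] at e
    have e' : ∑ k, ∑ l, (A k l - B k l) ^ 2 = ∑ k, ∑ l, (A k l - B k l) * (A k l - B k l) :=
      Finset.sum_congr rfl fun k _ => Finset.sum_congr rfl fun l _ => by ring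
    rw [e', e, ← trs_trace_fun_fun (fun a => a ^ 2) (fun _ => 1) A B,
      ← trs_trace_fun_fun (fun a => a) (fun a => a) A B,
      ← trs_trace_fun_fun (fun _ => 1) (fun a => a ^ 2) A B, idA, idB, oneA, oneB, sqA, sqB,
      Matrix.one_mul, Matrix.mul_one, Matrix.sub_mul, Matrix.mul_sub, Matrix.mul_sub,
      Matrix.trace_sub, Matrix.trace_sub, Matrix.trace_sub, Matrix.trace_mul_comm B A]
    ring
  rw [L, R]
  have key : ∀ i j, trsC A B i j * (1 * 1) - trsC A B i j * ((mxEig A i)⁻¹ * mxEig B j)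
        - trsC A B i j * (mxEig A i * (mxEig B j)⁻¹) + trsC A B i j * (1 * 1)
      ≤ -(1 / Lam ^ 2) * (trsC A B i j * (mxEig A i ^ 2 * 1)
        - 2 * (trsC A B i j * (mxEig A i * mxEig B j)) + trsC A B i j * (1 * mxEig B j ^ 2)) := by
    intro i j
    have ha := hA0 i
    have hb := hB0 j
    have hL : 0 < Lam := ha.trans_le (hAs i).2
    have hc := trsC_nonneg A B i j
    have hab : mxEig A i * mxEig B j ≤ Lam ^ 2 := by
      nlinarith [(hAs i).2, (hBs j).2]
    have e1 : trsC A B i j * (1 * 1) - trsC A B i j * ((mxEig A i)⁻¹ * mxEig B j)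
        - trsC A B i j * (mxEig A i * (mxEig B j)⁻¹) + trsC A B i j * (1 * 1)
        = -(trsC A B i j * (mxEig A i - mxEig B j) ^ 2 * (1 / (mxEig A i * mxEig B j))) := by
      field_simp
      ring
    have e2 : -(1 / Lam ^ 2) * (trsC A B i j * (mxEig A i ^ 2 * 1)
        - 2 * (trsC A B i j * (mxEig A i * mxEig B j)) + trsC A B i j * (1 * mxEig B j ^ 2))
        = -(trsC A B i j * (mxEig A i - mxEig B j) ^ 2 * (1 / Lam ^ 2)) := by
      ring
    rw [e1, e2, neg_le_neg_iff]
    refine mul_le_mul_of_nonneg_left ?_ (mul_nonneg hc (sq_nonneg _))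
    exact one_div_le_one_div_of_le (mul_pos ha hb) hab
  have hsum := Finset.sum_le_sum fun i (_ : i ∈ Finset.univ) =>
    Finset.sum_le_sum fun j (_ : j ∈ Finset.univ) => key i j
  simp only [Finset.sum_add_distrib, Finset.sum_sub_distrib, ← Finset.mul_sum] at hsum ⊢
  linarith

/-- the determinant of a measurable matrix field is measurable -/
theorem trm_measurable_det {α : Type*} [MeasurableSpace α] {F : α → Mat m}
    (hF : ∀ i j, Measurable fun x => F x i j) : Measurable fun x => (F x).det := by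
  simp only [Matrix.det_apply']
  refine Finset.measurable_sum _ fun σ _ => ?_
  exact measurable_const.mul (Finset.measurable_prod _ fun i _ => hF _ _)

/-- entries of the inverse of a measurable matrix field are measurable -/
theorem trm_measurable_inv {α : Type*} [MeasurableSpace α] {F : α → Mat m}
    (hF : ∀ i j, Measurable fun x => F x i j) (k l : Fin m) :
    Measurable fun x => (F x)⁻¹ k l := by
  have hadj : Measurable fun x => (F x).adjugate k l := by
    simp only [Matrix.adjugate_apply]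
    refine trm_measurable_det fun i j => ?_
    by_cases h : i = l
    · subst h
      simp only [Matrix.updateRow_self]
      exact measurable_const
    · simp only [Matrix.updateRow_ne h]
      exact hF i j
  have e : (fun x => (F x)⁻¹ k l) = fun x => ((F x).det)⁻¹ * (F x).adjugate k l := by
    funext x
    rw [Matrix.inv_def, Matrix.smul_apply, Ring.inverse_eq_inv', smul_eq_mul]
  rw [e]
  exact (trm_measurable_det hF).inv.mul hadj

end Claimed.Agent.R260
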