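/-
Row 260, package NORM, leaf NORM-BR: from the output `TrOut` of the TR package to the two records
`NormTr`, `NormW` used by NORM.  Tools: `mx_spectral`, `mxFun_quad` (MxFun/MxPoly), `otQC.*`.
-/
import Claimed.Agent.R260.NormDefs
import Claimed.Agent.R260.MxPoly
import Claimed.Agent.R260.OTBridge
import Claimed.Agent.R260.NormVI
import Claimed.Agent.R260.TrMat
import Claimed.Agent.R260.CoreN
import Claimed.Agent.R260.GKClass

set_option autoImplicit false

namespace Claimed.Agent.R260

open MeasureTheory ProbabilityTheory Filter Topology Matrix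

variable {m : ℕ}

/-! ### NORM-BR: bridge from the TR package -/

/-- spectrum in `[lam, Lam]` ⟹ quadratic form bounds (`mx_spectral`, `mxFun_quad`) -/
theorem normBetween_of_eig {lam Lam : ℝ} {J : Mat m} (hs : J.IsSymm)
    (he : ∀ i, mxEig J i ∈ Set.Icc lam Lam) : normBetween lam Lam J := by
  have h := mx_spectral hs
  rw [h]
  exact normvi_between (mxU_mul_transpose J) (fun i => ⟨(he i).1, (he i).2⟩)

/-- quadratic form bounds ⟹ spectrum in `[lam, Lam]` -/
theorem normBetween.eig_mem {lam Lam : ℝ} {J : Mat m} (hJ : normBetween lam Lam J) (i : Fin m) :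
    mxEig J i ∈ Set.Icc lam Lam :=
  ⟨(normvi_eig_mem hJ i).1, (normvi_eig_mem hJ i).2⟩

/-- the partial derivatives of a continuous map are Borel functions -/
theorem norm_coreJ_measurable {T : EE m → EE m} (hT : Continuous T) (i j : Fin m) :
    Measurable (fun x => coreJ T x i j) := by
  unfold coreJ pd
  exact measurable_fderiv_apply_const ℝ (fun y => T y i) (eb j)

theorem normbr_coord_lipschitz {ζ : EE m → EE m} {K : NNReal} (hζ : LipschitzWith K ζ)
    (k : Fin m) : LipschitzWith K (fun x => ζ x k) := by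
  refine LipschitzWith.of_dist_le_mul fun x y => ?_
  refine le_trans ?_ (hζ.dist_le_mul x y)
  rw [Real.dist_eq, dist_eq_norm]
  have := PiLp.norm_apply_le (ζ x - ζ y) k
  simpa [Real.norm_eq_abs] using this

theorem normbr_abs_pd_le {u : EE m → ℝ} {K : NNReal} (hu : LipschitzWith K u) (l : Fin m)
    (x : EE m) : |pd l u x| ≤ K :=
  (gk_abs_pd_le l u x).trans (norm_fderiv_le_of_lipschitz ℝ hu)

theorem normbr_measurable_pd (u : EE m → ℝ) (l : Fin m) : Measurable (pd l u) := by
  unfold pd
  exact measurable_fderiv_apply_const ℝ u (eb l)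

theorem norm_tr_of_trOut {W φ : EE m → ℝ} {lam Lam : ℝ} (hlam : 0 < lam) (hφ : QC lam Lam φ)
    (h : TrOut W φ lam Lam) : NormTr lam Lam (gradient φ) := by
  have hlip : LipschitzWith (Real.toNNReal Lam) (gradient φ) := by
    refine LipschitzWith.of_dist_le_mul fun x y => ?_
    rw [dist_eq_norm, dist_eq_norm]
    refine (otQC.grad_lipschitz hφ hlam.le x y).trans ?_
    exact mul_le_mul_of_nonneg_right (Real.le_coe_toNNReal Lam) (norm_nonneg _)
  refine ⟨hlip, norm_coreJ_measurable hlip.continuous, ?_⟩
  filter_upwards [h.J_symm, h.J_spec] with x h1 h2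
  exact normBetween_of_eig h1 h2

/-- sum `TrOut.weak` over the components `k` (with `ζ_k = (ζ ·) k`); integrability of each summand:
entries of `J⁻¹` are bounded a.e. and measurable, `pd l ζ_k` bounded measurable. -/
theorem norm_w_of_trOut {W φ : EE m → ℝ} {lam Lam : ℝ} (hlam : 0 < lam) (hφ : QC lam Lam φ)
    (hW : NicePot W) (h : TrOut W φ lam Lam) : NormW W (gradient φ) := by
  rintro ζ ⟨K, hζ⟩
  have hT := (norm_tr_of_trOut hlam hφ h)
  obtain ⟨KN, hN⟩ := (coreN_main hW hlam hφ).1
  have hζk := fun k => normbr_coord_lipschitz hζ k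
  have hNk := fun k => normbr_coord_lipschitz hN k
  -- pointwise expansions
  have e1 : ∀ x, ((coreJ (gradient φ) x)⁻¹ * (coreJ ζ x)ᵀ).trace
      = ∑ k, ∑ l, (coreJ (gradient φ) x)⁻¹ k l * pd l (fun y => ζ y k) x := by
    intro x
    simp only [Matrix.trace, Matrix.diag, Matrix.mul_apply, Matrix.transpose_apply]
    rfl
  have e2 : ∀ x, inner ℝ (ζ x) (gradient W (gradient φ x))
      = ∑ k, ζ x k * gradient W (gradient φ x) k := by
    intro x
    rw [PiLp.inner_apply]
    refine Finset.sum_congr rfl fun k _ => ?_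
    simp [mul_comm]
  -- integrability
  have i1 : ∀ k, Integrable (fun x => ∑ l, (coreJ (gradient φ) x)⁻¹ k l
      * pd l (fun y => ζ y k) x) (gam m) := by
    intro k
    refine integrable_finsetSum _ fun l _ => ?_
    refine Integrable.of_bound (C := 1 / lam * K) ?_ ?_
    · exact ((trm_measurable_inv (fun i j => hT.meas i j) k l).mul
        (normbr_measurable_pd _ l)).aestronglyMeasurable
    · filter_upwards [h.J_symm, h.J_spec] with x h1 h2
      rw [Real.norm_eq_abs, abs_mul]
      exact mul_le_mul (trm_inv_abs_le hlam h1 h2 k l) (normbr_abs_pd_le (hζk k) l x)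
        (abs_nonneg _) (by positivity)
  have i2 : ∀ k, Integrable (fun x => ζ x k * gradient W (gradient φ x) k) (gam m) := fun k =>
    ((gk_PG_of_lipschitz (hζk k)).mul (gk_PG_of_lipschitz (hNk k))).integrable
  simp only [e1, e2]
  rw [integral_finsetSum _ fun k _ => i1 k, integral_finsetSum _ fun k _ => i2 k]
  exact Finset.sum_congr rfl fun k _ => h.weak k (fun y => ζ y k) K (hζk k)

end Claimed.Agent.R260
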