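/-
Row 260, package GK (Gaussian kit): GH1, linear structure and closedness.
Statements by helper200; proofs by helper117.
-/
import Claimed.Agent.R260.GKClass

namespace Claimed.Agent.R260

open MeasureTheory ProbabilityTheory Filter Topology Set

variable {m : ℕ}

/-! ### auxiliary `L²` bookkeeping -/

theorem gk_closA_integrable_sq_sub {f g : EE m → ℝ} (hf : MemLp f 2 (gam m))
    (hg : MemLp g 2 (gam m)) : Integrable (fun x => (f x - g x) ^ 2) (gam m) :=
  (hf.sub hg).integrable_sq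

theorem gk_closA_sq_nonneg (f g : EE m → ℝ) : 0 ≤ ∫ x, (f x - g x) ^ 2 ∂gam m :=
  integral_nonneg fun _ => sq_nonneg _

/-- the triangle inequality in the form `‖f - h‖² ≤ 2 ‖f - g‖² + 2 ‖g - h‖²` -/
theorem gk_closA_triangle {f g h : EE m → ℝ} (hf : MemLp f 2 (gam m)) (hg : MemLp g 2 (gam m))
    (hh : MemLp h 2 (gam m)) :
    ∫ x, (f x - h x) ^ 2 ∂gam m ≤
      2 * ∫ x, (f x - g x) ^ 2 ∂gam m + 2 * ∫ x, (g x - h x) ^ 2 ∂gam m := by
  have h1 := gk_closA_integrable_sq_sub hf hg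
  have h2 := gk_closA_integrable_sq_sub hg hh
  rw [← integral_const_mul, ← integral_const_mul, ← integral_add (h1.const_mul 2) (h2.const_mul 2)]
  refine integral_mono (gk_closA_integrable_sq_sub hf hh) ((h1.const_mul 2).add (h2.const_mul 2))
    fun x => ?_
  show (f x - h x) ^ 2 ≤ 2 * (f x - g x) ^ 2 + 2 * (g x - h x) ^ 2
  nlinarith [sq_nonneg ((f x - g x) - (g x - h x))]

/-- `‖(f + f') - (g + g')‖² ≤ 2 ‖f - g‖² + 2 ‖f' - g'‖²` -/
theorem gk_closA_add_le {f g f' g' : EE m → ℝ} (hf : MemLp f 2 (gam m)) (hg : MemLp g 2 (gam m))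
    (hf' : MemLp f' 2 (gam m)) (hg' : MemLp g' 2 (gam m)) :
    ∫ x, ((f x + f' x) - (g x + g' x)) ^ 2 ∂gam m ≤
      2 * ∫ x, (f x - g x) ^ 2 ∂gam m + 2 * ∫ x, (f' x - g' x) ^ 2 ∂gam m := by
  have h1 := gk_closA_integrable_sq_sub hf hg
  have h2 := gk_closA_integrable_sq_sub hf' hg'
  rw [← integral_const_mul, ← integral_const_mul, ← integral_add (h1.const_mul 2) (h2.const_mul 2)]
  refine integral_mono (gk_closA_integrable_sq_sub (hf.add hf') (hg.add hg'))
    ((h1.const_mul 2).add (h2.const_mul 2)) fun x => ?_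
  show ((f x + f' x) - (g x + g' x)) ^ 2 ≤ 2 * (f x - g x) ^ 2 + 2 * (f' x - g' x) ^ 2
  nlinarith [sq_nonneg ((f x - g x) - (f' x - g' x))]

theorem gk_closA_memLp {u : EE m → ℝ} (hu : C1L u) : MemLp u 2 (gam m) :=
  hu.toC1P.toPG.memLp 2

theorem gk_closA_pd_memLp {u : EE m → ℝ} (hu : C1L u) (r : Fin m) : MemLp (pd r u) 2 (gam m) :=
  (hu.toC1P.pd_PG r).memLp 2

theorem gk_closA_C1L_add {u v : EE m → ℝ} (hu : C1L u) (hv : C1L v) : C1L (fun x => u x + v x) := by
  obtain ⟨hc, C, hC⟩ := hu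
  obtain ⟨hc', D, hD⟩ := hv
  refine ⟨hc.add hc', C + D, fun x => ?_⟩
  rw [fderiv_fun_add ((hc.differentiable one_ne_zero) x) ((hc'.differentiable one_ne_zero) x)]
  exact (norm_add_le _ _).trans (add_le_add (hC x) (hD x))

theorem gk_closA_C1L_const_mul {u : EE m → ℝ} (hu : C1L u) (a : ℝ) : C1L (fun x => a * u x) := by
  obtain ⟨hc, C, hC⟩ := hu
  refine ⟨contDiff_const.mul hc, |a| * C, fun x => ?_⟩
  rw [fderiv_const_mul ((hc.differentiable one_ne_zero) x), norm_smul, Real.norm_eq_abs]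
  exact mul_le_mul_of_nonneg_left (hC x) (abs_nonneg a)

theorem gk_closA_pd_add {u v : EE m → ℝ} (hu : ContDiff ℝ 1 u) (hv : ContDiff ℝ 1 v) (r : Fin m)
    (x : EE m) : pd r (fun x => u x + v x) x = pd r u x + pd r v x := by
  unfold pd
  rw [fderiv_fun_add ((hu.differentiable one_ne_zero) x) ((hv.differentiable one_ne_zero) x)]
  rfl

theorem gk_closA_pd_const_mul {u : EE m → ℝ} (hu : ContDiff ℝ 1 u) (a : ℝ) (r : Fin m)
    (x : EE m) : pd r (fun x => a * u x) x = a * pd r u x := by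
  unfold pd
  rw [fderiv_const_mul ((hu.differentiable one_ne_zero) x)]
  rfl

theorem gk_closA_pd_const (a : ℝ) (r : Fin m) (x : EE m) : pd r (fun _ : EE m => a) x = 0 := by
  unfold pd
  simp

theorem gk_closA_C1L_const (a : ℝ) : C1L (fun _ : EE m => a) :=
  ⟨contDiff_const, 0, fun x => by simp⟩

theorem gk_closA_C1L_coord (s : Fin m) : C1L (fun x : EE m => x s) := by
  have e : (fun x : EE m => x s) = (EuclideanSpace.proj s : EE m →L[ℝ] ℝ) := by
    ext x; rfl
  rw [e]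
  refine ⟨ContinuousLinearMap.contDiff _, ‖(EuclideanSpace.proj s : EE m →L[ℝ] ℝ)‖, fun x => ?_⟩
  rw [ContinuousLinearMap.fderiv]

/-! ### the statements -/

theorem gk_gh1_of_C1L {u : EE m → ℝ} (hu : C1L u) : GH1 u (fun r => pd r u) := by
  refine ⟨gk_closA_memLp hu, fun r => gk_closA_pd_memLp hu r, fun _ => u, fun _ => hu, ?_, fun r => ?_⟩ <;>
    simp

theorem gk_gh1_const (a : ℝ) : GH1 (fun _ : EE m => a) (fun _ _ => 0) := by
  have h := gk_gh1_of_C1L (gk_closA_C1L_const (m := m) a)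
  have e : (fun r => pd r (fun _ : EE m => a)) = fun _ _ => 0 := by
    funext r x
    exact gk_closA_pd_const a r x
  rwa [e] at h

theorem gk_gh1_coord (s : Fin m) :
    GH1 (fun x : EE m => x s) (fun r _ => if r = s then 1 else 0) := by
  have h := gk_gh1_of_C1L (gk_closA_C1L_coord (m := m) s)
  have e : (fun r => pd r (fun x : EE m => x s)) = fun r _ => if r = s then 1 else 0 := by
    funext r x
    exact gk_pd_coord r s x
  rwa [e] at h

theorem GH1.add {u v : EE m → ℝ} {du dv : Fin m → EE m → ℝ} (hu : GH1 u du) (hv : GH1 v dv) :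
    GH1 (fun x => u x + v x) (fun r x => du r x + dv r x) := by
  obtain ⟨hu2, hdu2, a, ha, ha0, ha1⟩ := hu
  obtain ⟨hv2, hdv2, b, hb, hb0, hb1⟩ := hv
  refine ⟨hu2.add hv2, fun r => (hdu2 r).add (hdv2 r), fun n x => a n x + b n x,
    fun n => gk_closA_C1L_add (ha n) (hb n), ?_, fun r => ?_⟩
  · have hlim : Tendsto (fun n => 2 * ∫ x, (a n x - u x) ^ 2 ∂gam m +
        2 * ∫ x, (b n x - v x) ^ 2 ∂gam m) atTop (𝓝 0) := by
      simpa using (ha0.const_mul 2).add (hb0.const_mul 2)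
    exact squeeze_zero (fun n => gk_closA_sq_nonneg _ _)
      (fun n => gk_closA_add_le (gk_closA_memLp (ha n)) hu2 (gk_closA_memLp (hb n)) hv2) hlim
  · have hlim : Tendsto (fun n => 2 * ∫ x, (pd r (a n) x - du r x) ^ 2 ∂gam m +
        2 * ∫ x, (pd r (b n) x - dv r x) ^ 2 ∂gam m) atTop (𝓝 0) := by
      simpa using ((ha1 r).const_mul 2).add ((hb1 r).const_mul 2)
    refine squeeze_zero (fun n => gk_closA_sq_nonneg _ _) (fun n => ?_) hlim
    have e : pd r (fun x => a n x + b n x) = fun x => pd r (a n) x + pd r (b n) x := by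
      funext x
      exact gk_closA_pd_add (ha n).1 (hb n).1 r x
    rw [e]
    exact gk_closA_add_le (gk_closA_pd_memLp (ha n) r) (hdu2 r) (gk_closA_pd_memLp (hb n) r) (hdv2 r)

theorem GH1.const_mul {u : EE m → ℝ} {du : Fin m → EE m → ℝ} (hu : GH1 u du) (a : ℝ) :
    GH1 (fun x => a * u x) (fun r x => a * du r x) := by
  obtain ⟨hu2, hdu2, v, hv, hv0, hv1⟩ := hu
  refine ⟨hu2.const_mul a, fun r => (hdu2 r).const_mul a, fun n x => a * v n x,
    fun n => gk_closA_C1L_const_mul (hv n) a, ?_, fun r => ?_⟩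
  · have e : (fun n => ∫ x, (a * v n x - a * u x) ^ 2 ∂gam m) =
        fun n => a ^ 2 * ∫ x, (v n x - u x) ^ 2 ∂gam m := by
      funext n
      rw [← integral_const_mul]
      congr 1
      funext x
      ring
    rw [e]
    simpa using hv0.const_mul (a ^ 2)
  · have e : (fun n => ∫ x, (pd r (fun x => a * v n x) x - a * du r x) ^ 2 ∂gam m) =
        fun n => a ^ 2 * ∫ x, (pd r (v n) x - du r x) ^ 2 ∂gam m := by
      funext n
      rw [← integral_const_mul]
      congr 1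
      funext x
      rw [gk_closA_pd_const_mul (hv n).1]
      ring
    rw [e]
    simpa using (hv1 r).const_mul (a ^ 2)

theorem GH1.sub {u v : EE m → ℝ} {du dv : Fin m → EE m → ℝ} (hu : GH1 u du) (hv : GH1 v dv) :
    GH1 (fun x => u x - v x) (fun r x => du r x - dv r x) := by
  have h := hu.add (hv.const_mul (-1))
  have e1 : (fun x => u x + -1 * v x) = fun x => u x - v x := by
    funext x; ring
  have e2 : (fun r x => du r x + -1 * dv r x) = fun r x => du r x - dv r x := by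
    funext r x; ring
  rwa [e1, e2] at h

theorem GH1.sum {ι : Type*} (s : Finset ι) {u : ι → EE m → ℝ} {du : ι → Fin m → EE m → ℝ}
    (hu : ∀ i ∈ s, GH1 (u i) (du i)) :
    GH1 (fun x => ∑ i ∈ s, u i x) (fun r x => ∑ i ∈ s, du i r x) := by
  classical
  induction s using Finset.induction_on with
  | empty => simpa using gk_gh1_const (m := m) 0
  | insert i s his ih =>
    have h := (hu i (Finset.mem_insert_self i s)).add
      (ih fun j hj => hu j (Finset.mem_insert_of_mem hj))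
    simpa only [Finset.sum_insert his] using h

theorem GH1.congr_ae {u u' : EE m → ℝ} {du du' : Fin m → EE m → ℝ} (hu : GH1 u du)
    (h : u =ᵐ[gam m] u') (h' : ∀ r, du r =ᵐ[gam m] du' r) : GH1 u' du' := by
  obtain ⟨hu2, hdu2, v, hv, hv0, hv1⟩ := hu
  refine ⟨hu2.ae_eq h, fun r => (hdu2 r).ae_eq (h' r), v, hv, ?_, fun r => ?_⟩
  · refine hv0.congr fun n => integral_congr_ae ?_
    filter_upwards [h] with x hx
    rw [hx]
  · refine (hv1 r).congr fun n => integral_congr_ae ?_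
    filter_upwards [h' r] with x hx
    rw [hx]

/-- `GH1` is closed -/
theorem gk_gh1_of_tendsto {u : EE m → ℝ} {du : Fin m → EE m → ℝ} {ι : Type*} {l : Filter ι}
    [l.NeBot] [l.IsCountablyGenerated]
    {v : ι → EE m → ℝ} {dv : ι → Fin m → EE m → ℝ} (hv : ∀ᶠ i in l, GH1 (v i) (dv i))
    (hu : MemLp u 2 (gam m)) (hdu : ∀ r, MemLp (du r) 2 (gam m))
    (h0 : Tendsto (fun i => ∫ x, (v i x - u x) ^ 2 ∂gam m) l (𝓝 0))
    (h1 : ∀ r, Tendsto (fun i => ∫ x, (dv i r x - du r x) ^ 2 ∂gam m) l (𝓝 0)) :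
    GH1 u du := by
  have key : ∀ ε : ℝ, 0 < ε → ∃ w : EE m → ℝ, C1L w ∧ ∫ x, (w x - u x) ^ 2 ∂gam m ≤ 4 * ε ∧
      ∀ r, ∫ x, (pd r w x - du r x) ^ 2 ∂gam m ≤ 4 * ε := by
    intro ε hε
    have e0 : ∀ᶠ i in l, ∫ x, (v i x - u x) ^ 2 ∂gam m < ε := h0.eventually_lt_const hε
    have e1 : ∀ᶠ i in l, ∀ r, ∫ x, (dv i r x - du r x) ^ 2 ∂gam m < ε :=
      eventually_all.2 fun r => (h1 r).eventually_lt_const hε
    obtain ⟨i, ⟨hv2, hdv2, w, hw, hw0, hw1⟩, hi0, hi1⟩ := (hv.and (e0.and e1)).exists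
    have f0 : ∀ᶠ n in atTop, ∫ x, (w n x - v i x) ^ 2 ∂gam m < ε := hw0.eventually_lt_const hε
    have f1 : ∀ᶠ n in atTop, ∀ r, ∫ x, (pd r (w n) x - dv i r x) ^ 2 ∂gam m < ε :=
      eventually_all.2 fun r => (hw1 r).eventually_lt_const hε
    obtain ⟨n, hn0, hn1⟩ := (f0.and f1).exists
    refine ⟨w n, hw n, ?_, fun r => ?_⟩
    · have := gk_closA_triangle (gk_closA_memLp (hw n)) hv2 hu
      linarith
    · have := gk_closA_triangle (gk_closA_pd_memLp (hw n) r) (hdv2 r) (hdu r)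
      have h2 := hn1 r
      have h3 := hi1 r
      linarith
  choose w hw hw0 hw1 using fun n : ℕ => key (1 / ((n : ℝ) + 1)) (by positivity)
  have hlim : Tendsto (fun n : ℕ => 4 * (1 / ((n : ℝ) + 1))) atTop (𝓝 0) := by
    simpa using tendsto_one_div_add_atTop_nhds_zero_nat.const_mul (4 : ℝ)
  exact ⟨hu, hdu, w, hw, squeeze_zero (fun n => gk_closA_sq_nonneg _ _) hw0 hlim,
    fun r => squeeze_zero (fun n => gk_closA_sq_nonneg _ _) (fun n => hw1 n r) hlim⟩

end Claimed.Agent.R260
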