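/-
Row 260, package GK (Gaussian kit): GH1, integration by parts and uniqueness of the derivative.
Statements by helper200; proofs by helper299.
-/
import Claimed.Agent.R260.GKClosA
import Claimed.Agent.R260.GKIbp

namespace Claimed.Agent.R260

open MeasureTheory ProbabilityTheory Filter Topology Set

/-! ### A small `L²` toolbox (any measure space) -/

section Toolbox

variable {α : Type*} [MeasurableSpace α] {μ : Measure α}

theorem gkb_sq_integrable {f : α → ℝ} (hf : MemLp f 2 μ) : Integrable (fun x => f x ^ 2) μ :=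
  hf.integrable_sq

theorem gkb_mul_integrable {f g : α → ℝ} (hf : MemLp f 2 μ) (hg : MemLp g 2 μ) :
    Integrable (fun x => f x * g x) μ := hf.integrable_mul hg

theorem gkb_memLp_sub {f g : α → ℝ} (hf : MemLp f 2 μ) (hg : MemLp g 2 μ) :
    MemLp (fun x => f x - g x) 2 μ := hf.sub hg

/-- Cauchy-Schwarz -/
theorem gkb_sq_integral_mul_le {f g : α → ℝ} (hf : MemLp f 2 μ) (hg : MemLp g 2 μ) :
    (∫ x, f x * g x ∂μ) ^ 2 ≤ (∫ x, f x ^ 2 ∂μ) * ∫ x, g x ^ 2 ∂μ := by
  have h : ∀ t : ℝ, 0 ≤ (∫ x, f x ^ 2 ∂μ) * (t * t) + (2 * ∫ x, f x * g x ∂μ) * t +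
      ∫ x, g x ^ 2 ∂μ := by
    intro t
    have e : ∫ x, (f x * t + g x) ^ 2 ∂μ = (∫ x, f x ^ 2 ∂μ) * (t * t) +
        (2 * ∫ x, f x * g x ∂μ) * t + ∫ x, g x ^ 2 ∂μ := by
      have e1 : ∀ x, (f x * t + g x) ^ 2 = f x ^ 2 * (t * t) + (f x * g x) * (2 * t) + g x ^ 2 :=
        fun x => by ring
      have i1 : Integrable (fun x => f x ^ 2 * (t * t)) μ := (gkb_sq_integrable hf).mul_const _
      have i2 : Integrable (fun x => (f x * g x) * (2 * t)) μ :=
        (gkb_mul_integrable hf hg).mul_const _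
      have i12 : Integrable (fun x => f x ^ 2 * (t * t) + (f x * g x) * (2 * t)) μ := i1.add i2
      simp_rw [e1]
      rw [integral_add i12 (gkb_sq_integrable hg), integral_add i1 i2,
        integral_mul_const, integral_mul_const]
      ring
    rw [← e]
    exact integral_nonneg fun x => sq_nonneg _
  have := discrim_le_zero h
  unfold discrim at this
  nlinarith

theorem gkb_abs_integral_mul_le {f g : α → ℝ} (hf : MemLp f 2 μ) (hg : MemLp g 2 μ) :
    |∫ x, f x * g x ∂μ| ≤ Real.sqrt (∫ x, f x ^ 2 ∂μ) * Real.sqrt (∫ x, g x ^ 2 ∂μ) := by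
  rw [← Real.sqrt_mul (integral_nonneg fun x => sq_nonneg _)]
  exact Real.abs_le_sqrt (gkb_sq_integral_mul_le hf hg)

theorem gkb_tendsto_sqrt {ι : Type*} {l : Filter ι} {a : ι → ℝ} (h : Tendsto a l (𝓝 0)) :
    Tendsto (fun i => Real.sqrt (a i)) l (𝓝 0) := by
  have := (Real.continuous_sqrt.tendsto 0).comp h
  rwa [Real.sqrt_zero] at this

/-- bilinear continuity of the `L²` pairing -/
theorem gkb_tendsto_integral_mul {ι : Type*} {l : Filter ι} {f g : ι → α → ℝ} {F G : α → ℝ}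
    (hf : ∀ i, MemLp (f i) 2 μ) (hg : ∀ i, MemLp (g i) 2 μ) (hF : MemLp F 2 μ) (hG : MemLp G 2 μ)
    (h1 : Tendsto (fun i => ∫ x, (f i x - F x) ^ 2 ∂μ) l (𝓝 0))
    (h2 : Tendsto (fun i => ∫ x, (g i x - G x) ^ 2 ∂μ) l (𝓝 0)) :
    Tendsto (fun i => ∫ x, f i x * g i x ∂μ) l (𝓝 (∫ x, F x * G x ∂μ)) := by
  have s1 := gkb_tendsto_sqrt h1
  have s2 := gkb_tendsto_sqrt h2
  rw [tendsto_iff_norm_sub_tendsto_zero]
  have hb : Tendsto (fun i => Real.sqrt (∫ x, (f i x - F x) ^ 2 ∂μ) *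
      Real.sqrt (∫ x, (g i x - G x) ^ 2 ∂μ) +
      Real.sqrt (∫ x, F x ^ 2 ∂μ) * Real.sqrt (∫ x, (g i x - G x) ^ 2 ∂μ) +
      Real.sqrt (∫ x, (f i x - F x) ^ 2 ∂μ) * Real.sqrt (∫ x, G x ^ 2 ∂μ)) l (𝓝 0) := by
    simpa using ((s1.mul s2).add (s2.const_mul _)).add (s1.mul_const _)
  refine squeeze_zero (fun i => norm_nonneg _) (fun i => ?_) hb
  have hfF := gkb_memLp_sub (hf i) hF
  have hgG := gkb_memLp_sub (hg i) hG
  have j1 := gkb_mul_integrable hfF hgG
  have j2 := gkb_mul_integrable hF hgG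
  have j3 := gkb_mul_integrable hfF hG
  have j12 : Integrable (fun x => (f i x - F x) * (g i x - G x) + F x * (g i x - G x)) μ :=
    j1.add j2
  have e : ∫ x, f i x * g i x ∂μ - ∫ x, F x * G x ∂μ =
      ∫ x, (f i x - F x) * (g i x - G x) ∂μ + ∫ x, F x * (g i x - G x) ∂μ +
        ∫ x, (f i x - F x) * G x ∂μ := by
    rw [← integral_sub (gkb_mul_integrable (hf i) (hg i)) (gkb_mul_integrable hF hG),
      ← integral_add j1 j2, ← integral_add j12 j3]
    congr 1
    ext x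
    ring
  rw [e, Real.norm_eq_abs]
  refine (abs_add_three _ _ _).trans ?_
  exact add_le_add (add_le_add (gkb_abs_integral_mul_le hfF hgG) (gkb_abs_integral_mul_le hF hgG))
    (gkb_abs_integral_mul_le hfF hG)


theorem gkb_tendsto_integral_sq {ι : Type*} {l : Filter ι} {f : ι → α → ℝ} {F : α → ℝ}
    (hf : ∀ i, MemLp (f i) 2 μ) (hF : MemLp F 2 μ)
    (h1 : Tendsto (fun i => ∫ x, (f i x - F x) ^ 2 ∂μ) l (𝓝 0)) :
    Tendsto (fun i => ∫ x, f i x ^ 2 ∂μ) l (𝓝 (∫ x, F x ^ 2 ∂μ)) := by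
  simpa only [pow_two] using gkb_tendsto_integral_mul hf hf hF hF h1 h1

end Toolbox

variable {m : ℕ}

/-- nice functions separate `L²(γ)` -/
theorem gk_ae_eq_zero_of_niceB {f : EE m → ℝ} (hf : MemLp f 2 (gam m))
    (h : ∀ η : EE m → ℝ, NiceB η → ∫ x, f x * η x ∂gam m = 0) : f =ᵐ[gam m] 0 := by
  have hint : Integrable f (gam m) := hf.integrable (by norm_num)
  refine ae_eq_zero_of_integral_contDiff_smul_eq_zero hint.locallyIntegrable fun g hg hc => ?_
  have := h g (gk_niceB_of_hasCompactSupport hg hc)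
  simpa [mul_comm] using this

theorem gkb_C1L_coord (r : Fin m) : C1L (fun x : EE m => x r) := by
  have e : (fun x : EE m => x r) = (EuclideanSpace.proj r : EE m →L[ℝ] ℝ) := by
    ext x; rfl
  rw [e]
  refine ⟨ContinuousLinearMap.contDiff _, ‖(EuclideanSpace.proj r : EE m →L[ℝ] ℝ)‖, fun x => ?_⟩
  rw [ContinuousLinearMap.fderiv]

/-- the basic a priori estimate, for `C¹` functions with bounded derivative -/
theorem gkb_coord_mul_sq_le_C1L {u : EE m → ℝ} (hu : C1L u) (r : Fin m) :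
    ∫ x, (x r * u x) ^ 2 ∂gam m
      ≤ 2 * ∫ x, (u x) ^ 2 ∂gam m + 4 * ∫ x, (pd r u x) ^ 2 ∂gam m := by
  have hP := hu.toC1P
  have hPu : PG u := hP.toPG
  have hPa : PG (fun x : EE m => x r * u x) := (gk_PG_coord r).mul hPu
  have hPb : PG (pd r u) := hP.pd_PG r
  have hw : C1P (fun x : EE m => x r * (u x * u x)) := (gkb_C1L_coord r).toC1P.mul (hP.mul hP)
  have hibp := gk_ibp hw r
  have e1 : ∀ x : EE m, pd r (fun x : EE m => x r * (u x * u x)) x =
      u x ^ 2 + 2 * ((x r * u x) * pd r u x) := by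
    intro x
    rw [gk_pd_mul (gkb_C1L_coord r).1 (hu.1.mul hu.1), gk_pd_mul hu.1 hu.1, gk_pd_coord, if_pos rfl]
    ring
  have e2 : ∀ x : EE m, x r * (x r * (u x * u x)) = (x r * u x) ^ 2 := fun x => by ring
  simp_rw [e1, e2] at hibp
  have i1 : Integrable (fun x => u x ^ 2) (gam m) := by
    simpa only [pow_two] using (hPu.mul hPu).integrable
  have i2 : Integrable (fun x : EE m => (x r * u x) ^ 2) (gam m) := by
    simpa only [pow_two] using (hPa.mul hPa).integrable
  have i3 : Integrable (fun x => pd r u x ^ 2) (gam m) := by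
    simpa only [pow_two] using (hPb.mul hPb).integrable
  have i4 : Integrable (fun x : EE m => 2 * ((x r * u x) * pd r u x)) (gam m) :=
    ((hPa.mul hPb).integrable).const_mul 2
  rw [integral_add i1 i4] at hibp
  have h5 : ∫ x : EE m, 2 * ((x r * u x) * pd r u x) ∂gam m ≤
      ∫ x : EE m, ((x r * u x) ^ 2 / 2 + 2 * pd r u x ^ 2) ∂gam m := by
    refine integral_mono i4 ((i2.div_const 2).add (i3.const_mul 2)) fun x => ?_
    simp only
    nlinarith [sq_nonneg (x r * u x - 2 * pd r u x)]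
  have e5 : ∫ x : EE m, ((x r * u x) ^ 2 / 2 + 2 * pd r u x ^ 2) ∂gam m =
      (∫ x : EE m, (x r * u x) ^ 2 ∂gam m) / 2 + 2 * ∫ x, pd r u x ^ 2 ∂gam m := by
    rw [integral_add (i2.div_const 2) (i3.const_mul 2), integral_div, integral_const_mul]
  rw [e5] at h5
  linarith

theorem C1L.memLp {u : EE m → ℝ} (hu : C1L u) : MemLp u 2 (gam m) := hu.toC1P.toPG.memLp 2

theorem C1L.pd_memLp {u : EE m → ℝ} (hu : C1L u) (r : Fin m) : MemLp (pd r u) 2 (gam m) :=
  (hu.toC1P.pd_PG r).memLp 2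

theorem C1L.coord_mul_memLp {u : EE m → ℝ} (hu : C1L u) (r : Fin m) :
    MemLp (fun x : EE m => x r * u x) 2 (gam m) := ((gk_PG_coord r).mul hu.toC1P.toPG).memLp 2

/-- the a priori estimate on balls -/
theorem gkb_setIntegral_coord_mul_sq_le {u : EE m → ℝ} {du : Fin m → EE m → ℝ} (hu : GH1 u du)
    (r : Fin m) (N : ℕ) :
    MemLp (fun x : EE m => x r * u x) 2 ((gam m).restrict (Metric.closedBall 0 N)) ∧
    ∫ x in Metric.closedBall (0 : EE m) N, (x r * u x) ^ 2 ∂gam m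
      ≤ 2 * ∫ x, (u x) ^ 2 ∂gam m + 4 * ∫ x, (du r x) ^ 2 ∂gam m := by
  obtain ⟨hu2, hdu2, v, hv, h0, h1⟩ := hu
  set B : Set (EE m) := Metric.closedBall 0 N with hB
  have hBm : MeasurableSet B := Metric.isClosed_closedBall.measurableSet
  have hcoord : ∀ x ∈ B, |x r| ≤ N := by
    intro x hx
    have h1 : ‖x r‖ ≤ ‖x‖ := PiLp.norm_apply_le x r
    have h2 : ‖x‖ ≤ N := by simpa [hB] using hx
    rw [Real.norm_eq_abs] at h1
    linarith
  have hA : MemLp (fun x : EE m => x r * u x) 2 ((gam m).restrict B) := by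
    refine (hu2.restrict B).of_le_mul (c := N) ?_ ?_
    · exact ((by fun_prop : Measurable fun x : EE m => x r).aestronglyMeasurable).mul
        hu2.1.restrict
    · refine (ae_restrict_iff' hBm).2 (ae_of_all _ fun x hx => ?_)
      rw [norm_mul, Real.norm_eq_abs]
      exact mul_le_mul_of_nonneg_right (hcoord x hx) (norm_nonneg _)
  refine ⟨hA, ?_⟩
  have ha : ∀ n, MemLp (fun x : EE m => x r * v n x) 2 ((gam m).restrict B) :=
    fun n => ((hv n).coord_mul_memLp r).restrict B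
  have hlim0 : Tendsto (fun n => ∫ x in B, (x r * v n x - x r * u x) ^ 2 ∂gam m) atTop (𝓝 0) := by
    have hb : Tendsto (fun n => (N : ℝ) ^ 2 * ∫ x, (v n x - u x) ^ 2 ∂gam m) atTop (𝓝 0) := by
      simpa using h0.const_mul ((N : ℝ) ^ 2)
    refine squeeze_zero (fun n => integral_nonneg fun x => sq_nonneg _) (fun n => ?_) hb
    have hd : Integrable (fun x => (v n x - u x) ^ 2) (gam m) :=
      gkb_sq_integrable (gkb_memLp_sub (hv n).memLp hu2)
    calc ∫ x in B, (x r * v n x - x r * u x) ^ 2 ∂gam m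
        ≤ ∫ x in B, (N : ℝ) ^ 2 * (v n x - u x) ^ 2 ∂gam m := by
          refine setIntegral_mono_on (gkb_sq_integrable (gkb_memLp_sub (ha n) hA))
            (hd.const_mul _).integrableOn hBm fun x hx => ?_
          have : (x r * v n x - x r * u x) ^ 2 = (x r) ^ 2 * (v n x - u x) ^ 2 := by ring
          rw [this]
          refine mul_le_mul_of_nonneg_right ?_ (sq_nonneg _)
          rw [← sq_abs (x r)]
          exact pow_le_pow_left₀ (abs_nonneg _) (hcoord x hx) 2
      _ ≤ ∫ x, (N : ℝ) ^ 2 * (v n x - u x) ^ 2 ∂gam m :=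
          setIntegral_le_integral (hd.const_mul _) (ae_of_all _ fun x => by positivity)
      _ = _ := integral_const_mul _ _
  have hlimA := gkb_tendsto_integral_sq ha hA hlim0
  have hlimR : Tendsto (fun n => 2 * ∫ x, (v n x) ^ 2 ∂gam m + 4 * ∫ x, (pd r (v n) x) ^ 2 ∂gam m)
      atTop (𝓝 (2 * ∫ x, (u x) ^ 2 ∂gam m + 4 * ∫ x, (du r x) ^ 2 ∂gam m)) :=
    ((gkb_tendsto_integral_sq (fun n => (hv n).memLp) hu2 h0).const_mul 2).add
      ((gkb_tendsto_integral_sq (fun n => (hv n).pd_memLp r) (hdu2 r) (h1 r)).const_mul 4)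
  refine le_of_tendsto_of_tendsto' hlimA hlimR fun n => ?_
  exact (setIntegral_le_integral (gkb_sq_integrable ((hv n).coord_mul_memLp r))
    (ae_of_all _ fun x => sq_nonneg _)).trans (gkb_coord_mul_sq_le_C1L (hv n) r)

theorem gkb_coord_mul_sq_integrable {u : EE m → ℝ} {du : Fin m → EE m → ℝ} (hu : GH1 u du)
    (r : Fin m) : Integrable (fun x : EE m => (x r * u x) ^ 2) (gam m) := by
  have hcov : AECover (gam m) atTop (fun N : ℕ => Metric.closedBall (0 : EE m) N) :=
    aecover_closedBall tendsto_natCast_atTop_atTop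
  exact hcov.integrable_of_integral_bounded_of_nonneg_ae _
    (fun N => gkb_sq_integrable (gkb_setIntegral_coord_mul_sq_le hu r N).1)
    (ae_of_all _ fun x => sq_nonneg _)
    (Eventually.of_forall fun N => (gkb_setIntegral_coord_mul_sq_le hu r N).2)

/-- `x_r u ∈ L²` for `u ∈ H¹` -/
theorem GH1.coord_mul_memLp {u : EE m → ℝ} {du : Fin m → EE m → ℝ} (hu : GH1 u du) (r : Fin m) :
    MemLp (fun x => x r * u x) 2 (gam m) := by
  rw [memLp_two_iff_integrable_sq]
  · exact gkb_coord_mul_sq_integrable hu r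
  · exact ((by fun_prop : Measurable fun x : EE m => x r).aestronglyMeasurable).mul hu.1.1

/-- quantitative form of `GH1.coord_mul_memLp` -/
theorem GH1.coord_mul_sq_le {u : EE m → ℝ} {du : Fin m → EE m → ℝ} (hu : GH1 u du) (r : Fin m) :
    ∫ x, (x r * u x) ^ 2 ∂gam m ≤ 2 * ∫ x, (u x) ^ 2 ∂gam m + 4 * ∫ x, (du r x) ^ 2 ∂gam m := by
  have hcov : AECover (gam m) atTop (fun N : ℕ => Metric.closedBall (0 : EE m) N) :=
    aecover_closedBall tendsto_natCast_atTop_atTop
  exact le_of_tendsto'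
    (hcov.integral_tendsto_of_countably_generated (gkb_coord_mul_sq_integrable hu r))
    fun N => (gkb_setIntegral_coord_mul_sq_le hu r N).2

/-- bilinear integration by parts (adjointness of `∂_r` and `∂_r^* = x_r - ∂_r`) -/
theorem GH1.ibp_mul {u v : EE m → ℝ} {du dv : Fin m → EE m → ℝ} (hu : GH1 u du) (hv : GH1 v dv)
    (r : Fin m) :
    ∫ x, x r * u x * v x ∂gam m = ∫ x, du r x * v x ∂gam m + ∫ x, u x * dv r x ∂gam m := by
  obtain ⟨hu2, hdu2, a, ha, ha0, ha1⟩ := id hu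
  obtain ⟨hv2, hdv2, b, hb, hb0, hb1⟩ := id hv
  -- `x_r a_n → x_r u` in `L²`
  have hx : Tendsto (fun n => ∫ x, (x r * a n x - x r * u x) ^ 2 ∂gam m) atTop (𝓝 0) := by
    have hbd : Tendsto (fun n => 2 * ∫ x, (a n x - u x) ^ 2 ∂gam m +
        4 * ∫ x, (pd r (a n) x - du r x) ^ 2 ∂gam m) atTop (𝓝 0) := by
      simpa using (ha0.const_mul 2).add ((ha1 r).const_mul 4)
    refine squeeze_zero (fun n => integral_nonneg fun x => sq_nonneg _) (fun n => ?_) hbd
    have := ((gk_gh1_of_C1L (ha n)).sub hu).coord_mul_sq_le r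
    simpa only [mul_sub] using this
  have l1 := gkb_tendsto_integral_mul (fun n => (ha n).coord_mul_memLp r) (fun n => (hb n).memLp)
    (hu.coord_mul_memLp r) hv2 hx hb0
  have l2 := gkb_tendsto_integral_mul (fun n => (ha n).pd_memLp r) (fun n => (hb n).memLp)
    (hdu2 r) hv2 (ha1 r) hb0
  have l3 := gkb_tendsto_integral_mul (fun n => (ha n).memLp) (fun n => (hb n).pd_memLp r)
    hu2 (hdv2 r) ha0 (hb1 r)
  refine tendsto_nhds_unique l1 ((l2.add l3).congr fun n => ?_)
  have hibp := gk_ibp ((ha n).toC1P.mul (hb n).toC1P) r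
  simp_rw [gk_pd_mul (ha n).1 (hb n).1] at hibp
  rw [integral_add (gkb_mul_integrable ((ha n).pd_memLp r) (hb n).memLp)
    (gkb_mul_integrable (ha n).memLp ((hb n).pd_memLp r))] at hibp
  rw [← hibp]
  congr 1
  ext x
  ring

/-- integration by parts -/
theorem GH1.ibp {u : EE m → ℝ} {du : Fin m → EE m → ℝ} (hu : GH1 u du) (r : Fin m) :
    ∫ x, x r * u x ∂gam m = ∫ x, du r x ∂gam m := by
  have := hu.ibp_mul (gk_gh1_const (m := m) 1) r
  simpa using this

/-- the weak derivative is unique -/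
theorem GH1.unique {u u' : EE m → ℝ} {du du' : Fin m → EE m → ℝ} (hu : GH1 u du)
    (hu' : GH1 u' du') (h : u =ᵐ[gam m] u') (r : Fin m) : du r =ᵐ[gam m] du' r := by
  have hz : (fun x => du r x - du' r x) =ᵐ[gam m] 0 := by
    refine gk_ae_eq_zero_of_niceB (gkb_memLp_sub (hu.2.1 r) (hu'.2.1 r)) fun η hη => ?_
    have hηL : C1L η := hη.toNiceL.toC1L
    have hηG := gk_gh1_of_C1L hηL
    have e1 := hu.ibp_mul hηG r
    have e2 := hu'.ibp_mul hηG r
    have c1 : ∫ x, x r * u x * η x ∂gam m = ∫ x, x r * u' x * η x ∂gam m :=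
      integral_congr_ae (h.mono fun x hx => by simp only [hx])
    have c2 : ∫ x, u x * pd r η x ∂gam m = ∫ x, u' x * pd r η x ∂gam m :=
      integral_congr_ae (h.mono fun x hx => by simp only [hx])
    have e3 : ∫ x, (du r x - du' r x) * η x ∂gam m =
        ∫ x, du r x * η x ∂gam m - ∫ x, du' r x * η x ∂gam m := by
      rw [← integral_sub (gkb_mul_integrable (hu.2.1 r) hηL.memLp)
        (gkb_mul_integrable (hu'.2.1 r) hηL.memLp)]
      congr 1
      ext x
      ring
    rw [e3]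
    linarith
  exact hz.mono fun x hx => by
    have : du r x - du' r x = 0 := hx
    linarith

end Claimed.Agent.R260
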