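/-
Row 260, package GK: a small toolkit for `L²` convergence written with integrals
(`∫ (f i - g)² → 0`), on an arbitrary measure space.  Owner: helper291.  Prefix `gkl_`.
-/
import Mathlib

set_option autoImplicit false

namespace Claimed.Agent.R260

open MeasureTheory Filter Topology
open scoped InnerProductSpace

variable {α : Type*} {mα : MeasurableSpace α} {μ : Measure α}

theorem gkl_inner_toLp {f g : α → ℝ} (hf : MemLp f 2 μ) (hg : MemLp g 2 μ) :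
    ⟪hf.toLp f, hg.toLp g⟫_ℝ = ∫ x, f x * g x ∂μ := by
  rw [L2.inner_def]
  refine integral_congr_ae ?_
  filter_upwards [hf.coeFn_toLp, hg.coeFn_toLp] with x h1 h2
  rw [h1, h2]
  simp [mul_comm]

theorem gkl_norm_toLp_sq {f : α → ℝ} (hf : MemLp f 2 μ) :
    ‖hf.toLp f‖ ^ 2 = ∫ x, (f x) ^ 2 ∂μ := by
  rw [← real_inner_self_eq_norm_sq, gkl_inner_toLp hf hf]
  simp only [sq]

theorem gkl_norm_toLp_sub_sq {f g : α → ℝ} (hf : MemLp f 2 μ) (hg : MemLp g 2 μ) :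
    ‖hf.toLp f - hg.toLp g‖ ^ 2 = ∫ x, (f x - g x) ^ 2 ∂μ := by
  rw [← MemLp.toLp_sub hf hg, gkl_norm_toLp_sq]
  rfl

/-- the integral form of `L²` convergence is convergence in the Hilbert space `L²` -/
theorem gkl_tendsto_iff {ι : Type*} {l : Filter ι} {f : ι → α → ℝ} {g : α → ℝ}
    (hf : ∀ i, MemLp (f i) 2 μ) (hg : MemLp g 2 μ) :
    Tendsto (fun i => ∫ x, (f i x - g x) ^ 2 ∂μ) l (𝓝 0) ↔
      Tendsto (fun i => (hf i).toLp (f i)) l (𝓝 (hg.toLp g)) := by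
  have key : Tendsto (fun i => (hf i).toLp (f i)) l (𝓝 (hg.toLp g)) ↔
      Tendsto (fun i => ‖(hf i).toLp (f i) - hg.toLp g‖) l (𝓝 0) :=
    tendsto_iff_norm_sub_tendsto_zero
  rw [key]
  have e : ∀ i, ∫ x, (f i x - g x) ^ 2 ∂μ = ‖(hf i).toLp (f i) - hg.toLp g‖ ^ 2 := fun i =>
    (gkl_norm_toLp_sub_sq (hf i) hg).symm
  simp only [e]
  constructor
  · intro h
    have h2 := (Real.continuous_sqrt.tendsto 0).comp h
    rw [Real.sqrt_zero] at h2
    refine h2.congr fun i => ?_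
    exact Real.sqrt_sq (norm_nonneg _)
  · intro h
    have h2 := h.pow 2
    rwa [zero_pow two_ne_zero] at h2

theorem gkl_tendsto_integral_mul {ι : Type*} {l : Filter ι} {f f' : ι → α → ℝ} {g g' : α → ℝ}
    (hf : ∀ i, MemLp (f i) 2 μ) (hg : MemLp g 2 μ) (hf' : ∀ i, MemLp (f' i) 2 μ)
    (hg' : MemLp g' 2 μ)
    (h : Tendsto (fun i => ∫ x, (f i x - g x) ^ 2 ∂μ) l (𝓝 0))
    (h' : Tendsto (fun i => ∫ x, (f' i x - g' x) ^ 2 ∂μ) l (𝓝 0)) :
    Tendsto (fun i => ∫ x, f i x * f' i x ∂μ) l (𝓝 (∫ x, g x * g' x ∂μ)) := by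
  have h1 := (gkl_tendsto_iff hf hg).1 h
  have h2 := (gkl_tendsto_iff hf' hg').1 h'
  have h3 := h1.inner (𝕜 := ℝ) h2
  simpa only [gkl_inner_toLp] using h3

theorem gkl_tendsto_integral_sq {ι : Type*} {l : Filter ι} {f : ι → α → ℝ} {g : α → ℝ}
    (hf : ∀ i, MemLp (f i) 2 μ) (hg : MemLp g 2 μ)
    (h : Tendsto (fun i => ∫ x, (f i x - g x) ^ 2 ∂μ) l (𝓝 0)) :
    Tendsto (fun i => ∫ x, (f i x) ^ 2 ∂μ) l (𝓝 (∫ x, (g x) ^ 2 ∂μ)) := by
  simpa only [sq] using gkl_tendsto_integral_mul hf hg hf hg h h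

theorem gkl_tendsto_integral [IsFiniteMeasure μ] {ι : Type*} {l : Filter ι} {f : ι → α → ℝ}
    {g : α → ℝ} (hf : ∀ i, MemLp (f i) 2 μ) (hg : MemLp g 2 μ)
    (h : Tendsto (fun i => ∫ x, (f i x - g x) ^ 2 ∂μ) l (𝓝 0)) :
    Tendsto (fun i => ∫ x, f i x ∂μ) l (𝓝 (∫ x, g x ∂μ)) := by
  have h1 : MemLp (fun _ : α => (1 : ℝ)) 2 μ := memLp_const 1
  have := gkl_tendsto_integral_mul hf hg (fun _ => h1) h1 h
    (by simpa using tendsto_const_nhds)
  simpa using this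

theorem gkl_tendsto_add {ι : Type*} {l : Filter ι} {f f' : ι → α → ℝ} {g g' : α → ℝ}
    (hf : ∀ i, MemLp (f i) 2 μ) (hg : MemLp g 2 μ) (hf' : ∀ i, MemLp (f' i) 2 μ)
    (hg' : MemLp g' 2 μ)
    (h : Tendsto (fun i => ∫ x, (f i x - g x) ^ 2 ∂μ) l (𝓝 0))
    (h' : Tendsto (fun i => ∫ x, (f' i x - g' x) ^ 2 ∂μ) l (𝓝 0)) :
    Tendsto (fun i => ∫ x, ((f i x + f' i x) - (g x + g' x)) ^ 2 ∂μ) l (𝓝 0) := by
  have h1 := (gkl_tendsto_iff hf hg).1 h
  have h2 := (gkl_tendsto_iff hf' hg').1 h'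
  have h3 := h1.add h2
  simp only [← MemLp.toLp_add] at h3
  exact (gkl_tendsto_iff (fun i => (hf i).add (hf' i)) (hg.add hg')).2 h3

theorem gkl_tendsto_sum {ι κ : Type*} {l : Filter ι} (s : Finset κ) {f : κ → ι → α → ℝ}
    {g : κ → α → ℝ} (hf : ∀ k i, MemLp (f k i) 2 μ) (hg : ∀ k, MemLp (g k) 2 μ)
    (h : ∀ k ∈ s, Tendsto (fun i => ∫ x, (f k i x - g k x) ^ 2 ∂μ) l (𝓝 0)) :
    Tendsto (fun i => ∫ x, ((∑ k ∈ s, f k i x) - ∑ k ∈ s, g k x) ^ 2 ∂μ) l (𝓝 0) := by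
  classical
  induction s using Finset.induction_on with
  | empty => simpa using tendsto_const_nhds
  | insert a s ha ih =>
    simp only [Finset.sum_insert ha]
    refine gkl_tendsto_add (hf a) (hg a) (fun i => ?_) ?_ (h a (Finset.mem_insert_self a s))
      (ih fun k hk => h k (Finset.mem_insert_of_mem hk))
    · exact memLp_finsetSum s fun k _ => hf k i
    · exact memLp_finsetSum s fun k _ => hg k

/-- domination: `|F i| ≤ c |G i|` and `∫ G i² → 0` -/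
theorem gkl_tendsto_of_le {ι : Type*} {l : Filter ι} {F G : ι → α → ℝ} {c : ℝ}
    (hG : ∀ i, Integrable (fun x => (G i x) ^ 2) μ)
    (hle : ∀ i, ∀ᵐ x ∂μ, |F i x| ≤ c * |G i x|)
    (h : Tendsto (fun i => ∫ x, (G i x) ^ 2 ∂μ) l (𝓝 0)) :
    Tendsto (fun i => ∫ x, (F i x) ^ 2 ∂μ) l (𝓝 0) := by
  have h2 : Tendsto (fun i => c ^ 2 * ∫ x, (G i x) ^ 2 ∂μ) l (𝓝 0) := by
    simpa using h.const_mul (c ^ 2)
  refine squeeze_zero (fun i => integral_nonneg fun x => sq_nonneg _) (fun i => ?_) h2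
  rw [← integral_const_mul]
  refine integral_mono_of_nonneg (Eventually.of_forall fun x => sq_nonneg _) ((hG i).const_mul _) ?_
  filter_upwards [hle i] with x hx
  have h0 : 0 ≤ |F i x| := abs_nonneg _
  calc (F i x) ^ 2 = |F i x| ^ 2 := (sq_abs _).symm
    _ ≤ (c * |G i x|) ^ 2 := pow_le_pow_left₀ h0 hx 2
    _ = c ^ 2 * (G i x) ^ 2 := by rw [mul_pow, sq_abs]

/-- multiplication by a bounded function -/
theorem gkl_tendsto_mul_bdd {ι : Type*} {l : Filter ι} {f : ι → α → ℝ} {g : α → ℝ}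
    {η : ι → α → ℝ} {C : ℝ}
    (hf : ∀ i, MemLp (f i) 2 μ) (hg : MemLp g 2 μ) (hη : ∀ i, ∀ᵐ x ∂μ, |η i x| ≤ C)
    (h : Tendsto (fun i => ∫ x, (f i x - g x) ^ 2 ∂μ) l (𝓝 0)) :
    Tendsto (fun i => ∫ x, (f i x * η i x - g x * η i x) ^ 2 ∂μ) l (𝓝 0) := by
  refine gkl_tendsto_of_le (G := fun i x => f i x - g x) (c := C)
    (fun i => ((hf i).sub hg).integrable_sq) (fun i => ?_) h
  filter_upwards [hη i] with x hx
  rw [← sub_mul, abs_mul, mul_comm]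
  exact mul_le_mul_of_nonneg_right hx (abs_nonneg _)

/-- dominated convergence in `L²` -/
theorem gkl_tendsto_of_dominated {F : ℕ → α → ℝ} {G : α → ℝ} (hG : MemLp G 2 μ)
    (hF : ∀ n, AEStronglyMeasurable (F n) μ) (hle : ∀ n, ∀ᵐ x ∂μ, |F n x| ≤ |G x|)
    (hlim : ∀ᵐ x ∂μ, Tendsto (fun n => F n x) atTop (𝓝 0)) :
    Tendsto (fun n => ∫ x, (F n x) ^ 2 ∂μ) atTop (𝓝 0) := by
  have h := tendsto_integral_of_dominated_convergence (μ := μ) (F := fun n x => (F n x) ^ 2)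
    (f := fun _ => (0 : ℝ)) (fun x => (G x) ^ 2) (fun n => (hF n).pow 2) hG.integrable_sq
    (fun n => by
      filter_upwards [hle n] with x hx
      rw [Real.norm_eq_abs, abs_of_nonneg (sq_nonneg _), ← sq_abs (F n x), ← sq_abs (G x)]
      exact pow_le_pow_left₀ (abs_nonneg _) hx 2)
    (by
      filter_upwards [hlim] with x hx
      simpa using hx.pow 2)
  simpa using h

/-- nonnegative integrable functions whose integrals tend to `0` tend to `0` a.e. along a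
subsequence -/
theorem gkl_exists_subseq_ae {h : ℕ → α → ℝ} (hi : ∀ n, Integrable (h n) μ)
    (h0 : ∀ n x, 0 ≤ h n x) (hlim : Tendsto (fun n => ∫ x, h n x ∂μ) atTop (𝓝 0)) :
    ∃ k : ℕ → ℕ, StrictMono k ∧ ∀ᵐ x ∂μ, Tendsto (fun n => h (k n) x) atTop (𝓝 0) := by
  have h1 : Tendsto (fun n => eLpNorm (h n - fun _ => (0 : ℝ)) 1 μ) atTop (𝓝 0) := by
    have e : ∀ n, eLpNorm (h n - fun _ => (0 : ℝ)) 1 μ = ENNReal.ofReal (∫ x, h n x ∂μ) := by
      intro n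
      rw [eLpNorm_one_eq_lintegral_enorm,
        ofReal_integral_eq_lintegral_ofReal (hi n) (Eventually.of_forall (h0 n))]
      refine lintegral_congr fun x => ?_
      simp only [Pi.sub_apply, sub_zero]
      rw [Real.enorm_eq_ofReal (h0 n x)]
    simp only [e]
    simpa using ENNReal.tendsto_ofReal hlim
  exact (tendstoInMeasure_of_tendsto_eLpNorm one_ne_zero (fun n => (hi n).aestronglyMeasurable)
    aestronglyMeasurable_const h1).exists_seq_tendsto_ae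

/-- uniqueness of `L²` limits -/
theorem gkl_ae_eq_of_tendsto {ι : Type*} {l : Filter ι} [l.NeBot] {f : ι → α → ℝ} {g g' : α → ℝ}
    (hf : ∀ i, MemLp (f i) 2 μ) (hg : MemLp g 2 μ) (hg' : MemLp g' 2 μ)
    (h : Tendsto (fun i => ∫ x, (f i x - g x) ^ 2 ∂μ) l (𝓝 0))
    (h' : Tendsto (fun i => ∫ x, (f i x - g' x) ^ 2 ∂μ) l (𝓝 0)) : g =ᵐ[μ] g' := by
  have h1 := (gkl_tendsto_iff hf hg).1 h
  have h2 := (gkl_tendsto_iff hf hg').1 h'
  have h3 := tendsto_nhds_unique h1 h2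
  exact (MemLp.toLp_eq_toLp_iff hg hg').1 h3

end Claimed.Agent.R260
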