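/-
Row 260, package GK (Gaussian kit): `C1P ⊆ GH1` (cut-off argument).  Owner: helper291.
(Placed before GKClosC because the product rule needs it.)  Prefix `gkc_`.
-/
import Claimed.Agent.R260.GKClosA
import Claimed.Agent.R260.GKL2b

namespace Claimed.Agent.R260

open MeasureTheory ProbabilityTheory Filter Topology Set

variable {m : ℕ}

theorem PG.memLp_two {u : EE m → ℝ} (hu : PG u) : MemLp u 2 (gam m) := by
  simpa using hu.memLp 2

/-- the fixed bump function -/
noncomputable def gkcBump (m : ℕ) : ContDiffBump (0 : EE m) := ⟨1, 2, one_pos, one_lt_two⟩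

/-- the cut-off at scale `n + 1` -/
noncomputable def gkcCut (m n : ℕ) (x : EE m) : ℝ := gkcBump m ((1 / ((n : ℝ) + 1)) • x)

theorem gkcCut_nonneg (n : ℕ) (x : EE m) : 0 ≤ gkcCut m n x := (gkcBump m).nonneg

theorem gkcCut_le_one (n : ℕ) (x : EE m) : gkcCut m n x ≤ 1 := (gkcBump m).le_one

theorem gkcCut_contDiff (n : ℕ) : ContDiff ℝ 1 (gkcCut m n) :=
  ((gkcBump m).contDiff (n := 1)).comp (contDiff_const_smul _)

theorem gkcCut_hasCompactSupport (n : ℕ) : HasCompactSupport (gkcCut m n) :=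
  (gkcBump m).hasCompactSupport.comp_smul (by positivity)

theorem gkcCut_eq_one {n : ℕ} {x : EE m} (h : ‖x‖ ≤ (n : ℝ) + 1) : gkcCut m n x = 1 := by
  refine (gkcBump m).one_of_mem_closedBall ?_
  rw [mem_closedBall_zero_iff, norm_smul, Real.norm_of_nonneg (by positivity)]
  show 1 / ((n : ℝ) + 1) * ‖x‖ ≤ 1
  rw [div_mul_eq_mul_div, one_mul, div_le_one (by positivity)]
  exact h

theorem gkcCut_eventually_eq_one (x : EE m) : ∀ᶠ n : ℕ in atTop, gkcCut m n x = 1 := by
  filter_upwards [eventually_ge_atTop ⌈‖x‖⌉₊] with n hn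
  refine gkcCut_eq_one ?_
  have h1 : ‖x‖ ≤ (⌈‖x‖⌉₊ : ℝ) := Nat.le_ceil _
  have h2 : (⌈‖x‖⌉₊ : ℝ) ≤ n := by exact_mod_cast hn
  linarith

theorem gkcBump_exists_bound (m : ℕ) : ∃ D : ℝ, 0 ≤ D ∧ ∀ x, ‖fderiv ℝ (gkcBump m) x‖ ≤ D := by
  obtain ⟨D, hD⟩ := (((gkcBump m).contDiff (n := 1)).continuous_fderiv
    one_ne_zero).bounded_above_of_compact_support ((gkcBump m).hasCompactSupport.fderiv ℝ)
  exact ⟨D, (norm_nonneg _).trans (hD 0), hD⟩

theorem gkcCut_abs_pd_le {D : ℝ} (hD : ∀ x, ‖fderiv ℝ (gkcBump m) x‖ ≤ D) (n : ℕ) (r : Fin m)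
    (x : EE m) : |pd r (gkcCut m n) x| ≤ D / ((n : ℝ) + 1) := by
  refine (gk_abs_pd_le r _ x).trans ?_
  have e : fderiv ℝ (gkcCut m n) x
      = (1 / ((n : ℝ) + 1)) • fderiv ℝ (gkcBump m) ((1 / ((n : ℝ) + 1)) • x) :=
    fderiv_comp_smul _
  rw [e, norm_smul, Real.norm_of_nonneg (by positivity), div_mul_eq_mul_div, one_mul]
  exact div_le_div_of_nonneg_right (hD _) (by positivity)

/-- a `C¹` function with compact support is `C1L` -/
theorem gkc_C1L_of_hasCompactSupport {u : EE m → ℝ} (hu : ContDiff ℝ 1 u)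
    (hc : HasCompactSupport u) : C1L u :=
  ⟨hu, (hu.continuous_fderiv one_ne_zero).bounded_above_of_compact_support (hc.fderiv ℝ)⟩

theorem gkc_gh1_of_C1P {u : EE m → ℝ} (hu : C1P u) : GH1 u (fun r => pd r u) := by
  have hu2 : MemLp u 2 (gam m) := hu.toPG.memLp_two
  have hd2 : ∀ r, MemLp (pd r u) 2 (gam m) := fun r => (hu.pd_PG r).memLp_two
  obtain ⟨D, hD0, hD⟩ := gkcBump_exists_bound m
  refine ⟨hu2, hd2, fun n x => u x * gkcCut m n x, fun n => ?_, ?_, fun r => ?_⟩
  · exact gkc_C1L_of_hasCompactSupport (hu.1.mul (gkcCut_contDiff n))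
      (gkcCut_hasCompactSupport n).mul_left
  · refine gkl_tendsto_of_dominated hu2 (fun n => ?_) (fun n => Eventually.of_forall fun x => ?_)
      (Eventually.of_forall fun x => ?_)
    · exact ((hu.1.continuous.mul (gkcCut_contDiff n).continuous).sub
        hu.1.continuous).aestronglyMeasurable
    · have e : u x * gkcCut m n x - u x = u x * (gkcCut m n x - 1) := by ring
      rw [e, abs_mul]
      have h1 : |gkcCut m n x - 1| ≤ 1 := by
        rw [abs_le]
        constructor <;> linarith [gkcCut_nonneg n x, gkcCut_le_one n x]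
      exact mul_le_of_le_one_right (abs_nonneg _) h1
    · refine tendsto_const_nhds.congr' ?_
      filter_upwards [gkcCut_eventually_eq_one x] with n hn
      rw [hn]; ring
  · have hG : MemLp (fun x => |pd r u x| + D * |u x|) 2 (gam m) :=
      (hd2 r).norm.add (hu2.norm.const_mul D)
    have e : ∀ n x, pd r (fun x => u x * gkcCut m n x) x - pd r u x
        = pd r u x * (gkcCut m n x - 1) + u x * pd r (gkcCut m n) x := by
      intro n x
      rw [gk_pd_mul hu.1 (gkcCut_contDiff n)]
      ring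
    refine gkl_tendsto_of_dominated hG (fun n => ?_) (fun n => Eventually.of_forall fun x => ?_)
      (Eventually.of_forall fun x => ?_)
    · exact ((gk_continuous_pd (hu.1.mul (gkcCut_contDiff n)) r).sub
        (gk_continuous_pd hu.1 r)).aestronglyMeasurable
    · rw [e, abs_of_nonneg (by positivity : 0 ≤ |pd r u x| + D * |u x|)]
      refine (abs_add_le _ _).trans (add_le_add ?_ ?_)
      · rw [abs_mul]
        have h1 : |gkcCut m n x - 1| ≤ 1 := by
          rw [abs_le]
          constructor <;> linarith [gkcCut_nonneg n x, gkcCut_le_one n x]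
        exact mul_le_of_le_one_right (abs_nonneg _) h1
      · rw [abs_mul, mul_comm]
        refine mul_le_mul_of_nonneg_right ((gkcCut_abs_pd_le hD n r x).trans ?_) (abs_nonneg _)
        exact div_le_self hD0 (by linarith [(Nat.cast_nonneg n : (0 : ℝ) ≤ n)])
    · simp only [e]
      have l1 : Tendsto (fun n => pd r u x * (gkcCut m n x - 1)) atTop (𝓝 0) := by
        refine tendsto_const_nhds.congr' ?_
        filter_upwards [gkcCut_eventually_eq_one x] with n hn
        rw [hn]; ring
      have l2 : Tendsto (fun n => u x * pd r (gkcCut m n) x) atTop (𝓝 0) := by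
        have l3 : Tendsto (fun n : ℕ => |u x| * (D / ((n : ℝ) + 1))) atTop (𝓝 (|u x| * 0)) :=
          (tendsto_const_div_atTop_nhds_zero_nat D |>.comp (tendsto_add_atTop_nat 1) |>.congr
            (fun n => by simp)).const_mul _
        rw [mul_zero] at l3
        refine squeeze_zero_norm (fun n => ?_) l3
        rw [Real.norm_eq_abs, abs_mul]
        exact mul_le_mul_of_nonneg_left (gkcCut_abs_pd_le hD n r x) (abs_nonneg _)
      simpa using l1.add l2

end Claimed.Agent.R260
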