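/-
Row 260, package GK (Gaussian kit): the Mehler operator: continuity in the correlation parameter.
Owner: helper175.
-/
import Claimed.Agent.R260.GKMehlerB
import Claimed.Agent.R260.GKCs

namespace Claimed.Agent.R260

open MeasureTheory ProbabilityTheory Filter Topology Set

variable {m : ℕ}

/-- a.e. linearity of the Mehler operator on integrable functions -/
theorem gk_mehler_sub_ae {c : ℝ} (hc : c ∈ Icc (0 : ℝ) 1) {u w : EE m → ℝ}
    (hu : Integrable u (gam m)) (hw : Integrable w (gam m)) :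
    mehler c (fun y => u y - w y) =ᵐ[gam m] fun x => mehler c u x - mehler c w x := by
  filter_upwards [gk_ae_integrable_mehler hc hu, gk_ae_integrable_mehler hc hw] with x h1 h2
  simp only [mehler]
  rw [integral_sub h1 h2]

theorem gk_mehler_add_ae {c : ℝ} (hc : c ∈ Icc (0 : ℝ) 1) {u w : EE m → ℝ}
    (hu : Integrable u (gam m)) (hw : Integrable w (gam m)) :
    mehler c (fun y => u y + w y) =ᵐ[gam m] fun x => mehler c u x + mehler c w x := by
  filter_upwards [gk_ae_integrable_mehler hc hu, gk_ae_integrable_mehler hc hw] with x h1 h2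
  simp only [mehler]
  rw [integral_add h1 h2]

/-- contraction, for differences -/
theorem gk_mehler_sub_sq_le {c : ℝ} (hc : c ∈ Icc (0 : ℝ) 1) {u w : EE m → ℝ}
    (hu : Measurable u) (hw : Measurable w) (hu2 : MemLp u 2 (gam m)) (hw2 : MemLp w 2 (gam m)) :
    ∫ x, (mehler c u x - mehler c w x) ^ 2 ∂gam m ≤ ∫ x, (u x - w x) ^ 2 ∂gam m := by
  have h := gk_mehler_sq_le hc (hu.sub hw) (gk_memLp_sub hu2 hw2)
  refine le_trans (le_of_eq ?_) h
  refine integral_congr_ae ?_
  filter_upwards [gk_mehler_sub_ae hc (hu2.integrable (by norm_num))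
    (hw2.integrable (by norm_num))] with x hx
  rw [← hx]
  rfl

/-- for a bounded continuous `w`, `c ↦ mehler c w x` is continuous -/
theorem gk_mehler_continuous_param {w : EE m → ℝ} (hw : Continuous w) {C : ℝ}
    (hC : ∀ y, |w y| ≤ C) (x : EE m) : Continuous (fun c => mehler c w x) := by
  unfold mehler
  refine continuous_of_dominated (bound := fun _ => C) ?_ ?_ (integrable_const C) ?_
  · intro c
    exact (hw.comp (by fun_prop)).aestronglyMeasurable
  · intro c
    exact Eventually.of_forall fun z => by simpa using hC _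
  · exact Eventually.of_forall fun z => hw.comp (by fun_prop)

theorem gk_mehler_tendsto_L2_of_bddCont {w : EE m → ℝ} (hw : Continuous w) {C : ℝ}
    (hC : ∀ y, |w y| ≤ C) (c0 : ℝ) :
    Tendsto (fun c => ∫ x, (mehler c w x - mehler c0 w x) ^ 2 ∂gam m) (𝓝 c0) (𝓝 0) := by
  have hcont : Continuous (fun c => ∫ x, (mehler c w x - mehler c0 w x) ^ 2 ∂gam m) := by
    refine continuous_of_dominated (bound := fun _ => (2 * C) ^ 2) ?_ ?_ (integrable_const _) ?_
    · intro c
      exact (((gk_mehler_measurable c hw.measurable).sub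
        (gk_mehler_measurable c0 hw.measurable)).pow_const 2).aestronglyMeasurable
    · intro c
      refine Eventually.of_forall fun x => ?_
      rw [Real.norm_of_nonneg (sq_nonneg _)]
      have h1 := gk_mehler_abs_le c hC x
      have h2 := gk_mehler_abs_le c0 hC x
      apply sq_le_sq'
      · have := abs_le.1 h1; have := abs_le.1 h2; linarith
      · have := abs_le.1 h1; have := abs_le.1 h2; linarith
    · exact Eventually.of_forall fun x =>
        ((gk_mehler_continuous_param hw hC x).sub continuous_const).pow 2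
  have := hcont.tendsto c0
  simpa using this

/-- approximation in `L²(γ)` by bounded continuous functions -/
theorem gk_exists_bddCont {v : EE m → ℝ} (h2 : MemLp v 2 (gam m)) {ε : ℝ} (hε : 0 < ε) :
    ∃ (w : EE m → ℝ) (C : ℝ), Continuous w ∧ (∀ y, |w y| ≤ C) ∧ MemLp w 2 (gam m) ∧
      ∫ x, (v x - w x) ^ 2 ∂gam m ≤ ε := by
  have h2' : MemLp v (ENNReal.ofReal 2) (gam m) := by simpa using h2
  obtain ⟨g, hg, hgL⟩ := h2'.exists_boundedContinuous_integral_rpow_sub_le two_pos hε
  refine ⟨g, ‖g‖, g.continuous, fun y => g.norm_coe_le_norm y, by simpa using hgL, ?_⟩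
  refine le_trans (le_of_eq ?_) hg
  refine integral_congr_ae (Eventually.of_forall fun x => ?_)
  simp only [Real.norm_eq_abs]
  rw [show (2 : ℝ) = ((2 : ℕ) : ℝ) by norm_num, Real.rpow_natCast, sq_abs]

/-- strong continuity of `c ↦ mehler c v` in `L²(γ)` on `[0,1]` -/
theorem gk_mehler_tendsto_L2 {v : EE m → ℝ} (hv : Measurable v) (h2 : MemLp v 2 (gam m))
    {c0 : ℝ} (hc0 : c0 ∈ Icc (0 : ℝ) 1) :
    Tendsto (fun c => ∫ x, (mehler c v x - mehler c0 v x) ^ 2 ∂gam m) (𝓝[Icc 0 1] c0) (𝓝 0) := by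
  refine tendsto_order.2 ⟨fun a ha => Eventually.of_forall fun c =>
    lt_of_lt_of_le ha (integral_nonneg fun x => sq_nonneg _), fun ε hε => ?_⟩
  obtain ⟨w, C, hwc, hwC, hw2, hvw⟩ := gk_exists_bddCont h2 (ε := ε / 12) (by positivity)
  have hG := (gk_mehler_tendsto_L2_of_bddCont hwc hwC c0).mono_left
    (nhdsWithin_le_nhds (s := Icc (0 : ℝ) 1))
  have hG' := (tendsto_order.1 hG).2 (ε / 12) (by positivity)
  filter_upwards [hG', self_mem_nhdsWithin] with c hGc hc
  have hwm := hwc.measurable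
  have A1 := gk_memLp_sub (gk_mehler_memLp hc hv h2) (gk_mehler_memLp hc hwm hw2)
  have A2 := gk_memLp_sub (gk_mehler_memLp hc hwm hw2) (gk_mehler_memLp hc0 hwm hw2)
  have A3 := gk_memLp_sub (gk_mehler_memLp hc0 hwm hw2) (gk_mehler_memLp hc0 hv h2)
  have h3 := gk_integral_add3_sq_le A1 A2 A3
  have e : ∀ x, mehler c v x - mehler c0 v x = (mehler c v x - mehler c w x)
      + (mehler c w x - mehler c0 w x) + (mehler c0 w x - mehler c0 v x) := fun x => by ring
  simp_rw [e]
  have B1 := gk_mehler_sub_sq_le hc hv hwm h2 hw2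
  have B3 := gk_mehler_sub_sq_le hc0 hwm hv hw2 h2
  have e3 : ∫ x, (w x - v x) ^ 2 ∂gam m = ∫ x, (v x - w x) ^ 2 ∂gam m := by
    refine integral_congr_ae (Eventually.of_forall fun x => ?_)
    simp only
    ring
  rw [e3] at B3
  linarith

/-- strong continuity at `c = 1` -/
theorem gk_mehler_tendsto {u : EE m → ℝ} (hu : Measurable u) (h2 : MemLp u 2 (gam m)) :
    Tendsto (fun c => ∫ x, (mehler c u x - u x) ^ 2 ∂gam m) (𝓝[<] 1) (𝓝 0) := by
  have h := gk_mehler_tendsto_L2 hu h2 (c0 := 1) ⟨zero_le_one, le_rfl⟩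
  rw [gk_mehler_one] at h
  refine h.mono_left (nhdsWithin_le_of_mem ?_)
  exact mem_of_superset (Ioo_mem_nhdsLT zero_lt_one) Ioo_subset_Icc_self

/-- continuity of `c ↦ E[u · mehler c v]` on `[0,1]` -/
theorem gk_mehler_form_continuousOn {u v : EE m → ℝ} (hu : Measurable u) (hv : Measurable v)
    (hu2 : MemLp u 2 (gam m)) (hv2 : MemLp v 2 (gam m)) :
    ContinuousOn (fun c => ∫ x, u x * mehler c v x ∂gam m) (Icc 0 1) := by
  intro c0 hc0
  refine gk_tendsto_integral_mul_right ?_ (gk_mehler_memLp hc0 hv hv2) hu2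
    (gk_mehler_tendsto_L2 hv hv2 hc0)
  filter_upwards [self_mem_nhdsWithin] with c hc
  exact gk_mehler_memLp hc hv hv2

end Claimed.Agent.R260
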