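/-
Row 260, package GK (Gaussian kit): covariance representation, Poincare and second order Poincare inequalities.
Skeleton by helper200, proofs by helper45 (helper lemmas have the prefix `gkc`).
-/
import Claimed.Agent.R260.GKMehlerC
import Claimed.Agent.R260.GKMehlerS

namespace Claimed.Agent.R260

open MeasureTheory ProbabilityTheory Filter Topology Set

variable {m : ℕ}

/-- integrability on the product of functions with polynomial growth in both variables -/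
theorem gkc_integrable_prod {H : EE m × EE m → ℝ} (hH : AEStronglyMeasurable H ((gam m).prod (gam m)))
    (C : ℝ) (k l : ℕ) (hb : ∀ p, |H p| ≤ C * ((1 + ‖p.1‖) ^ k * (1 + ‖p.2‖) ^ l)) :
    Integrable H ((gam m).prod (gam m)) := by
  have h1 : Integrable (fun p : EE m × EE m => C * ((1 + ‖p.1‖) ^ k * (1 + ‖p.2‖) ^ l))
      ((gam m).prod (gam m)) :=
    ((gk_integrable_pow (m := m) k).mul_prod (gk_integrable_pow (m := m) l)).const_mul C
  exact h1.mono' hH (Eventually.of_forall fun p => by simpa [Real.norm_eq_abs] using hb p)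

/-- linear growth of a `C1L` function -/
theorem gkc_C1L_growth {u : EE m → ℝ} (hu : C1L u) : ∃ C, 0 ≤ C ∧ ∀ x, |u x| ≤ C * (1 + ‖x‖) := by
  obtain ⟨K, hK⟩ := hu.lipschitz
  refine ⟨max |u 0| K, le_max_of_le_left (abs_nonneg _), fun x => ?_⟩
  have h1 : |u x - u 0| ≤ K * ‖x‖ := by
    have := hK.dist_le_mul x 0
    simpa [Real.dist_eq, dist_zero_right] using this
  have h2 : |u x| ≤ |u 0| + K * ‖x‖ := by
    have := abs_sub_abs_le_abs_sub (u x) (u 0)
    linarith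
  have h3 : |u 0| ≤ max |u 0| K := le_max_left _ _
  have h4 : (K : ℝ) ≤ max |u 0| K := le_max_right _ _
  have h5 : (K : ℝ) * ‖x‖ ≤ max |u 0| K * ‖x‖ := mul_le_mul_of_nonneg_right h4 (norm_nonneg _)
  nlinarith

theorem gkc_fderiv_eq_sum (v : EE m → ℝ) (y w : EE m) :
    fderiv ℝ v y w = ∑ r, w r * pd r v y := by
  have hw : w = ∑ r, w r • eb r := by
    ext i
    simp [eb, Finset.sum_apply, Pi.single_apply]
  conv_lhs => rw [hw]
  simp [pd, map_sum]

theorem gkc_sqrt_nonneg_le_one (c : ℝ) : Real.sqrt (1 - c ^ 2) ≤ 1 := by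
  rw [Real.sqrt_le_left (by norm_num : (0 : ℝ) ≤ 1)]
  nlinarith [sq_nonneg c]

theorem gkc_norm_comb_le {c : ℝ} (hc : c ∈ Icc (0 : ℝ) 1) (x z : EE m) :
    1 + ‖c • x + Real.sqrt (1 - c ^ 2) • z‖ ≤ (1 + ‖x‖) * (1 + ‖z‖) := by
  have h1 : ‖c • x + Real.sqrt (1 - c ^ 2) • z‖ ≤ ‖x‖ + ‖z‖ := by
    refine (norm_add_le _ _).trans ?_
    rw [norm_smul, norm_smul, Real.norm_eq_abs, Real.norm_eq_abs, abs_of_nonneg hc.1,
      abs_of_nonneg (Real.sqrt_nonneg _)]
    have := gkc_sqrt_nonneg_le_one c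
    have h2 := mul_le_mul_of_nonneg_right hc.2 (norm_nonneg x)
    have h3 := mul_le_mul_of_nonneg_right this (norm_nonneg z)
    linarith
  nlinarith [norm_nonneg x, norm_nonneg z, mul_nonneg (norm_nonneg x) (norm_nonneg z)]

theorem gkc_C1L_affine {u : EE m → ℝ} (hu : C1L u) (a : EE m) (s : ℝ) :
    C1L (fun w => u (a + s • w)) ∧
      ∀ r w, pd r (fun w => u (a + s • w)) w = s * pd r u (a + s • w) := by
  have hd : ∀ w, HasFDerivAt (fun w => u (a + s • w))
      ((fderiv ℝ u (a + s • w)).comp (s • ContinuousLinearMap.id ℝ (EE m))) w := by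
    intro w
    have h1 : HasFDerivAt (fun w : EE m => a + s • w) (s • ContinuousLinearMap.id ℝ (EE m)) w :=
      ((hasFDerivAt_id w).const_smul s).const_add a
    exact ((hu.1.differentiable one_ne_zero _).hasFDerivAt).comp w h1
  obtain ⟨C, hC⟩ := hu.2
  refine ⟨⟨hu.1.comp (by fun_prop), C * |s|, fun w => ?_⟩, fun r w => ?_⟩
  · rw [(hd w).fderiv]
    refine (ContinuousLinearMap.opNorm_comp_le _ _).trans ?_
    have h2 : ‖s • ContinuousLinearMap.id ℝ (EE m)‖ ≤ |s| := by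
      rw [norm_smul, Real.norm_eq_abs]
      have := ContinuousLinearMap.norm_id_le (𝕜 := ℝ) (E := EE m)
      nlinarith [abs_nonneg s]
    have h3 : 0 ≤ C := (norm_nonneg _).trans (hC 0)
    exact mul_le_mul (hC _) h2 (norm_nonneg _) h3
  · unfold pd
    rw [(hd w).fderiv]
    simp

/-- derivative of the interpolation path -/
theorem gkc_hasDerivAt_path {v : EE m → ℝ} (hv : C1L v) (x z : EE m) {c : ℝ}
    (hc : c ∈ Ioo (0 : ℝ) 1) :
    HasDerivAt (fun c : ℝ => v (c • x + Real.sqrt (1 - c ^ 2) • z))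
      (fderiv ℝ v (c • x + Real.sqrt (1 - c ^ 2) • z) (x - (c / Real.sqrt (1 - c ^ 2)) • z)) c := by
  have hpos : 0 < 1 - c ^ 2 := by nlinarith [hc.1, hc.2]
  have h1 : HasDerivAt (fun c : ℝ => 1 - c ^ 2) (-(2 * c)) c := by
    have := ((hasDerivAt_id c).pow 2).const_sub 1
    simpa using this
  have h2 := h1.sqrt hpos.ne'
  have h3 : HasDerivAt (fun c : ℝ => c • x + Real.sqrt (1 - c ^ 2) • z)
      ((1 : ℝ) • x + (-(2 * c) / (2 * Real.sqrt (1 - c ^ 2))) • z) c :=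
    ((hasDerivAt_id c).smul_const x).add (h2.smul_const z)
  have h4 : (1 : ℝ) • x + (-(2 * c) / (2 * Real.sqrt (1 - c ^ 2))) • z
      = x - (c / Real.sqrt (1 - c ^ 2)) • z := by
    have h0 : Real.sqrt (1 - c ^ 2) ≠ 0 := (Real.sqrt_pos.2 hpos).ne'
    have h5 : -(2 * c) / (2 * Real.sqrt (1 - c ^ 2)) = -(c / Real.sqrt (1 - c ^ 2)) := by
      field_simp
    rw [one_smul, h5, neg_smul, ← sub_eq_add_neg]
  rw [h4] at h3
  exact ((hv.1.differentiable one_ne_zero _).hasFDerivAt).comp_hasDerivAt c h3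


theorem gkc_form_eq_prod (u v : EE m → ℝ) (c : ℝ)
    (hi : Integrable (fun p : EE m × EE m => u p.1 * v (c • p.1 + Real.sqrt (1 - c ^ 2) • p.2))
      ((gam m).prod (gam m))) :
    ∫ x, u x * mehler c v x ∂gam m
      = ∫ p, u p.1 * v (c • p.1 + Real.sqrt (1 - c ^ 2) • p.2) ∂((gam m).prod (gam m)) := by
  rw [integral_prod _ hi]
  simp only [mehler, integral_const_mul]

theorem gkc_integrable_F {u v : EE m → ℝ} (hu : C1L u) (hv : C1L v) {c : ℝ}
    (hc : c ∈ Icc (0 : ℝ) 1) :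
    Integrable (fun p : EE m × EE m => u p.1 * v (c • p.1 + Real.sqrt (1 - c ^ 2) • p.2))
      ((gam m).prod (gam m)) := by
  obtain ⟨Cu, hCu0, hCu⟩ := gkc_C1L_growth hu
  obtain ⟨Cv, hCv0, hCv⟩ := gkc_C1L_growth hv
  have hcu := hu.1.continuous
  have hcv := hv.1.continuous
  refine gkc_integrable_prod (Continuous.aestronglyMeasurable (by fun_prop)) (Cu * Cv) 2 1 ?_
  intro p
  rw [abs_mul]
  have h1 := hCu p.1
  have h2 := (hCv (c • p.1 + Real.sqrt (1 - c ^ 2) • p.2)).trans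
    (mul_le_mul_of_nonneg_left (gkc_norm_comb_le hc p.1 p.2) hCv0)
  have h3 : 0 ≤ Cu * (1 + ‖p.1‖) := mul_nonneg hCu0 (by positivity)
  calc |u p.1| * |v (c • p.1 + Real.sqrt (1 - c ^ 2) • p.2)|
      ≤ (Cu * (1 + ‖p.1‖)) * (Cv * ((1 + ‖p.1‖) * (1 + ‖p.2‖))) :=
        mul_le_mul h1 h2 (abs_nonneg _) h3
    _ = Cu * Cv * ((1 + ‖p.1‖) ^ 2 * (1 + ‖p.2‖) ^ 1) := by ring

/-- the inner integral after the rotation: Gaussian integration by parts in `w` -/
theorem gkc_inner {u v : EE m → ℝ} (hu : C1L u) {c : ℝ} (hc : c ∈ Ioo (0 : ℝ) 1) (y : EE m) :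
    ∫ w, u (c • y + Real.sqrt (1 - c ^ 2) • w) * fderiv ℝ v y ((Real.sqrt (1 - c ^ 2))⁻¹ • w) ∂gam m
      = ∑ r, pd r v y * mehler c (pd r u) y := by
  have hpos : 0 < 1 - c ^ 2 := by nlinarith [hc.1, hc.2]
  set s := Real.sqrt (1 - c ^ 2) with hs
  have hs0 : s ≠ 0 := (Real.sqrt_pos.2 hpos).ne'
  obtain ⟨hU, hUpd⟩ := gkc_C1L_affine hu (c • y) s
  have h1 : ∀ w : EE m, u (c • y + s • w) * fderiv ℝ v y (s⁻¹ • w)
      = ∑ r, (s⁻¹ * pd r v y) * (w r * u (c • y + s • w)) := by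
    intro w
    rw [map_smul, gkc_fderiv_eq_sum, smul_eq_mul, Finset.mul_sum, Finset.mul_sum]
    exact Finset.sum_congr rfl fun r _ => by ring
  simp only [h1]
  rw [integral_finsetSum]
  · refine Finset.sum_congr rfl fun r _ => ?_
    rw [integral_const_mul, gk_ibp hU.toC1P r]
    simp only [hUpd]
    rw [integral_const_mul]
    simp only [mehler, ← hs]
    field_simp
  · intro r _
    exact (((gk_PG_coord r).mul hU.toC1P.toPG).integrable).const_mul _


/-- the `c`-derivative of the integrand -/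
noncomputable def gkcF' (u v : EE m → ℝ) (c : ℝ) (p : EE m × EE m) : ℝ :=
  u p.1 * fderiv ℝ v (c • p.1 + Real.sqrt (1 - c ^ 2) • p.2)
    (p.1 - (c / Real.sqrt (1 - c ^ 2)) • p.2)

theorem gkc_continuous_F' {u v : EE m → ℝ} (hu : C1L u) (hv : C1L v) (c : ℝ) :
    Continuous (gkcF' u v c) := by
  have hcu := hu.1.continuous
  have hcv : Continuous (fderiv ℝ v) := hv.1.continuous_fderiv one_ne_zero
  unfold gkcF'
  refine (hcu.comp continuous_fst).mul ?_
  exact (hcv.comp (by fun_prop)).clm_apply (by fun_prop)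

/-- the integral of the derivative, computed by rotation and integration by parts -/
theorem gkc_integral_F' {u v : EE m → ℝ} (hu : C1L u) (hv : C1L v) {c : ℝ}
    (hc : c ∈ Ioo (0 : ℝ) 1) (hi : Integrable (gkcF' u v c) ((gam m).prod (gam m))) :
    ∫ p, gkcF' u v c p ∂((gam m).prod (gam m))
      = ∫ x, ∑ r, pd r u x * mehler c (pd r v) x ∂gam m := by
  have hc' : c ∈ Icc (0 : ℝ) 1 := ⟨hc.1.le, hc.2.le⟩
  have hpos : 0 < 1 - c ^ 2 := by nlinarith [hc.1, hc.2]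
  have hcs := gk_sq_add_sqrt hc'
  have hrot := gk_rot_map (m := m) hc'
  set s := Real.sqrt (1 - c ^ 2) with hs
  have hs0 : s ≠ 0 := (Real.sqrt_pos.2 hpos).ne'
  have hTm : Measurable (fun p : EE m × EE m => (c • p.1 + s • p.2, s • p.1 - c • p.2)) := by
    fun_prop
  -- rotate
  have hcomp : ∀ p : EE m × EE m, gkcF' u v c (c • p.1 + s • p.2, s • p.1 - c • p.2)
      = u (c • p.1 + s • p.2) * fderiv ℝ v p.1 (s⁻¹ • p.2) := by
    intro p
    unfold gkcF'
    simp only [← hs]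
    have e1 : c • (c • p.1 + s • p.2) + s • (s • p.1 - c • p.2) = p.1 := by
      have : c • (c • p.1 + s • p.2) + s • (s • p.1 - c • p.2) = (c ^ 2 + s ^ 2) • p.1 := by
        simp only [smul_add, smul_sub, smul_smul, add_smul]
        rw [mul_comm s c, sq, sq]
        abel
      rw [this, hcs, one_smul]
    have e2 : c • p.1 + s • p.2 - (c / s) • (s • p.1 - c • p.2) = s⁻¹ • p.2 := by
      have h1 : c / s * s = c := by field_simp
      have h2 : s + c / s * c = s⁻¹ := by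
        have : s + c / s * c = (c ^ 2 + s ^ 2) / s := by field_simp; ring
        rw [this, hcs, one_div]
      have : c • p.1 + s • p.2 - (c / s) • (s • p.1 - c • p.2)
          = (c - c / s * s) • p.1 + (s + c / s * c) • p.2 := by
        simp only [smul_sub, smul_smul, sub_smul, add_smul]
        abel
      rw [this, h1, h2, sub_self, zero_smul, zero_add]
    rw [e1, e2]
  have h1 : ∫ p, gkcF' u v c p ∂((gam m).prod (gam m))
      = ∫ p, u (c • p.1 + s • p.2) * fderiv ℝ v p.1 (s⁻¹ • p.2) ∂((gam m).prod (gam m)) := by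
    conv_lhs => rw [← hrot]
    rw [integral_map hTm.aemeasurable (gkc_continuous_F' hu hv c).aestronglyMeasurable]
    simp only [hcomp]
  have hi2 : Integrable (fun p : EE m × EE m =>
      u (c • p.1 + s • p.2) * fderiv ℝ v p.1 (s⁻¹ • p.2)) ((gam m).prod (gam m)) := by
    have : Integrable (gkcF' u v c) (Measure.map
        (fun p : EE m × EE m => (c • p.1 + s • p.2, s • p.1 - c • p.2))
        ((gam m).prod (gam m))) := by rw [hrot]; exact hi
    have h2 := (integrable_map_measure (gkc_continuous_F' hu hv c).aestronglyMeasurable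
      hTm.aemeasurable).1 this
    refine h2.congr (Eventually.of_forall fun p => ?_)
    exact hcomp p
  rw [h1, integral_prod _ hi2]
  simp only [hs, gkc_inner hu hc]
  -- symmetry of the Mehler operator
  have hPGu : ∀ r, PG (pd r u) := fun r => hu.toC1P.pd_PG r
  have hPGv : ∀ r, PG (pd r v) := fun r => hv.toC1P.pd_PG r
  rw [integral_finsetSum, integral_finsetSum]
  · refine Finset.sum_congr rfl fun r _ => ?_
    rw [gk_mehler_symm hc' (hPGv r).1 (hPGu r).1 ((hPGv r).memLp 2) ((hPGu r).memLp 2)]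
    exact integral_congr_ae (Eventually.of_forall fun x => mul_comm _ _)
  · intro r _
    exact ((hPGu r).mul (gk_mehler_PG hc' (hPGv r))).integrable
  · intro r _
    exact ((hPGv r).mul (gk_mehler_PG hc' (hPGu r))).integrable


/-- the interpolation formula: derivative in the correlation parameter -/
theorem gk_hasDerivAt_form {u v : EE m → ℝ} (hu : C1L u) (hv : C1L v) {c : ℝ}
    (hc : c ∈ Ioo (0 : ℝ) 1) :
    HasDerivAt (fun c => ∫ x, u x * mehler c v x ∂gam m)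
      (∫ x, ∑ r, pd r u x * mehler c (pd r v) x ∂gam m) c := by
  obtain ⟨Cu, hCu0, hCu⟩ := gkc_C1L_growth hu
  obtain ⟨Kv, hKv⟩ := hv.2
  have hKv0 : 0 ≤ Kv := (norm_nonneg _).trans (hKv 0)
  have hcu := hu.1.continuous
  have hcv := hv.1.continuous
  -- the neighbourhood
  set b : ℝ := (1 + c) / 2 with hb
  have hb1 : b < 1 := by rw [hb]; linarith [hc.2]
  have hcb : c < b := by rw [hb]; linarith [hc.2]
  have hb0 : 0 < b := hc.1.trans hcb
  have hbpos : 0 < 1 - b ^ 2 := by nlinarith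
  set M : ℝ := 1 / Real.sqrt (1 - b ^ 2) with hM
  have hM0 : 0 ≤ M := by rw [hM]; positivity
  have hsnhds : Ioo (0 : ℝ) b ∈ 𝓝 c := Ioo_mem_nhds hc.1 hcb
  have hsub : ∀ c' ∈ Ioo (0 : ℝ) b, c' ∈ Ioo (0 : ℝ) 1 := fun c' h => ⟨h.1, h.2.trans hb1⟩
  have hratio : ∀ c' ∈ Ioo (0 : ℝ) b, |c' / Real.sqrt (1 - c' ^ 2)| ≤ M := by
    intro c' h
    have h1 : 1 - b ^ 2 ≤ 1 - c' ^ 2 := by nlinarith [h.1, h.2]
    have h2 : Real.sqrt (1 - b ^ 2) ≤ Real.sqrt (1 - c' ^ 2) := Real.sqrt_le_sqrt h1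
    have h3 : 0 < Real.sqrt (1 - b ^ 2) := Real.sqrt_pos.2 hbpos
    rw [abs_of_nonneg (div_nonneg h.1.le (Real.sqrt_nonneg _)), hM]
    exact div_le_div₀ zero_le_one (h.2.trans hb1).le h3 h2
  have key := hasDerivAt_integral_of_dominated_loc_of_deriv_le
    (μ := (gam m).prod (gam m))
    (F := fun (c : ℝ) (p : EE m × EE m) => u p.1 * v (c • p.1 + Real.sqrt (1 - c ^ 2) • p.2))
    (F' := fun c p => gkcF' u v c p) (x₀ := c) (s := Ioo (0 : ℝ) b)
    (bound := fun p => Cu * Kv * (1 + M) * ((1 + ‖p.1‖) ^ 2 * (1 + ‖p.2‖) ^ 1))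
    hsnhds
    (Eventually.of_forall fun c' => Continuous.aestronglyMeasurable (by fun_prop))
    (gkc_integrable_F hu hv ⟨hc.1.le, hc.2.le⟩)
    (gkc_continuous_F' hu hv c).aestronglyMeasurable
    (Eventually.of_forall fun p c' hc' => by
      rw [Real.norm_eq_abs]
      unfold gkcF'
      rw [abs_mul]
      have h1 := hCu p.1
      have h2 : |fderiv ℝ v (c' • p.1 + Real.sqrt (1 - c' ^ 2) • p.2)
          (p.1 - (c' / Real.sqrt (1 - c' ^ 2)) • p.2)|
          ≤ Kv * ((1 + M) * ((1 + ‖p.1‖) * (1 + ‖p.2‖))) := by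
        have h3 := (fderiv ℝ v (c' • p.1 + Real.sqrt (1 - c' ^ 2) • p.2)).le_opNorm
          (p.1 - (c' / Real.sqrt (1 - c' ^ 2)) • p.2)
        rw [Real.norm_eq_abs] at h3
        have h4 : ‖p.1 - (c' / Real.sqrt (1 - c' ^ 2)) • p.2‖ ≤ ‖p.1‖ + M * ‖p.2‖ := by
          refine (norm_sub_le _ _).trans ?_
          rw [norm_smul, Real.norm_eq_abs]
          have := mul_le_mul_of_nonneg_right (hratio c' hc') (norm_nonneg p.2)
          linarith
        have h5 : ‖p.1‖ + M * ‖p.2‖ ≤ (1 + M) * ((1 + ‖p.1‖) * (1 + ‖p.2‖)) := by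
          have a1 := norm_nonneg p.1
          have a2 := norm_nonneg p.2
          have a3 := mul_nonneg a1 a2
          have a4 := mul_nonneg hM0 a1
          have a5 := mul_nonneg hM0 a3
          nlinarith
        calc _ ≤ ‖fderiv ℝ v (c' • p.1 + Real.sqrt (1 - c' ^ 2) • p.2)‖
              * ‖p.1 - (c' / Real.sqrt (1 - c' ^ 2)) • p.2‖ := h3
          _ ≤ Kv * ((1 + M) * ((1 + ‖p.1‖) * (1 + ‖p.2‖))) :=
            mul_le_mul (hKv _) (h4.trans h5) (norm_nonneg _) hKv0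
      have h6 : 0 ≤ Cu * (1 + ‖p.1‖) := mul_nonneg hCu0 (by positivity)
      calc _ ≤ (Cu * (1 + ‖p.1‖)) * (Kv * ((1 + M) * ((1 + ‖p.1‖) * (1 + ‖p.2‖)))) :=
            mul_le_mul h1 h2 (abs_nonneg _) h6
        _ = Cu * Kv * (1 + M) * ((1 + ‖p.1‖) ^ 2 * (1 + ‖p.2‖) ^ 1) := by ring)
    (((gk_integrable_pow (m := m) 2).mul_prod (gk_integrable_pow (m := m) 1)).const_mul _)
    (Eventually.of_forall fun p c' hc' =>
      (gkc_hasDerivAt_path hv p.1 p.2 (hsub c' hc')).const_mul (u p.1))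
  obtain ⟨hint, hder⟩ := key
  rw [gkc_integral_F' hu hv hc hint] at hder
  refine hder.congr_of_eventuallyEq ?_
  filter_upwards [hsnhds] with c' hc'
  have hc'' := hsub c' hc'
  exact gkc_form_eq_prod u v c' (gkc_integrable_F hu hv ⟨hc''.1.le, hc''.2.le⟩)


/-- the derivative of the form as a finite sum of forms -/
theorem gkc_psi_eq_sum {u v : EE m → ℝ} (hu : C1L u) (hv : C1L v) {c : ℝ}
    (hc : c ∈ Icc (0 : ℝ) 1) :
    ∫ x, ∑ r, pd r u x * mehler c (pd r v) x ∂gam m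
      = ∑ r, ∫ x, pd r u x * mehler c (pd r v) x ∂gam m := by
  rw [integral_finsetSum]
  intro r _
  exact ((hu.toC1P.pd_PG r).mul (gk_mehler_PG hc (hv.toC1P.pd_PG r))).integrable

theorem gkc_psi_continuousOn {u v : EE m → ℝ} (hu : C1L u) (hv : C1L v) :
    ContinuousOn (fun c => ∫ x, ∑ r, pd r u x * mehler c (pd r v) x ∂gam m) (Icc 0 1) := by
  have h1 : ContinuousOn (fun c => ∑ r, ∫ x, pd r u x * mehler c (pd r v) x ∂gam m) (Icc 0 1) := by
    refine continuousOn_finsetSum _ fun r _ => ?_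
    exact gk_mehler_form_continuousOn (hu.toC1P.pd_PG r).1 (hv.toC1P.pd_PG r).1
      ((hu.toC1P.pd_PG r).memLp 2) ((hv.toC1P.pd_PG r).memLp 2)
  exact h1.congr fun c hc => gkc_psi_eq_sum hu hv hc

theorem gkc_psi_intervalIntegrable {u v : EE m → ℝ} (hu : C1L u) (hv : C1L v) :
    IntervalIntegrable (fun c => ∫ x, ∑ r, pd r u x * mehler c (pd r v) x ∂gam m) volume 0 1 := by
  apply ContinuousOn.intervalIntegrable
  rw [uIcc_of_le zero_le_one]
  exact gkc_psi_continuousOn hu hv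

/-- covariance representation -/
theorem gk_cov_repr {u v : EE m → ℝ} (hu : C1L u) (hv : C1L v) :
    ∫ x, u x * v x ∂gam m - (∫ x, u x ∂gam m) * (∫ x, v x ∂gam m)
      = ∫ c in (0 : ℝ)..1, ∫ x, ∑ r, pd r u x * mehler c (pd r v) x ∂gam m := by
  have hPu := hu.toC1P.toPG
  have hPv := hv.toC1P.toPG
  rw [intervalIntegral.integral_eq_sub_of_hasDerivAt_of_le zero_le_one
    (gk_mehler_form_continuousOn hPu.1 hPv.1 (hPu.memLp 2) (hPv.memLp 2))
    (fun c hc => gk_hasDerivAt_form hu hv hc) (gkc_psi_intervalIntegrable hu hv)]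
  congr 1
  · rw [gk_mehler_one]
  · simp only [gk_mehler_zero]
    rw [integral_mul_const]

/-- Gaussian Poincare inequality -/
theorem gk_poincare {u : EE m → ℝ} (hu : C1L u) :
    ∫ x, (u x) ^ 2 ∂gam m - (∫ x, u x ∂gam m) ^ 2 ≤ ∫ x, ∑ r, (pd r u x) ^ 2 ∂gam m := by
  have h := gk_cov_repr hu hu
  have e1 : ∫ x, (u x) ^ 2 ∂gam m - (∫ x, u x ∂gam m) ^ 2
      = ∫ x, u x * u x ∂gam m - (∫ x, u x ∂gam m) * (∫ x, u x ∂gam m) := by
    simp only [sq]
  rw [e1, h]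
  have h2 : ∀ c ∈ Icc (0 : ℝ) 1, ∫ x, ∑ r, pd r u x * mehler c (pd r u) x ∂gam m
      ≤ ∫ x, ∑ r, (pd r u x) ^ 2 ∂gam m := by
    intro c hc
    have h1 : (1 : ℝ) ∈ Icc (0 : ℝ) 1 := ⟨zero_le_one, le_rfl⟩
    have e2 : ∫ x, ∑ r, (pd r u x) ^ 2 ∂gam m
        = ∫ x, ∑ r, pd r u x * mehler 1 (pd r u) x ∂gam m := by
      simp only [gk_mehler_one, sq]
    rw [e2, gkc_psi_eq_sum hu hu hc, gkc_psi_eq_sum hu hu h1]
    refine Finset.sum_le_sum fun r _ => ?_
    exact gk_mehler_form_mono hc.1 hc.2 le_rfl (hu.toC1P.pd_PG r).1 ((hu.toC1P.pd_PG r).memLp 2)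
  calc ∫ c in (0 : ℝ)..1, ∫ x, ∑ r, pd r u x * mehler c (pd r u) x ∂gam m
      ≤ ∫ _c in (0 : ℝ)..1, ∫ x, ∑ r, (pd r u x) ^ 2 ∂gam m :=
        intervalIntegral.integral_mono_on zero_le_one (gkc_psi_intervalIntegrable hu hu)
          intervalIntegrable_const h2
    _ = ∫ x, ∑ r, (pd r u x) ^ 2 ∂gam m := by simp


/-- convexity of `c ↦ E[h · mehler c h]`, `C¹` case -/
theorem gkc_form_convex_C1L {h : EE m → ℝ} (hh : C1L h) {c : ℝ} (hc : c ∈ Icc (0 : ℝ) 1) :
    ∫ x, h x * mehler c h x ∂gam m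
      ≤ (1 - c) * ∫ x, h x * mehler 0 h x ∂gam m + c * ∫ x, h x * mehler 1 h x ∂gam m := by
  have hP := hh.toC1P.toPG
  have hconv : ConvexOn ℝ (Icc (0 : ℝ) 1) (fun c => ∫ x, h x * mehler c h x ∂gam m) := by
    apply MonotoneOn.convexOn_of_deriv (convex_Icc 0 1)
      (gk_mehler_form_continuousOn hP.1 hP.1 (hP.memLp 2) (hP.memLp 2))
    · rw [interior_Icc]
      exact fun c hc => (gk_hasDerivAt_form hh hh hc).differentiableAt.differentiableWithinAt
    · rw [interior_Icc]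
      intro a ha b hb hab
      rw [(gk_hasDerivAt_form hh hh ha).deriv, (gk_hasDerivAt_form hh hh hb).deriv,
        gkc_psi_eq_sum hh hh ⟨ha.1.le, ha.2.le⟩, gkc_psi_eq_sum hh hh ⟨hb.1.le, hb.2.le⟩]
      refine Finset.sum_le_sum fun r _ => ?_
      exact gk_mehler_form_mono ha.1.le hab hb.2.le (hh.toC1P.pd_PG r).1
        ((hh.toC1P.pd_PG r).memLp 2)
  have h0 : (0 : ℝ) ∈ Icc (0 : ℝ) 1 := ⟨le_rfl, zero_le_one⟩
  have h1 : (1 : ℝ) ∈ Icc (0 : ℝ) 1 := ⟨zero_le_one, le_rfl⟩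
  have h2 : (0 : ℝ) ≤ 1 - c := by linarith [hc.2]
  have := hconv.2 h0 h1 h2 hc.1 (by ring)
  simpa using this

/-- regularisation: the form of `mehler a h` -/
theorem gkc_form_mehler {h : EE m → ℝ} (hh : PG h) {a c : ℝ} (ha : a ∈ Icc (0 : ℝ) 1)
    (hc : c ∈ Icc (0 : ℝ) 1) :
    ∫ x, mehler a h x * mehler c (mehler a h) x ∂gam m
      = ∫ x, h x * mehler (a * (c * a)) h x ∂gam m := by
  have hca : c * a ∈ Icc (0 : ℝ) 1 :=
    ⟨mul_nonneg hc.1 ha.1, mul_le_one₀ hc.2 ha.1 ha.2⟩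
  have e1 : mehler c (mehler a h) = mehler (c * a) h := funext fun x => gk_mehler_mehler hc ha hh x
  have e2 : mehler (a * (c * a)) h = mehler a (mehler (c * a) h) :=
    funext fun x => (gk_mehler_mehler ha hca hh x).symm
  have hP2 := gk_mehler_PG hca hh
  rw [e1, e2, gk_mehler_symm ha hh.1 hP2.1 (hh.memLp 2) (hP2.memLp 2)]

theorem gkc_tendsto_reg {Q : ℝ → ℝ} (hQ : ContinuousOn Q (Icc 0 1)) {c : ℝ}
    (hc : c ∈ Icc (0 : ℝ) 1) :
    Tendsto (fun a => Q (a * (c * a))) (𝓝[Ico 0 1] 1) (𝓝 (Q c)) := by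
  have hφ : ContinuousOn (fun a : ℝ => a * (c * a)) (Icc 0 1) := by fun_prop
  have hmaps : MapsTo (fun a : ℝ => a * (c * a)) (Icc 0 1) (Icc 0 1) := by
    intro a ha
    have h1 : c * a ∈ Icc (0 : ℝ) 1 := ⟨mul_nonneg hc.1 ha.1, mul_le_one₀ hc.2 ha.1 ha.2⟩
    exact ⟨mul_nonneg ha.1 h1.1, mul_le_one₀ ha.2 h1.1 h1.2⟩
  have h1 := (hQ.comp hφ hmaps) 1 ⟨zero_le_one, le_rfl⟩
  have h2 : Tendsto (Q ∘ fun a : ℝ => a * (c * a)) (𝓝[Icc 0 1] 1) (𝓝 (Q c)) := by
    have := h1.tendsto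
    simpa using this
  exact h2.mono_left (nhdsWithin_mono _ Ico_subset_Icc_self)

/-- convexity of `c ↦ E[h · mehler c h]`, bounded measurable case -/
theorem gkc_form_convex_BM {h : EE m → ℝ} (hh : BM h) {c : ℝ} (hc : c ∈ Icc (0 : ℝ) 1) :
    ∫ x, h x * mehler c h x ∂gam m
      ≤ (1 - c) * ∫ x, h x * mehler 0 h x ∂gam m + c * ∫ x, h x * mehler 1 h x ∂gam m := by
  have hP := hh.toPG
  have hQ := gk_mehler_form_continuousOn hP.1 hP.1 (hP.memLp 2) (hP.memLp 2)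
  have h0 : (0 : ℝ) ∈ Icc (0 : ℝ) 1 := ⟨le_rfl, zero_le_one⟩
  have h1 : (1 : ℝ) ∈ Icc (0 : ℝ) 1 := ⟨zero_le_one, le_rfl⟩
  have : (𝓝[Ico (0 : ℝ) 1] 1).NeBot := by
    rw [nhdsWithin_Ico_eq_nhdsLT zero_lt_one]
    infer_instance
  refine le_of_tendsto_of_tendsto (gkc_tendsto_reg hQ hc)
    (((gkc_tendsto_reg hQ h0).const_mul (1 - c)).add ((gkc_tendsto_reg hQ h1).const_mul c)) ?_
  filter_upwards [self_mem_nhdsWithin] with a ha
  have ha' : a ∈ Icc (0 : ℝ) 1 := ⟨ha.1, ha.2.le⟩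
  have hg : C1L (mehler a h) := (gk_mehler_niceB ha hh).toNiceL.toC1L
  have := gkc_form_convex_C1L hg hc
  rw [gkc_form_mehler hP ha' hc, gkc_form_mehler hP ha' h0, gkc_form_mehler hP ha' h1] at this
  exact this


/-- truncation at level `N` -/
noncomputable def gkcTrunc (h : EE m → ℝ) (N : ℕ) (x : EE m) : ℝ := max (-(N : ℝ)) (min (h x) N)

theorem gkcTrunc_BM {h : EE m → ℝ} (hm : Measurable h) (N : ℕ) : BM (gkcTrunc h N) := by
  refine ⟨?_, N, fun x => ?_⟩
  · unfold gkcTrunc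
    exact measurable_const.max (hm.min measurable_const)
  · have hN : (0 : ℝ) ≤ N := Nat.cast_nonneg N
    exact abs_le.2 ⟨le_max_left _ _, max_le (by linarith) (min_le_right _ _)⟩

theorem gkcTrunc_abs_le (h : EE m → ℝ) (N : ℕ) (x : EE m) : |gkcTrunc h N x| ≤ |h x| := by
  have hN : (0 : ℝ) ≤ N := Nat.cast_nonneg N
  unfold gkcTrunc
  rw [abs_le]
  constructor
  · rcases le_total |h x| N with h1 | h1
    · refine le_max_of_le_right (le_min (neg_abs_le _) ?_)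
      linarith [abs_nonneg (h x)]
    · exact le_max_of_le_left (by linarith)
  · exact max_le (by linarith [abs_nonneg (h x)]) ((min_le_left _ _).trans (le_abs_self _))

theorem gkcTrunc_eq (h : EE m → ℝ) (N : ℕ) (x : EE m) (hN : |h x| ≤ N) : gkcTrunc h N x = h x := by
  unfold gkcTrunc
  rw [min_eq_left ((le_abs_self _).trans hN), max_eq_right]
  linarith [neg_abs_le (h x)]

theorem gkcTrunc_tendsto (h : EE m → ℝ) (x : EE m) :
    Tendsto (fun N => gkcTrunc h N x) atTop (𝓝 (h x)) := by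
  refine tendsto_const_nhds.congr' ?_
  filter_upwards [eventually_ge_atTop ⌈|h x|⌉₊] with N hN
  refine (gkcTrunc_eq h N x ?_).symm
  exact (Nat.le_ceil _).trans (by exact_mod_cast hN)

theorem gkc_mp_comb {c : ℝ} (hc : c ∈ Icc (0 : ℝ) 1) :
    MeasurePreserving (fun p : EE m × EE m => c • p.1 + Real.sqrt (1 - c ^ 2) • p.2)
      ((gam m).prod (gam m)) (gam m) :=
  ⟨by fun_prop, gk_map_comb hc⟩

theorem gkc_integrable_L2 {f g : EE m → ℝ} (hf : MemLp f 2 (gam m)) (hg : MemLp g 2 (gam m))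
    {c : ℝ} (hc : c ∈ Icc (0 : ℝ) 1) :
    Integrable (fun p : EE m × EE m => f p.1 * g (c • p.1 + Real.sqrt (1 - c ^ 2) • p.2))
      ((gam m).prod (gam m)) := by
  have h1 : MemLp (fun p : EE m × EE m => f p.1) 2 ((gam m).prod (gam m)) :=
    hf.comp_measurePreserving measurePreserving_fst
  have h2 : MemLp (fun p : EE m × EE m => g (c • p.1 + Real.sqrt (1 - c ^ 2) • p.2)) 2
      ((gam m).prod (gam m)) := hg.comp_measurePreserving (gkc_mp_comb hc)
  exact h1.integrable_mul h2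

/-- the forms of the truncations converge -/
theorem gkc_form_tendsto {h : EE m → ℝ} (hm : Measurable h) (h2 : MemLp h 2 (gam m)) {c : ℝ}
    (hc : c ∈ Icc (0 : ℝ) 1) :
    Tendsto (fun N => ∫ x, gkcTrunc h N x * mehler c (gkcTrunc h N) x ∂gam m) atTop
      (𝓝 (∫ x, h x * mehler c h x ∂gam m)) := by
  have hT2 : ∀ N, MemLp (gkcTrunc h N) 2 (gam m) := fun N => (gkcTrunc_BM hm N).toPG.memLp 2
  rw [gkc_form_eq_prod h h c (gkc_integrable_L2 h2 h2 hc)]
  simp only [fun N => gkc_form_eq_prod _ _ c (gkc_integrable_L2 (hT2 N) (hT2 N) hc)]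
  refine tendsto_integral_of_dominated_convergence
    (fun p : EE m × EE m => |h p.1| * |h (c • p.1 + Real.sqrt (1 - c ^ 2) • p.2)|) ?_ ?_ ?_ ?_
  · intro N
    exact (gkc_integrable_L2 (hT2 N) (hT2 N) hc).aestronglyMeasurable
  · exact gkc_integrable_L2 (f := fun x => |h x|) (g := fun x => |h x|) h2.abs h2.abs hc
  · intro N
    refine Eventually.of_forall fun p => ?_
    rw [Real.norm_eq_abs, abs_mul]
    exact mul_le_mul (gkcTrunc_abs_le h N _) (gkcTrunc_abs_le h N _) (abs_nonneg _) (abs_nonneg _)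
  · refine Eventually.of_forall fun p => ?_
    exact (gkcTrunc_tendsto h _).mul (gkcTrunc_tendsto h _)

/-- convexity of `c ↦ E[h · mehler c h]`, general case -/
theorem gkc_form_convex {h : EE m → ℝ} (hm : Measurable h) (h2 : MemLp h 2 (gam m)) {c : ℝ}
    (hc : c ∈ Icc (0 : ℝ) 1) :
    ∫ x, h x * mehler c h x ∂gam m
      ≤ (1 - c) * ∫ x, h x * mehler 0 h x ∂gam m + c * ∫ x, h x * mehler 1 h x ∂gam m := by
  have h0 : (0 : ℝ) ∈ Icc (0 : ℝ) 1 := ⟨le_rfl, zero_le_one⟩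
  have h1 : (1 : ℝ) ∈ Icc (0 : ℝ) 1 := ⟨zero_le_one, le_rfl⟩
  refine le_of_tendsto_of_tendsto (gkc_form_tendsto hm h2 hc)
    (((gkc_form_tendsto hm h2 h0).const_mul (1 - c)).add
      ((gkc_form_tendsto hm h2 h1).const_mul c)) ?_
  exact Eventually.of_forall fun N => gkc_form_convex_BM (gkcTrunc_BM hm N) hc

/-- for a mean zero `h`, `E[h · mehler c h] ≤ c E[h²]` -/
theorem gk_mehler_form_le {h : EE m → ℝ} (hm : Measurable h) (h2 : MemLp h 2 (gam m))
    (h0 : ∫ x, h x ∂gam m = 0) {c : ℝ} (hc : c ∈ Icc (0 : ℝ) 1) :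
    ∫ x, h x * mehler c h x ∂gam m ≤ c * ∫ x, (h x) ^ 2 ∂gam m := by
  have := gkc_form_convex hm h2 hc
  simp only [gk_mehler_zero, gk_mehler_one, h0, mul_zero, integral_zero, zero_add] at this
  simpa only [sq] using this

/-- second order Poincare inequality: spectral gap `2` on the orthogonal complement of the
constants and the linear functions -/
theorem gk_poincare2 {u : EE m → ℝ} (hu : C1L u) (h1 : ∀ r, ∫ x, pd r u x ∂gam m = 0) :
    ∫ x, (u x) ^ 2 ∂gam m - (∫ x, u x ∂gam m) ^ 2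
      ≤ (1 / 2) * ∫ x, ∑ r, (pd r u x) ^ 2 ∂gam m := by
  have h := gk_cov_repr hu hu
  have e1 : ∫ x, (u x) ^ 2 ∂gam m - (∫ x, u x ∂gam m) ^ 2
      = ∫ x, u x * u x ∂gam m - (∫ x, u x ∂gam m) * (∫ x, u x ∂gam m) := by
    simp only [sq]
  rw [e1, h]
  set S := ∫ x, ∑ r, (pd r u x) ^ 2 ∂gam m with hS
  have hS' : S = ∑ r, ∫ x, (pd r u x) ^ 2 ∂gam m := by
    rw [hS, integral_finsetSum]
    intro r _
    exact ((hu.toC1P.pd_PG r).memLp 2).integrable_sq
  have h2 : ∀ c ∈ Icc (0 : ℝ) 1, ∫ x, ∑ r, pd r u x * mehler c (pd r u) x ∂gam m ≤ c * S := by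
    intro c hc
    rw [gkc_psi_eq_sum hu hu hc, hS', Finset.mul_sum]
    refine Finset.sum_le_sum fun r _ => ?_
    exact gk_mehler_form_le (hu.toC1P.pd_PG r).1 ((hu.toC1P.pd_PG r).memLp 2) (h1 r) hc
  calc ∫ c in (0 : ℝ)..1, ∫ x, ∑ r, pd r u x * mehler c (pd r u) x ∂gam m
      ≤ ∫ c in (0 : ℝ)..1, c * S :=
        intervalIntegral.integral_mono_on zero_le_one (gkc_psi_intervalIntegrable hu hu)
          (Continuous.intervalIntegrable (by fun_prop) _ _) h2
    _ = (1 / 2) * S := by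
        rw [intervalIntegral.integral_mul_const, integral_id]
        norm_num

end Claimed.Agent.R260
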