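/-
Row 260, package GK (Gaussian kit): GH1 contains C1P and Lipschitz functions; Poincare inequalities; Mehler regularisation.
Owner: helper291.  Statements verbatim from helper200's skeleton.  Helper prefix `gke_`.
-/
import Claimed.Agent.R260.GKClosB
import Claimed.Agent.R260.GKCov
import Claimed.Agent.R260.GKClosC0
import Claimed.Agent.R260.GKMehlerC
import Claimed.Agent.R260.GKMehlerS

namespace Claimed.Agent.R260

open MeasureTheory ProbabilityTheory Filter Topology Set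

variable {m : ℕ}

theorem gk_gh1_of_C1P {u : EE m → ℝ} (hu : C1P u) : GH1 u (fun r => pd r u) :=
  gkc_gh1_of_C1P hu

theorem gk_gh1_of_lipschitz {u : EE m → ℝ} {K : NNReal} (hu : LipschitzWith K u) :
    GH1 u (fun r => pd r u) := by
  have hPG := gk_PG_of_lipschitz hu
  have hg : ∀ r, BM (pd r u) := fun r => gk_pd_BM_of_lipschitz hu r
  have hg2 : ∀ r, MemLp (pd r u) 2 (gam m) := fun r => (hg r).toPG.memLp_two
  have hIoo : ∀ᶠ c : ℝ in 𝓝[<] 1, c ∈ Ioo (0 : ℝ) 1 := Ioo_mem_nhdsLT zero_lt_one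
  refine gk_gh1_of_tendsto (l := 𝓝[<] (1 : ℝ)) (v := fun c => mehler c u)
    (dv := fun c r => pd r (mehler c u)) ?_ hPG.memLp_two hg2
    (gk_mehler_tendsto hPG.1 hPG.memLp_two) fun r => ?_
  · filter_upwards [hIoo] with c hc
    exact gk_gh1_of_C1L (gk_mehler_niceL ⟨hc.1.le, hc.2⟩ hu).toC1L
  · have h1 := gk_mehler_tendsto (hg r).1 (hg2 r)
    have h2 : Tendsto (fun c : ℝ => 2 * ∫ x, (mehler c (pd r u) x - pd r u x) ^ 2 ∂gam m
        + 2 * ((c - 1) ^ 2 * ∫ x, (pd r u x) ^ 2 ∂gam m)) (𝓝[<] 1) (𝓝 0) := by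
      have h3 : Tendsto (fun c : ℝ => (c - 1) ^ 2 * ∫ x, (pd r u x) ^ 2 ∂gam m) (𝓝[<] 1)
          (𝓝 (((1 : ℝ) - 1) ^ 2 * ∫ x, (pd r u x) ^ 2 ∂gam m)) := by
        refine Tendsto.mono_left ?_ nhdsWithin_le_nhds
        exact (Continuous.tendsto (by fun_prop) 1)
      have := (h1.const_mul 2).add (h3.const_mul 2)
      simpa using this
    refine squeeze_zero' (Eventually.of_forall fun c => integral_nonneg fun x => sq_nonneg _) ?_ h2
    filter_upwards [hIoo] with c hc
    have hcI : c ∈ Icc (0 : ℝ) 1 := ⟨hc.1.le, hc.2.le⟩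
    have hM := gk_mehler_memLp hcI (hg r).1 (hg2 r)
    have A : MemLp (fun x => c * (mehler c (pd r u) x - pd r u x)) 2 (gam m) :=
      (gk_memLp_sub hM (hg2 r)).const_mul c
    have B : MemLp (fun x => (c - 1) * pd r u x) 2 (gam m) := (hg2 r).const_mul (c - 1)
    have h4 := gk_integral_add_sq_le A B
    have e1 : ∀ x, pd r (mehler c u) x - pd r u x
        = c * (mehler c (pd r u) x - pd r u x) + (c - 1) * pd r u x := by
      intro x
      rw [gk_pd_mehler_of_lipschitz ⟨hc.1.le, hc.2⟩ hu r x]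
      ring
    simp_rw [e1]
    refine h4.trans ?_
    simp_rw [mul_pow]
    rw [integral_const_mul, integral_const_mul]
    have h5 : 0 ≤ ∫ x, (mehler c (pd r u) x - pd r u x) ^ 2 ∂gam m :=
      integral_nonneg fun x => sq_nonneg _
    have h6 : c ^ 2 ≤ 1 := by nlinarith [hc.1, hc.2]
    nlinarith

/-- convergence of the Dirichlet energies -/
theorem gke_tendsto_energy {du : Fin m → EE m → ℝ} {dv : ℕ → Fin m → EE m → ℝ}
    (hdv : ∀ n r, MemLp (dv n r) 2 (gam m)) (hdu : ∀ r, MemLp (du r) 2 (gam m))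
    (h1 : ∀ r, Tendsto (fun n => ∫ x, (dv n r x - du r x) ^ 2 ∂gam m) atTop (𝓝 0)) :
    Tendsto (fun n => ∫ x, ∑ r, (dv n r x) ^ 2 ∂gam m) atTop
      (𝓝 (∫ x, ∑ r, (du r x) ^ 2 ∂gam m)) := by
  rw [integral_finsetSum _ fun r _ => (hdu r).integrable_sq]
  have e : ∀ n, ∫ x, ∑ r, (dv n r x) ^ 2 ∂gam m = ∑ r, ∫ x, (dv n r x) ^ 2 ∂gam m := fun n =>
    integral_finsetSum _ fun r _ => (hdv n r).integrable_sq
  simp_rw [e]
  exact tendsto_finsetSum _ fun r _ =>
    gkl_tendsto_integral_sq (fun n => hdv n r) (hdu r) (h1 r)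

/-- convergence of the variances -/
theorem gke_tendsto_var {v : ℕ → EE m → ℝ} {u : EE m → ℝ}
    (hv : ∀ n, MemLp (v n) 2 (gam m)) (hu : MemLp u 2 (gam m))
    (h0 : Tendsto (fun n => ∫ x, (v n x - u x) ^ 2 ∂gam m) atTop (𝓝 0)) :
    Tendsto (fun n => ∫ x, (v n x) ^ 2 ∂gam m - (∫ x, v n x ∂gam m) ^ 2) atTop
      (𝓝 (∫ x, (u x) ^ 2 ∂gam m - (∫ x, u x ∂gam m) ^ 2)) :=
  (gkl_tendsto_integral_sq hv hu h0).sub ((gkl_tendsto_integral hv hu h0).pow 2)

theorem GH1.poincare {u : EE m → ℝ} {du : Fin m → EE m → ℝ} (hu : GH1 u du) :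
    ∫ x, (u x) ^ 2 ∂gam m - (∫ x, u x ∂gam m) ^ 2 ≤ ∫ x, ∑ r, (du r x) ^ 2 ∂gam m := by
  obtain ⟨hu2, hdu2, v, hv, h0, h1⟩ := hu
  exact le_of_tendsto_of_tendsto' (gke_tendsto_var (fun n => (hv n).memLp) hu2 h0)
    (gke_tendsto_energy (dv := fun n r => pd r (v n)) (fun n r => (hv n).pd_memLp r)
      hdu2 h1)
    fun n => gk_poincare (hv n)

/-- the linear form with coefficients `a` -/
noncomputable def gkeLin (a : Fin m → ℝ) : EE m →L[ℝ] ℝ :=
  ∑ r, a r • (EuclideanSpace.proj r : EE m →L[ℝ] ℝ)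

/-- generates the equation lemmas of `gkeLin` in this file (rule 6: unique names) -/
theorem gke_defs_eqns_cite : True := by
  have := @gkeLin.eq_1
  trivial

theorem gkeLin_apply (a : Fin m → ℝ) (x : EE m) : gkeLin a x = ∑ r, a r * x r := by
  simp [gkeLin]

theorem gkeLin_eb (a : Fin m → ℝ) (s : Fin m) : gkeLin a (eb s) = a s := by
  rw [gkeLin_apply]
  simp [eb]

theorem gke_C1L_sub_lin {v : EE m → ℝ} (hv : C1L v) (a : Fin m → ℝ) :
    C1L (fun x => v x - gkeLin a x) := by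
  obtain ⟨hc, C, hC⟩ := hv
  refine ⟨hc.sub (gkeLin a).contDiff, C + ‖gkeLin a‖, fun x => ?_⟩
  rw [fderiv_fun_sub (hc.differentiable one_ne_zero).differentiableAt
    (gkeLin a).differentiableAt, ContinuousLinearMap.fderiv]
  exact (norm_sub_le _ _).trans (add_le_add (hC x) le_rfl)

theorem gke_pd_sub_lin {v : EE m → ℝ} (hv : C1L v) (a : Fin m → ℝ) (s : Fin m) (x : EE m) :
    pd s (fun x => v x - gkeLin a x) x = pd s v x - a s := by
  unfold pd
  rw [fderiv_fun_sub (hv.1.differentiable one_ne_zero).differentiableAt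
    (gkeLin a).differentiableAt, ContinuousLinearMap.fderiv]
  simp [gkeLin_eb]

theorem gke_memLp_lin (a : Fin m → ℝ) : MemLp (fun x : EE m => gkeLin a x) 2 (gam m) := by
  simp_rw [gkeLin_apply]
  exact memLp_finsetSum _ fun r _ => (gk_PG_coord r).memLp_two.const_mul (a r)

theorem GH1.poincare2 {u : EE m → ℝ} {du : Fin m → EE m → ℝ} (hu : GH1 u du)
    (h1 : ∀ r, ∫ x, du r x ∂gam m = 0) :
    ∫ x, (u x) ^ 2 ∂gam m - (∫ x, u x ∂gam m) ^ 2
      ≤ (1 / 2) * ∫ x, ∑ r, (du r x) ^ 2 ∂gam m := by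
  obtain ⟨hu2, hdu2, v, hv, h0, hd⟩ := hu
  set a : ℕ → Fin m → ℝ := fun n r => ∫ x, pd r (v n) x ∂gam m with ha
  have ha0 : ∀ r, Tendsto (fun n => a n r) atTop (𝓝 0) := by
    intro r
    have := gkl_tendsto_integral (fun n => (hv n).pd_memLp r) (hdu2 r) (hd r)
    rwa [h1 r] at this
  set w : ℕ → EE m → ℝ := fun n x => v n x - gkeLin (a n) x with hw
  have hwC : ∀ n, C1L (w n) := fun n => gke_C1L_sub_lin (hv n) (a n)
  have hpd : ∀ n s x, pd s (w n) x = pd s (v n) x - a n s := fun n s x =>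
    gke_pd_sub_lin (hv n) (a n) s x
  have hmean : ∀ n s, ∫ x, pd s (w n) x ∂gam m = 0 := by
    intro n s
    simp_rw [hpd]
    rw [integral_sub ((hv n).pd_memLp s |>.integrable (by norm_num)) (integrable_const _)]
    simp [ha]
  -- the linear corrections tend to zero
  have hlin : Tendsto (fun n => ∫ x, (-gkeLin (a n) x - 0) ^ 2 ∂gam m) atTop (𝓝 0) := by
    have h2 := gkl_tendsto_sum (μ := gam m) (l := atTop) (Finset.univ : Finset (Fin m))
      (f := fun r n x => -(a n r * x r)) (g := fun _ _ => 0)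
      (fun r n => ((gk_PG_coord r).memLp_two.const_mul (a n r)).neg) (fun _ => MemLp.zero') ?_
    · refine h2.congr fun n => integral_congr_ae (Eventually.of_forall fun x => ?_)
      simp [gkeLin_apply]
    · intro r _
      have e : ∀ n, ∫ x : EE m, (-(a n r * x r) - 0) ^ 2 ∂gam m
          = (a n r) ^ 2 * ∫ x : EE m, (x r) ^ 2 ∂gam m := by
        intro n
        rw [← integral_const_mul]
        refine integral_congr_ae (Eventually.of_forall fun x => ?_)
        simp only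
        ring
      simp_rw [e]
      have := ((ha0 r).pow 2).mul_const (∫ x : EE m, (x r) ^ 2 ∂gam m)
      simpa using this
  have hw0 : Tendsto (fun n => ∫ x, (w n x - u x) ^ 2 ∂gam m) atTop (𝓝 0) := by
    have h2 := gkl_tendsto_add (fun n => (hv n).memLp) hu2
      (f' := fun n x => -gkeLin (a n) x) (g' := fun _ => 0)
      (fun n => (gke_memLp_lin (a n)).neg) (MemLp.zero' (μ := gam m) (p := 2) (ε := ℝ)) h0 hlin
    refine h2.congr fun n => integral_congr_ae (Eventually.of_forall fun x => ?_)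
    simp only [hw]
    ring
  have hwd : ∀ r, Tendsto (fun n => ∫ x, (pd r (w n) x - du r x) ^ 2 ∂gam m) atTop (𝓝 0) := by
    intro r
    have hc : Tendsto (fun n => ∫ x : EE m, (-(a n r) - 0) ^ 2 ∂gam m) atTop (𝓝 0) := by
      have := (ha0 r).pow 2
      simpa using this
    have h2 := gkl_tendsto_add (fun n => (hv n).pd_memLp r) (hdu2 r)
      (f' := fun n _ => -(a n r)) (g' := fun _ => 0)
      (fun n => memLp_const _) (MemLp.zero' (μ := gam m) (p := 2) (ε := ℝ)) (hd r) hc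
    refine h2.congr fun n => integral_congr_ae (Eventually.of_forall fun x => ?_)
    simp only [hpd]
    ring
  exact le_of_tendsto_of_tendsto' (gke_tendsto_var (fun n => (hwC n).memLp) hu2 hw0)
    ((gke_tendsto_energy (dv := fun n r => pd r (w n)) (fun n r => (hwC n).pd_memLp r)
      hdu2 hwd).const_mul (1 / 2))
    fun n => gk_poincare2 (hwC n) (hmean n)

theorem gke_PG_sub {u v : EE m → ℝ} (hu : PG u) (hv : PG v) : PG (fun x => u x - v x) := by
  have h1 : PG (fun _ : EE m => (-1 : ℝ)) := BM.toPG ⟨measurable_const, 1, fun _ => by simp⟩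
  have h2 := hu.add (h1.mul hv)
  have e : (fun x => u x - v x) = fun x => u x + -1 * v x := by
    funext x; ring
  rw [e]
  exact h2

theorem gke_PG_sq {u : EE m → ℝ} (hu : PG u) : PG (fun x => (u x) ^ 2) := by
  have := hu.mul hu
  simpa only [sq] using this

/-- the kernel integrand is integrable -/
theorem gke_kernel_integrable (c : ℝ) {u : EE m → ℝ} (hu : PG u) (r : Fin m) (x : EE m) :
    Integrable (fun z : EE m => u (c • x + Real.sqrt (1 - c ^ 2) • z) * z r) (gam m) :=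
  ((hu.comp_affine (c • x) (Real.sqrt (1 - c ^ 2))).mul (gk_PG_coord r)).integrable

theorem gke_pd_mehler_sub {c : ℝ} (hc : c ∈ Ico (0 : ℝ) 1) {u v : EE m → ℝ} (hu : PG u)
    (hv : PG v) (r : Fin m) (x : EE m) :
    pd r (mehler c (fun y => u y - v y)) x = pd r (mehler c u) x - pd r (mehler c v) x := by
  rw [gk_pd_mehler_kernel hc (gke_PG_sub hu hv), gk_pd_mehler_kernel hc hu,
    gk_pd_mehler_kernel hc hv, ← mul_sub,
    ← integral_sub (gke_kernel_integrable c hu r x) (gke_kernel_integrable c hv r x)]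
  congr 1
  refine integral_congr_ae (Eventually.of_forall fun z => ?_)
  simp only
  ring

/-- pointwise Cauchy--Schwarz bound for the kernel formula -/
theorem gke_pd_mehler_sq_le {c : ℝ} (hc : c ∈ Ico (0 : ℝ) 1) {u : EE m → ℝ} (hu : PG u)
    (r : Fin m) (x : EE m) :
    (pd r (mehler c u) x) ^ 2
      ≤ ((c / Real.sqrt (1 - c ^ 2)) ^ 2 * ∫ z : EE m, (z r) ^ 2 ∂gam m)
          * mehler c (fun y => (u y) ^ 2) x := by
  rw [gk_pd_mehler_kernel hc hu, mul_pow, mul_assoc]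
  refine mul_le_mul_of_nonneg_left ?_ (sq_nonneg _)
  have h := gk_cs (μ := gam m) (hu.comp_affine (c • x) (Real.sqrt (1 - c ^ 2))).memLp_two
    (gk_PG_coord r).memLp_two
  rw [mul_comm] at h
  exact h

theorem gke_pd_mehler_measurable (c : ℝ) (u : EE m → ℝ) (r : Fin m) :
    Measurable (pd r (mehler c u)) :=
  measurable_fderiv_apply_const ℝ (mehler c u) (eb r)

theorem gke_pd_mehler_memLp {c : ℝ} (hc : c ∈ Ico (0 : ℝ) 1) {u : EE m → ℝ} (hu : PG u)
    (r : Fin m) : MemLp (pd r (mehler c u)) 2 (gam m) := by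
  have hcI : c ∈ Icc (0 : ℝ) 1 := ⟨hc.1, hc.2.le⟩
  rw [memLp_two_iff_integrable_sq (gke_pd_mehler_measurable c u r).aestronglyMeasurable]
  refine ((gk_mehler_integrable_of_integrable hcI (gke_PG_sq hu).integrable).const_mul
    ((c / Real.sqrt (1 - c ^ 2)) ^ 2 * ∫ z : EE m, (z r) ^ 2 ∂gam m)).mono'
    ((gke_pd_mehler_measurable c u r).pow_const 2).aestronglyMeasurable ?_
  refine Eventually.of_forall fun x => ?_
  rw [Real.norm_of_nonneg (sq_nonneg _)]
  exact gke_pd_mehler_sq_le hc hu r x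

theorem gke_integral_pd_mehler_sq_le {c : ℝ} (hc : c ∈ Ico (0 : ℝ) 1) {u : EE m → ℝ} (hu : PG u)
    (r : Fin m) :
    ∫ x, (pd r (mehler c u) x) ^ 2 ∂gam m
      ≤ ((c / Real.sqrt (1 - c ^ 2)) ^ 2 * ∫ z : EE m, (z r) ^ 2 ∂gam m)
          * ∫ x, (u x) ^ 2 ∂gam m := by
  have hcI : c ∈ Icc (0 : ℝ) 1 := ⟨hc.1, hc.2.le⟩
  rw [← gk_integral_mehler hcI (gke_PG_sq hu).1 (gke_PG_sq hu).integrable, ← integral_const_mul]
  exact integral_mono (gke_pd_mehler_memLp hc hu r).integrable_sq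
    ((gk_mehler_integrable_of_integrable hcI (gke_PG_sq hu).integrable).const_mul _)
    fun x => gke_pd_mehler_sq_le hc hu r x

/-- Mehler regularisation of an element of `GH1` (measurable representatives) -/
theorem GH1.pd_mehler {u : EE m → ℝ} {du : Fin m → EE m → ℝ} (hu : GH1 u du)
    (hum : PG u) (hdum : ∀ r, Measurable (du r)) {c : ℝ} (hc : c ∈ Ico (0 : ℝ) 1) (r : Fin m) :
    pd r (mehler c u) =ᵐ[gam m] fun x => c * mehler c (du r) x := by
  obtain ⟨hu2, hdu2, v, hv, h0, h1⟩ := hu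
  have hcI : c ∈ Icc (0 : ℝ) 1 := ⟨hc.1, hc.2.le⟩
  have hvPG : ∀ n, PG (v n) := fun n => (hv n).toC1P.toPG
  have hpm : ∀ n, Measurable (pd r (v n)) := fun n => ((hv n).toC1P.pd_PG r).1
  refine gkl_ae_eq_of_tendsto (l := atTop) (f := fun n => pd r (mehler c (v n)))
    (fun n => gke_pd_mehler_memLp hc (hvPG n) r) (gke_pd_mehler_memLp hc hum r)
    ((gk_mehler_memLp hcI (hdum r) (hdu2 r)).const_mul c) ?_ ?_
  · -- kernel formula
    have h2 := h0.const_mul ((c / Real.sqrt (1 - c ^ 2)) ^ 2 * ∫ z : EE m, (z r) ^ 2 ∂gam m)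
    rw [mul_zero] at h2
    refine squeeze_zero (fun n => integral_nonneg fun x => sq_nonneg _) (fun n => ?_) h2
    have h3 := gke_integral_pd_mehler_sq_le hc (gke_PG_sub (hvPG n) hum) r
    simp_rw [gke_pd_mehler_sub hc (hvPG n) hum r] at h3
    exact h3
  · -- commutation for `C1L` and contraction
    have h2 := (h1 r).const_mul (c ^ 2)
    rw [mul_zero] at h2
    refine squeeze_zero (fun n => integral_nonneg fun x => sq_nonneg _) (fun n => ?_) h2
    have h3 := gk_mehler_sub_sq_le hcI (hpm n) (hdum r) ((hv n).pd_memLp r) (hdu2 r)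
    have e : ∀ x, (pd r (mehler c (v n)) x - c * mehler c (du r) x) ^ 2
        = c ^ 2 * (mehler c (pd r (v n)) x - mehler c (du r) x) ^ 2 := by
      intro x
      rw [gk_pd_mehler hcI (hv n) r x]
      ring
    simp_rw [e]
    rw [integral_const_mul]
    exact mul_le_mul_of_nonneg_left h3 (sq_nonneg _)

end Claimed.Agent.R260
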