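/-
Row 260, package NORM, leaf NORM-TB: variance bounds for one transport map.
Tools: `gk_gh1_of_lipschitz`, `GH1.ibp`, `GH1.poincare` (GK kit).
-/
import Claimed.Agent.R260.NormDefs
import Claimed.Agent.R260.GKClosD

set_option autoImplicit false

namespace Claimed.Agent.R260

open MeasureTheory ProbabilityTheory Filter Topology Matrix

variable {m : ℕ}

/-! ### NORM-TB -/

/-- the linear functional `y ↦ ∑ e_i y_i` -/
noncomputable def normLinE (e : Fin m → ℝ) : EE m →L[ℝ] ℝ :=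
  ∑ i, e i • (EuclideanSpace.proj i : EE m →L[ℝ] ℝ)

theorem normLinE_apply (e : Fin m → ℝ) (y : EE m) : normLinE e y = ∑ i, e i * y i := by
  simp [normLinE]

theorem norm_tb_coord_lipschitz {K : NNReal} {T : EE m → EE m} (hT : LipschitzWith K T)
    (i : Fin m) : LipschitzWith K (fun y => T y i) := by
  refine LipschitzWith.of_dist_le_mul fun x y => ?_
  have h1 : dist (T x i) (T y i) ≤ dist (T x) (T y) := by
    rw [Real.dist_eq, dist_eq_norm]
    have := PiLp.norm_apply_le (T x - T y) i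
    simpa [Real.norm_eq_abs] using this
  exact h1.trans (hT.dist_le_mul x y)

/-- `pd r ⟨T,e⟩ = (Jᵀ e)_r` a.e. -/
theorem norm_pd_dir {lam Lam : ℝ} {T : EE m → EE m} (hT : NormTr lam Lam T) (e : Fin m → ℝ)
    (r : Fin m) : ∀ᵐ x ∂gam m, pd r (normDir T e) x = ∑ i, e i * coreJ T x i r := by
  have h1 : ∀ i, ∀ᵐ x ∂(volume : Measure (EE m)), DifferentiableAt ℝ (fun y => T y i) x :=
    fun i => (norm_tb_coord_lipschitz hT.lip i).ae_differentiableAt
  have h2 : ∀ᵐ x ∂(volume : Measure (EE m)), ∀ i, DifferentiableAt ℝ (fun y => T y i) x :=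
    ae_all_iff.2 h1
  filter_upwards [gk_gam_ac_volume.ae_le h2] with x hx
  unfold pd coreJ normDir
  have h3 : fderiv ℝ (fun x => ∑ i, e i * T x i) x
      = ∑ i, e i • fderiv ℝ (fun y => T y i) x := by
    rw [fderiv_fun_sum (fun i _ => (hx i).const_mul (e i))]
    refine Finset.sum_congr rfl fun i _ => ?_
    rw [fderiv_const_mul (hx i)]
  rw [h3]
  simp [pd]

theorem norm_dir_lipschitz {lam Lam : ℝ} {T : EE m → EE m} (hT : NormTr lam Lam T)
    (e : Fin m → ℝ) : ∃ K : NNReal, LipschitzWith K (normDir T e) := by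
  have h := (normLinE e).lipschitz.comp hT.lip
  have e1 : (normLinE e : EE m → ℝ) ∘ T = normDir T e := by
    funext x
    simp [normDir, normLinE_apply]
  rw [e1] at h
  exact ⟨_, h⟩

theorem norm_tb_qf_measurable {lam Lam : ℝ} {T : EE m → EE m} (hT : NormTr lam Lam T)
    (e : Fin m → ℝ) : Measurable (fun x => e ⬝ᵥ (coreJ T x *ᵥ e)) := by
  unfold dotProduct mulVec dotProduct
  refine Finset.measurable_sum _ fun i _ => measurable_const.mul ?_
  exact Finset.measurable_sum _ fun j _ => (hT.meas i j).mul measurable_const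

/-- integrability of the quadratic form of `J` -/
theorem norm_qf_integrable {lam Lam : ℝ} {T : EE m → EE m} (hT : NormTr lam Lam T)
    (e : Fin m → ℝ) : Integrable (fun x => e ⬝ᵥ (coreJ T x *ᵥ e)) (gam m) := by
  refine Integrable.of_bound (norm_tb_qf_measurable hT e).aestronglyMeasurable
    (max |lam * (e ⬝ᵥ e)| |Lam * (e ⬝ᵥ e)|) ?_
  filter_upwards [hT.between] with x hx
  obtain ⟨h1, h2⟩ := hx.2 e
  rw [Real.norm_eq_abs]
  exact abs_le_max_abs_abs h1 h2

theorem norm_mean_qf_bounds {lam Lam : ℝ} {T : EE m → EE m} (hT : NormTr lam Lam T)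
    {e : Fin m → ℝ} (he : e ⬝ᵥ e = 1) :
    lam ≤ ∫ x, e ⬝ᵥ (coreJ T x *ᵥ e) ∂gam m ∧ ∫ x, e ⬝ᵥ (coreJ T x *ᵥ e) ∂gam m ≤ Lam := by
  have hi := norm_qf_integrable hT e
  constructor
  · have : ∫ _x, lam ∂gam m ≤ ∫ x, e ⬝ᵥ (coreJ T x *ᵥ e) ∂gam m := by
      refine integral_mono_ae (integrable_const _) hi ?_
      filter_upwards [hT.between] with x hx
      have := (hx.2 e).1
      rwa [he, mul_one] at this
    simpa using this
  · have : ∫ x, e ⬝ᵥ (coreJ T x *ᵥ e) ∂gam m ≤ ∫ _x, Lam ∂gam m := by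
      refine integral_mono_ae hi (integrable_const _) ?_
      filter_upwards [hT.between] with x hx
      have := (hx.2 e).2
      rwa [he, mul_one] at this
    simpa using this

/-- Gaussian integration by parts against the linear form `ℓ(x) = ∑ e_r x_r`. -/
theorem norm_tb_ibp_lin (e : Fin m → ℝ) {v : EE m → ℝ} {dv : Fin m → EE m → ℝ} (hv : GH1 v dv) :
    ∫ x, (∑ r, e r * x r) * v x ∂gam m = ∑ r, e r * ∫ x, dv r x ∂gam m := by
  have hi : ∀ r, Integrable (fun x : EE m => x r * v x) (gam m) := fun r =>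
    gk_integrable_mul (PG.memLp_two (gk_PG_coord r)) hv.1
  have e1 : ∀ x : EE m, (∑ r, e r * x r) * v x = ∑ r, e r * (x r * v x) := fun x => by
    rw [Finset.sum_mul]
    exact Finset.sum_congr rfl fun r _ => by ring
  simp_rw [e1]
  rw [integral_finsetSum _ fun r _ => (hi r).const_mul (e r)]
  refine Finset.sum_congr rfl fun r _ => ?_
  rw [integral_const_mul, hv.ibp r]

theorem norm_tb_gh1_lin (e : Fin m → ℝ) :
    GH1 (fun x : EE m => ∑ r, e r * x r) (fun s _ => e s) := by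
  have h := GH1.sum (m := m) Finset.univ (u := fun r x => e r * x r)
    (du := fun r s _ => e r * (if s = r then 1 else 0))
    (fun r _ => (gk_gh1_coord r).const_mul (e r))
  have e2 : (fun (s : Fin m) (_ : EE m) => ∑ r, e r * (if s = r then (1 : ℝ) else 0))
      = fun s _ => e s := by
    funext s _
    simp
  rwa [e2] at h

theorem norm_tb_lin_sq (e : Fin m → ℝ) :
    ∫ x : EE m, (∑ r, e r * x r) ^ 2 ∂gam m = e ⬝ᵥ e := by
  have h := norm_tb_ibp_lin e (norm_tb_gh1_lin (m := m) e)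
  simp only [integral_const, probReal_univ, smul_eq_mul, one_mul] at h
  simp_rw [sq]
  rw [h]
  rfl

theorem norm_tb_lin_mean (e : Fin m → ℝ) : ∫ x : EE m, (∑ r, e r * x r) ∂gam m = 0 := by
  have h := norm_tb_ibp_lin e (gk_gh1_const (m := m) 1)
  simpa using h

theorem norm_tb_var_eq {u : EE m → ℝ} (hu : MemLp u 2 (gam m)) :
    ∫ x, (u x - ∫ y, u y ∂gam m) ^ 2 ∂gam m = normVarG u := by
  set c := ∫ y, u y ∂gam m with hc
  have hi1 : Integrable u (gam m) := hu.integrable (by norm_num)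
  have hi2 : Integrable (fun x => (u x) ^ 2) (gam m) := hu.integrable_sq
  have e1 : ∀ x, (u x - c) ^ 2 = (u x) ^ 2 - (2 * c) * u x + c ^ 2 := fun x => by ring
  simp_rw [e1]
  have i3 : Integrable (fun x => (2 * c) * u x) (gam m) := hi1.const_mul _
  have i4 : Integrable (fun x => (u x) ^ 2 - (2 * c) * u x) (gam m) := hi2.sub i3
  rw [integral_add i4 (integrable_const _), integral_sub hi2 i3, integral_const_mul]
  simp only [integral_const, probReal_univ, smul_eq_mul, one_mul]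
  unfold normVarG
  rw [← hc]
  ring

theorem norm_tb_mean_qf {lam Lam : ℝ} {T : EE m → EE m} (hT : NormTr lam Lam T)
    (e : Fin m → ℝ) :
    ∫ x, e ⬝ᵥ (coreJ T x *ᵥ e) ∂gam m = ∫ x, (∑ r, e r * x r) * normDir T e x ∂gam m := by
  obtain ⟨K, hK⟩ := norm_dir_lipschitz hT e
  rw [norm_tb_ibp_lin e (gk_gh1_of_lipschitz hK)]
  have hi : ∀ r, Integrable (pd r (normDir T e)) (gam m) := fun r =>
    ((gk_gh1_of_lipschitz hK).2.1 r).integrable (by norm_num)
  simp_rw [← integral_const_mul]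
  rw [← integral_finsetSum _ fun r _ => (hi r).const_mul (e r)]
  refine integral_congr_ae ?_
  filter_upwards [ae_all_iff.2 (norm_pd_dir hT e)] with x hx
  simp_rw [hx]
  unfold dotProduct mulVec dotProduct
  simp_rw [Finset.mul_sum]
  rw [Finset.sum_comm]
  refine Finset.sum_congr rfl fun r _ => Finset.sum_congr rfl fun i _ => by ring

/-- Cauchy--Schwarz + Gaussian integration by parts: `(E⟨e,Je⟩)² ≤ Var⟨T,e⟩` for `|e| = 1`. -/
theorem norm_sq_mean_le_var {lam Lam : ℝ} {T : EE m → EE m} (hT : NormTr lam Lam T)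
    {e : Fin m → ℝ} (he : e ⬝ᵥ e = 1) :
    (∫ x, e ⬝ᵥ (coreJ T x *ᵥ e) ∂gam m) ^ 2 ≤ normVarG (normDir T e) := by
  obtain ⟨K, hK⟩ := norm_dir_lipschitz hT e
  have hu : MemLp (normDir T e) 2 (gam m) := (gk_gh1_of_lipschitz hK).1
  have hl : MemLp (fun x : EE m => ∑ r, e r * x r) 2 (gam m) := (norm_tb_gh1_lin e).1
  set c := ∫ y, normDir T e y ∂gam m with hc
  have hu' : MemLp (fun x => normDir T e x - c) 2 (gam m) := hu.sub (memLp_const c)
  have h1 := gk_cs hl hu'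
  rw [norm_tb_lin_sq, he, one_mul, norm_tb_var_eq hu] at h1
  have h2 : ∫ x, (∑ r, e r * x r) * (normDir T e x - c) ∂gam m
      = ∫ x, (∑ r, e r * x r) * normDir T e x ∂gam m := by
    have i1 := gk_integrable_mul hl hu
    have i2 : Integrable (fun x : EE m => (∑ r, e r * x r) * c) (gam m) :=
      (hl.integrable (by norm_num)).mul_const c
    simp_rw [mul_sub]
    rw [integral_sub i1 i2, integral_mul_const, norm_tb_lin_mean, zero_mul, sub_zero]
  rw [h2, ← norm_tb_mean_qf hT e] at h1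
  exact h1

theorem norm_tb_dot_self_nonneg (v : Fin m → ℝ) : 0 ≤ v ⬝ᵥ v :=
  Finset.sum_nonneg fun i _ => mul_self_nonneg (v i)

/-- `|M v|² ≤ b ⟨v, M v⟩` for a symmetric matrix with `0 ≤ M ≤ b`. -/
theorem norm_tb_sq_le {a b : ℝ} (ha : 0 ≤ a) {M : Mat m} (hM : normBetween a b M)
    (v : Fin m → ℝ) : (M *ᵥ v) ⬝ᵥ (M *ᵥ v) ≤ b * (v ⬝ᵥ (M *ᵥ v)) := by
  obtain ⟨hs, hq⟩ := hM
  set w := M *ᵥ v with hw
  have hpos : ∀ z : Fin m → ℝ, 0 ≤ z ⬝ᵥ (M *ᵥ z) := fun z =>
    le_trans (mul_nonneg ha (norm_tb_dot_self_nonneg z)) (hq z).1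
  have hsym : v ⬝ᵥ (M *ᵥ w) = w ⬝ᵥ w := by
    rw [dotProduct_mulVec, ← mulVec_transpose, hs.eq]
  have key : ∀ t : ℝ, 0 ≤ (v ⬝ᵥ (M *ᵥ v)) * (t * t) + (2 * (w ⬝ᵥ w)) * t + w ⬝ᵥ (M *ᵥ w) := by
    intro t
    have h := hpos (w + t • v)
    have e1 : (w + t • v) ⬝ᵥ (M *ᵥ (w + t • v))
        = (v ⬝ᵥ (M *ᵥ v)) * (t * t) + (2 * (w ⬝ᵥ w)) * t + w ⬝ᵥ (M *ᵥ w) := by
      rw [mulVec_add, mulVec_smul, add_dotProduct, dotProduct_add, dotProduct_add,
        smul_dotProduct, smul_dotProduct, dotProduct_smul, dotProduct_smul, hsym, ← hw]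
      simp only [smul_eq_mul]
      ring
    rwa [e1] at h
  have hd := discrim_le_zero key
  unfold discrim at hd
  have h3 := (hq w).2
  have h4 := hpos v
  have h5 : 0 ≤ w ⬝ᵥ w := norm_tb_dot_self_nonneg w
  rcases h5.eq_or_lt with h6 | h6
  · rw [← h6]
    have hb : 0 ≤ b * (v ⬝ᵥ (M *ᵥ v)) := by
      by_cases hv : v ⬝ᵥ v = 0
      · have : v = 0 := dotProduct_self_eq_zero.1 hv
        simp [this]
      · have hv' : 0 < v ⬝ᵥ v := lt_of_le_of_ne (norm_tb_dot_self_nonneg v) (Ne.symm hv)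
        have := (hq v).1.trans (hq v).2
        have hb0 : 0 ≤ b := by
          by_contra hneg
          rw [not_le] at hneg
          nlinarith
        exact mul_nonneg hb0 h4
    exact hb
  · -- `(w·w)² ≤ (v·Mv)(w·Mw) ≤ (v·Mv) b (w·w)`
    have h7 : (w ⬝ᵥ w) ^ 2 ≤ (v ⬝ᵥ (M *ᵥ v)) * (w ⬝ᵥ (M *ᵥ w)) := by nlinarith
    have h8 : (v ⬝ᵥ (M *ᵥ v)) * (w ⬝ᵥ (M *ᵥ w)) ≤ (v ⬝ᵥ (M *ᵥ v)) * (b * (w ⬝ᵥ w)) :=
      mul_le_mul_of_nonneg_left h3 h4
    have h9 : (w ⬝ᵥ w) * (w ⬝ᵥ w) ≤ (b * (v ⬝ᵥ (M *ᵥ v))) * (w ⬝ᵥ w) := by nlinarith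
    exact le_of_mul_le_mul_right h9 h6

/-- Poincare + `J² ≤ Lam J`: `Var⟨T,e⟩ ≤ Lam E⟨e,Je⟩`. -/
theorem norm_var_le {lam Lam : ℝ} (hlam : 0 < lam) {T : EE m → EE m} (hT : NormTr lam Lam T)
    (e : Fin m → ℝ) :
    normVarG (normDir T e) ≤ Lam * ∫ x, e ⬝ᵥ (coreJ T x *ᵥ e) ∂gam m := by
  obtain ⟨K, hK⟩ := norm_dir_lipschitz hT e
  have hG := gk_gh1_of_lipschitz hK
  have h1 := hG.poincare
  refine h1.trans ?_
  rw [← integral_const_mul]
  refine integral_mono_ae ?_ ((norm_qf_integrable hT e).const_mul Lam) ?_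
  · exact integrable_finsetSum _ fun r _ => (hG.2.1 r).integrable_sq
  · filter_upwards [ae_all_iff.2 (norm_pd_dir hT e), hT.between] with x hx hb
    simp_rw [hx]
    have h2 := norm_tb_sq_le hlam.le hb e
    refine le_trans (le_of_eq ?_) h2
    have h3 : ∀ r, ∑ i, e i * coreJ T x i r = (coreJ T x *ᵥ e) r := fun r => by
      unfold mulVec dotProduct
      refine Finset.sum_congr rfl fun i _ => ?_
      have := hb.1.apply r i
      simp only [this, mul_comm]
    simp_rw [h3]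
    unfold dotProduct
    exact Finset.sum_congr rfl fun r _ => by ring

/-- `lam² ≤ Var⟨T,e⟩ ≤ Lam²`. -/
theorem norm_var_bounds {lam Lam : ℝ} (hlam : 0 < lam) {T : EE m → EE m} (hT : NormTr lam Lam T)
    {e : Fin m → ℝ} (he : e ⬝ᵥ e = 1) :
    lam ^ 2 ≤ normVarG (normDir T e) ∧ normVarG (normDir T e) ≤ Lam ^ 2 := by
  obtain ⟨h1, h2⟩ := norm_mean_qf_bounds hT he
  have hLam : 0 < Lam := lt_of_lt_of_le hlam (h1.trans h2)
  constructor
  · refine le_trans ?_ (norm_sq_mean_le_var hT he)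
    exact pow_le_pow_left₀ hlam.le h1 2
  · refine (norm_var_le hlam hT e).trans ?_
    nlinarith

end Claimed.Agent.R260
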