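/-
Row 260, package NORM, leaf NORM-SIGN: the two sign conditions of the variational inequality.
Tools: `scQ_convexOn`, `scD_strictAnti`, `scQ_strictMono`, `scQ_scQinv` (ScLemma21), `mxFun_jensen`,
`mxFun_quad`, `mxFun_comp` (Mx library), `normBetween.eig_mem` (NormBr).
-/
import Claimed.Agent.R260.NormBr
import Claimed.Agent.R260.NormTB
import Claimed.Agent.R260.CorePre

set_option autoImplicit false

namespace Claimed.Agent.R260

open MeasureTheory ProbabilityTheory Filter Topology Matrix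

variable {m : ℕ}

theorem normsign_eig_pos {lam Lam : ℝ} (hlam : 0 < lam) {J : Mat m} (hJ : normBetween lam Lam J)
    (i : Fin m) : 0 < mxEig J i := lt_of_lt_of_le hlam (hJ.eig_mem i).1

/-- measurability and boundedness of the entries of `A` -/
theorem normA_bdd {lam Lam : ℝ} (hlam : 0 < lam) {T : EE m → EE m} (hT : NormTr lam Lam T) :
    (∀ i j, AEStronglyMeasurable (fun x => normA T x i j) (gam m)) ∧
      ∃ K : ℝ, ∀ᵐ x ∂gam m, ∀ i j, |normA T x i j| ≤ K := by
  set hi := max lam Lam with hhi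
  have hlh : lam ≤ hi := le_max_left _ _
  constructor
  · intro i j
    have hmeas := mxFun_measurable_sym hT.meas (cp_qinv_clamp_continuous hlam hlh) i j
    refine hmeas.aestronglyMeasurable.congr ?_
    filter_upwards [hT.between] with x hx
    have h1 : (1 / 2 : ℝ) • (coreJ T x + (coreJ T x)ᵀ) = coreJ T x := cpSym_of_isSymm hx.1
    rw [h1]
    unfold normA
    have : mxFun (fun a => scQinv (cpClamp lam hi a)) (coreJ T x) = mxFun scQinv (coreJ T x) :=
      mxFun_congr fun k => by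
        rw [cpClamp_of_mem ⟨(hx.eig_mem k).1, (hx.eig_mem k).2.trans (le_max_right _ _)⟩]
    rw [this]
  · refine ⟨max |scQinv lam| |scQinv hi|, ?_⟩
    filter_upwards [hT.between] with x hx i j
    unfold normA
    refine mxFun_apply_abs_le (fun a => ?_) i j
    have ha := hx.eig_mem a
    have hpos : 0 < mxEig (coreJ T x) a := lt_of_lt_of_le hlam ha.1
    have h1 : scQinv lam ≤ scQinv (mxEig (coreJ T x) a) :=
      scQinv_strictMonoOn.monotoneOn (Set.mem_Ioi.mpr hlam) (Set.mem_Ioi.mpr hpos) ha.1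
    have h2 : scQinv (mxEig (coreJ T x) a) ≤ scQinv hi :=
      scQinv_strictMonoOn.monotoneOn (Set.mem_Ioi.mpr hpos)
        (Set.mem_Ioi.mpr (lt_of_lt_of_le hlam hlh)) (ha.2.trans (le_max_right _ _))
    exact abs_le_max_abs_abs h1 h2

theorem normA_integrable {lam Lam : ℝ} (hlam : 0 < lam) {T : EE m → EE m}
    (hT : NormTr lam Lam T) (i j : Fin m) : Integrable (fun x => normA T x i j) (gam m) := by
  obtain ⟨h1, K, h2⟩ := normA_bdd hlam hT
  refine Integrable.mono' (integrable_const K) (h1 i j) ?_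
  filter_upwards [h2] with x hx
  exact hx i j

theorem normsign_qf_eq (M : Mat m) (e : Fin m → ℝ) :
    e ⬝ᵥ (M *ᵥ e) = ∑ i, ∑ j, e i * (M i j * e j) := by
  simp only [dotProduct, mulVec, Finset.mul_sum]

/-- `⟨e, (E A) e⟩ = E ⟨e, A e⟩` -/
theorem normA_mean_qf {lam Lam : ℝ} (hlam : 0 < lam) {T : EE m → EE m} (hT : NormTr lam Lam T)
    (e : Fin m → ℝ) :
    e ⬝ᵥ (meanE (normA T) *ᵥ e) = ∫ x, e ⬝ᵥ (normA T x *ᵥ e) ∂gam m := by
  simp only [normsign_qf_eq]
  rw [integral_finsetSum _ fun i _ => integrable_finsetSum _ fun j _ =>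
      ((normA_integrable hlam hT i j).mul_const _).const_mul _]
  refine Finset.sum_congr rfl fun i _ => ?_
  rw [integral_finsetSum _ fun j _ => ((normA_integrable hlam hT i j).mul_const _).const_mul _]
  refine Finset.sum_congr rfl fun j _ => ?_
  rw [integral_const_mul, integral_mul_const]
  rfl

/-- pointwise matrix Jensen: `q(⟨e,Ae⟩) ≤ ⟨e,q(A)e⟩ = ⟨e,Je⟩`, `|e| = 1` -/
theorem norm_jensen_point {lam Lam : ℝ} (hlam : 0 < lam) {J : Mat m} (hJ : normBetween lam Lam J)
    {e : Fin m → ℝ} (he : e ⬝ᵥ e = 1) :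
    scQ (e ⬝ᵥ (mxFun scQinv J *ᵥ e)) ≤ e ⬝ᵥ (J *ᵥ e) := by
  have h := mxFun_jensen scQ_convexOn (mxFun_isSymm scQinv J) e he
  rw [mxFun_comp] at h
  have : mxFun (fun a => scQ (scQinv a)) J = mxFun (fun a => a) J :=
    mxFun_congr fun i => scQ_scQinv (normsign_eig_pos hlam hJ i)
  rwa [this, mxFun_id hJ.1] at h

/-- pointwise: `⟨e,Je⟩ ≤ ⟨e,Ae⟩ + d(q⁻¹ lam)`, `|e| = 1` (because `d = q - a` is decreasing) -/
theorem norm_upper_point {lam Lam : ℝ} (hlam : 0 < lam) {J : Mat m} (hJ : normBetween lam Lam J)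
    {e : Fin m → ℝ} (he : e ⬝ᵥ e = 1) :
    e ⬝ᵥ (J *ᵥ e) ≤ e ⬝ᵥ (mxFun scQinv J *ᵥ e) + scD (scQinv lam) := by
  have h := mxFun_quad_mono (f := fun a => a) (g := fun a => scQinv a + scD (scQinv lam)) (A := J)
    (fun i => by
      have hpos := normsign_eig_pos hlam hJ i
      have h1 : scQinv lam ≤ scQinv (mxEig J i) :=
        scQinv_strictMonoOn.monotoneOn (Set.mem_Ioi.mpr hlam) (Set.mem_Ioi.mpr hpos)
          (hJ.eig_mem i).1
      have h2 : scD (scQinv (mxEig J i)) ≤ scD (scQinv lam) := scD_strictAnti.antitone h1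
      have h3 : scD (scQinv (mxEig J i)) = mxEig J i - scQinv (mxEig J i) := by
        unfold scD; rw [scQ_scQinv hpos]
      show mxEig J i ≤ scQinv (mxEig J i) + scD (scQinv lam)
      linarith) e
  rw [mxFun_id hJ.1, mxFun_add, mxFun_const, Matrix.add_mulVec, dotProduct_add,
    Matrix.smul_mulVec, Matrix.one_mulVec, dotProduct_smul, he] at h
  simpa using h

/-- Jensen for the expectation: `q(E⟨e,Ae⟩) ≤ E⟨e,Je⟩` -/
theorem norm_jensen_mean {lam Lam : ℝ} (hlam : 0 < lam) {T : EE m → EE m} (hT : NormTr lam Lam T)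
    {e : Fin m → ℝ} (he : e ⬝ᵥ e = 1) :
    scQ (e ⬝ᵥ (meanE (normA T) *ᵥ e)) ≤ ∫ x, e ⬝ᵥ (coreJ T x *ᵥ e) ∂gam m := by
  rw [normA_mean_qf hlam hT e]
  have hint : Integrable (fun x => e ⬝ᵥ (normA T x *ᵥ e)) (gam m) := by
    simp only [normsign_qf_eq]
    exact integrable_finsetSum _ fun i _ => integrable_finsetSum _ fun j _ =>
      ((normA_integrable hlam hT i j).mul_const _).const_mul _
  have hpt : ∀ᵐ x ∂gam m, scQ (e ⬝ᵥ (normA T x *ᵥ e)) ≤ e ⬝ᵥ (coreJ T x *ᵥ e) := by
    filter_upwards [hT.between] with x hx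
    exact norm_jensen_point hlam hx he
  have hcomp : Integrable (fun x => scQ (e ⬝ᵥ (normA T x *ᵥ e))) (gam m) := by
    refine Integrable.mono' (norm_qf_integrable hT e)
      (scQ_continuous.comp_aestronglyMeasurable hint.1) ?_
    filter_upwards [hpt] with x hx
    rw [Real.norm_eq_abs, abs_of_pos (scQ_pos _)]
    exact hx
  have h1 := scQ_convexOn.map_integral_le (μ := gam m) scQ_continuous.continuousOn isClosed_univ
    (Filter.Eventually.of_forall fun _ => Set.mem_univ _) hint hcomp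
  exact h1.trans (integral_mono_ae hcomp (norm_qf_integrable hT e) hpt)

theorem normA_mean_isSymm (T : EE m → EE m) : (meanE (normA T)).IsSymm := by
  ext i j
  simp only [Matrix.transpose_apply, meanE, normA]
  congr 1
  ext x
  have := mxFun_isSymm scQinv (coreJ T x)
  exact congrFun (congrFun this i) j

theorem norm_sign_low {lam Lam : ℝ} (hlam : 0 < lam) {T : EE m → EE m} (hT : NormTr lam Lam T)
    {e : Fin m → ℝ} (he : e ⬝ᵥ e = 1) {s : ℝ} (hs0 : 0 ≤ s)
    (hvar : normVarG (normDir T e) ≤ s ^ 2) (hs : s < scQ 0) :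
    e ⬝ᵥ (meanE (normA T) *ᵥ e) < 0 := by
  have h1 := norm_jensen_mean hlam hT he
  have h2 := (norm_sq_mean_le_var hT he).trans hvar
  have h3 : ∫ x, e ⬝ᵥ (coreJ T x *ᵥ e) ∂gam m ≤ s := abs_le_of_sq_le_sq' h2 hs0 |>.2
  exact scQ_strictMono.lt_iff_lt.mp (lt_of_le_of_lt (h1.trans h3) hs)

theorem norm_sign_up {lam Lam : ℝ} (hlam : 0 < lam) {T : EE m → EE m} (hT : NormTr lam Lam T)
    {e : Fin m → ℝ} (he : e ⬝ᵥ e = 1) {w : ℝ} (hvar : w ≤ normVarG (normDir T e))
    (hw : Lam * scD (scQinv lam) < w) :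
    0 < e ⬝ᵥ (meanE (normA T) *ᵥ e) := by
  have h1 := hvar.trans (norm_var_le hlam hT e)
  obtain ⟨h2, h3⟩ := norm_mean_qf_bounds hT he
  have hLam : 0 < Lam := lt_of_lt_of_le hlam (h2.trans h3)
  have h4 : scD (scQinv lam) < ∫ x, e ⬝ᵥ (coreJ T x *ᵥ e) ∂gam m :=
    lt_of_mul_lt_mul_left (lt_of_lt_of_le hw h1) hLam.le
  have hint : Integrable (fun x => e ⬝ᵥ (normA T x *ᵥ e)) (gam m) := by
    have : (fun x => e ⬝ᵥ (normA T x *ᵥ e)) = fun x => ∑ i, ∑ j, e i * (normA T x i j * e j) := by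
      ext x
      simp only [dotProduct, mulVec, Finset.mul_sum]
    rw [this]
    exact integrable_finset_sum _ fun i _ => integrable_finset_sum _ fun j _ =>
      ((normA_integrable hlam hT i j).mul_const _).const_mul _
  have h5 : ∫ x, e ⬝ᵥ (coreJ T x *ᵥ e) ∂gam m
      ≤ ∫ x, (e ⬝ᵥ (normA T x *ᵥ e) + scD (scQinv lam)) ∂gam m := by
    refine integral_mono_ae (norm_qf_integrable hT e) (hint.add (integrable_const _)) ?_
    filter_upwards [hT.between] with x hx
    exact norm_upper_point hlam hx he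
  rw [integral_add hint (integrable_const _), ← normA_mean_qf hlam hT e] at h5
  simp only [integral_const, probReal_univ, smul_eq_mul, one_mul] at h5
  linarith

end Claimed.Agent.R260
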