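/-
Row 260, package NORM, leaf NORM-AFF: the affine family `corePush P V` (`P` in the box).
All statements are elementary (convexity under linear maps, explicit constants).
See `CorePush.lean` (helper235) for `lcp_QC_comp`, `lcp_convexOn_quad`, `lcp_coreLin_inv`,
`lcp_push_nicePot`, `lcp_push_map`, and `OTClass.lean` for the calculus of the class `QC = otQC`.
-/
import Claimed.Agent.R260.NormDefs
import Claimed.Agent.R260.CorePush
import Claimed.Agent.R260.OTBridge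

set_option autoImplicit false

namespace Claimed.Agent.R260

open MeasureTheory ProbabilityTheory Filter Topology Matrix
open scoped InnerProductSpace

variable {m : ℕ}

theorem normAff_norm_sq (y : EE m) : ‖y‖ ^ 2 = WithLp.ofLp y ⬝ᵥ WithLp.ofLp y := by
  rw [EuclideanSpace.norm_sq_eq]
  simp [dotProduct, sq]

theorem normAff_inner (x y : EE m) : ⟪x, y⟫_ℝ = WithLp.ofLp x ⬝ᵥ WithLp.ofLp y := by
  rw [EuclideanSpace.inner_eq_star_dotProduct]
  simp [dotProduct_comm]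

theorem normAff_symm {P : Mat m} (hP : P.IsSymm) (u v : Fin m → ℝ) :
    v ⬝ᵥ (P *ᵥ u) = u ⬝ᵥ (P *ᵥ v) := by
  rw [Matrix.dotProduct_mulVec, ← Matrix.mulVec_transpose, hP.eq, dotProduct_comm]

theorem normAff_inner_coreLin {P : Mat m} (hP : P.IsSymm) (u v : EE m) :
    ⟪coreLin P u, v⟫_ℝ = ⟪u, coreLin P v⟫_ℝ := by
  rw [normAff_inner, normAff_inner]
  simp only [coreLin]
  rw [dotProduct_comm, normAff_symm hP]

/-- generalised Cauchy--Schwarz for a positive semidefinite symmetric form. -/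
theorem normAff_cs {P : Mat m} (hP : P.IsSymm) (h0 : ∀ v : Fin m → ℝ, 0 ≤ v ⬝ᵥ (P *ᵥ v))
    (u v : Fin m → ℝ) : (u ⬝ᵥ (P *ᵥ v)) ^ 2 ≤ (u ⬝ᵥ (P *ᵥ u)) * (v ⬝ᵥ (P *ᵥ v)) := by
  have key : ∀ t : ℝ, 0 ≤ (v ⬝ᵥ (P *ᵥ v)) * (t * t) + (2 * (u ⬝ᵥ (P *ᵥ v))) * t
      + u ⬝ᵥ (P *ᵥ u) := by
    intro t
    have := h0 (u + t • v)
    rw [Matrix.mulVec_add, Matrix.mulVec_smul, add_dotProduct, dotProduct_add, dotProduct_add,
      smul_dotProduct, smul_dotProduct, dotProduct_smul, dotProduct_smul,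
      normAff_symm hP u v] at this
    simp only [smul_eq_mul] at this
    nlinarith
  have := discrim_le_zero key
  unfold discrim at this
  nlinarith

theorem normBetween.norm_sq_coreLin {a b : ℝ} (ha : 0 < a) {P : Mat m} (hP : normBetween a b P)
    (z : EE m) : a ^ 2 * ‖z‖ ^ 2 ≤ ‖coreLin P z‖ ^ 2 ∧ ‖coreLin P z‖ ^ 2 ≤ b ^ 2 * ‖z‖ ^ 2 := by
  have hq : ∀ w : EE m, a * ‖w‖ ^ 2 ≤ ⟪w, coreLin P w⟫_ℝ ∧ ⟪w, coreLin P w⟫_ℝ ≤ b * ‖w‖ ^ 2 := by
    intro w
    rw [normAff_inner, normAff_norm_sq]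
    exact hP.2 _
  constructor
  · have h1 := (hq z).1
    have h2 := real_inner_le_norm z (coreLin P z)
    have h3 : a * ‖z‖ ≤ ‖coreLin P z‖ := by
      rcases (norm_nonneg z).eq_or_lt with h | h
      · rw [← h]; simp
      · have : ‖z‖ * (a * ‖z‖) ≤ ‖z‖ * ‖coreLin P z‖ := by nlinarith
        exact le_of_mul_le_mul_left this h
    calc a ^ 2 * ‖z‖ ^ 2 = (a * ‖z‖) ^ 2 := by ring
      _ ≤ ‖coreLin P z‖ ^ 2 := by
        have : 0 ≤ a * ‖z‖ := by positivity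
        gcongr
  · have h0 : ∀ v : Fin m → ℝ, 0 ≤ v ⬝ᵥ (P *ᵥ v) := by
      intro v
      have h1 := (hP.2 v).1
      have h2 : 0 ≤ v ⬝ᵥ v := by
        simp only [dotProduct]
        exact Finset.sum_nonneg fun i _ => mul_self_nonneg _
      nlinarith
    have hcs := normAff_cs hP.1 h0 (WithLp.ofLp (coreLin P z)) (WithLp.ofLp z)
    have e1 : WithLp.ofLp (coreLin P z) ⬝ᵥ (P *ᵥ WithLp.ofLp z) = ‖coreLin P z‖ ^ 2 := by
      rw [normAff_norm_sq]; rfl
    have e2 : WithLp.ofLp (coreLin P z) ⬝ᵥ (P *ᵥ WithLp.ofLp (coreLin P z))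
        = ⟪coreLin P z, coreLin P (coreLin P z)⟫_ℝ := by
      rw [normAff_inner]; rfl
    have e3 : WithLp.ofLp z ⬝ᵥ (P *ᵥ WithLp.ofLp z) = ⟪z, coreLin P z⟫_ℝ := by
      rw [normAff_inner]; rfl
    rw [e1, e2, e3] at hcs
    have u1 := (hq (coreLin P z)).2
    have u2 := (hq z).2
    have l1 := (hq (coreLin P z)).1
    have l2 := (hq z).1
    set N := ‖coreLin P z‖ ^ 2 with hN
    set Z := ‖z‖ ^ 2 with hZ
    have hN0 : 0 ≤ N := by positivity
    have hZ0 : 0 ≤ Z := by positivity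
    set X := ⟪coreLin P z, coreLin P (coreLin P z)⟫_ℝ
    set Y := ⟪z, coreLin P z⟫_ℝ
    have hX0 : 0 ≤ X := le_trans (by positivity) l1
    have hY0 : 0 ≤ Y := le_trans (by positivity) l2
    have h5 : N ^ 2 ≤ (b * N) * (b * Z) := by
      calc N ^ 2 ≤ X * Y := hcs
        _ ≤ (b * N) * (b * Z) := mul_le_mul u1 u2 hY0 (hX0.trans u1)
    rcases hN0.eq_or_lt with h | h
    · rw [← h]; positivity
    · have : N * N ≤ N * (b ^ 2 * Z) := by nlinarith
      exact le_of_mul_le_mul_left this h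

theorem normBetween.posDef {a b : ℝ} (ha : 0 < a) {P : Mat m} (hP : normBetween a b P) :
    P.PosDef := by
  refine Matrix.PosDef.of_dotProduct_mulVec_pos ?_ ?_
  · have := hP.1
    rw [Matrix.IsHermitian, Matrix.conjTranspose_eq_transpose_of_trivial]
    exact this
  · intro x hx
    have h1 := (hP.2 x).1
    have h2 : 0 < x ⬝ᵥ x := by
      have := Matrix.dotProduct_star_self_pos_iff (v := x)
      simpa using this.mpr hx
    simp only [star_trivial]
    nlinarith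

/-- `|P⁻¹ y|² ∈ [|y|²/b², |y|²/a²]`. -/
theorem normBetween.inv_norm_sq {a b : ℝ} (ha : 0 < a) {P : Mat m} (hP : normBetween a b P)
    (y : EE m) : ‖y‖ ^ 2 / b ^ 2 ≤ ‖coreLin P⁻¹ y‖ ^ 2 ∧ ‖coreLin P⁻¹ y‖ ^ 2 ≤ ‖y‖ ^ 2 / a ^ 2 := by
  have hdet : P.det ≠ 0 := (hP.posDef ha).det_pos.ne'
  have h := hP.norm_sq_coreLin ha (coreLin P⁻¹ y)
  rw [lcp_coreLin_inv hdet] at h
  constructor
  · rcases eq_or_ne b 0 with hb | hb
    · rw [hb]; simp
    · rw [div_le_iff₀ (by positivity)]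
      linarith [h.2]
  · rw [le_div_iff₀ (by positivity)]
    linarith [h.1]

/-- `P ↦ P z` is continuous. -/
theorem norm_coreLin_tendsto {Pn : ℕ → Mat m} {P : Mat m} (h : Tendsto Pn atTop (𝓝 P)) (z : EE m) :
    Tendsto (fun n => coreLin (Pn n) z) atTop (𝓝 (coreLin P z)) := by
  have hc : Continuous (fun Q : Mat m => coreLin Q z) := by
    unfold coreLin
    exact (PiLp.continuous_toLp 2 _).comp (Continuous.matrix_mulVec continuous_id continuous_const)
  exact (hc.tendsto P).comp h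

theorem norm_push_QC {ε R c C : ℝ} (hε : 0 < ε) (hc : 0 < c) (hcC : c ≤ C) {V : EE m → ℝ}
    (hV : QC c C V) {P : Mat m} (hP : normBetween ε R P) :
    QC (c / R ^ 2) (C / ε ^ 2) (corePush P V) := by
  set L : EE m →ₗ[ℝ] EE m := Matrix.toEuclideanLin P⁻¹ with hLdef
  have hL : ∀ y, L y = coreLin P⁻¹ y := fun y => rfl
  have hC : 0 < C := lt_of_lt_of_le hc hcC
  constructor
  · have q1 := lcp_convexOn_quad L (c / 2) (-(c / R ^ 2 / 2)) (fun y => by
      have h1 := (hP.inv_norm_sq hε y).1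
      rw [← hL] at h1
      have h2 : c * (‖y‖ ^ 2 / R ^ 2) ≤ c * ‖L y‖ ^ 2 := mul_le_mul_of_nonneg_left h1 hc.le
      have e : c / R ^ 2 / 2 * ‖y‖ ^ 2 = c * (‖y‖ ^ 2 / R ^ 2) / 2 := by ring
      linarith)
    have := ((hV.1.comp_linearMap L).add q1).add_const (Real.log P.det)
    simp only [Set.preimage_univ] at this
    refine this.congr ?_
    intro y _
    simp only [Function.comp, Pi.add_apply, corePush, ← hL]
    ring
  · have q2 := lcp_convexOn_quad L (-(C / 2)) (C / ε ^ 2 / 2) (fun y => by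
      have h1 := (hP.inv_norm_sq hε y).2
      rw [← hL] at h1
      have h2 : C * ‖L y‖ ^ 2 ≤ C * (‖y‖ ^ 2 / ε ^ 2) := mul_le_mul_of_nonneg_left h1 hC.le
      have e : C / ε ^ 2 / 2 * ‖y‖ ^ 2 = C * (‖y‖ ^ 2 / ε ^ 2) / 2 := by ring
      linarith)
    have := ((hV.2.comp_linearMap L).add q2).add_const (-Real.log P.det)
    simp only [Set.preimage_univ] at this
    refine this.congr ?_
    intro y _
    simp only [Function.comp, Pi.add_apply, corePush, ← hL]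
    ring

theorem normAff_coreLin_sub (P : Mat m) (x y : EE m) :
    coreLin P (x - y) = coreLin P x - coreLin P y :=
  map_sub (Matrix.toEuclideanLin P) x y

/-- `∇(corePush P V)(y) = P⁻¹ ∇V(P⁻¹ y)`. -/
theorem norm_push_gradient_eq {ε R c C : ℝ} (hε : 0 < ε) (hc : 0 < c) (hcC : c ≤ C)
    {V : EE m → ℝ} (hV : QC c C V) {P : Mat m} (hP : normBetween ε R P) (y : EE m) :
    gradient (corePush P V) y = coreLin P⁻¹ (gradient V (coreLin P⁻¹ y)) := by
  have hW : otQC (c / R ^ 2) (C / ε ^ 2) (corePush P V) := norm_push_QC hε hc hcC hV hP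
  have hV' : otQC c C V := hV
  have hsymm : (P⁻¹).IsSymm := by
    have := hP.1
    unfold Matrix.IsSymm at this ⊢
    rw [Matrix.transpose_nonsing_inv, this]
  symm
  refine hW.eq_gradient_of_subgradient ?_
  intro z
  have h1 := hV'.lower (coreLin P⁻¹ y) (coreLin P⁻¹ z)
  have h2 : 0 ≤ c / 2 * ‖coreLin P⁻¹ z - coreLin P⁻¹ y‖ ^ 2 := by positivity
  rw [normAff_inner_coreLin hsymm, normAff_coreLin_sub]
  simp only [corePush]
  linarith

theorem norm_push_gradient_le {ε R c C : ℝ} (hε : 0 < ε) (hc : 0 < c) (hcC : c ≤ C)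
    {V : EE m → ℝ} (hV : QC c C V) : ∃ K : ℝ, ∀ P : Mat m, normBetween ε R P → ∀ y : EE m,
      ‖gradient (corePush P V) y‖ ≤ K * (1 + ‖y‖) := by
  have hC : 0 < C := lt_of_lt_of_le hc hcC
  have hV' : otQC c C V := hV
  refine ⟨‖gradient V 0‖ / ε + C / ε ^ 2, fun P hP y => ?_⟩
  rw [norm_push_gradient_eq hε hc hcC hV hP]
  have hinv : ∀ w : EE m, ‖coreLin P⁻¹ w‖ ≤ ‖w‖ / ε := by
    intro w
    have h := (hP.inv_norm_sq hε w).2
    have e : ‖w‖ ^ 2 / ε ^ 2 = (‖w‖ / ε) ^ 2 := by rw [div_pow]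
    rw [e] at h
    exact le_of_sq_le_sq h (by positivity) |> fun h => h
  have h1 := hinv (gradient V (coreLin P⁻¹ y))
  have h2 : ‖gradient V (coreLin P⁻¹ y)‖ ≤ ‖gradient V 0‖ + C * ‖coreLin P⁻¹ y‖ := by
    have h3 := hV'.grad_lipschitz hc.le (coreLin P⁻¹ y) 0
    rw [sub_zero] at h3
    have h4 := norm_sub_norm_le (gradient V (coreLin P⁻¹ y)) (gradient V 0)
    linarith
  have h5 := hinv y
  have hy := norm_nonneg y
  have hg := norm_nonneg (gradient V (0 : EE m))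
  calc ‖coreLin P⁻¹ (gradient V (coreLin P⁻¹ y))‖ ≤ ‖gradient V (coreLin P⁻¹ y)‖ / ε := h1
    _ ≤ (‖gradient V 0‖ + C * (‖y‖ / ε)) / ε := by
        gcongr
        exact h2.trans (by gcongr)
    _ = ‖gradient V 0‖ / ε + C / ε ^ 2 * ‖y‖ := by field_simp
    _ ≤ (‖gradient V 0‖ / ε + C / ε ^ 2) * (1 + ‖y‖) := by
        have a1 : 0 ≤ ‖gradient V 0‖ / ε := by positivity
        have a2 : 0 ≤ C / ε ^ 2 := by positivity
        nlinarith [mul_nonneg a1 hy]

/-- existence of the Brenier potentials of the family with uniform constants -/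
theorem norm_exists_pot {ε R c C : ℝ} (hε : 0 < ε) (hεR : ε ≤ R) (hc : 0 < c) (hcC : c ≤ C)
    {V : EE m → ℝ} (hQ : QC c C V) (h1 : ∫ y, Real.exp (-V y) = 1) {P : Mat m}
    (hP : normBetween ε R P) :
    ∃ φ, NormPot (corePush P V) φ (ε / Real.sqrt C) (R / Real.sqrt c) := by
  have hR : 0 < R := lt_of_lt_of_le hε hεR
  have hC : 0 < C := lt_of_lt_of_le hc hcC
  have hnice : NicePot (corePush P V) := lcp_push_nicePot ⟨⟨c, C, hc, hQ⟩, h1⟩ (hP.posDef hε)
  have hle : c / R ^ 2 ≤ C / ε ^ 2 := by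
    have h2 : ε ^ 2 ≤ R ^ 2 := pow_le_pow_left₀ hε.le hεR 2
    exact div_le_div₀ hC.le hcC (by positivity) h2
  obtain ⟨φ, h2, h3⟩ := otb_exists (by positivity) hle (norm_push_QC hε hc hcC hQ hP) hnice.2
  refine ⟨φ, ?_, h3⟩
  have e1 : 1 / Real.sqrt (C / ε ^ 2) = ε / Real.sqrt C := by
    rw [Real.sqrt_div' C (sq_nonneg ε), Real.sqrt_sq hε.le, one_div_div]
  have e2 : 1 / Real.sqrt (c / R ^ 2) = R / Real.sqrt c := by
    rw [Real.sqrt_div' c (sq_nonneg R), Real.sqrt_sq hR.le, one_div_div]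
  rwa [e1, e2] at h2

theorem normPhi_spec {ε R c C : ℝ} (hε : 0 < ε) (hεR : ε ≤ R) (hc : 0 < c) (hcC : c ≤ C)
    {V : EE m → ℝ} (hQ : QC c C V) (h1 : ∫ y, Real.exp (-V y) = 1) {P : Mat m}
    (hP : normBetween ε R P) :
    NormPot (corePush P V) (normPhi V (ε / Real.sqrt C) (R / Real.sqrt c) P)
      (ε / Real.sqrt C) (R / Real.sqrt c) :=
  Classical.epsilon_spec (norm_exists_pot hε hεR hc hcC hQ h1 hP)

end Claimed.Agent.R260
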