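/-
Row 260, package NORM, leaf NORM-VAR: the variance of `⟨T_P, e⟩` for an eigenvector `e` of `P`.
-/
import Claimed.Agent.R260.NormAff

set_option autoImplicit false

namespace Claimed.Agent.R260

open MeasureTheory ProbabilityTheory Filter Topology Matrix

variable {m : ℕ}

/-- transfer of integrals: `E F(T_P) = E F(P T_0)` -/
theorem norm_integral_push {V : EE m → ℝ} (hV : NicePot V) {P : Mat m} (hP : P.PosDef)
    {T0 TP : EE m → EE m} (h0 : (gam m).map T0 = otMeas V)
    (hPm : (gam m).map TP = otMeas (corePush P V)) {F : EE m → ℝ} (hF : Continuous F) :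
    ∫ x, F (TP x) ∂gam m = ∫ x, F (coreLin P (T0 x)) ∂gam m := by
  have hVm : Measurable V := by
    obtain ⟨⟨c, C, hc, hQ⟩, -⟩ := hV
    exact (lc_QC_continuous hc.le hQ).measurable
  have hW := lcp_push_nicePot hV hP
  have hWm : Measurable (corePush P V) := by
    obtain ⟨⟨c, C, hc, hQ⟩, -⟩ := hW
    exact (lc_QC_continuous hc.le hQ).measurable
  have hT0 : AEMeasurable T0 (gam m) := lc_aemeasurable_of_map hVm hV.2 h0
  have hTP : AEMeasurable TP (gam m) := lc_aemeasurable_of_map hWm hW.2 hPm
  have hL : Measurable (coreLin P) := (lcp_coreLin_continuous P).measurable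
  rw [← integral_map hTP hF.aestronglyMeasurable, hPm, lcp_push_map hV hP, ← h0,
    integral_map hL.aemeasurable hF.aestronglyMeasurable]
  exact integral_map hT0 (hF.comp (lcp_coreLin_continuous P)).aestronglyMeasurable

/-- `(T_P)_# γ = P_# (T_0)_# γ` (`lcp_push_map`), hence `E f(T_P) = E f(P T_0)` (`integral_map`,
`lc_aemeasurable_of_map`, `Measure.map_map`); `⟨P y, e⟩ = ⟨y, P e⟩ = s ⟨y, e⟩` (`P` symmetric). -/
theorem norm_var_scale {V : EE m → ℝ} (hV : NicePot V) {P : Mat m} (hP : P.PosDef)
    {T0 TP : EE m → EE m} (h0 : (gam m).map T0 = otMeas V)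
    (hPm : (gam m).map TP = otMeas (corePush P V)) {e : Fin m → ℝ} {s : ℝ}
    (he : P *ᵥ e = s • e) :
    normVarG (normDir TP e) = s ^ 2 * normVarG (normDir T0 e) := by
  have hsymm : Pᵀ = P := by
    have := hP.isHermitian
    rw [Matrix.IsHermitian, Matrix.conjTranspose_eq_transpose_of_trivial] at this
    exact this
  have hlin : ∀ z : EE m, ∑ i, e i * coreLin P z i = s * ∑ i, e i * z i := by
    intro z
    have h1 : ∑ i, e i * coreLin P z i = e ⬝ᵥ (P *ᵥ WithLp.ofLp z) := rfl
    have h2 : ∑ i, e i * z i = e ⬝ᵥ WithLp.ofLp z := rfl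
    rw [h1, h2, Matrix.dotProduct_mulVec, ← Matrix.mulVec_transpose, hsymm, he, smul_dotProduct,
      smul_eq_mul]
  have hc1 : Continuous (fun y : EE m => ∑ i, e i * y i) :=
    continuous_finset_sum _ fun i _ => continuous_const.mul
      ((continuous_apply i).comp (PiLp.continuous_ofLp 2 _))
  have e1 : ∫ x, normDir TP e x ∂gam m = s * ∫ x, normDir T0 e x ∂gam m := by
    have := norm_integral_push hV hP h0 hPm hc1
    simp only [hlin] at this
    rw [integral_const_mul] at this
    exact this
  have e2 : ∫ x, (normDir TP e x) ^ 2 ∂gam m = s ^ 2 * ∫ x, (normDir T0 e x) ^ 2 ∂gam m := by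
    have := norm_integral_push hV hP h0 hPm (F := fun y => (∑ i, e i * y i) ^ 2) (hc1.pow 2)
    simp only [hlin, mul_pow] at this
    rw [integral_const_mul] at this
    exact this
  rw [normVarG, normVarG, e1, e2]
  ring

end Claimed.Agent.R260
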