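/-
Row 260, package NORM: assembly of Prop 2.3.  `norm_main` = `core_norm` of `Core.lean`, with the
statement of `core_tr` as hypothesis (`NormTRHyp m`).   Owner: helper181.
-/
import Claimed.Agent.R260.NormVI
import Claimed.Agent.R260.NormSign
import Claimed.Agent.R260.NormCont
import Claimed.Agent.R260.NormVar

set_option autoImplicit false

namespace Claimed.Agent.R260

open MeasureTheory ProbabilityTheory Filter Topology Matrix

variable {m : ℕ}

/-- sequential continuity of the field -/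
theorem norm_F_seq (hTR : NormTRHyp m) {ε R c C : ℝ} (hε : 0 < ε) (hεR : ε ≤ R) (hc : 0 < c)
    (hcC : c ≤ C) {V : EE m → ℝ} (hQ : QC c C V) (h1 : ∫ y, Real.exp (-V y) = 1)
    {Pn : ℕ → Mat m} {P : Mat m} (hPn : ∀ n, normBetween ε R (Pn n)) (hP : normBetween ε R P)
    (hlim : Tendsto Pn atTop (𝓝 P)) :
    Tendsto (fun n => normF V (ε / Real.sqrt C) (R / Real.sqrt c) (Pn n)) atTop
      (𝓝 (normF V (ε / Real.sqrt C) (R / Real.sqrt c) P)) := by
  have hV : NicePot V := ⟨⟨c, C, hc, hQ⟩, h1⟩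
  have hC : 0 < C := lt_of_lt_of_le hc hcC
  have hR : 0 < R := lt_of_lt_of_le hε hεR
  set lam := ε / Real.sqrt C with hlamdef
  set Lam := R / Real.sqrt c with hLamdef
  have hlam : 0 < lam := by positivity
  have hs : ∀ Q : Mat m, normBetween ε R Q →
      NormPot (corePush Q V) (normPhi V lam Lam Q) lam Lam :=
    fun Q hQ' => normPhi_spec hε hεR hc hcC hQ h1 hQ'
  have hnice : ∀ Q : Mat m, normBetween ε R Q → NicePot (corePush Q V) :=
    fun Q hQ' => lcp_push_nicePot hV (hQ'.posDef hε)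
  have htro : ∀ Q : Mat m, normBetween ε R Q →
      TrOut (corePush Q V) (normPhi V lam Lam Q) lam Lam :=
    fun Q hQ' => hTR _ _ _ _ (hnice Q hQ') hlam (hs Q hQ').1 (hs Q hQ').2
  have hqc : ∀ Q : Mat m, normBetween ε R Q → QC (c / R ^ 2) (C / ε ^ 2) (corePush Q V) :=
    fun Q hQ' => norm_push_QC hε hc hcC hQ hQ'
  refine tendsto_pi_nhds.2 fun i => tendsto_pi_nhds.2 fun j => ?_
  exact normc_main hV hlam (by positivity : 0 < c / R ^ 2) (fun n => (hPn n).posDef hε)
    (hP.posDef hε) hlim (fun n => (hs _ (hPn n)).1) (hs _ hP).1 (fun n => hqc _ (hPn n)) (hqc _ hP)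
    (fun n => (hs _ (hPn n)).2) (hs _ hP).2 (fun n => htro _ (hPn n)) (htro _ hP) i j

theorem norm_F_continuousOn (hTR : NormTRHyp m) {ε R c C : ℝ} (hε : 0 < ε) (hεR : ε ≤ R)
    (hc : 0 < c) (hcC : c ≤ C) {V : EE m → ℝ} (hQ : QC c C V) (h1 : ∫ y, Real.exp (-V y) = 1) :
    ContinuousOn (normF V (ε / Real.sqrt C) (R / Real.sqrt c)) (normBox (m := m) ε R) := by
  classical
  haveI : FirstCountableTopology (Mat m) :=
    inferInstanceAs (FirstCountableTopology (Fin m → Fin m → ℝ))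
  intro P hP
  rw [ContinuousWithinAt, tendsto_iff_seq_tendsto]
  intro Pn hPn
  rw [tendsto_nhdsWithin_iff] at hPn
  obtain ⟨hlim, hev⟩ := hPn
  set Qn : ℕ → Mat m := fun n => if Pn n ∈ normBox (m := m) ε R then Pn n else P with hQn
  have hQmem : ∀ n, normBetween ε R (Qn n) := by
    intro n
    simp only [hQn]
    split_ifs with h
    · exact h
    · exact hP
  have hQeq : Qn =ᶠ[atTop] Pn := by
    filter_upwards [hev] with n hn
    simp only [hQn, if_pos hn]
  have hQlim : Tendsto Qn atTop (𝓝 P) := hlim.congr' hQeq.symm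
  have := norm_F_seq hTR hε hεR hc hcC hQ h1 hQmem hP hQlim
  refine this.congr' ?_
  filter_upwards [hQeq] with n hn
  simp only [Function.comp, hn]

/-- **Prop 2.3.** -/
theorem norm_main (hTR : NormTRHyp m) {V : EE m → ℝ} (hV : NicePot V) :
    ∃ (P : Mat m) (φ : EE m → ℝ) (lam Lam : ℝ), P.PosDef ∧ 0 < lam ∧ QC lam Lam φ ∧
      (gam m).map (gradient φ) = otMeas (corePush P V) ∧
      ∀ i j, ∫ x, mxFun scQinv (coreJ (gradient φ) x) i j ∂gam m = 0 := by
  obtain ⟨⟨c, C₀, hc, hQ₀⟩, h1⟩ := id hV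
  set C := max c C₀ with hCdef
  have hQ : QC c C V := otQC.mono hQ₀ le_rfl (le_max_right _ _)
  have hcC : c ≤ C := le_max_left _ _
  have hC : 0 < C := lt_of_lt_of_le hc hcC
  have hsc : 0 < Real.sqrt c := Real.sqrt_pos.2 hc
  have hsC : 0 < Real.sqrt C := Real.sqrt_pos.2 hC
  have hq0 : 0 < scQ 0 := scQ_pos 0
  -- the constants
  set ε := scQ 0 * Real.sqrt c / 2 with hεdef
  have hε : 0 < ε := by positivity
  set lam := ε / Real.sqrt C with hlamdef
  have hlam : 0 < lam := by positivity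
  set D := scD (scQinv lam) with hDdef
  have hD : 0 < D := scD_pos _
  set R := max ε (C * D / Real.sqrt c) + 1 with hRdef
  have hεR : ε < R := lt_of_le_of_lt (le_max_left _ _) (lt_add_one _)
  have hDR : C * D / Real.sqrt c < R := lt_of_le_of_lt (le_max_right _ _) (lt_add_one _)
  have hR : 0 < R := hε.trans hεR
  set Lam := R / Real.sqrt c with hLamdef
  -- the reference transport map
  obtain ⟨φ0, hφ0, hmap0⟩ := otb_exists hc hcC hQ h1
  have hl0 : 0 < 1 / Real.sqrt C := by positivity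
  have htr0 : NormTr (1 / Real.sqrt C) (1 / Real.sqrt c) (gradient φ0) :=
    norm_tr_of_trOut hl0 hφ0 (hTR _ _ _ _ hV hl0 hφ0 hmap0)
  -- the family
  have hs : ∀ Q : Mat m, normBetween ε R Q →
      NormPot (corePush Q V) (normPhi V lam Lam Q) lam Lam :=
    fun Q hQ' => normPhi_spec hε hεR.le hc hcC hQ h1 hQ'
  have htr : ∀ Q : Mat m, normBetween ε R Q → NormTr lam Lam (gradient (normPhi V lam Lam Q)) :=
    fun Q hQ' => norm_tr_of_trOut hlam (hs Q hQ').1
      (hTR _ _ _ _ (lcp_push_nicePot hV (hQ'.posDef hε)) hlam (hs Q hQ').1 (hs Q hQ').2)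
  have hvar : ∀ Q : Mat m, normBetween ε R Q → ∀ (e : Fin m → ℝ) (s : ℝ), Q *ᵥ e = s • e →
      normVarG (normDir (gradient (normPhi V lam Lam Q)) e)
        = s ^ 2 * normVarG (normDir (gradient φ0) e) :=
    fun Q hQ' e s he => norm_var_scale hV (hQ'.posDef hε) hmap0 (hs Q hQ').2 he
  obtain ⟨P, hP, hzero⟩ := norm_vi hε hεR (normF V lam Lam)
    (norm_F_continuousOn hTR hε hεR.le hc hcC hQ h1)
    (fun Q _ => normA_mean_isSymm _)
    (fun Q hQ' e he hQe => by
      obtain ⟨-, hb⟩ := norm_var_bounds hl0 htr0 he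
      refine norm_sign_low hlam (htr Q hQ') he (s := ε * (1 / Real.sqrt c)) (by positivity) ?_ ?_
      · rw [hvar Q hQ' e ε hQe, mul_pow]
        exact mul_le_mul_of_nonneg_left hb (sq_nonneg _)
      · rw [hεdef]
        field_simp
        linarith)
    (fun Q hQ' e he hQe => by
      obtain ⟨ha, -⟩ := norm_var_bounds hl0 htr0 he
      refine norm_sign_up hlam (htr Q hQ') he (w := R ^ 2 * (1 / Real.sqrt C) ^ 2) ?_ ?_
      · rw [hvar Q hQ' e R hQe]
        exact mul_le_mul_of_nonneg_left ha (sq_nonneg _)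
      · have e1 : (1 / Real.sqrt C) ^ 2 = 1 / C := by
          rw [div_pow, Real.sq_sqrt hC.le, one_pow]
        rw [e1, hLamdef]
        have h2 : C * D < R * Real.sqrt c := (div_lt_iff₀ hsc).1 hDR
        rw [div_mul_eq_mul_div, div_lt_iff₀ hsc, mul_one_div, div_mul_eq_mul_div, lt_div_iff₀ hC]
        nlinarith)
  refine ⟨P, normPhi V lam Lam P, lam, Lam, normBetween.posDef hε hP, hlam, (hs P hP).1,
    (hs P hP).2, fun i j => ?_⟩
  have := congrFun (congrFun hzero i) j
  simpa [normF, meanE, normA] using this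

end Claimed.Agent.R260
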