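/-
Row 260, package TR (T2).  File TrMAGen: the a.e. second order calculus of a potential of the class
`otQC a b f` on a generic finite dimensional inner product space, and the Monge-Ampere equation a.e.
for a transport map `gradient f` between two measures `e^{-W₀} dx` and `e^{-W} dx`.
Owner: helper88.
-/
import Claimed.Agent.R260.OTMeas

set_option autoImplicit false

namespace Claimed.Agent.R260

open MeasureTheory Set Filter Topology
open scoped InnerProductSpace ENNReal

variable {E : Type*} [NormedAddCommGroup E] [InnerProductSpace ℝ E] [FiniteDimensional ℝ E]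

variable {a b : ℝ} {f : E → ℝ}

theorem trMA_lipschitzWith (h : otQC a b f) (ha : 0 ≤ a) :
    LipschitzWith (Real.toNNReal |b|) (gradient f) := by
  apply LipschitzWith.of_dist_le_mul
  intro x y
  rw [dist_eq_norm, dist_eq_norm, Real.coe_toNNReal _ (abs_nonneg b)]
  exact (h.grad_lipschitz ha x y).trans
    (mul_le_mul_of_nonneg_right (le_abs_self b) (norm_nonneg _))

theorem trMA_ae_differentiableAt [MeasurableSpace E] [BorelSpace E] (h : otQC a b f) (ha : 0 ≤ a) :
    ∀ᵐ x : E, DifferentiableAt ℝ (gradient f) x :=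
  (trMA_lipschitzWith h ha).ae_differentiableAt

/-- symmetry of the second derivative at a point of differentiability of the gradient -/
theorem trMA_fderiv_symm (h : otQC a b f) {x : E} (hx : DifferentiableAt ℝ (gradient f) x)
    (v w : E) :
    ⟪fderiv ℝ (gradient f) x v, w⟫_ℝ = ⟪fderiv ℝ (gradient f) x w, v⟫_ℝ := by
  set L : E →L[ℝ] E →L[ℝ] ℝ :=
    (isBoundedBilinearMap_inner (𝕜 := ℝ) (E := E)).toContinuousLinearMap with hL
  have hLa : ∀ u w : E, L u w = ⟪u, w⟫_ℝ := fun u w => rfl
  have h1 : ∀ᶠ y in 𝓝 x, HasFDerivAt f (L (gradient f y)) y := by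
    refine Eventually.of_forall fun y => ?_
    have h0 := (h.hasGradientAt y).hasFDerivAt
    have e : InnerProductSpace.toDual ℝ E (gradient f y) = L (gradient f y) := by
      ext w; simp [hLa]
    rwa [e] at h0
  have h2 : HasFDerivAt (fun y => L (gradient f y)) (L.comp (fderiv ℝ (gradient f) x)) x :=
    L.hasFDerivAt.comp x hx.hasFDerivAt
  have h3 := second_derivative_symmetric_of_eventually h1 h2 v w
  simpa [hLa] using h3

/-- directional difference quotients of the gradient -/
theorem trMA_tendsto_quot {x : E} (hx : DifferentiableAt ℝ (gradient f) x) (v : E) :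
    Tendsto (fun t : ℝ => ⟪t⁻¹ • (gradient f (x + t • v) - gradient f x), v⟫_ℝ) (𝓝[≠] 0)
      (𝓝 ⟪fderiv ℝ (gradient f) x v, v⟫_ℝ) := by
  have h1 := hx.hasFDerivAt.hasLineDerivAt v
  have h2 := h1.tendsto_slope_zero
  exact (h2.inner tendsto_const_nhds)

theorem trMA_fderiv_lower (h : otQC a b f) {x : E} (hx : DifferentiableAt ℝ (gradient f) x)
    (v : E) : a * ‖v‖ ^ 2 ≤ ⟪fderiv ℝ (gradient f) x v, v⟫_ℝ := by
  refine ge_of_tendsto (trMA_tendsto_quot hx v) ?_
  filter_upwards [self_mem_nhdsWithin] with t ht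
  have ht0 : t ≠ 0 := ht
  have h1 := h.grad_mono_lower (x + t • v) x
  rw [add_sub_cancel_left, norm_smul, inner_smul_right, mul_pow, Real.norm_eq_abs, sq_abs] at h1
  rw [inner_smul_left]
  simp only [conj_trivial]
  have h2 : t⁻¹ * ⟪gradient f (x + t • v) - gradient f x, v⟫_ℝ
      = (t ^ 2)⁻¹ * (t * ⟪gradient f (x + t • v) - gradient f x, v⟫_ℝ) := by
    field_simp
  rw [h2]
  have h3 : a * ‖v‖ ^ 2 = (t ^ 2)⁻¹ * (a * (t ^ 2 * ‖v‖ ^ 2)) := by
    field_simp
  rw [h3]
  exact mul_le_mul_of_nonneg_left h1 (by positivity)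

theorem trMA_fderiv_upper (h : otQC a b f) {x : E} (hx : DifferentiableAt ℝ (gradient f) x)
    (v : E) : ⟪fderiv ℝ (gradient f) x v, v⟫_ℝ ≤ b * ‖v‖ ^ 2 := by
  refine le_of_tendsto (trMA_tendsto_quot hx v) ?_
  filter_upwards [self_mem_nhdsWithin] with t ht
  have ht0 : t ≠ 0 := ht
  have h1 := h.grad_mono_upper (x + t • v) x
  rw [add_sub_cancel_left, norm_smul, inner_smul_right, mul_pow, Real.norm_eq_abs, sq_abs] at h1
  rw [inner_smul_left]
  simp only [conj_trivial]
  have h2 : t⁻¹ * ⟪gradient f (x + t • v) - gradient f x, v⟫_ℝ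
      = (t ^ 2)⁻¹ * (t * ⟪gradient f (x + t • v) - gradient f x, v⟫_ℝ) := by
    field_simp
  rw [h2]
  have h3 : b * ‖v‖ ^ 2 = (t ^ 2)⁻¹ * (b * (t ^ 2 * ‖v‖ ^ 2)) := by
    field_simp
  rw [h3]
  exact mul_le_mul_of_nonneg_left h1 (by positivity)

section ma

variable [MeasurableSpace E] [BorelSpace E]

theorem trMA_measurable_det (g : E → E) : Measurable (fun x => (fderiv ℝ g x).det) :=
  ContinuousLinearMap.continuous_det.measurable.comp (measurable_fderiv ℝ g)

/-- **Monge-Ampere equation a.e.** (`ℝ≥0∞` form) for `T = gradient f`, `T_# e^{-W₀} = e^{-W}`. -/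
theorem trMA_ma_ennreal {W₀ W : E → ℝ} (hW₀ : Continuous W₀) (hW : Continuous W)
    (h : otQC a b f) (ha : 0 < a) (hmap : (otMeas W₀).map (gradient f) = otMeas W) :
    (fun x => ENNReal.ofReal (Real.exp (-W₀ x))) =ᵐ[volume]
      fun x => ENNReal.ofReal |(fderiv ℝ (gradient f) x).det|
        * ENNReal.ofReal (Real.exp (-W (gradient f x))) := by
  set T := gradient f with hT
  have hTc : Continuous T := h.grad_continuous ha.le
  have hTi : Function.Injective T := h.grad_injective ha
  have hTe : MeasurableEmbedding T := hTc.measurableEmbedding hTi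
  set D : Set E := {x | DifferentiableAt ℝ T x} with hD
  have hDm : MeasurableSet D := measurableSet_of_differentiableAt ℝ T
  have hDae : ∀ᵐ x : E, x ∈ D := trMA_ae_differentiableAt h ha.le
  have hm0 : Measurable (fun x => ENNReal.ofReal (Real.exp (-W₀ x))) := by fun_prop
  have hm1 : Measurable (fun x => ENNReal.ofReal |(fderiv ℝ T x).det|
      * ENNReal.ofReal (Real.exp (-W (T x)))) := by
    have := trMA_measurable_det T
    fun_prop
  refine ae_eq_of_forall_setLIntegral_eq_of_sigmaFinite hm0 hm1 fun s hs _ => ?_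
  have hsD : MeasurableSet (s ∩ D) := hs.inter hDm
  have hres : ∀ u : E → ℝ≥0∞, ∫⁻ x in s, u x = ∫⁻ x in s ∩ D, u x := by
    intro u
    refine setLIntegral_congr ?_
    filter_upwards [hDae] with x hx
    exact propext ⟨fun hxs => ⟨hxs, hx⟩, fun hxs => hxs.1⟩
  rw [hres, hres]
  have h1 : ∫⁻ x in s ∩ D, ENNReal.ofReal (Real.exp (-W₀ x)) = otMeas W₀ (s ∩ D) := by
    unfold otMeas
    rw [withDensity_apply _ hsD]
  have h2 : otMeas W₀ (s ∩ D) = otMeas W (T '' (s ∩ D)) := by
    rw [← hmap, hTe.map_apply, hTi.preimage_image]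
  have h3 : otMeas W (T '' (s ∩ D)) = ∫⁻ y in T '' (s ∩ D), ENNReal.ofReal (Real.exp (-W y)) := by
    unfold otMeas
    rw [withDensity_apply _ (hTe.measurableSet_image.2 hsD)]
  rw [h1, h2, h3]
  exact lintegral_image_eq_lintegral_abs_det_fderiv_mul volume hsD
    (fun x hx => (hx.2.hasFDerivAt).hasFDerivWithinAt) hTi.injOn _

/-- **Monge-Ampere equation a.e.**, real form. -/
theorem trMA_ma_real {W₀ W : E → ℝ} (hW₀ : Continuous W₀) (hW : Continuous W)
    (h : otQC a b f) (ha : 0 < a) (hmap : (otMeas W₀).map (gradient f) = otMeas W) :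
    ∀ᵐ x : E, Real.exp (-W₀ x)
      = |(fderiv ℝ (gradient f) x).det| * Real.exp (-W (gradient f x)) := by
  filter_upwards [trMA_ma_ennreal hW₀ hW h ha hmap] with x hx
  rw [← ENNReal.ofReal_mul (abs_nonneg _)] at hx
  have := congrArg ENNReal.toReal hx
  rwa [ENNReal.toReal_ofReal (Real.exp_pos _).le,
    ENNReal.toReal_ofReal (mul_nonneg (abs_nonneg _) (Real.exp_pos _).le)] at this

end ma

end Claimed.Agent.R260
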