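/-
Row 260, package TR (T2).  File TrMA: the fields `J_symm`, `J_spec`, `ma` of `TrOut`.
Owner: helper88.
-/
import Claimed.Agent.R260.TrMAGen
import Claimed.Agent.R260.CoreDefs
import Claimed.Agent.R260.MxConst
import Claimed.Agent.R260.OTBridge

set_option autoImplicit false

namespace Claimed.Agent.R260

open MeasureTheory Set Filter Topology Matrix
open scoped InnerProductSpace ENNReal

variable {m : ℕ}

/-- entries of the Jacobian matrix at a point of differentiability -/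
theorem trMA_coreJ_apply {T : EE m → EE m} {x : EE m} (hx : DifferentiableAt ℝ T x)
    (i j : Fin m) : coreJ T x i j = (fderiv ℝ T x (eb j)) i := by
  unfold coreJ pd
  have h1 : HasFDerivAt (fun y => T y i)
      ((EuclideanSpace.proj i : EE m →L[ℝ] ℝ).comp (fderiv ℝ T x)) x :=
    (EuclideanSpace.proj i : EE m →L[ℝ] ℝ).hasFDerivAt.comp x hx.hasFDerivAt
  rw [h1.fderiv]
  simp

theorem trMA_sum_smul_eb (v : EE m) : v = ∑ j, v j • eb j := by
  ext i
  simp [eb, Finset.sum_apply, Pi.single_apply]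

/-- the Jacobian matrix acts as the derivative -/
theorem trMA_coreJ_mulVec {T : EE m → EE m} {x : EE m} (hx : DifferentiableAt ℝ T x)
    (v : EE m) (i : Fin m) : (coreJ T x *ᵥ (WithLp.ofLp v)) i = (fderiv ℝ T x v) i := by
  conv_rhs => rw [trMA_sum_smul_eb v]
  simp only [Matrix.mulVec, dotProduct, map_sum, map_smul]
  simp only [trMA_coreJ_apply hx]
  simp [Finset.sum_apply, mul_comm]

theorem trMA_coreJ_quad {T : EE m → EE m} {x : EE m} (hx : DifferentiableAt ℝ T x)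
    (v w : EE m) :
    (WithLp.ofLp w) ⬝ᵥ (coreJ T x *ᵥ (WithLp.ofLp v)) = ⟪fderiv ℝ T x v, w⟫_ℝ := by
  rw [EuclideanSpace.inner_eq_star_dotProduct]
  simp only [star_trivial, dotProduct]
  refine Finset.sum_congr rfl fun i _ => ?_
  rw [trMA_coreJ_mulVec hx]

theorem trMA_coreJ_det {T : EE m → EE m} {x : EE m} (hx : DifferentiableAt ℝ T x) :
    (coreJ T x).det = (fderiv ℝ T x).det := by
  have h1 : coreJ T x = LinearMap.toMatrix (EuclideanSpace.basisFun (Fin m) ℝ).toBasis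
      (EuclideanSpace.basisFun (Fin m) ℝ).toBasis (fderiv ℝ T x : EE m →ₗ[ℝ] EE m) := by
    ext i j
    rw [trMA_coreJ_apply hx, LinearMap.toMatrix_apply]
    simp [eb]
  rw [h1, LinearMap.det_toMatrix]

section pot

variable {φ : EE m → ℝ} {lam Lam : ℝ}

theorem trMA_coreJ_isSymm (hφ : QC lam Lam φ) {x : EE m}
    (hx : DifferentiableAt ℝ (gradient φ) x) : (coreJ (gradient φ) x).IsSymm := by
  have hφ' : otQC lam Lam φ := hφ
  ext i j
  rw [Matrix.transpose_apply, trMA_coreJ_apply hx, trMA_coreJ_apply hx]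
  have h := trMA_fderiv_symm hφ' hx (eb i) (eb j)
  simpa [eb, EuclideanSpace.inner_single_right] using h

theorem trMA_norm_sq_eq (v : EE m) : ‖v‖ ^ 2 = (WithLp.ofLp v) ⬝ᵥ (WithLp.ofLp v) := by
  rw [← real_inner_self_eq_norm_sq, EuclideanSpace.inner_eq_star_dotProduct]
  simp

theorem trMA_coreJ_quad_lower (hφ : QC lam Lam φ) {x : EE m}
    (hx : DifferentiableAt ℝ (gradient φ) x) (v : Fin m → ℝ) :
    lam * (v ⬝ᵥ v) ≤ v ⬝ᵥ (coreJ (gradient φ) x *ᵥ v) := by
  have hφ' : otQC lam Lam φ := hφ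
  have h := trMA_fderiv_lower hφ' hx (WithLp.toLp 2 v)
  rw [← trMA_coreJ_quad hx, trMA_norm_sq_eq] at h
  exact h

theorem trMA_coreJ_quad_upper (hφ : QC lam Lam φ) {x : EE m}
    (hx : DifferentiableAt ℝ (gradient φ) x) (v : Fin m → ℝ) :
    v ⬝ᵥ (coreJ (gradient φ) x *ᵥ v) ≤ Lam * (v ⬝ᵥ v) := by
  have hφ' : otQC lam Lam φ := hφ
  have h := trMA_fderiv_upper hφ' hx (WithLp.toLp 2 v)
  rw [← trMA_coreJ_quad hx, trMA_norm_sq_eq] at h
  exact h

theorem trMA_coreJ_posDef (hlam : 0 < lam) (hφ : QC lam Lam φ) {x : EE m}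
    (hx : DifferentiableAt ℝ (gradient φ) x) : (coreJ (gradient φ) x).PosDef := by
  refine Matrix.PosDef.of_dotProduct_mulVec_pos
    (mx_isHermitian_of_isSymm (trMA_coreJ_isSymm hφ hx)) fun v hv => ?_
  rw [star_trivial]
  refine lt_of_lt_of_le ?_ (trMA_coreJ_quad_lower hφ hx v)
  have : 0 < v ⬝ᵥ v := by
    have h0 : 0 ≤ v ⬝ᵥ v := Finset.sum_nonneg fun i _ => mul_self_nonneg _
    refine lt_of_le_of_ne h0 fun h => hv ?_
    exact dotProduct_self_eq_zero.1 h.symm
  positivity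

theorem trMA_mxU_col_dot (A : Mx m) (i : Fin m) :
    (mxU A *ᵥ (Pi.single i 1 : Fin m → ℝ)) ⬝ᵥ (mxU A *ᵥ (Pi.single i 1 : Fin m → ℝ)) = 1 := by
  rw [Matrix.dotProduct_mulVec, ← Matrix.mulVec_transpose, Matrix.mulVec_mulVec,
    mxU_transpose_mul, Matrix.one_mulVec]
  simp

theorem trMA_coreJ_spec (hφ : QC lam Lam φ) {x : EE m}
    (hx : DifferentiableAt ℝ (gradient φ) x) (i : Fin m) :
    mxEig (coreJ (gradient φ) x) i ∈ Set.Icc lam Lam := by
  rw [mxEig_eq_quad (trMA_coreJ_isSymm hφ hx) i]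
  have h1 := trMA_coreJ_quad_lower hφ hx (mxU (coreJ (gradient φ) x) *ᵥ Pi.single i 1)
  have h2 := trMA_coreJ_quad_upper hφ hx (mxU (coreJ (gradient φ) x) *ᵥ Pi.single i 1)
  rw [trMA_mxU_col_dot, mul_one] at h1 h2
  exact ⟨h1, h2⟩

/-- `gam m` is absolutely continuous with respect to Lebesgue measure -/
theorem trMA_gam_ac : gam m ≪ (volume : Measure (EE m)) := by
  rw [← otGauss_eq_gam]
  exact otMeas_absolutelyContinuous _

theorem trMA_diff_ae (hlam : 0 < lam) (hφ : QC lam Lam φ) :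
    ∀ᵐ x ∂gam m, DifferentiableAt ℝ (gradient φ) x :=
  trMA_gam_ac.ae_le (trMA_ae_differentiableAt (show otQC lam Lam φ from hφ) hlam.le)

/-- EXPORT: field `J_symm` of `TrOut`. -/
theorem trMA_J_symm (hlam : 0 < lam) (hφ : QC lam Lam φ) :
    ∀ᵐ x ∂gam m, (coreJ (gradient φ) x).IsSymm := by
  filter_upwards [trMA_diff_ae hlam hφ] with x hx
  exact trMA_coreJ_isSymm hφ hx

/-- EXPORT: field `J_spec` of `TrOut`. -/
theorem trMA_J_spec (hlam : 0 < lam) (hφ : QC lam Lam φ) :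
    ∀ᵐ x ∂gam m, ∀ i, mxEig (coreJ (gradient φ) x) i ∈ Set.Icc lam Lam := by
  filter_upwards [trMA_diff_ae hlam hφ] with x hx
  exact trMA_coreJ_spec hφ hx

/-- EXPORT: field `ma` of `TrOut` (Monge-Ampere equation a.e.). -/
theorem trMA_ma {W : EE m → ℝ} (hW : NicePot W) (hlam : 0 < lam) (hφ : QC lam Lam φ)
    (hmap : (gam m).map (gradient φ) = otMeas W) :
    ∀ᵐ x ∂gam m, W (gradient φ x)
      = Real.log (coreJ (gradient φ) x).det + ‖x‖ ^ 2 / 2
        + (m : ℝ) / 2 * Real.log (2 * Real.pi) := by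
  obtain ⟨⟨c, C, hc, hWQ⟩, -⟩ := hW
  have hWc : Continuous W := (show otQC c C W from hWQ).continuous
  have hW0c : Continuous (otW0 : EE m → ℝ) := (otW0_QC (E := EE m)).continuous
  have hmap' : (otMeas (otW0 : EE m → ℝ)).map (gradient φ) = otMeas W := by
    rw [← hmap, ← otGauss_eq_gam]; rfl
  have h1 := trMA_gam_ac.ae_le
    (trMA_ma_real hW0c hWc (show otQC lam Lam φ from hφ) hlam hmap')
  filter_upwards [h1, trMA_diff_ae hlam hφ] with x hx hd
  have hdet : 0 < (coreJ (gradient φ) x).det := (trMA_coreJ_posDef hlam hφ hd).det_pos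
  rw [← trMA_coreJ_det hd, abs_of_pos hdet] at hx
  have h2 := congrArg Real.log hx
  rw [Real.log_exp, Real.log_mul hdet.ne' (Real.exp_pos _).ne', Real.log_exp] at h2
  unfold otW0 at h2
  simp only [finrank_euclideanSpace, Fintype.card_fin] at h2
  linarith

end pot

end Claimed.Agent.R260
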