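/-
Row 260, package GK (Gaussian kit): T5, bounded functions with L2-Lipschitz translates are in GH1.
Blueprint helper200, proofs helper83.
-/
import Claimed.Agent.R260.GKClosD
import Claimed.Agent.R260.GKMehlerS
import Claimed.Agent.R260.GKMehlerC
import Claimed.Agent.R260.GKHilb

namespace Claimed.Agent.R260

open MeasureTheory ProbabilityTheory Filter Topology Set

variable {m : ℕ}

theorem gk_dq_BM_shift {u : EE m → ℝ} (hu : BM u) (a : EE m) : BM (fun y => u (y + a)) :=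
  ⟨hu.1.comp (measurable_id.add_const a), hu.2.imp fun _ hC _ => hC _⟩

theorem gk_dq_BM_const_mul {u : EE m → ℝ} (hu : BM u) (a : ℝ) : BM (fun y => a * u y) := by
  obtain ⟨hm, C, hC⟩ := hu
  refine ⟨hm.const_mul a, |a| * C, fun x => ?_⟩
  rw [abs_mul]
  exact mul_le_mul_of_nonneg_left (hC x) (abs_nonneg a)

theorem gk_dq_BM_add {u v : EE m → ℝ} (hu : BM u) (hv : BM v) : BM (fun y => u y + v y) := by
  obtain ⟨hm, C, hC⟩ := hu
  obtain ⟨hm', C', hC'⟩ := hv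
  exact ⟨hm.add hm', C + C', fun x => (abs_add_le _ _).trans (add_le_add (hC x) (hC' x))⟩

/-- the difference quotient of a Mehler regularisation is the Mehler regularisation of a
difference quotient -/
theorem gk_dq_quot_eq (c : ℝ) {u : EE m → ℝ} (hu : BM u) (r : Fin m) (τ : ℝ) (x : EE m) :
    τ⁻¹ * (mehler c u (x + τ • eb r) - mehler c u x)
      = mehler c (fun y => τ⁻¹ * (u (y + c • τ • eb r) + (-1) * u y)) x := by
  rw [gk_mehler_const_mul, gk_mehler_add c (gk_dq_BM_shift hu _).toPG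
    (gk_dq_BM_const_mul hu (-1)).toPG x, gk_mehler_const_mul, gk_mehler_translate]
  ring

/-- step (1): `E (∂_r u_c)² ≤ K c²` -/
theorem gk_dq_pd_sq_le {u : EE m → ℝ} (hu : BM u) {K : ℝ}
    (h : ∀ h : EE m, ∫ x, (u (x + h) - u x) ^ 2 ∂gam m ≤ K * ‖h‖ ^ 2) {c : ℝ}
    (hc : c ∈ Ico (0 : ℝ) 1) (r : Fin m) :
    ∫ x, (pd r (mehler c u) x) ^ 2 ∂gam m ≤ K * c ^ 2 := by
  set w := mehler c u with hwdef
  have hw : NiceB w := gk_mehler_niceB hc hu
  obtain ⟨L, hL⟩ := hw.toNiceL.toC1L.lipschitz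
  have hwc : Continuous w := hL.continuous
  have hdiff : Differentiable ℝ w := hw.1.differentiable (by simp)
  let τ : ℕ → ℝ := fun n => 1 / ((n : ℝ) + 1)
  have hτpos : ∀ n, 0 < τ n := fun n => by positivity
  have hτ : Tendsto τ atTop (𝓝[≠] 0) := by
    rw [tendsto_nhdsWithin_iff]
    exact ⟨tendsto_one_div_add_atTop_nhds_zero_nat, Eventually.of_forall fun n => (hτpos n).ne'⟩
  let DQ : ℕ → EE m → ℝ := fun n x => (τ n)⁻¹ * (w (x + τ n • eb r) - w x)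
  have hpt : ∀ x, Tendsto (fun n => DQ n x) atTop (𝓝 (pd r w x)) := by
    intro x
    have h1 : HasDerivAt (fun t : ℝ => w (x + t • eb r)) (pd r w x) 0 :=
      (hdiff x).hasFDerivAt.hasLineDerivAt (eb r)
    have h2 := h1.tendsto_slope_zero.comp hτ
    simpa [DQ, Function.comp_def] using h2
  have hbd : ∀ n x, |DQ n x| ≤ L := by
    intro n x
    have h1 := hL.dist_le_mul (x + τ n • eb r) x
    rw [Real.dist_eq, dist_eq_norm, add_sub_cancel_left, norm_smul, gk_norm_eb, mul_one,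
      Real.norm_eq_abs, abs_of_pos (hτpos n)] at h1
    simp only [DQ]
    rw [abs_mul, abs_of_pos (inv_pos.2 (hτpos n)), inv_mul_le_iff₀ (hτpos n)]
    linarith
  have hint : ∀ n, ∫ x, (DQ n x) ^ 2 ∂gam m ≤ K * c ^ 2 := by
    intro n
    set g : EE m → ℝ := fun y => (τ n)⁻¹ * (u (y + c • τ n • eb r) + (-1) * u y) with hg
    have hgBM : BM g :=
      gk_dq_BM_const_mul (gk_dq_BM_add (gk_dq_BM_shift hu _) (gk_dq_BM_const_mul hu (-1))) _
    have h1 : ∀ x, DQ n x = mehler c g x := fun x => gk_dq_quot_eq c hu r (τ n) x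
    simp_rw [h1]
    refine (gk_mehler_sq_le ⟨hc.1, hc.2.le⟩ hgBM.1 (hgBM.toPG.memLp 2)).trans ?_
    have h2 : ∀ y, (g y) ^ 2 = ((τ n)⁻¹) ^ 2 * (u (y + c • τ n • eb r) - u y) ^ 2 := by
      intro y; simp only [hg]; ring
    simp_rw [h2]
    rw [integral_const_mul]
    have h3 := h (c • τ n • eb r)
    rw [norm_smul, norm_smul, gk_norm_eb, mul_one, Real.norm_eq_abs, Real.norm_eq_abs, mul_pow,
      sq_abs, sq_abs] at h3
    calc ((τ n)⁻¹) ^ 2 * ∫ y, (u (y + c • τ n • eb r) - u y) ^ 2 ∂gam m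
        ≤ ((τ n)⁻¹) ^ 2 * (K * (c ^ 2 * τ n ^ 2)) :=
          mul_le_mul_of_nonneg_left h3 (by positivity)
      _ = K * c ^ 2 := by
          have := (hτpos n).ne'
          field_simp
  have hlim : Tendsto (fun n => ∫ x, (DQ n x) ^ 2 ∂gam m) atTop
      (𝓝 (∫ x, (pd r w x) ^ 2 ∂gam m)) := by
    refine tendsto_integral_of_dominated_convergence (fun _ => (L : ℝ) ^ 2) (fun n => ?_)
      (integrable_const _) (fun n => Eventually.of_forall fun x => ?_)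
      (Eventually.of_forall fun x => (hpt x).pow 2)
    · have : Continuous (DQ n) := by
        simp only [DQ]
        fun_prop
      exact (this.pow 2).aestronglyMeasurable
    · rw [Real.norm_eq_abs, abs_pow]
      exact pow_le_pow_left₀ (abs_nonneg _) (hbd n x) 2
  exact le_of_tendsto' hlim hint

/-- the normalised derivative `G_c = c⁻¹ ∂_r u_c` -/
noncomputable def gkDqG (u : EE m → ℝ) (r : Fin m) (c : ℝ) (x : EE m) : ℝ :=
  c⁻¹ * pd r (mehler c u) x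

theorem gkDqG_BM {u : EE m → ℝ} (hu : BM u) (r : Fin m) {c : ℝ} (hc : c ∈ Ico (0 : ℝ) 1) :
    BM (gkDqG u r c) :=
  gk_dq_BM_const_mul ((gk_mehler_niceB hc hu).toNiceL.niceB_pd r).toBM _

/-- step (2a): `G_{c₁} = P_{c₁/c₂} G_{c₂}` -/
theorem gkDqG_eq {u : EE m → ℝ} (hu : BM u) (r : Fin m) {c₁ c₂ : ℝ} (h1 : 0 < c₁) (h12 : c₁ ≤ c₂)
    (h2 : c₂ < 1) (x : EE m) : gkDqG u r c₁ x = mehler (c₁ / c₂) (gkDqG u r c₂) x := by
  have hc2 : 0 < c₂ := h1.trans_le h12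
  have hρ : c₁ / c₂ ∈ Icc (0 : ℝ) 1 := ⟨by positivity, (div_le_one hc2).2 h12⟩
  have hfun : mehler c₁ u = mehler (c₁ / c₂) (mehler c₂ u) := by
    funext y
    rw [gk_mehler_mehler hρ ⟨hc2.le, h2.le⟩ hu.toPG y, div_mul_cancel₀ _ hc2.ne']
  have hC1L : C1L (mehler c₂ u) := (gk_mehler_niceB ⟨hc2.le, h2⟩ hu).toNiceL.toC1L
  unfold gkDqG
  rw [gk_mehler_const_mul, hfun, gk_pd_mehler hρ hC1L r x]
  field_simp

/-- step (2b): monotonicity of `e(c) = E G_c²` and the Cauchy estimate -/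
theorem gkDqG_cauchy {u : EE m → ℝ} (hu : BM u) (r : Fin m) {c₁ c₂ : ℝ} (h1 : 0 < c₁)
    (h12 : c₁ ≤ c₂) (h2 : c₂ < 1) :
    ∫ x, (gkDqG u r c₁ x) ^ 2 ∂gam m ≤ ∫ x, (gkDqG u r c₂ x) ^ 2 ∂gam m ∧
    ∫ x, (gkDqG u r c₂ x - gkDqG u r c₁ x) ^ 2 ∂gam m
      ≤ ∫ x, (gkDqG u r c₂ x) ^ 2 ∂gam m - ∫ x, (gkDqG u r c₁ x) ^ 2 ∂gam m := by
  have hc2 : 0 < c₂ := h1.trans_le h12
  set ρ := c₁ / c₂ with hρdef
  have hρ : ρ ∈ Icc (0 : ℝ) 1 := ⟨by positivity, (div_le_one hc2).2 h12⟩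
  set g := gkDqG u r c₂ with hg
  have hgBM : BM g := gkDqG_BM hu r ⟨hc2.le, h2⟩
  have hg2 : MemLp g 2 (gam m) := hgBM.toPG.memLp 2
  have hfun : gkDqG u r c₁ = mehler ρ g := funext fun x => gkDqG_eq hu r h1 h12 h2 x
  rw [hfun]
  have hP2 : MemLp (mehler ρ g) 2 (gam m) := gk_mehler_memLp hρ hgBM.1 hg2
  have hmono := gk_mehler_sq_le hρ hgBM.1 hg2
  refine ⟨hmono, ?_⟩
  have hcross : ∫ x, (mehler ρ g x) ^ 2 ∂gam m ≤ ∫ x, g x * mehler ρ g x ∂gam m := by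
    have h3 := gk_form_mul hρ hρ hgBM.1 hgBM.1 hg2 hg2
    have h4 := gk_mehler_form_mono (c := ρ * ρ) (c' := ρ) (mul_nonneg hρ.1 hρ.1)
      (by nlinarith [hρ.1, hρ.2]) hρ.2 hgBM.1 hg2
    rw [h3] at h4
    simpa [pow_two] using h4
  have hexp : ∫ x, (g x - mehler ρ g x) ^ 2 ∂gam m
      = ∫ x, (g x) ^ 2 ∂gam m - 2 * ∫ x, g x * mehler ρ g x ∂gam m
        + ∫ x, (mehler ρ g x) ^ 2 ∂gam m := by
    have e1 : ∀ x, (g x - mehler ρ g x) ^ 2
        = (g x) ^ 2 - 2 * (g x * mehler ρ g x) + (mehler ρ g x) ^ 2 := fun x => by ring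
    simp_rw [e1]
    have i1 : Integrable (fun x => (g x) ^ 2) (gam m) := gk_l2_integrable_sq hg2
    have i2 : Integrable (fun x => 2 * (g x * mehler ρ g x)) (gam m) :=
      (gk_l2_integrable_mul hg2 hP2).const_mul 2
    have i3 : Integrable (fun x => (mehler ρ g x) ^ 2) (gam m) := gk_l2_integrable_sq hP2
    have i12 : Integrable (fun x => (g x) ^ 2 - 2 * (g x * mehler ρ g x)) (gam m) := i1.sub i2
    rw [integral_add i12 i3, integral_sub i1 i2, integral_const_mul]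
  rw [hexp]
  linarith

/-- **T5.**  A bounded measurable function whose translates are Lipschitz in `L²(γ)` belongs to
`GH1`, and the derivatives of its Mehler regularisations converge in `L²(γ)`. -/
theorem gk_of_diffquot {u : EE m → ℝ} (hu : BM u) {K : ℝ}
    (h : ∀ h : EE m, ∫ x, (u (x + h) - u x) ^ 2 ∂gam m ≤ K * ‖h‖ ^ 2) :
    ∃ du : Fin m → EE m → ℝ, (∀ r, Measurable (du r)) ∧ GH1 u du ∧
      (∀ r, Tendsto (fun c => ∫ x, (pd r (mehler c u) x - du r x) ^ 2 ∂gam m) (𝓝[<] 1) (𝓝 0)) ∧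
      ∫ x, ∑ r, (du r x) ^ 2 ∂gam m ≤ (m : ℝ) * K := by
  have hev : ∀ᶠ c : ℝ in 𝓝[<] 1, c ∈ Ioo (0 : ℝ) 1 :=
    Ioo_mem_nhdsLT (by norm_num : (0 : ℝ) < 1)
  -- the limit of `G_c`
  have hex : ∀ r : Fin m, ∃ d : EE m → ℝ, Measurable d ∧ MemLp d 2 (gam m) ∧
      Tendsto (fun c => ∫ x, (gkDqG u r c x - d x) ^ 2 ∂gam m) (𝓝[<] 1) (𝓝 0) := by
    intro r
    have hK0 : 0 ≤ K := by
      have := h (eb r)
      rw [gk_norm_eb] at this
      have h0 : 0 ≤ ∫ x, (u (x + eb r) - u x) ^ 2 ∂gam m := integral_nonneg fun x => sq_nonneg _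
      linarith
    let e : ℝ → ℝ := fun c => ∫ x, (gkDqG u r c x) ^ 2 ∂gam m
    have heK : ∀ c ∈ Ioo (0 : ℝ) 1, e c ≤ K := by
      intro c hc
      have h1 := gk_dq_pd_sq_le hu h ⟨hc.1.le, hc.2⟩ r
      have h2 : ∀ x, (gkDqG u r c x) ^ 2 = (c⁻¹) ^ 2 * (pd r (mehler c u) x) ^ 2 := by
        intro x; unfold gkDqG; ring
      simp only [e]
      simp_rw [h2]
      rw [integral_const_mul]
      calc (c⁻¹) ^ 2 * ∫ x, (pd r (mehler c u) x) ^ 2 ∂gam m ≤ (c⁻¹) ^ 2 * (K * c ^ 2) :=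
            mul_le_mul_of_nonneg_left h1 (by positivity)
        _ = K := by
            have := hc.1.ne'
            field_simp
    refine gk_l2_exists_limit (hev.mono fun c hc => (gkDqG_BM hu r ⟨hc.1.le, hc.2⟩).toPG.memLp 2) ?_
    intro ε hε
    -- supremum of `e`
    set S : ℝ := sSup (e '' Ioo (0 : ℝ) 1) with hS
    have hne : (e '' Ioo (0 : ℝ) 1).Nonempty := ⟨e (1 / 2), ⟨1 / 2, by norm_num, rfl⟩⟩
    have hbdd : BddAbove (e '' Ioo (0 : ℝ) 1) := ⟨K, by rintro _ ⟨c, hc, rfl⟩; exact heK c hc⟩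
    obtain ⟨_, ⟨c₀, hc₀, rfl⟩, hlt⟩ := exists_lt_of_lt_csSup hne (by linarith : S - ε < S)
    have hev₀ : ∀ᶠ c : ℝ in 𝓝[<] 1, c ∈ Ioo c₀ 1 := Ioo_mem_nhdsLT hc₀.2
    have hrange : ∀ c ∈ Ioo c₀ 1, S - ε < e c ∧ e c ≤ S := by
      intro c hc
      have h1 := (gkDqG_cauchy hu r hc₀.1 hc.1.le hc.2).1
      exact ⟨lt_of_lt_of_le hlt h1, le_csSup hbdd ⟨c, ⟨hc₀.1.trans hc.1, hc.2⟩, rfl⟩⟩
    filter_upwards [hev₀.prod_mk hev₀] with p hp
    obtain ⟨hp1, hp2⟩ := hp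
    have r1 := hrange p.1 hp1
    have r2 := hrange p.2 hp2
    rcases le_total p.1 p.2 with hle | hle
    · have := (gkDqG_cauchy hu r (hc₀.1.trans hp1.1) hle hp2.2).2
      have hsymm : ∫ x, (gkDqG u r p.1 x - gkDqG u r p.2 x) ^ 2 ∂gam m
          = ∫ x, (gkDqG u r p.2 x - gkDqG u r p.1 x) ^ 2 ∂gam m := by
        congr 1; ext x; ring
      rw [hsymm]
      simp only [e] at r1 r2
      linarith [r1.1, r2.2]
    · have := (gkDqG_cauchy hu r (hc₀.1.trans hp2.1) hle hp1.2).2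
      simp only [e] at r1 r2
      linarith [r2.1, r1.2]
  choose du hdum hdu2 hdulim using hex
  -- convergence of `∂_r u_c = c G_c`
  have hpdlim : ∀ r, Tendsto (fun c => ∫ x, (pd r (mehler c u) x - du r x) ^ 2 ∂gam m)
      (𝓝[<] 1) (𝓝 0) := by
    intro r
    have hc1 : Tendsto (fun c : ℝ => c) (𝓝[<] 1) (𝓝 1) := tendsto_nhdsWithin_of_tendsto_nhds tendsto_id
    have hub : Tendsto (fun c : ℝ => 2 * c ^ 2 * ∫ x, (gkDqG u r c x - du r x) ^ 2 ∂gam m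
        + 2 * (c - 1) ^ 2 * ∫ x, (du r x) ^ 2 ∂gam m) (𝓝[<] 1) (𝓝 0) := by
      have h1 := ((hc1.pow 2).const_mul 2).mul (hdulim r)
      have h2 := (((hc1.sub_const 1).pow 2).const_mul 2).mul_const (∫ x, (du r x) ^ 2 ∂gam m)
      have := h1.add h2
      simpa using this
    refine squeeze_zero' (Eventually.of_forall fun c => integral_nonneg fun x => sq_nonneg _) ?_ hub
    filter_upwards [hev] with c hc
    have hG2 : MemLp (gkDqG u r c) 2 (gam m) := (gkDqG_BM hu r ⟨hc.1.le, hc.2⟩).toPG.memLp 2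
    have ha : MemLp (fun x => c * (gkDqG u r c x - du r x)) 2 (gam m) :=
      (hG2.sub (hdu2 r)).const_mul c
    have hb : MemLp (fun x => (c - 1) * du r x) 2 (gam m) := (hdu2 r).const_mul (c - 1)
    have hsplit : ∀ x, pd r (mehler c u) x - du r x
        = c * (gkDqG u r c x - du r x) + (c - 1) * du r x := by
      intro x
      unfold gkDqG
      have := hc.1.ne'
      field_simp
      ring
    simp_rw [hsplit]
    refine (gk_l2_integral_add_sq_le ha hb).trans (le_of_eq ?_)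
    simp_rw [mul_pow]
    rw [integral_const_mul, integral_const_mul]
    ring
  have hpd2 : ∀ r, ∀ᶠ c : ℝ in 𝓝[<] 1, MemLp (pd r (mehler c u)) 2 (gam m) := fun r =>
    hev.mono fun c hc => ((gk_mehler_niceB ⟨hc.1.le, hc.2⟩ hu).toNiceL.niceB_pd r).toBM.toPG.memLp 2
  refine ⟨du, hdum, ?_, hpdlim, ?_⟩
  · refine gk_gh1_of_tendsto (l := 𝓝[<] (1 : ℝ)) (v := fun c => mehler c u)
      (dv := fun c r => pd r (mehler c u)) ?_ (hu.toPG.memLp 2) hdu2
      (gk_mehler_tendsto hu.1 (hu.toPG.memLp 2)) hpdlim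
    exact hev.mono fun c hc => gk_gh1_of_C1L (gk_mehler_niceB ⟨hc.1.le, hc.2⟩ hu).toNiceL.toC1L
  · rw [integral_finsetSum _ fun r _ => gk_l2_integrable_sq (hdu2 r)]
    have hone : ∀ r, ∫ x, (du r x) ^ 2 ∂gam m ≤ K := by
      intro r
      have hK0 : 0 ≤ K := by
        have := h (eb r)
        rw [gk_norm_eb] at this
        have h0 : 0 ≤ ∫ x, (u (x + eb r) - u x) ^ 2 ∂gam m := integral_nonneg fun x => sq_nonneg _
        linarith
      have hl := gk_l2_tendsto_integral_sq (hpd2 r) (hdu2 r) (hpdlim r)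
      refine le_of_tendsto hl ?_
      filter_upwards [hev] with c hc
      refine (gk_dq_pd_sq_le hu h ⟨hc.1.le, hc.2⟩ r).trans ?_
      have : c ^ 2 ≤ 1 := by nlinarith [hc.1, hc.2]
      nlinarith
    calc ∑ r, ∫ x, (du r x) ^ 2 ∂gam m ≤ ∑ _r : Fin m, K := Finset.sum_le_sum fun r _ => hone r
      _ = (m : ℝ) * K := by simp

end Claimed.Agent.R260
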