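/-
Row 260, package GK (Gaussian kit): two more criteria for membership in `GH1`
(bounded energy of the Mehler regularisations; Mehler difference quotients).  (Used for T4.)
Blueprint helper200, proofs helper170.
-/
import Claimed.Agent.R260.GKDiffQuot
import Claimed.Agent.R260.GKCov

namespace Claimed.Agent.R260

open MeasureTheory ProbabilityTheory Filter Topology Set

variable {m : ℕ}

theorem gk_en_memLp_pd {u : EE m → ℝ} (hu : BM u) {c : ℝ} (hc : c ∈ Ioo (0 : ℝ) 1) (r : Fin m) :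
    MemLp (pd r (mehler c u)) 2 (gam m) :=
  ((gk_mehler_niceB ⟨hc.1.le, hc.2⟩ hu).toNiceL.niceB_pd r).toBM.toPG.memLp 2

theorem gk_en_sum_eq {u : EE m → ℝ} (hu : BM u) {c : ℝ} (hc : c ∈ Ioo (0 : ℝ) 1) :
    ∫ x, ∑ r, (pd r (mehler c u) x) ^ 2 ∂gam m = ∑ r, ∫ x, (pd r (mehler c u) x) ^ 2 ∂gam m :=
  integral_finsetSum _ fun r _ => gk_l2_integrable_sq (gk_en_memLp_pd hu hc r)

theorem gk_en_pd_sq_le {u : EE m → ℝ} (hu : BM u) {K : ℝ}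
    (h : ∀ c ∈ Ioo (0 : ℝ) 1, ∫ x, ∑ r, (pd r (mehler c u) x) ^ 2 ∂gam m ≤ K) {c : ℝ}
    (hc : c ∈ Ioo (0 : ℝ) 1) (r : Fin m) :
    ∫ x, (pd r (mehler c u) x) ^ 2 ∂gam m ≤ K := by
  have h1 := h c hc
  rw [gk_en_sum_eq hu hc] at h1
  exact (Finset.single_le_sum (f := fun s => ∫ x, (pd s (mehler c u) x) ^ 2 ∂gam m)
    (fun s _ => integral_nonneg fun x => sq_nonneg _) (Finset.mem_univ r)).trans h1

theorem gk_of_energy_bound {u : EE m → ℝ} (hu : BM u) {K : ℝ}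
    (h : ∀ c ∈ Ioo (0 : ℝ) 1, ∫ x, ∑ r, (pd r (mehler c u) x) ^ 2 ∂gam m ≤ K) :
    ∃ du : Fin m → EE m → ℝ, (∀ r, Measurable (du r)) ∧ GH1 u du ∧
      (∀ r, Tendsto (fun c => ∫ x, (pd r (mehler c u) x - du r x) ^ 2 ∂gam m) (𝓝[<] 1) (𝓝 0)) ∧
      ∫ x, ∑ r, (du r x) ^ 2 ∂gam m ≤ K := by
  have hev : ∀ᶠ c : ℝ in 𝓝[<] 1, c ∈ Ioo (0 : ℝ) 1 :=
    Ioo_mem_nhdsLT (by norm_num : (0 : ℝ) < 1)
  -- the limit of `G_c`
  have hex : ∀ r : Fin m, ∃ d : EE m → ℝ, Measurable d ∧ MemLp d 2 (gam m) ∧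
      Tendsto (fun c => ∫ x, (gkDqG u r c x - d x) ^ 2 ∂gam m) (𝓝[<] 1) (𝓝 0) := by
    intro r
    have hK0 : 0 ≤ K := by
      have := gk_en_pd_sq_le hu h (c := 1 / 2) (by norm_num) r
      have h0 : 0 ≤ ∫ x, (pd r (mehler (1 / 2) u) x) ^ 2 ∂gam m :=
        integral_nonneg fun x => sq_nonneg _
      linarith
    let e : ℝ → ℝ := fun c => ∫ x, (gkDqG u r c x) ^ 2 ∂gam m
    have heK' : ∀ c ∈ Ico (1 / 2 : ℝ) 1, e c ≤ 4 * K := by
      intro c hc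
      have hc0 : 0 < c := lt_of_lt_of_le (by norm_num) hc.1
      have h1 := gk_en_pd_sq_le hu h ⟨hc0, hc.2⟩ r
      have h2 : ∀ x, (gkDqG u r c x) ^ 2 = (c⁻¹) ^ 2 * (pd r (mehler c u) x) ^ 2 := by
        intro x; unfold gkDqG; ring
      simp only [e]
      simp_rw [h2]
      rw [integral_const_mul]
      have h3 : (c⁻¹) ^ 2 ≤ 4 := by
        have : c⁻¹ ≤ 2 := by
          rw [inv_le_comm₀ hc0 (by norm_num)]
          linarith [hc.1]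
        have h0 : 0 ≤ c⁻¹ := (inv_pos.2 hc0).le
        nlinarith
      calc (c⁻¹) ^ 2 * ∫ x, (pd r (mehler c u) x) ^ 2 ∂gam m ≤ (c⁻¹) ^ 2 * K :=
            mul_le_mul_of_nonneg_left h1 (by positivity)
        _ ≤ 4 * K := mul_le_mul_of_nonneg_right h3 hK0
    have heK : ∀ c ∈ Ioo (0 : ℝ) 1, e c ≤ 4 * K := by
      intro c hc
      rcases le_total (1 / 2) c with h2 | h2
      · exact heK' c ⟨h2, hc.2⟩
      · exact ((gkDqG_cauchy hu r hc.1 h2 (by norm_num)).1).trans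
          (heK' (1 / 2) ⟨le_rfl, by norm_num⟩)
    refine gk_l2_exists_limit (hev.mono fun c hc => (gkDqG_BM hu r ⟨hc.1.le, hc.2⟩).toPG.memLp 2) ?_
    intro ε hε
    -- supremum of `e`
    set S : ℝ := sSup (e '' Ioo (0 : ℝ) 1) with hS
    have hne : (e '' Ioo (0 : ℝ) 1).Nonempty := ⟨e (1 / 2), ⟨1 / 2, by norm_num, rfl⟩⟩
    have hbdd : BddAbove (e '' Ioo (0 : ℝ) 1) :=
      ⟨4 * K, by rintro _ ⟨c, hc, rfl⟩; exact heK c hc⟩
    obtain ⟨_, ⟨c₀, hc₀, rfl⟩, hlt⟩ := exists_lt_of_lt_csSup hne (by linarith : S - ε < S)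
    have hev₀ : ∀ᶠ c : ℝ in 𝓝[<] 1, c ∈ Ioo c₀ 1 := Ioo_mem_nhdsLT hc₀.2
    have hrange : ∀ c ∈ Ioo c₀ 1, S - ε < e c ∧ e c ≤ S := by
      intro c hc
      have h1 := (gkDqG_cauchy hu r hc₀.1 hc.1.le hc.2).1
      exact ⟨lt_of_lt_of_le hlt h1, le_csSup hbdd ⟨c, ⟨hc₀.1.trans hc.1, hc.2⟩, rfl⟩⟩
    filter_upwards [hev₀.prod_mk hev₀] with p hp
    obtain ⟨hp1, hp2⟩ := hp
    have r1 := hrange p.1 hp1
    have r2 := hrange p.2 hp2
    rcases le_total p.1 p.2 with hle | hle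
    · have := (gkDqG_cauchy hu r (hc₀.1.trans hp1.1) hle hp2.2).2
      have hsymm : ∫ x, (gkDqG u r p.1 x - gkDqG u r p.2 x) ^ 2 ∂gam m
          = ∫ x, (gkDqG u r p.2 x - gkDqG u r p.1 x) ^ 2 ∂gam m := by
        congr 1; ext x; ring
      rw [hsymm]
      simp only [e] at r1 r2
      linarith [r1.1, r2.2]
    · have := (gkDqG_cauchy hu r (hc₀.1.trans hp2.1) hle hp1.2).2
      simp only [e] at r1 r2
      linarith [r2.1, r1.2]
  choose du hdum hdu2 hdulim using hex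
  -- convergence of `∂_r u_c = c G_c`
  have hpdlim : ∀ r, Tendsto (fun c => ∫ x, (pd r (mehler c u) x - du r x) ^ 2 ∂gam m)
      (𝓝[<] 1) (𝓝 0) := by
    intro r
    have hc1 : Tendsto (fun c : ℝ => c) (𝓝[<] 1) (𝓝 1) := tendsto_nhdsWithin_of_tendsto_nhds tendsto_id
    have hub : Tendsto (fun c : ℝ => 2 * c ^ 2 * ∫ x, (gkDqG u r c x - du r x) ^ 2 ∂gam m
        + 2 * (c - 1) ^ 2 * ∫ x, (du r x) ^ 2 ∂gam m) (𝓝[<] 1) (𝓝 0) := by
      have h1 := ((hc1.pow 2).const_mul 2).mul (hdulim r)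
      have h2 := (((hc1.sub_const 1).pow 2).const_mul 2).mul_const (∫ x, (du r x) ^ 2 ∂gam m)
      have := h1.add h2
      simpa using this
    refine squeeze_zero' (Eventually.of_forall fun c => integral_nonneg fun x => sq_nonneg _) ?_ hub
    filter_upwards [hev] with c hc
    have hG2 : MemLp (gkDqG u r c) 2 (gam m) := (gkDqG_BM hu r ⟨hc.1.le, hc.2⟩).toPG.memLp 2
    have ha : MemLp (fun x => c * (gkDqG u r c x - du r x)) 2 (gam m) :=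
      (hG2.sub (hdu2 r)).const_mul c
    have hb : MemLp (fun x => (c - 1) * du r x) 2 (gam m) := (hdu2 r).const_mul (c - 1)
    have hsplit : ∀ x, pd r (mehler c u) x - du r x
        = c * (gkDqG u r c x - du r x) + (c - 1) * du r x := by
      intro x
      unfold gkDqG
      have := hc.1.ne'
      field_simp
      ring
    simp_rw [hsplit]
    refine (gk_l2_integral_add_sq_le ha hb).trans (le_of_eq ?_)
    simp_rw [mul_pow]
    rw [integral_const_mul, integral_const_mul]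
    ring
  have hpd2 : ∀ r, ∀ᶠ c : ℝ in 𝓝[<] 1, MemLp (pd r (mehler c u)) 2 (gam m) := fun r =>
    hev.mono fun c hc => gk_en_memLp_pd hu hc r
  refine ⟨du, hdum, ?_, hpdlim, ?_⟩
  · refine gk_gh1_of_tendsto (l := 𝓝[<] (1 : ℝ)) (v := fun c => mehler c u)
      (dv := fun c r => pd r (mehler c u)) ?_ (hu.toPG.memLp 2) hdu2
      (gk_mehler_tendsto hu.1 (hu.toPG.memLp 2)) hpdlim
    exact hev.mono fun c hc => gk_gh1_of_C1L (gk_mehler_niceB ⟨hc.1.le, hc.2⟩ hu).toNiceL.toC1L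
  · rw [integral_finsetSum _ fun r _ => gk_l2_integrable_sq (hdu2 r)]
    have hl : Tendsto (fun c => ∑ r, ∫ x, (pd r (mehler c u) x) ^ 2 ∂gam m) (𝓝[<] 1)
        (𝓝 (∑ r, ∫ x, (du r x) ^ 2 ∂gam m)) :=
      tendsto_finsetSum _ fun r _ => gk_l2_tendsto_integral_sq (hpd2 r) (hdu2 r) (hpdlim r)
    refine le_of_tendsto hl ?_
    filter_upwards [hev] with c hc
    rw [← gk_en_sum_eq hu hc]
    exact h c hc

/-- the bound for fixed `b ∈ (a,1)` -/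
theorem gk_en_mehlerquot_aux {u : EE m → ℝ} (hu : BM u) {K : ℝ}
    (h : ∀ c ∈ Ioo (0 : ℝ) 1,
      ∫ x, (u x) ^ 2 ∂gam m - ∫ x, u x * mehler c u x ∂gam m ≤ K * (1 - c) / c)
    {a b : ℝ} (ha : 0 < a) (hab : a < b) (hb : b < 1) :
    ∫ x, ∑ r, (pd r (mehler a u) x) ^ 2 ∂gam m ≤ K * (1 - a ^ 2) / (b ^ 2 - a ^ 2) := by
  have hb0 : 0 < b := ha.trans hab
  have haI : a ∈ Ioo (0 : ℝ) 1 := ⟨ha, hab.trans hb⟩
  have hbI : b ∈ Icc (0 : ℝ) 1 := ⟨hb0.le, hb.le⟩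
  set w := mehler b u with hw
  have hwN : NiceB w := gk_mehler_niceB ⟨hb0.le, hb⟩ hu
  have hwC : C1L w := hwN.toNiceL.toC1L
  have hwBM : BM w := hwN.toBM
  set g : Fin m → EE m → ℝ := fun r => pd r w with hg
  have hgBM : ∀ r, BM (g r) := fun r => (hwN.toNiceL.niceB_pd r).toBM
  have hg2 : ∀ r, MemLp (g r) 2 (gam m) := fun r => (hgBM r).toPG.memLp 2
  set ρ := a / b with hρdef
  have hρ0 : 0 < ρ := div_pos ha hb0
  have hρ1 : ρ < 1 := (div_lt_one hb0).2 hab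
  have hρI : ρ ∈ Icc (0 : ℝ) 1 := ⟨hρ0.le, hρ1.le⟩
  have hρb : ρ * b = a := div_mul_cancel₀ _ hb0.ne'
  have hρρ : ρ * ρ ∈ Ioo (0 : ℝ) 1 := ⟨mul_pos hρ0 hρ0, by nlinarith⟩
  have e0 : mehler a u = mehler ρ w := by
    funext y
    rw [hw, gk_mehler_mehler hρI hbI hu.toPG y, hρb]
  have e1 : ∀ r x, pd r (mehler a u) x = ρ * mehler ρ (g r) x := by
    intro r x
    rw [e0]
    exact gk_pd_mehler hρI hwC r x
  -- the derivative of the form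
  let D : ℝ → ℝ := fun c => ∫ x, ∑ r, g r x * mehler c (g r) x ∂gam m
  have hDsum : ∀ c ∈ Icc (0 : ℝ) 1, D c = ∑ r, ∫ x, g r x * mehler c (g r) x ∂gam m := by
    intro c hc
    exact integral_finsetSum _ fun r _ =>
      gk_l2_integrable_mul (hg2 r) (gk_mehler_memLp hc (hgBM r).1 (hg2 r))
  have hDmono : ∀ c c', 0 ≤ c → c ≤ c' → c' ≤ 1 → D c ≤ D c' := by
    intro c c' h0 h1 h2
    rw [hDsum c ⟨h0, h1.trans h2⟩, hDsum c' ⟨h0.trans h1, h2⟩]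
    exact Finset.sum_le_sum fun r _ => gk_mehler_form_mono h0 h1 h2 (hgBM r).1 (hg2 r)
  have hE : ∫ x, ∑ r, (pd r (mehler a u) x) ^ 2 ∂gam m = ρ ^ 2 * D (ρ * ρ) := by
    rw [gk_en_sum_eq hu haI, hDsum _ ⟨hρρ.1.le, hρρ.2.le⟩, Finset.mul_sum]
    refine Finset.sum_congr rfl fun r _ => ?_
    rw [gk_form_mul hρI hρI (hgBM r).1 (hgBM r).1 (hg2 r) (hg2 r), ← integral_const_mul]
    refine integral_congr_ae (Eventually.of_forall fun x => ?_)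
    simp only [e1]
    ring
  let ψ : ℝ → ℝ := fun c => ∫ x, w x * mehler c w x ∂gam m
  have hψd : ∀ c ∈ Ioo (ρ * ρ) 1, HasDerivAt ψ (D c) c := fun c hc =>
    gk_hasDerivAt_form hwC hwC ⟨hρρ.1.trans hc.1, hc.2⟩
  have hψc : ContinuousOn ψ (Icc (ρ * ρ) 1) :=
    (gk_mehler_form_continuousOn hwBM.1 hwBM.1 (hwBM.toPG.memLp 2) (hwBM.toPG.memLp 2)).mono
      (Icc_subset_Icc hρρ.1.le le_rfl)
  obtain ⟨ξ, hξ, hξe⟩ := exists_hasDerivAt_eq_slope ψ D hρρ.2 hψc hψd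
  have h1 : D (ρ * ρ) ≤ (ψ 1 - ψ (ρ * ρ)) / (1 - ρ * ρ) := by
    rw [← hξe]
    exact hDmono _ _ hρρ.1.le hξ.1.le hξ.2.le
  have hψ1 : ψ 1 = ∫ x, u x * mehler (b * (1 * b)) u x ∂gam m :=
    gkc_form_mehler hu.toPG hbI ⟨zero_le_one, le_rfl⟩
  have hψρ : ψ (ρ * ρ) = ∫ x, u x * mehler (a * a) u x ∂gam m := by
    have := gkc_form_mehler hu.toPG hbI (c := ρ * ρ) ⟨hρρ.1.le, hρρ.2.le⟩
    have e : b * (ρ * ρ * b) = a * a := by
      calc b * (ρ * ρ * b) = (ρ * b) * (ρ * b) := by ring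
        _ = a * a := by rw [hρb]
    rw [e] at this
    exact this
  have hq1 : ∫ x, u x * mehler (b * (1 * b)) u x ∂gam m ≤ ∫ x, (u x) ^ 2 ∂gam m := by
    have := gk_mehler_form_mono (c := b * (1 * b)) (c' := 1) (by positivity) (by nlinarith) le_rfl
      hu.1 (hu.toPG.memLp 2)
    rw [gk_mehler_one] at this
    simpa [pow_two] using this
  have haa : a * a ∈ Ioo (0 : ℝ) 1 := ⟨mul_pos ha ha, by nlinarith [haI.2]⟩
  have h2 := h (a * a) haa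
  have h3 : ψ 1 - ψ (ρ * ρ) ≤ K * (1 - a * a) / (a * a) := by
    rw [hψ1, hψρ]
    linarith
  have hpos : 0 < 1 - ρ * ρ := by linarith [hρρ.2]
  have h4 : D (ρ * ρ) ≤ K * (1 - a * a) / (a * a) / (1 - ρ * ρ) :=
    h1.trans (div_le_div_of_nonneg_right h3 hpos.le)
  rw [hE]
  have hba : 0 < b ^ 2 - a ^ 2 := by nlinarith
  calc ρ ^ 2 * D (ρ * ρ) ≤ ρ ^ 2 * (K * (1 - a * a) / (a * a) / (1 - ρ * ρ)) :=
        mul_le_mul_of_nonneg_left h4 (by positivity)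
    _ = K * (1 - a ^ 2) / (b ^ 2 - a ^ 2) := by
        have e : 1 - ρ * ρ = (b ^ 2 - a ^ 2) / b ^ 2 := by
          rw [hρdef]
          field_simp
        rw [e, hρdef]
        field_simp

theorem gk_energy_of_mehlerquot {u : EE m → ℝ} (hu : BM u) {K : ℝ}
    (h : ∀ c ∈ Ioo (0 : ℝ) 1,
      ∫ x, (u x) ^ 2 ∂gam m - ∫ x, u x * mehler c u x ∂gam m ≤ K * (1 - c) / c)
    {a : ℝ} (ha : a ∈ Ioo (0 : ℝ) 1) :
    ∫ x, ∑ r, (pd r (mehler a u) x) ^ 2 ∂gam m ≤ K := by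
  have hlim : Tendsto (fun b : ℝ => K * (1 - a ^ 2) / (b ^ 2 - a ^ 2)) (𝓝[<] 1) (𝓝 K) := by
    have hne : (1 : ℝ) ^ 2 - a ^ 2 ≠ 0 := by nlinarith [ha.1, ha.2]
    have h1 : Tendsto (fun b : ℝ => K * (1 - a ^ 2) / (b ^ 2 - a ^ 2)) (𝓝 1)
        (𝓝 (K * (1 - a ^ 2) / (1 ^ 2 - a ^ 2))) := by
      apply Tendsto.div tendsto_const_nhds _ hne
      exact ((continuous_id.pow 2).sub continuous_const).tendsto 1
    have e : K * (1 - a ^ 2) / (1 ^ 2 - a ^ 2) = K := by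
      rw [one_pow] at hne ⊢
      field_simp
    rw [e] at h1
    exact tendsto_nhdsWithin_of_tendsto_nhds h1
  refine ge_of_tendsto hlim ?_
  filter_upwards [Ioo_mem_nhdsLT ha.2] with b hb
  exact gk_en_mehlerquot_aux hu h ha.1 hb.1 hb.2

/-- **T5'.**  `E[u (1 - P_c) u] ≤ K (1 - c) / c` for all `c ∈ (0,1)` implies `u ∈ GH1`. -/
theorem gk_of_mehlerquot {u : EE m → ℝ} (hu : BM u) {K : ℝ}
    (h : ∀ c ∈ Ioo (0 : ℝ) 1,
      ∫ x, (u x) ^ 2 ∂gam m - ∫ x, u x * mehler c u x ∂gam m ≤ K * (1 - c) / c) :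
    ∃ du : Fin m → EE m → ℝ, (∀ r, Measurable (du r)) ∧ GH1 u du ∧
      (∀ r, Tendsto (fun c => ∫ x, (pd r (mehler c u) x - du r x) ^ 2 ∂gam m) (𝓝[<] 1) (𝓝 0)) ∧
      ∫ x, ∑ r, (du r x) ^ 2 ∂gam m ≤ K :=
  gk_of_energy_bound hu fun _ hc => gk_energy_of_mehlerquot hu h hc

end Claimed.Agent.R260
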