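/-
Row 260, package GK (Gaussian kit): the Dirichlet form of the Mehler kernel as an integral over the
correlated pair `(x, c x + σ z)`, and the comparison principle that follows.  (Used for T4.)
Owner: helper200.
-/
import Claimed.Agent.R260.GKCov

namespace Claimed.Agent.R260

open MeasureTheory ProbabilityTheory Filter Topology Set

variable {m : ℕ}

theorem gk_pair_integrable {c : ℝ} (hc : c ∈ Icc (0 : ℝ) 1) {a b : EE m → ℝ}
    (ha2 : MemLp a 2 (gam m)) (hb2 : MemLp b 2 (gam m)) :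
    Integrable (fun p : EE m × EE m => (a p.1 - a (c • p.1 + Real.sqrt (1 - c ^ 2) • p.2))
        * (b p.1 - b (c • p.1 + Real.sqrt (1 - c ^ 2) • p.2))) ((gam m).prod (gam m)) :=
  ((gk_memLp_comp_fst ha2).sub (gk_memLp_comp_comb hc ha2)).integrable_mul
    ((gk_memLp_comp_fst hb2).sub (gk_memLp_comp_comb hc hb2))

theorem gk_pair_integral_fst {u : EE m → ℝ} (hu : AEStronglyMeasurable u (gam m)) :
    ∫ p : EE m × EE m, u p.1 ∂((gam m).prod (gam m)) = ∫ y, u y ∂gam m := by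
  have hmp : MeasurePreserving (Prod.fst : EE m × EE m → EE m) ((gam m).prod (gam m)) (gam m) :=
    measurePreserving_fst
  have h := integral_map (μ := (gam m).prod (gam m)) (φ := (Prod.fst : EE m × EE m → EE m))
    (f := u) measurable_fst.aemeasurable (by rwa [hmp.map_eq])
  rw [hmp.map_eq] at h
  exact h.symm

/-- `E (a(X)-a(Y)) (b(X)-b(Y)) = 2 (E[a b] - E[a P_c b])` for the `c`-correlated pair `(X,Y)`. -/
theorem gk_pair_identity {c : ℝ} (hc : c ∈ Icc (0 : ℝ) 1) {a b : EE m → ℝ} (ha : Measurable a)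
    (hb : Measurable b) (ha2 : MemLp a 2 (gam m)) (hb2 : MemLp b 2 (gam m)) :
    ∫ p : EE m × EE m, (a p.1 - a (c • p.1 + Real.sqrt (1 - c ^ 2) • p.2))
        * (b p.1 - b (c • p.1 + Real.sqrt (1 - c ^ 2) • p.2)) ∂((gam m).prod (gam m))
      = 2 * (∫ x, a x * b x ∂gam m - ∫ x, a x * mehler c b x ∂gam m) := by
  set Y : EE m × EE m → EE m := fun p => c • p.1 + Real.sqrt (1 - c ^ 2) • p.2 with hY
  have f1 := gk_memLp_comp_fst ha2
  have f2 := gk_memLp_comp_fst hb2
  have g1 := gk_memLp_comp_comb hc ha2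
  have g2 := gk_memLp_comp_comb hc hb2
  have i1 : Integrable (fun p : EE m × EE m => a p.1 * b p.1) ((gam m).prod (gam m)) :=
    f1.integrable_mul f2
  have i2 : Integrable (fun p : EE m × EE m => a p.1 * b (Y p)) ((gam m).prod (gam m)) :=
    f1.integrable_mul g2
  have i3 : Integrable (fun p : EE m × EE m => b p.1 * a (Y p)) ((gam m).prod (gam m)) :=
    f2.integrable_mul g1
  have i4 : Integrable (fun p : EE m × EE m => a (Y p) * b (Y p)) ((gam m).prod (gam m)) :=
    g1.integrable_mul g2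
  have e : ∀ p : EE m × EE m, (a p.1 - a (Y p)) * (b p.1 - b (Y p))
      = a p.1 * b p.1 - a p.1 * b (Y p) - b p.1 * a (Y p) + a (Y p) * b (Y p) := fun p => by ring
  refine (integral_congr_ae (Eventually.of_forall e)).trans ?_
  have j2 : Integrable (fun p : EE m × EE m => a p.1 * b p.1 - a p.1 * b (Y p))
      ((gam m).prod (gam m)) := i1.sub i2
  have j3 : Integrable (fun p : EE m × EE m => a p.1 * b p.1 - a p.1 * b (Y p) - b p.1 * a (Y p))
      ((gam m).prod (gam m)) := j2.sub i3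
  rw [integral_add j3 i4, integral_sub j2 i3, integral_sub i1 i2]
  have hab : AEStronglyMeasurable (fun x => a x * b x) (gam m) := (ha.mul hb).aestronglyMeasurable
  have k1 : ∫ p : EE m × EE m, a p.1 * b p.1 ∂((gam m).prod (gam m)) = ∫ x, a x * b x ∂gam m :=
    gk_pair_integral_fst (u := fun x => a x * b x) hab
  have k4 : ∫ p : EE m × EE m, a (Y p) * b (Y p) ∂((gam m).prod (gam m))
      = ∫ x, a x * b x ∂gam m := gk_integral_comp_comb hc (u := fun x => a x * b x) hab
  have k2 : ∫ p : EE m × EE m, a p.1 * b (Y p) ∂((gam m).prod (gam m))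
      = ∫ x, a x * mehler c b x ∂gam m := (gk_form_eq_prod hc ha2 hb2).symm
  have k3 : ∫ p : EE m × EE m, b p.1 * a (Y p) ∂((gam m).prod (gam m))
      = ∫ x, a x * mehler c b x ∂gam m := by
    rw [← gk_form_eq_prod hc hb2 ha2, gk_mehler_symm hc hb ha hb2 ha2]
    simp_rw [mul_comm]
  rw [k1, k2, k3, k4]
  ring

/-- comparison principle: a pointwise inequality between "two point" expressions on a set of full
measure integrates to an inequality between Mehler--Dirichlet forms -/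
theorem gk_pair_mono {c : ℝ} (hc : c ∈ Icc (0 : ℝ) 1) {ι : Type*} (s : Finset ι)
    {a b a' b' : ι → EE m → ℝ}
    (ha : ∀ i ∈ s, Measurable (a i)) (hb : ∀ i ∈ s, Measurable (b i))
    (ha' : ∀ i ∈ s, Measurable (a' i)) (hb' : ∀ i ∈ s, Measurable (b' i))
    (ha2 : ∀ i ∈ s, MemLp (a i) 2 (gam m)) (hb2 : ∀ i ∈ s, MemLp (b i) 2 (gam m))
    (ha2' : ∀ i ∈ s, MemLp (a' i) 2 (gam m)) (hb2' : ∀ i ∈ s, MemLp (b' i) 2 (gam m))
    {S : Set (EE m)} (hS : ∀ᵐ x ∂gam m, x ∈ S)
    (h : ∀ x ∈ S, ∀ y ∈ S, ∑ i ∈ s, (a i x - a i y) * (b i x - b i y)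
      ≤ ∑ i ∈ s, (a' i x - a' i y) * (b' i x - b' i y)) :
    ∑ i ∈ s, (∫ x, a i x * b i x ∂gam m - ∫ x, a i x * mehler c (b i) x ∂gam m)
      ≤ ∑ i ∈ s, (∫ x, a' i x * b' i x ∂gam m - ∫ x, a' i x * mehler c (b' i) x ∂gam m) := by
  set Y : EE m × EE m → EE m := fun p => c • p.1 + Real.sqrt (1 - c ^ 2) • p.2 with hY
  have hS1 : ∀ᵐ p ∂((gam m).prod (gam m)), p.1 ∈ S :=
    (measurePreserving_fst (μ := gam m) (ν := gam m)).quasiMeasurePreserving.ae hS
  have hS2 : ∀ᵐ p ∂((gam m).prod (gam m)), Y p ∈ S :=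
    (gkc_mp_comb hc).quasiMeasurePreserving.ae hS
  have hint : ∫ p, ∑ i ∈ s, (a i p.1 - a i (Y p)) * (b i p.1 - b i (Y p)) ∂((gam m).prod (gam m))
      ≤ ∫ p, ∑ i ∈ s, (a' i p.1 - a' i (Y p)) * (b' i p.1 - b' i (Y p))
        ∂((gam m).prod (gam m)) := by
    refine integral_mono_ae
      (integrable_finsetSum _ fun i hi => gk_pair_integrable hc (ha2 i hi) (hb2 i hi))
      (integrable_finsetSum _ fun i hi => gk_pair_integrable hc (ha2' i hi) (hb2' i hi)) ?_
    filter_upwards [hS1, hS2] with p h1 h2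
    exact h _ h1 _ h2
  rw [integral_finsetSum _ fun i hi => gk_pair_integrable hc (ha2 i hi) (hb2 i hi),
    integral_finsetSum _ fun i hi => gk_pair_integrable hc (ha2' i hi) (hb2' i hi),
    Finset.sum_congr rfl fun i hi =>
      gk_pair_identity hc (ha i hi) (hb i hi) (ha2 i hi) (hb2 i hi),
    Finset.sum_congr rfl fun i hi =>
      gk_pair_identity hc (ha' i hi) (hb' i hi) (ha2' i hi) (hb2' i hi),
    ← Finset.mul_sum, ← Finset.mul_sum] at hint
  linarith

end Claimed.Agent.R260
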