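/-
Row 260, package TR (T4): the test function `t - P_c t`.  Owner: helper200.
-/
import Claimed.Agent.R260.GKMehlerS

set_option autoImplicit false

namespace Claimed.Agent.R260

open MeasureTheory ProbabilityTheory Set

variable {m : ℕ}

theorem trs_test_lipschitz {t : EE m → ℝ} {K : NNReal} (ht : LipschitzWith K t) {c : ℝ}
    (hc : c ∈ Ico (0 : ℝ) 1) : ∃ K' : NNReal, LipschitzWith K' (fun x => t x - mehler c t x) := by
  obtain ⟨K₁, hK₁⟩ := (gk_mehler_niceL hc ht).toC1L.lipschitz
  exact ⟨K + K₁, ht.sub hK₁⟩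

/-- (`t` is differentiable a.e., `mehler c t` everywhere; `gk_pd_mehler_of_lipschitz`) -/
theorem trs_test_pd {t : EE m → ℝ} {K : NNReal} (ht : LipschitzWith K t) {c : ℝ}
    (hc : c ∈ Ico (0 : ℝ) 1) (l : Fin m) :
    ∀ᵐ x ∂gam m, pd l (fun x => t x - mehler c t x) x = pd l t x - c * mehler c (pd l t) x := by
  have hd : Differentiable ℝ (mehler c t) :=
    (gk_mehler_niceL hc ht).toC1L.1.differentiable (by simp)
  filter_upwards [gk_gam_ac_volume.ae_le ht.ae_differentiableAt] with x hx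
  have h1 : fderiv ℝ (fun x => t x - mehler c t x) x = fderiv ℝ t x - fderiv ℝ (mehler c t) x :=
    fderiv_fun_sub hx (hd x)
  have h2 := gk_pd_mehler_of_lipschitz hc ht l x
  unfold pd at h2 ⊢
  rw [h1, sub_apply, h2]

end Claimed.Agent.R260
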