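/-
Row 260, package TR (T4): the Mehler difference quotient bound for the Jacobian.  Assembly.
Owner: helper200.
-/
import Claimed.Agent.R260.GKPair
import Claimed.Agent.R260.TrMat
import Claimed.Agent.R260.TrShiftTest

set_option autoImplicit false

namespace Claimed.Agent.R260

open MeasureTheory ProbabilityTheory Matrix Set Filter
open scoped InnerProductSpace

variable {m : ℕ}

/-- components of a Lipschitz map are Lipschitz -/
theorem trs_comp_lipschitz {T : EE m → EE m} {K : NNReal} (hT : LipschitzWith K T) (k : Fin m) :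
    LipschitzWith K (fun y => T y k) := by
  have h1 : LipschitzWith 1 (fun v : EE m => v k) := by
    refine LipschitzWith.of_dist_le_mul fun v w => ?_
    rw [NNReal.coe_one, one_mul, Real.dist_eq, dist_eq_norm]
    have h2 : |(v - w) k| ≤ ‖v - w‖ := by
      simpa using PiLp.norm_apply_le (v - w) k
    simpa using h2
  have h3 := h1.comp hT
  rw [one_mul] at h3
  exact h3

/-- **T4'** : `⟨J, (1 - P_c) J⟩ ≤ Λ² m (1 - c) / c`. -/
theorem trs_bound {T N : EE m → EE m} {lam Lam : ℝ} (hlam : 0 < lam) (hlL : lam ≤ Lam)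
    (hT : ∃ K : NNReal, LipschitzWith K T) (hN : ∃ K : NNReal, LipschitzWith K N)
    (hmono : ∀ x y, 0 ≤ ⟪N x - N y, T x - T y⟫_ℝ)
    (hsymm : ∀ᵐ x ∂gam m, (coreJ T x).IsSymm)
    (hspec : ∀ᵐ x ∂gam m, ∀ i, mxEig (coreJ T x) i ∈ Set.Icc lam Lam)
    (hweak : ∀ (k : Fin m) (ζ : EE m → ℝ) (K : NNReal), LipschitzWith K ζ →
      ∫ x, ∑ l, (coreJ T x)⁻¹ k l * pd l ζ x ∂gam m = ∫ x, ζ x * N x k ∂gam m)
    {c : ℝ} (hc : c ∈ Set.Ioo (0 : ℝ) 1) :
    ∑ k, ∑ l, (∫ x, (coreJ T x k l) ^ 2 ∂gam m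
        - ∫ x, coreJ T x k l * mehler c (fun y => coreJ T y k l) x ∂gam m)
      ≤ Lam ^ 2 * m * (1 - c) / c := by
  obtain ⟨KT, hKT⟩ := hT
  obtain ⟨KN, hKN⟩ := hN
  have hLam : 0 < Lam := hlam.trans_le hlL
  have hcI : c ∈ Icc (0 : ℝ) 1 := ⟨hc.1.le, hc.2.le⟩
  have hcO : c ∈ Ico (0 : ℝ) 1 := ⟨hc.1.le, hc.2⟩
  -- notation
  set J : Fin m → Fin m → EE m → ℝ := fun k l x => coreJ T x k l with hJ
  set G : Fin m → Fin m → EE m → ℝ := fun k l x => (coreJ T x)⁻¹ k l with hG
  have hTk : ∀ k, LipschitzWith KT (fun y => T y k) := trs_comp_lipschitz hKT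
  have hNk : ∀ k, LipschitzWith KN (fun y => N y k) := trs_comp_lipschitz hKN
  have hJBM : ∀ k l, BM (J k l) := fun k l => gk_pd_BM_of_lipschitz (hTk k) l
  have hJm : ∀ k l, Measurable (J k l) := fun k l => (hJBM k l).1
  have hJ2 : ∀ k l, MemLp (J k l) 2 (gam m) := fun k l => (hJBM k l).toPG.memLp 2
  have hGm : ∀ k l, Measurable (G k l) := fun k l =>
    trm_measurable_inv (F := fun x => coreJ T x) (fun i j => hJm i j) k l
  have hGb : ∀ k l, ∀ᵐ x ∂gam m, ‖G k l x‖ ≤ 1 / lam := by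
    intro k l
    filter_upwards [hsymm, hspec] with x h1 h2
    exact trm_inv_abs_le hlam h1 h2 k l
  have hG2 : ∀ k l, MemLp (G k l) 2 (gam m) := fun k l =>
    MemLp.of_bound (hGm k l).aestronglyMeasurable _ (hGb k l)
  have hPJ2 : ∀ k l, MemLp (mehler c (J k l)) 2 (gam m) := fun k l =>
    gk_mehler_memLp hcI (hJm k l) (hJ2 k l)
  have hT2 : ∀ k, MemLp (fun y => T y k) 2 (gam m) := fun k => (gk_PG_of_lipschitz (hTk k)).memLp 2
  have hN2 : ∀ k, MemLp (fun y => N y k) 2 (gam m) := fun k => (gk_PG_of_lipschitz (hNk k)).memLp 2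
  have hTm : ∀ k, Measurable (fun y => T y k) := fun k => (hTk k).continuous.measurable
  have hNm : ∀ k, Measurable (fun y => N y k) := fun k => (hNk k).continuous.measurable
  have hPT2 : ∀ k, MemLp (mehler c (fun y => T y k)) 2 (gam m) := fun k =>
    gk_mehler_memLp hcI (hTm k) (hT2 k)
  -- abbreviations for the three numbers
  set X : ℝ := ∑ k, ∑ l, ∫ x, G k l x * mehler c (J k l) x ∂gam m with hX
  set Dd : ℝ := ∑ k, ∑ l, (∫ x, (J k l x) ^ 2 ∂gam m - ∫ x, J k l x * mehler c (J k l) x ∂gam m)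
    with hDd
  -- (a) the identity (W) tested with `T_k - P_c T_k`
  have hW1 : ∀ k, ∫ x, ∑ l, G k l x * J k l x ∂gam m - c * ∑ l, ∫ x, G k l x * mehler c (J k l) x ∂gam m
      = ∫ x, N x k * T x k ∂gam m - ∫ x, N x k * mehler c (fun y => T y k) x ∂gam m := by
    intro k
    obtain ⟨K', hK'⟩ := trs_test_lipschitz (hTk k) hcO
    have h1 := hweak k _ K' hK'
    have h2 : ∫ x, ∑ l, (coreJ T x)⁻¹ k l * pd l (fun x => T x k - mehler c (fun y => T y k) x) x ∂gam m
        = ∫ x, (∑ l, G k l x * J k l x - c * ∑ l, G k l x * mehler c (J k l) x) ∂gam m := by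
      refine integral_congr_ae ?_
      have hall : ∀ᵐ x ∂gam m, ∀ l, pd l (fun x => T x k - mehler c (fun y => T y k) x) x
          = pd l (fun y => T y k) x - c * mehler c (pd l (fun y => T y k)) x :=
        ae_all_iff.2 fun l => trs_test_pd (hTk k) hcO l
      filter_upwards [hall] with x hx
      rw [Finset.mul_sum, ← Finset.sum_sub_distrib]
      refine Finset.sum_congr rfl fun l _ => ?_
      rw [hx l]
      simp only [hG, hJ, coreJ]
      ring
    have i1 : Integrable (fun x => ∑ l, G k l x * J k l x) (gam m) :=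
      integrable_finsetSum _ fun l _ => gk_l2_integrable_mul (hG2 k l) (hJ2 k l)
    have i2 : Integrable (fun x => c * ∑ l, G k l x * mehler c (J k l) x) (gam m) :=
      (integrable_finsetSum _ fun l _ => gk_l2_integrable_mul (hG2 k l) (hPJ2 k l)).const_mul c
    rw [h2, integral_sub i1 i2, integral_const_mul,
      integral_finsetSum _ fun l _ => gk_l2_integrable_mul (hG2 k l) (hPJ2 k l)] at h1
    rw [h1, ← integral_sub (gk_l2_integrable_mul (hN2 k) (hT2 k))
      (gk_l2_integrable_mul (hN2 k) (hPT2 k))]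
    refine integral_congr_ae (Eventually.of_forall fun x => ?_)
    simp only
    ring
  -- (b) `tr (J⁻¹ J) = m`
  have htr : ∑ k, ∫ x, ∑ l, G k l x * J k l x ∂gam m = (m : ℝ) := by
    rw [← integral_finsetSum _ fun k _ =>
      integrable_finsetSum _ fun l _ => gk_l2_integrable_mul (hG2 k l) (hJ2 k l)]
    have : ∀ᵐ x ∂gam m, ∑ k, ∑ l, G k l x * J k l x = (m : ℝ) := by
      filter_upwards [hsymm, hspec] with x h1 h2
      exact trm_sum_inv_mul hlam h1 h2
    rw [integral_congr_ae this]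
    simp
  -- (c) the right hand side is nonnegative
  have hR : 0 ≤ ∑ k, (∫ x, N x k * T x k ∂gam m
      - ∫ x, N x k * mehler c (fun y => T y k) x ∂gam m) := by
    have := gk_pair_mono hcI (Finset.univ : Finset (Fin m))
      (a := fun _ _ => 0) (b := fun _ _ => 0) (a' := fun k y => N y k) (b' := fun k y => T y k)
      (fun _ _ => measurable_const) (fun _ _ => measurable_const) (fun k _ => hNm k)
      (fun k _ => hTm k) (fun _ _ => MemLp.zero') (fun _ _ => MemLp.zero') (fun k _ => hN2 k)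
      (fun k _ => hT2 k) (S := Set.univ) (Eventually.of_forall fun _ => Set.mem_univ _)
      (fun x _ y _ => by
        have h := hmono x y
        rw [EuclideanSpace.inner_eq_star_dotProduct] at h
        simp only [sub_self, mul_zero, Finset.sum_const_zero]
        refine h.trans (le_of_eq ?_)
        simp [dotProduct, mul_comm])
    simpa using this
  -- (d) the matrix inequality, integrated
  have hM : (m : ℝ) - X ≤ -(1 / Lam ^ 2) * Dd := by
    have := gk_pair_mono hcI (Finset.univ : Finset (Fin m × Fin m))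
      (a := fun i => G i.1 i.2) (b := fun i => J i.1 i.2)
      (a' := fun i y => -(1 / Lam ^ 2) * J i.1 i.2 y) (b' := fun i => J i.1 i.2)
      (fun i _ => hGm i.1 i.2) (fun i _ => hJm i.1 i.2)
      (fun i _ => (hJm i.1 i.2).const_mul _) (fun i _ => hJm i.1 i.2)
      (fun i _ => hG2 i.1 i.2) (fun i _ => hJ2 i.1 i.2)
      (fun i _ => (hJ2 i.1 i.2).const_mul _) (fun i _ => hJ2 i.1 i.2)
      (S := {x | (coreJ T x).IsSymm ∧ ∀ i, mxEig (coreJ T x) i ∈ Set.Icc lam Lam})
      (by filter_upwards [hsymm, hspec] with x h1 h2 using ⟨h1, h2⟩)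
      (fun x hx y hy => by
        have h := trm_inv_mono hlam hx.1 hy.1 hx.2 hy.2
        rw [Fintype.sum_prod_type, Fintype.sum_prod_type]
        refine h.trans (le_of_eq ?_)
        rw [Finset.mul_sum]
        refine Finset.sum_congr rfl fun k _ => ?_
        rw [Finset.mul_sum]
        refine Finset.sum_congr rfl fun l _ => ?_
        simp only [hJ]
        ring)
    rw [Fintype.sum_prod_type, Fintype.sum_prod_type] at this
    have e1 : ∑ k, ∑ l, (∫ x, G k l x * J k l x ∂gam m - ∫ x, G k l x * mehler c (J k l) x ∂gam m)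
        = (m : ℝ) - X := by
      simp only [Finset.sum_sub_distrib]
      rw [← htr, hX]
      congr 1
      refine Finset.sum_congr rfl fun k _ => ?_
      rw [integral_finsetSum _ fun l _ => gk_l2_integrable_mul (hG2 k l) (hJ2 k l)]
    have e2 : ∑ k, ∑ l, (∫ x, -(1 / Lam ^ 2) * J k l x * J k l x ∂gam m
          - ∫ x, -(1 / Lam ^ 2) * J k l x * mehler c (J k l) x ∂gam m)
        = -(1 / Lam ^ 2) * Dd := by
      rw [hDd, Finset.mul_sum]
      refine Finset.sum_congr rfl fun k _ => ?_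
      rw [Finset.mul_sum]
      refine Finset.sum_congr rfl fun l _ => ?_
      simp only [mul_assoc]
      rw [integral_const_mul, integral_const_mul]
      simp only [sq]
      ring
    rw [← e1, ← e2]
    exact this
  -- conclusion
  have hsumW : (m : ℝ) - c * X = ∑ k, (∫ x, N x k * T x k ∂gam m
      - ∫ x, N x k * mehler c (fun y => T y k) x ∂gam m) := by
    rw [← Finset.sum_congr rfl fun k _ => hW1 k, Finset.sum_sub_distrib, htr, ← Finset.mul_sum]
  have h0 : 0 ≤ (m : ℝ) - c * X := hsumW ▸ hR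
  have h1 : c * ((1 / Lam ^ 2) * Dd) ≤ (m : ℝ) * (1 - c) := by nlinarith [hc.1]
  rw [le_div_iff₀ hc.1]
  have h2 : Dd = Lam ^ 2 * ((1 / Lam ^ 2) * Dd) := by field_simp
  calc Dd * c = Lam ^ 2 * (c * ((1 / Lam ^ 2) * Dd)) := by rw [h2]; ring_nf; field_simp
    _ ≤ Lam ^ 2 * ((m : ℝ) * (1 - c)) := by gcongr
    _ = Lam ^ 2 * m * (1 - c) := by ring

end Claimed.Agent.R260
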