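/-
Row 260, package GK (Gaussian kit): the Mehler operator commutes with derivatives.
Owner: helper77.  Statements verbatim from helper200's skeleton; no sorry in this file.
-/
import Claimed.Agent.R260.GKMehlerA
import Claimed.Agent.R260.GKIbp

namespace Claimed.Agent.R260

open MeasureTheory ProbabilityTheory Filter Topology Set

variable {m : ℕ}

/-- differentiation of the Mehler integral of a Lipschitz function under the integral sign -/
theorem gkd_hasFDerivAt (c : ℝ) {u : EE m → ℝ} {K : NNReal} (hu : LipschitzWith K u) (x : EE m)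
    (hd : ∀ᵐ z ∂gam m, DifferentiableAt ℝ u (c • x + Real.sqrt (1 - c ^ 2) • z)) :
    Integrable (fun z => c • fderiv ℝ u (c • x + Real.sqrt (1 - c ^ 2) • z)) (gam m) ∧
    HasFDerivAt (mehler c u)
      (∫ z, c • fderiv ℝ u (c • x + Real.sqrt (1 - c ^ 2) • z) ∂gam m) x := by
  set σ := Real.sqrt (1 - c ^ 2) with hσ
  have hcont : Continuous u := hu.continuous
  refine hasFDerivAt_integral_of_dominated_loc_of_lip (μ := gam m)
    (F := fun y z => u (c • y + σ • z)) (bound := fun _ => |c| * K) (s := univ) univ_mem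
    ?_ ?_ ?_ ?_ ?_ ?_
  · refine Eventually.of_forall fun y => ?_
    exact (hcont.comp (by fun_prop)).aestronglyMeasurable
  · exact gk_mehler_integrable c (gk_PG_of_lipschitz hu) x
  · have h1 : Measurable (fun z : EE m => fderiv ℝ u (c • x + σ • z)) :=
      (measurable_fderiv ℝ u).comp (by fun_prop)
    exact (h1.const_smul c).aestronglyMeasurable
  · refine Eventually.of_forall fun z => ?_
    refine LipschitzWith.lipschitzOnWith ?_
    refine LipschitzWith.of_dist_le_mul fun y y' => ?_
    have h1 := hu.dist_le_mul (c • y + σ • z) (c • y' + σ • z)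
    have h2 : dist (c • y + σ • z) (c • y' + σ • z) = |c| * dist y y' := by
      rw [dist_add_right, dist_smul₀, Real.norm_eq_abs]
    rw [h2] at h1
    have h3 : ((Real.nnabs (|c| * K) : NNReal) : ℝ) = |c| * K := by
      simp
    rw [h3]
    nlinarith [h1]
  · exact integrable_const _
  · filter_upwards [hd] with z hz
    have h1 : HasFDerivAt (fun y : EE m => c • y + σ • z) (c • ContinuousLinearMap.id ℝ (EE m)) x :=
      ((hasFDerivAt_id x).const_smul c).add_const _
    have h2 := hz.hasFDerivAt.comp x h1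
    have h3 : (fderiv ℝ u (c • x + σ • z)).comp (c • ContinuousLinearMap.id ℝ (EE m))
        = c • fderiv ℝ u (c • x + σ • z) := by
      ext v
      simp
    rw [h3] at h2
    exact h2

theorem gkd_norm_eb (r : Fin m) : ‖(eb r : EE m)‖ = 1 := by
  simp [eb]

theorem gkd_pd_eq (c : ℝ) {u : EE m → ℝ} {K : NNReal} (hu : LipschitzWith K u) (x : EE m)
    (hd : ∀ᵐ z ∂gam m, DifferentiableAt ℝ u (c • x + Real.sqrt (1 - c ^ 2) • z)) (r : Fin m) :
    pd r (mehler c u) x = c * mehler c (pd r u) x := by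
  obtain ⟨h1, h2⟩ := gkd_hasFDerivAt c hu x hd
  unfold pd
  rw [h2.fderiv, ContinuousLinearMap.integral_apply h1]
  unfold mehler
  rw [← integral_const_mul]
  rfl

/-- the Gaussian measure is absolutely continuous -/
theorem gkd_gam_ac : gam m ≪ (volume : Measure (EE m)) := by
  rw [gk_gam_eq_withDensity]
  exact withDensity_absolutelyContinuous _ _

theorem gkd_ae_comp {c : ℝ} (hc : c ∈ Ico (0 : ℝ) 1) (x : EE m) {p : EE m → Prop}
    (hp : ∀ᵐ y ∂(volume : Measure (EE m)), p y) :
    ∀ᵐ z ∂gam m, p (c • x + Real.sqrt (1 - c ^ 2) • z) := by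
  have hσ : Real.sqrt (1 - c ^ 2) ≠ 0 := by
    have : 0 < 1 - c ^ 2 := by nlinarith [hc.1, hc.2]
    exact (Real.sqrt_pos.mpr this).ne'
  refine gkd_gam_ac.ae_le ?_
  change ∀ᵐ z ∂(volume : Measure (EE m)), p (c • x + Real.sqrt (1 - c ^ 2) • z)
  rw [ae_iff] at hp ⊢
  set N := {y | ¬ p y} with hN
  have h1 : {z : EE m | ¬ p (c • x + Real.sqrt (1 - c ^ 2) • z)}
      = (fun z : EE m => Real.sqrt (1 - c ^ 2) • z) ⁻¹' ((fun y : EE m => c • x + y) ⁻¹' N) := rfl
  rw [h1, Measure.addHaar_preimage_smul _ hσ, measure_preimage_add, hp, mul_zero]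

/-- commutation with derivatives, `C¹` case -/
theorem gk_pd_mehler {c : ℝ} (hc : c ∈ Icc (0 : ℝ) 1) {u : EE m → ℝ} (hu : C1L u) (r : Fin m)
    (x : EE m) : pd r (mehler c u) x = c * mehler c (pd r u) x := by
  obtain ⟨K, hK⟩ := hu.lipschitz
  exact gkd_pd_eq c hK x (Eventually.of_forall fun z =>
    (hu.1.differentiable (by norm_num)).differentiableAt) r

theorem gk_mehler_C1L {c : ℝ} (hc : c ∈ Icc (0 : ℝ) 1) {u : EE m → ℝ} (hu : C1L u) :
    C1L (mehler c u) := by
  obtain ⟨K, hK⟩ := hu.lipschitz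
  obtain ⟨C, hC⟩ := hu.2
  have hdiff : ∀ x : EE m, ∀ᵐ z ∂gam m,
      DifferentiableAt ℝ u (c • x + Real.sqrt (1 - c ^ 2) • z) := fun x =>
    Eventually.of_forall fun z => (hu.1.differentiable (by norm_num)).differentiableAt
  have hD := fun x => (gkd_hasFDerivAt c hK x (hdiff x)).2
  have hfd : fderiv ℝ (mehler c u)
      = fun x => ∫ z, c • fderiv ℝ u (c • x + Real.sqrt (1 - c ^ 2) • z) ∂gam m := by
    funext x
    exact (hD x).fderiv
  have hcf : Continuous (fderiv ℝ u) := hu.1.continuous_fderiv (by norm_num)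
  have hbd : ∀ x z : EE m, ‖c • fderiv ℝ u (c • x + Real.sqrt (1 - c ^ 2) • z)‖ ≤ C := by
    intro x z
    rw [norm_smul, Real.norm_eq_abs, abs_of_nonneg hc.1]
    have h1 := hC (c • x + Real.sqrt (1 - c ^ 2) • z)
    have h2 := norm_nonneg (fderiv ℝ u (c • x + Real.sqrt (1 - c ^ 2) • z))
    nlinarith [hc.1, hc.2]
  refine ⟨?_, C, fun x => ?_⟩
  · rw [contDiff_one_iff_fderiv]
    refine ⟨fun x => (hD x).differentiableAt, ?_⟩
    rw [hfd]
    refine continuous_of_dominated (bound := fun _ => C) (fun x => ?_) (fun x => ?_)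
      (integrable_const _) ?_
    · exact ((hcf.comp (by fun_prop)).const_smul c).aestronglyMeasurable
    · exact Eventually.of_forall fun z => hbd x z
    · exact Eventually.of_forall fun z => (hcf.comp (by fun_prop)).const_smul c
  · rw [hfd]
    have := norm_integral_le_of_norm_le_const (μ := gam m)
      (Eventually.of_forall fun z => hbd x z)
    simpa using this

/-- commutation with derivatives, Lipschitz case (`pd r u` is the a.e. derivative) -/
theorem gk_pd_mehler_of_lipschitz {c : ℝ} (hc : c ∈ Ico (0 : ℝ) 1) {u : EE m → ℝ} {K : NNReal}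
    (hu : LipschitzWith K u) (r : Fin m) (x : EE m) :
    pd r (mehler c u) x = c * mehler c (pd r u) x :=
  gkd_pd_eq c hu x (gkd_ae_comp hc x hu.ae_differentiableAt) r

/-- measurability and boundedness of the a.e. derivative of a Lipschitz function -/
theorem gk_pd_BM_of_lipschitz {u : EE m → ℝ} {K : NNReal} (hu : LipschitzWith K u) (r : Fin m) :
    BM (pd r u) := by
  refine ⟨measurable_fderiv_apply_const ℝ u (eb r), K, fun x => ?_⟩
  have h1 := (fderiv ℝ u x).le_opNorm (eb r)
  rw [gkd_norm_eb, mul_one, Real.norm_eq_abs] at h1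
  exact h1.trans (norm_fderiv_le_of_lipschitz ℝ hu)

end Claimed.Agent.R260
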