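/-
Row 260, package TR (T3): the inverse map and the a.e. chain rule.
Statements by helper200; proofs by helper162 (leaf TR-WChain).
-/
import Claimed.Agent.R260.TrMat
import Claimed.Agent.R260.TrMA
import Claimed.Agent.R260.GKMehlerD

set_option autoImplicit false

namespace Claimed.Agent.R260

open MeasureTheory ProbabilityTheory Matrix

variable {m : ℕ}

/-- `∇φ` is a bi-Lipschitz bijection (`otQC.grad_injective`, `grad_surjective`,
`grad_antilipschitz`). -/
theorem trw_exists_inverse {φ : EE m → ℝ} {lam Lam : ℝ} (hlam : 0 < lam) (hφ : QC lam Lam φ) :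
    ∃ S : EE m → EE m, (∃ K : NNReal, LipschitzWith K S) ∧ (∀ x, S (gradient φ x) = x) ∧
      ∀ y, gradient φ (S y) = y := by
  have hφ' : otQC lam Lam φ := hφ
  have hbij : Function.Bijective (gradient φ) := ⟨hφ'.grad_injective hlam, hφ'.grad_surjective hlam⟩
  obtain ⟨S, hS1, hS2⟩ := Function.bijective_iff_has_inverse.mp hbij
  refine ⟨S, ⟨Real.toNNReal (1 / lam), ?_⟩, hS1, hS2⟩
  apply LipschitzWith.of_dist_le_mul
  intro y y'
  rw [dist_eq_norm, dist_eq_norm, Real.coe_toNNReal _ (by positivity)]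
  have h := hφ'.grad_antilipschitz (S y) (S y')
  rw [hS2, hS2] at h
  rw [div_mul_eq_mul_div, one_mul, le_div_iff₀ hlam]
  linarith

/-- at a point of differentiability, `coreJ T x` is the matrix of `fderiv ℝ T x` -/
theorem trw_coreJ_mulVec {T : EE m → EE m} {x : EE m} (hx : DifferentiableAt ℝ T x) (v : EE m)
    (i : Fin m) : fderiv ℝ T x v i = ∑ j, coreJ T x i j * v j := by
  rw [← trMA_coreJ_mulVec hx]
  rfl

/-- a.e. chain rule.  For a.e. `x`: `T = ∇φ` is differentiable at `x` (Rademacher, `γ ≪ vol`),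
`ξ = ζ ∘ S` is differentiable at `T x` (Rademacher for `ξ`, `otMeas W ≪ vol`, and `hmap`),
`ζ = ξ ∘ T`, so `Dζ(x) = Dξ(T x) ∘ DT(x)`; apply this to `v = J⁻¹ e_k`. -/
theorem trw_chain_ae {W φ : EE m → ℝ} {lam Lam : ℝ} (hlam : 0 < lam) (hφ : QC lam Lam φ)
    (hmap : (gam m).map (gradient φ) = otMeas W)
    (hsymm : ∀ᵐ x ∂gam m, (coreJ (gradient φ) x).IsSymm)
    (hspec : ∀ᵐ x ∂gam m, ∀ i, mxEig (coreJ (gradient φ) x) i ∈ Set.Icc lam Lam)
    {S : EE m → EE m} (hS : ∃ K : NNReal, LipschitzWith K S) (hS1 : ∀ x, S (gradient φ x) = x)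
    {ζ : EE m → ℝ} {K : NNReal} (hζ : LipschitzWith K ζ) (k : Fin m) :
    ∀ᵐ x ∂gam m, pd k (fun y => ζ (S y)) (gradient φ x)
      = ∑ l, (coreJ (gradient φ) x)⁻¹ k l * pd l ζ x := by
  have hφ' : otQC lam Lam φ := hφ
  obtain ⟨KS, hKS⟩ := hS
  have hξ : LipschitzWith (K * KS) (fun y => ζ (S y)) := hζ.comp hKS
  have hTm : AEMeasurable (gradient φ) (gam m) :=
    (hφ'.grad_continuous hlam.le).measurable.aemeasurable
  have h1 : ∀ᵐ y ∂(otMeas W), DifferentiableAt ℝ (fun y => ζ (S y)) y :=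
    (otMeas_absolutelyContinuous W).ae_le hξ.ae_differentiableAt
  rw [← hmap] at h1
  have h2 : ∀ᵐ x ∂gam m, DifferentiableAt ℝ (fun y => ζ (S y)) (gradient φ x) :=
    ae_of_ae_map hTm h1
  filter_upwards [h2, trMA_diff_ae hlam hφ, hsymm, hspec] with x hξx hx hsy hsp
  set J := coreJ (gradient φ) x with hJ
  -- chain rule
  have hcomp : HasFDerivAt ((fun y => ζ (S y)) ∘ gradient φ)
      ((fderiv ℝ (fun y => ζ (S y)) (gradient φ x)).comp (fderiv ℝ (gradient φ) x)) x :=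
    hξx.hasFDerivAt.comp x hx.hasFDerivAt
  have hζeq : (fun y => ζ (S y)) ∘ gradient φ = ζ := by
    funext z; simp only [Function.comp_apply, hS1]
  rw [hζeq] at hcomp
  -- the vector `v = J⁻¹ e_k`
  set v : EE m := WithLp.toLp 2 (fun l => J⁻¹ l k) with hv
  have hvl : ∀ l, v l = J⁻¹ l k := fun l => rfl
  have hTv : fderiv ℝ (gradient φ) x v = eb k := by
    ext i
    rw [trw_coreJ_mulVec hx]
    have h3 := congrFun (congrFun (trm_mul_inv_self hlam hsy hsp) i) k
    rw [Matrix.mul_apply] at h3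
    simp only [hvl]
    rw [← hJ, h3]
    simp [eb, Matrix.one_apply]
  unfold pd
  rw [← hTv, ← ContinuousLinearMap.comp_apply, ← hcomp.fderiv]
  conv_lhs => rw [trMA_sum_smul_eb v]
  rw [map_sum]
  refine Finset.sum_congr rfl fun l _ => ?_
  rw [map_smul, smul_eq_mul, hvl, (trm_inv_isSymm hsy).apply]

end Claimed.Agent.R260
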