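/-
Row 260, package TR (T3), file TrDiv: integration by parts on the target side, for a Lipschitz
function against `e^{-W} dy`.  Owner: helper170.
-/
import Claimed.Agent.R260.CoreDefs
import Claimed.Agent.R260.OTBridge

set_option autoImplicit false
set_option linter.unusedSectionVars false

namespace Claimed.Agent.R260

open MeasureTheory Set Filter Topology
open scoped InnerProductSpace

variable {E : Type*} [NormedAddCommGroup E] [InnerProductSpace ℝ E] [FiniteDimensional ℝ E]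

variable {c C : ℝ} {W : E → ℝ}

/-- derivative of `e^{-W}` along a line -/
theorem trd_hasDerivAt_exp (hW : otQC c C W) (y v : E) (t : ℝ) :
    HasDerivAt (fun s : ℝ => Real.exp (-W (y + s • v)))
      (-(⟪gradient W (y + t • v), v⟫_ℝ) * Real.exp (-W (y + t • v))) t := by
  have h0 : HasFDerivAt W (InnerProductSpace.toDual ℝ E (gradient W (y + t • v))) (y + t • v) :=
    (hW.hasGradientAt (y + t • v)).hasFDerivAt
  have h1 : HasDerivAt (fun s : ℝ => y + s • v) v t := by
    simpa using ((hasDerivAt_id t).smul_const v).const_add y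
  have h2 : HasDerivAt (fun s : ℝ => W (y + s • v)) ⟪gradient W (y + t • v), v⟫_ℝ t := by
    simpa [Function.comp_def] using h0.comp_hasDerivAt t h1
  have h3 : HasDerivAt (fun s : ℝ => -W (y + s • v)) (-⟪gradient W (y + t • v), v⟫_ℝ) t := h2.fun_neg
  have h4 := h3.exp
  rw [mul_comm] at h4
  exact h4

theorem trd_norm_grad_le (hW : otQC c C W) (hc : 0 ≤ c) (z : E) :
    ‖gradient W z‖ ≤ ‖gradient W 0‖ + |C| * ‖z‖ := by
  have h := hW.grad_lipschitz hc z 0
  rw [sub_zero] at h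
  have h1 : ‖gradient W z‖ ≤ ‖gradient W z - gradient W 0‖ + ‖gradient W 0‖ := by
    have := norm_add_le (gradient W z - gradient W 0) (gradient W 0)
    simpa using this
  have h2 : C * ‖z‖ ≤ |C| * ‖z‖ := mul_le_mul_of_nonneg_right (le_abs_self C) (norm_nonneg _)
  linarith

/-- the Gaussian majorant of `|∂_v e^{-W}|` on the segment `[y - v, y + v]` -/
noncomputable def trdM (c C : ℝ) (W : E → ℝ) (v y : E) : ℝ :=
  ‖v‖ * (‖gradient W 0‖ + |C| * (‖y‖ + ‖v‖))
    * (Real.exp (-W 0 + ‖gradient W 0‖ ^ 2 / c) * Real.exp (c / 4 * ‖v‖ ^ 2))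
    * Real.exp (-(c / 8) * ‖y‖ ^ 2)

theorem trd_deriv_bound [MeasurableSpace E] [BorelSpace E] (hW : otQC c C W) (hc : 0 < c)
    (y v : E) {s : ℝ} (hs : |s| ≤ 1) :
    ‖-(⟪gradient W (y + s • v), v⟫_ℝ) * Real.exp (-W (y + s • v))‖ ≤ trdM c C W v y := by
  set z := y + s • v with hz
  have hsv : ‖s • v‖ ≤ ‖v‖ := by
    rw [norm_smul, Real.norm_eq_abs]
    exact mul_le_of_le_one_left (norm_nonneg v) hs
  have hzn : ‖z‖ ≤ ‖y‖ + ‖v‖ := (norm_add_le _ _).trans (by linarith)
  have hyn : ‖y‖ ≤ ‖z‖ + ‖v‖ := by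
    have : y = z - s • v := by rw [hz]; abel
    calc ‖y‖ = ‖z - s • v‖ := by rw [← this]
      _ ≤ ‖z‖ + ‖s • v‖ := norm_sub_le _ _
      _ ≤ _ := by linarith
  have h1 : |⟪gradient W z, v⟫_ℝ| ≤ ‖v‖ * (‖gradient W 0‖ + |C| * (‖y‖ + ‖v‖)) := by
    have a1 := abs_real_inner_le_norm (gradient W z) v
    have a2 := trd_norm_grad_le hW hc.le z
    have a3 : |C| * ‖z‖ ≤ |C| * (‖y‖ + ‖v‖) := mul_le_mul_of_nonneg_left hzn (abs_nonneg C)
    calc |⟪gradient W z, v⟫_ℝ| ≤ ‖gradient W z‖ * ‖v‖ := a1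
      _ ≤ (‖gradient W 0‖ + |C| * (‖y‖ + ‖v‖)) * ‖v‖ :=
        mul_le_mul_of_nonneg_right (by linarith) (norm_nonneg v)
      _ = _ := by ring
  have h2 : Real.exp (-W z) ≤ (Real.exp (-W 0 + ‖gradient W 0‖ ^ 2 / c)
      * Real.exp (c / 4 * ‖v‖ ^ 2)) * Real.exp (-(c / 8) * ‖y‖ ^ 2) := by
    have b1 := hW.exp_neg_le hc z
    have b2 : Real.exp (-(c / 4) * ‖z‖ ^ 2)
        ≤ Real.exp (c / 4 * ‖v‖ ^ 2) * Real.exp (-(c / 8) * ‖y‖ ^ 2) := by
      rw [← Real.exp_add]
      apply Real.exp_le_exp.2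
      have : ‖y‖ ^ 2 ≤ 2 * ‖z‖ ^ 2 + 2 * ‖v‖ ^ 2 := by
        nlinarith [sq_nonneg (‖z‖ - ‖v‖), norm_nonneg y, norm_nonneg z, norm_nonneg v]
      nlinarith
    calc Real.exp (-W z) ≤ _ := b1
      _ ≤ Real.exp (-W 0 + ‖gradient W 0‖ ^ 2 / c)
          * (Real.exp (c / 4 * ‖v‖ ^ 2) * Real.exp (-(c / 8) * ‖y‖ ^ 2)) :=
        mul_le_mul_of_nonneg_left b2 (Real.exp_pos _).le
      _ = _ := by ring
  rw [norm_mul, norm_neg, Real.norm_eq_abs, Real.norm_eq_abs, abs_of_pos (Real.exp_pos _)]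
  unfold trdM
  calc |⟪gradient W z, v⟫_ℝ| * Real.exp (-W z)
      ≤ (‖v‖ * (‖gradient W 0‖ + |C| * (‖y‖ + ‖v‖)))
        * ((Real.exp (-W 0 + ‖gradient W 0‖ ^ 2 / c)
      * Real.exp (c / 4 * ‖v‖ ^ 2)) * Real.exp (-(c / 8) * ‖y‖ ^ 2)) :=
        mul_le_mul h1 h2 (Real.exp_pos _).le (by positivity)
    _ = _ := by ring

/-- difference quotients of `e^{-W}` are dominated -/
theorem trd_quot_bound [MeasurableSpace E] [BorelSpace E] (hW : otQC c C W) (hc : 0 < c)
    (y v : E) {t : ℝ} (ht0 : 0 < t) (ht1 : t ≤ 1) :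
    ‖t⁻¹ • (Real.exp (-W (y + t • v)) - Real.exp (-W y))‖ ≤ trdM c C W v y := by
  have h := Convex.norm_image_sub_le_of_norm_hasDerivWithin_le
    (f := fun s : ℝ => Real.exp (-W (y + s • v)))
    (f' := fun s : ℝ => -(⟪gradient W (y + s • v), v⟫_ℝ) * Real.exp (-W (y + s • v)))
    (s := Icc (0 : ℝ) 1) (x := 0) (y := t) (C := trdM c C W v y)
    (fun s _ => (trd_hasDerivAt_exp hW y v s).hasDerivWithinAt)
    (fun s hs => trd_deriv_bound hW hc y v (by rw [abs_of_nonneg hs.1]; exact hs.2))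
    (convex_Icc 0 1) ⟨le_rfl, zero_le_one⟩ ⟨ht0.le, ht1⟩
  simp only [zero_smul, add_zero, sub_zero, Real.norm_eq_abs, abs_of_pos ht0] at h
  rw [norm_smul, Real.norm_eq_abs, Real.norm_eq_abs, abs_of_pos (inv_pos.2 ht0)]
  calc t⁻¹ * |Real.exp (-W (y + t • v)) - Real.exp (-W y)| ≤ t⁻¹ * (trdM c C W v y * t) :=
        mul_le_mul_of_nonneg_left h (inv_pos.2 ht0).le
    _ = trdM c C W v y := by field_simp

section integrability

variable [MeasurableSpace E] [BorelSpace E]

theorem trd_integrable_sq_mul_exp {β : ℝ} (hβ : 0 < β) :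
    Integrable (fun y : E => ‖y‖ ^ 2 * Real.exp (-β * ‖y‖ ^ 2)) := by
  have h := (otQC_sq (E := E) (2 * β)).integrable_norm_sq (by positivity)
  rw [integrable_otMeas_iff (otQC_sq (E := E) (2 * β)).continuous] at h
  refine h.congr (Eventually.of_forall fun y => ?_)
  simp only
  congr 2
  ring

theorem trd_integrable_norm_mul_exp {β : ℝ} (hβ : 0 < β) :
    Integrable (fun y : E => ‖y‖ * Real.exp (-β * ‖y‖ ^ 2)) := by
  refine ((ot_integrable_exp_neg_mul_sq (E := E) hβ).add (trd_integrable_sq_mul_exp hβ)).mono'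
    (by fun_prop) (Eventually.of_forall fun y => ?_)
  rw [Real.norm_eq_abs, abs_of_nonneg (by positivity)]
  simp only [Pi.add_apply]
  have h1 : ‖y‖ ≤ 1 + ‖y‖ ^ 2 := by nlinarith [sq_nonneg (‖y‖ - 1)]
  have h2 := mul_le_mul_of_nonneg_right h1 (Real.exp_pos (-β * ‖y‖ ^ 2)).le
  linarith

/-- quadratic polynomial in `‖y‖` times a Gaussian -/
theorem trd_integrable_poly_mul_exp {β : ℝ} (hβ : 0 < β) (a0 a1 b0 b1 A : ℝ) :
    Integrable (fun y : E => (a0 + a1 * ‖y‖) * ((b0 + b1 * ‖y‖) * A * Real.exp (-β * ‖y‖ ^ 2))) := by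
  have h := (((ot_integrable_exp_neg_mul_sq (E := E) hβ).const_mul (a0 * b0 * A)).add
    ((trd_integrable_norm_mul_exp (E := E) hβ).const_mul ((a0 * b1 + a1 * b0) * A))).add
    ((trd_integrable_sq_mul_exp (E := E) hβ).const_mul (a1 * b1 * A))
  refine h.congr (Eventually.of_forall fun y => ?_)
  simp only [Pi.add_apply]
  ring

theorem trd_abs_lip_le {η : E → ℝ} {K : NNReal} (hη : LipschitzWith K η) (y : E) :
    |η y| ≤ |η 0| + K * ‖y‖ := by
  have h := hη.dist_le_mul y 0
  rw [Real.dist_eq, dist_zero_right] at h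
  have h1 : |η y| ≤ |η y - η 0| + |η 0| := by
    have := abs_add_le (η y - η 0) (η 0)
    simpa using this
  linarith

theorem trd_integrable_lip_mul_M (hc : 0 < c) {η : E → ℝ} {K : NNReal}
    (v : E) : Integrable (fun y : E => (|η 0| + K * ‖y‖) * trdM c C W v y) := by
  have h := trd_integrable_poly_mul_exp (E := E) (by positivity : 0 < c / 8) (|η 0|) K
    (‖v‖ * (‖gradient W 0‖ + |C| * ‖v‖)) (‖v‖ * |C|)
    (Real.exp (-W 0 + ‖gradient W 0‖ ^ 2 / c) * Real.exp (c / 4 * ‖v‖ ^ 2))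
  refine h.congr (Eventually.of_forall fun y => ?_)
  simp only [trdM]
  ring

theorem trd_integrable_lip_mul_exp (hW : otQC c C W) (hc : 0 < c) {η : E → ℝ} {K : NNReal}
    (hη : LipschitzWith K η) : Integrable (fun y : E => η y * Real.exp (-W y)) := by
  have h := trd_integrable_poly_mul_exp (E := E) (by positivity : 0 < c / 4) (|η 0|) K 1 0
    (Real.exp (-W 0 + ‖gradient W 0‖ ^ 2 / c))
  refine h.mono' ?_ (Eventually.of_forall fun y => ?_)
  · exact (hη.continuous.mul (Real.continuous_exp.comp hW.continuous.neg)).aestronglyMeasurable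
  · rw [norm_mul, Real.norm_eq_abs, Real.norm_eq_abs, abs_of_pos (Real.exp_pos _)]
    have h1 := trd_abs_lip_le hη y
    have h2 := hW.exp_neg_le hc y
    calc |η y| * Real.exp (-W y) ≤ (|η 0| + K * ‖y‖)
          * (Real.exp (-W 0 + ‖gradient W 0‖ ^ 2 / c) * Real.exp (-(c / 4) * ‖y‖ ^ 2)) :=
          mul_le_mul h1 h2 (Real.exp_pos _).le (by positivity)
      _ = _ := by ring

theorem trdM_nonneg (v y : E) : 0 ≤ trdM c C W v y := by
  unfold trdM
  positivity

/-- **Integration by parts** for a Lipschitz function against `e^{-W} dy`, generic space. -/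
theorem trd_ibp_gen (hW : otQC c C W) (hc : 0 < c) {η : E → ℝ} {K : NNReal}
    (hη : LipschitzWith K η) (v : E) :
    ∫ y, lineDeriv ℝ η y v * Real.exp (-W y)
      = ∫ y, ⟪gradient W y, v⟫_ℝ * Real.exp (-W y) * η y := by
  set g : E → ℝ := fun y => Real.exp (-W y) with hgdef
  have hgc : Continuous g := Real.continuous_exp.comp hW.continuous.neg
  have hg : Integrable g := hW.integrable_exp_neg hc
  have A := LipschitzWith.integral_inv_smul_sub_mul_tendsto_integral_lineDeriv_mul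
    (μ := (volume : Measure E)) hη hg v
  have B : Tendsto (fun t : ℝ => ∫ y, (t⁻¹ • (g (y + t • (-v)) - g y)) * η y) (𝓝[>] 0)
      (𝓝 (∫ y, ⟪gradient W y, v⟫_ℝ * g y * η y)) := by
    apply tendsto_integral_filter_of_dominated_convergence
      (fun y => trdM c C W (-v) y * (|η 0| + K * ‖y‖))
    · filter_upwards with t
      have : Continuous (fun y => (t⁻¹ • (g (y + t • (-v)) - g y)) * η y) := by
        have := hη.continuous
        fun_prop
      exact this.aestronglyMeasurable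
    · filter_upwards [Ioc_mem_nhdsGT zero_lt_one] with t ht
      filter_upwards with y
      rw [norm_mul]
      exact mul_le_mul (trd_quot_bound hW hc y (-v) ht.1 ht.2) (trd_abs_lip_le hη y)
        (norm_nonneg _) (trdM_nonneg _ _)
    · refine (trd_integrable_lip_mul_M (C := C) (W := W) (η := η) (K := K) hc (-v)).congr
        (Eventually.of_forall fun y => ?_)
      simp only
      ring
    · filter_upwards with y
      have h1 := (trd_hasDerivAt_exp hW y (-v) 0).tendsto_slope_zero_right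
      simp only [zero_add, zero_smul, add_zero, inner_neg_right, neg_neg] at h1
      exact h1.mul tendsto_const_nhds
  suffices S1 : ∀ t : ℝ, ∫ y, (t⁻¹ • (η (y + t • v) - η y)) * g y
      = ∫ y, (t⁻¹ • (g (y + t • (-v)) - g y)) * η y by
    simp only [S1] at A
    exact tendsto_nhds_unique A B
  intro t
  suffices S2 : ∫ y, (η (y + t • v) - η y) * g y = ∫ y, η y * (g (y + t • (-v)) - g y) by
    simp only [smul_eq_mul, mul_assoc, integral_const_mul, S2, mul_comm (η _)]
  have S3 : ∫ y, η (y + t • v) * g y = ∫ y, η y * g (y + t • (-v)) := by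
    rw [← integral_add_right_eq_self _ (t • (-v))]; simp
  have hη' : LipschitzWith K (fun y => η (y + t • v)) := by
    apply LipschitzWith.of_dist_le_mul
    intro x y
    have := hη.dist_le_mul (x + t • v) (y + t • v)
    rwa [dist_add_right] at this
  have i1 : Integrable (fun y => η (y + t • v) * g y) := trd_integrable_lip_mul_exp hW hc hη'
  have i2 : Integrable (fun y => η y * g y) := trd_integrable_lip_mul_exp hW hc hη
  have i3 : Integrable (fun y => η y * g (y + t • (-v))) := by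
    have := i1.comp_add_right (t • (-v))
    simpa using this
  simp_rw [_root_.sub_mul, _root_.mul_sub]
  rw [integral_sub i1 i2, integral_sub i3 i2, S3]

end integrability

/-- **Target-side integration by parts**, for `QC c C W`, `0 < c`. -/
theorem trd_ibp_qc {m : ℕ} {W : EE m → ℝ} {c C : ℝ} (hc : 0 < c) (hQ : QC c C W) {η : EE m → ℝ}
    {K : NNReal} (hη : LipschitzWith K η) (k : Fin m) :
    ∫ y, pd k η y ∂(otMeas W) = ∫ y, η y * gradient W y k ∂(otMeas W) := by
  have hQ' : otQC c C W := hQ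
  rw [integral_otMeas hQ'.continuous, integral_otMeas hQ'.continuous]
  have h := trd_ibp_gen hQ' hc hη (eb k)
  have e1 : ∫ y, pd k η y * Real.exp (-W y) = ∫ y, lineDeriv ℝ η y (eb k) * Real.exp (-W y) := by
    refine integral_congr_ae ?_
    filter_upwards [hη.ae_differentiableAt] with y hy
    rw [hy.lineDeriv_eq_fderiv]
    rfl
  rw [e1, h]
  refine integral_congr_ae (Eventually.of_forall fun y => ?_)
  have e2 : ⟪gradient W y, eb k⟫_ℝ = gradient W y k := by
    unfold eb
    rw [EuclideanSpace.inner_single_right]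
    simp
  simp only [e2]
  ring

/-- **Target-side integration by parts.** -/
theorem trd_ibp {m : ℕ} {W : EE m → ℝ} (hW : NicePot W) {η : EE m → ℝ} {K : NNReal}
    (hη : LipschitzWith K η) (k : Fin m) :
    ∫ y, pd k η y ∂(otMeas W) = ∫ y, η y * gradient W y k ∂(otMeas W) := by
  obtain ⟨⟨c, C, hc, hQ⟩, -⟩ := hW
  exact trd_ibp_qc hc hQ hη k

end Claimed.Agent.R260
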