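/-
Row 260, package TR (T3): integration by parts on the target side, for a Lipschitz function against
the density `e^{-W}`.
Skeleton with exact statements; the owner of this file (see table subtask) replaces the sorries.
-/
import Claimed.Agent.R260.GKMehlerD
import Claimed.Agent.R260.OTMeas
import Claimed.Agent.R260.TrDiv

set_option autoImplicit false

namespace Claimed.Agent.R260

open MeasureTheory ProbabilityTheory

variable {m : ℕ}

/-- `∫ ∂_k ξ e^{-W} = ∫ ξ ∂_k W e^{-W}` for Lipschitz `ξ` (`pd k ξ` = a.e. derivative).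
PROOF A: `LipschitzWith.integral_lineDeriv_mul_eq` (Mathlib, Rademacher file) with
`g = χ(·/R) e^{-W}` (`C¹`, compact support), `R → ∞` by dominated convergence
(`otQC.exp_neg_le`, `otQC.integrable_norm_sq`, `|∇W y| ≤ |∇W 0| + C |y|`).
PROOF B: rescale `y = s x`, `s² = 2/c`; `v x = exp (-W (s x) + |x|²/2)` is bounded `C1L`;
`GH1.ibp_mul` for `u = ξ (s ·)` (`gk_gh1_of_lipschitz`) and `v` (`gk_gh1_of_C1L`). -/
theorem trw_ibp_target {W : EE m → ℝ} {c C : ℝ} (hc : 0 < c) (hW : QC c C W) {ξ : EE m → ℝ}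
    {K : NNReal} (hξ : LipschitzWith K ξ) (k : Fin m) :
    ∫ y, pd k ξ y ∂otMeas W = ∫ y, ξ y * gradient W y k ∂otMeas W :=
  trd_ibp_qc hc hW hξ k

end Claimed.Agent.R260
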