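/-
Row 260, package TR (T3): the first variation identity (W).  Assembly.  Owner: helper200.
-/
import Claimed.Agent.R260.TrWIbp
import Claimed.Agent.R260.TrWChain

set_option autoImplicit false

namespace Claimed.Agent.R260

open MeasureTheory ProbabilityTheory Matrix

variable {m : ℕ}

/-- **T3 = (W)**, from the a.e. symmetry and the spectral bounds of the Jacobian. -/
theorem trw_weak_of {W φ : EE m → ℝ} {lam Lam : ℝ} (hW : NicePot W) (hlam : 0 < lam)
    (hφ : QC lam Lam φ) (hmap : (gam m).map (gradient φ) = otMeas W)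
    (hsymm : ∀ᵐ x ∂gam m, (coreJ (gradient φ) x).IsSymm)
    (hspec : ∀ᵐ x ∂gam m, ∀ i, mxEig (coreJ (gradient φ) x) i ∈ Set.Icc lam Lam)
    (k : Fin m) (ζ : EE m → ℝ) (K : NNReal) (hζ : LipschitzWith K ζ) :
    ∫ x, ∑ l, (coreJ (gradient φ) x)⁻¹ k l * pd l ζ x ∂gam m
      = ∫ x, ζ x * gradient W (gradient φ x) k ∂gam m := by
  obtain ⟨⟨c, C, hc, hQ⟩, -⟩ := hW
  have hW' : otQC c C W := hQ
  have hφ' : otQC lam Lam φ := hφ
  obtain ⟨S, ⟨KS, hKS⟩, hS1, hS2⟩ := trw_exists_inverse hlam hφ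
  have hξ : LipschitzWith (K * KS) (fun y => ζ (S y)) := hζ.comp hKS
  have hTc : Continuous (gradient φ) := hφ'.grad_continuous hlam.le
  have hTm : AEMeasurable (gradient φ) (gam m) := hTc.measurable.aemeasurable
  have hgWc : Continuous (gradient W) := hW'.grad_continuous hc.le
  have hgWk : Continuous (fun y => gradient W y k) :=
    (EuclideanSpace.proj k : EE m →L[ℝ] ℝ).continuous.comp hgWc
  calc ∫ x, ∑ l, (coreJ (gradient φ) x)⁻¹ k l * pd l ζ x ∂gam m
      = ∫ x, pd k (fun y => ζ (S y)) (gradient φ x) ∂gam m := by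
        refine integral_congr_ae ?_
        filter_upwards [trw_chain_ae hlam hφ hmap hsymm hspec ⟨KS, hKS⟩ hS1 hζ k] with x hx
        rw [hx]
    _ = ∫ y, pd k (fun y => ζ (S y)) y ∂otMeas W := by
        rw [← hmap, integral_map hTm]
        exact (gk_pd_BM_of_lipschitz hξ k).1.aestronglyMeasurable
    _ = ∫ y, ζ (S y) * gradient W y k ∂otMeas W := trw_ibp_target hc hQ hξ k
    _ = ∫ x, ζ (S (gradient φ x)) * gradient W (gradient φ x) k ∂gam m := by
        rw [← hmap, integral_map hTm]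
        exact (hξ.continuous.mul hgWk).aestronglyMeasurable
    _ = ∫ x, ζ x * gradient W (gradient φ x) k ∂gam m := by
        simp only [hS1]

end Claimed.Agent.R260
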