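/-
Row 260, package TR (T4): the entries of the Jacobian belong to `GH1`.  Assembly.
Owner: helper200.
-/
import Claimed.Agent.R260.TrShiftBound
import Claimed.Agent.R260.GKEnergy
import Claimed.Agent.R260.TrW
import Claimed.Agent.R260.CoreN

set_option autoImplicit false

namespace Claimed.Agent.R260

open MeasureTheory ProbabilityTheory Matrix Set Filter
open scoped InnerProductSpace

variable {m : ℕ}

/-- abstract form of T4 + T5' -/
theorem trs_gh1_abstract {T N : EE m → EE m} {lam Lam : ℝ} (hlam : 0 < lam) (hlL : lam ≤ Lam)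
    (hT : ∃ K : NNReal, LipschitzWith K T) (hN : ∃ K : NNReal, LipschitzWith K N)
    (hmono : ∀ x y, 0 ≤ ⟪N x - N y, T x - T y⟫_ℝ)
    (hsymm : ∀ᵐ x ∂gam m, (coreJ T x).IsSymm)
    (hspec : ∀ᵐ x ∂gam m, ∀ i, mxEig (coreJ T x) i ∈ Set.Icc lam Lam)
    (hweak : ∀ (k : Fin m) (ζ : EE m → ℝ) (K : NNReal), LipschitzWith K ζ →
      ∫ x, ∑ l, (coreJ T x)⁻¹ k l * pd l ζ x ∂gam m = ∫ x, ζ x * N x k ∂gam m) :
    ∃ Θ : Fin m → EE m → Mat m, (∀ r i j, Measurable fun x => Θ r x i j) ∧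
      (∀ i j, GH1 (fun x => coreJ T x i j) (fun r x => Θ r x i j)) ∧
      ∀ i j, ∫ x, ∑ r, (Θ r x i j) ^ 2 ∂gam m ≤ Lam ^ 2 * m := by
  obtain ⟨KT, hKT⟩ := id hT
  have hJBM : ∀ k l, BM (fun x => coreJ T x k l) := fun k l =>
    gk_pd_BM_of_lipschitz (trs_comp_lipschitz hKT k) l
  have key : ∀ i j, ∀ c ∈ Ioo (0 : ℝ) 1,
      ∫ x, (coreJ T x i j) ^ 2 ∂gam m
        - ∫ x, coreJ T x i j * mehler c (fun y => coreJ T y i j) x ∂gam m
      ≤ Lam ^ 2 * m * (1 - c) / c := by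
    intro i j c hc
    have hb := trs_bound hlam hlL hT hN hmono hsymm hspec hweak hc
    have hnn : ∀ k l, 0 ≤ ∫ x, (coreJ T x k l) ^ 2 ∂gam m
        - ∫ x, coreJ T x k l * mehler c (fun y => coreJ T y k l) x ∂gam m := fun k l =>
      sub_nonneg.2 (gk_form_le_sq ⟨hc.1.le, hc.2.le⟩ (hJBM k l).1 ((hJBM k l).toPG.memLp 2))
    refine le_trans ?_ hb
    calc ∫ x, (coreJ T x i j) ^ 2 ∂gam m
          - ∫ x, coreJ T x i j * mehler c (fun y => coreJ T y i j) x ∂gam m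
        ≤ ∑ l, (∫ x, (coreJ T x i l) ^ 2 ∂gam m
          - ∫ x, coreJ T x i l * mehler c (fun y => coreJ T y i l) x ∂gam m) :=
          Finset.single_le_sum (f := fun l => ∫ x, (coreJ T x i l) ^ 2 ∂gam m
            - ∫ x, coreJ T x i l * mehler c (fun y => coreJ T y i l) x ∂gam m)
            (fun l _ => hnn i l) (Finset.mem_univ j)
      _ ≤ _ := Finset.single_le_sum (f := fun k => ∑ l, (∫ x, (coreJ T x k l) ^ 2 ∂gam m
            - ∫ x, coreJ T x k l * mehler c (fun y => coreJ T y k l) x ∂gam m))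
            (fun k _ => Finset.sum_nonneg fun l _ => hnn k l) (Finset.mem_univ i)
  have hex := fun i j => gk_of_mehlerquot (hJBM i j) (K := Lam ^ 2 * m) (key i j)
  choose du h1 h2 _ h4 using hex
  exact ⟨fun r x => Matrix.of fun i j => du i j r x, fun r i j => h1 i j r, fun i j => h2 i j,
    fun i j => h4 i j⟩

/-- **T4** for the transport map, from the a.e. symmetry and spectral bounds of the Jacobian. -/
theorem trs_J_gh1_of {W φ : EE m → ℝ} {lam Lam : ℝ} (hW : NicePot W) (hlam : 0 < lam)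
    (hφ : QC lam Lam φ) (hmap : (gam m).map (gradient φ) = otMeas W)
    (hsymm : ∀ᵐ x ∂gam m, (coreJ (gradient φ) x).IsSymm)
    (hspec : ∀ᵐ x ∂gam m, ∀ i, mxEig (coreJ (gradient φ) x) i ∈ Set.Icc lam Lam) :
    ∃ Θ : Fin m → EE m → Mat m,
      ∀ i j, GH1 (fun x => coreJ (gradient φ) x i j) (fun r x => Θ r x i j) := by
  obtain ⟨hN, hmono⟩ := coreN_main hW hlam hφ
  have hφ' : otQC lam Lam φ := hφ
  have hT : ∃ K : NNReal, LipschitzWith K (gradient φ) := by
    refine ⟨Real.toNNReal Lam, LipschitzWith.of_dist_le_mul fun x y => ?_⟩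
    rw [dist_eq_norm, dist_eq_norm]
    exact (hφ'.grad_lipschitz hlam.le x y).trans
      (mul_le_mul_of_nonneg_right (Real.le_coe_toNNReal Lam) (norm_nonneg _))
  have hspec' : ∀ᵐ x ∂gam m, ∀ i, mxEig (coreJ (gradient φ) x) i ∈ Set.Icc lam (max lam Lam) := by
    filter_upwards [hspec] with x hx i
    exact ⟨(hx i).1, (hx i).2.trans (le_max_right _ _)⟩
  obtain ⟨Θ, -, h, -⟩ := trs_gh1_abstract hlam (le_max_left lam Lam) hT hN hmono hsymm hspec'
    (trw_weak_of hW hlam hφ hmap hsymm hspec)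
  exact ⟨Θ, h⟩

end Claimed.Agent.R260
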