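/-
Row 260, package TR: the exports `trw_weak` (T3) and `trs_J_gh1` (T4) with exactly the hypotheses of
`core_tr`, and the whole structure `TrOut`.  Owner: helper200.
-/
import Claimed.Agent.R260.TrShift
import Claimed.Agent.R260.TrMA

set_option autoImplicit false

namespace Claimed.Agent.R260

open MeasureTheory ProbabilityTheory Matrix

variable {m : ℕ}

/-- EXPORT: field `weak` of `TrOut`. -/
theorem trw_weak {W φ : EE m → ℝ} {lam Lam : ℝ} (hW : NicePot W) (hlam : 0 < lam)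
    (hφ : QC lam Lam φ) (hmap : (gam m).map (gradient φ) = otMeas W) :
    ∀ (k : Fin m) (ζ : EE m → ℝ) (K : NNReal), LipschitzWith K ζ →
      ∫ x, ∑ l, (coreJ (gradient φ) x)⁻¹ k l * pd l ζ x ∂gam m
        = ∫ x, ζ x * gradient W (gradient φ x) k ∂gam m :=
  trw_weak_of hW hlam hφ hmap (trMA_J_symm hlam hφ) (trMA_J_spec hlam hφ)

/-- EXPORT: field `J_gh1` of `TrOut`. -/
theorem trs_J_gh1 {W φ : EE m → ℝ} {lam Lam : ℝ} (hW : NicePot W) (hlam : 0 < lam)
    (hφ : QC lam Lam φ) (hmap : (gam m).map (gradient φ) = otMeas W) :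
    ∃ Θ : Fin m → EE m → Mat m,
      ∀ i j, GH1 (fun x => coreJ (gradient φ) x i j) (fun r x => Θ r x i j) :=
  trs_J_gh1_of hW hlam hφ hmap (trMA_J_symm hlam hφ) (trMA_J_spec hlam hφ)

/-- the statement of `core_tr` -/
theorem tr_out {W φ : EE m → ℝ} {lam Lam : ℝ} (hW : NicePot W) (hlam : 0 < lam)
    (hφ : QC lam Lam φ) (hmap : (gam m).map (gradient φ) = otMeas W) : TrOut W φ lam Lam where
  J_symm := trMA_J_symm hlam hφ
  J_spec := trMA_J_spec hlam hφ
  J_gh1 := trs_J_gh1 hW hlam hφ hmap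
  ma := trMA_ma hW hlam hφ hmap
  weak := trw_weak hW hlam hφ hmap

end Claimed.Agent.R260
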