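import Claimed.Agent.R260.WiScalar
import Claimed.Agent.R260.MxChain
import Claimed.Agent.R260.ScBounds
import Claimed.Agent.R260.CoreDefs
import Claimed.Agent.R260.ScLemma21

/-! Row 260, package WI/P25 (owner helper12), part 2: matrix part and the export `wi_core`
(consolidation of WiSurplus, WiPoint, WiIdentity, WiSc, WiCore). -/

/-!
# Row 260, package WI/P25: the pointwise surplus inequality for matrices

`wi_mx_surplus` = statement `mx_surplus` of `MxPair.lean` (pointwise part of Prop 2.5, from (2.19)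
to (2.26)), proved from the scalar facts `pair25`, `mar_mono`, `mar_symm` of `MxScal.Good`.
All three indices of `Θ` are rotated into the eigenbasis of `A`.
-/

set_option autoImplicit false

namespace Claimed.Agent.R260

open Matrix Finset

variable {m : ℕ}

/-- entries of `f(A)` -/
theorem wi_mxFun_apply (f : ℝ → ℝ) (A : Mx m) (r s : Fin m) :
    mxFun f A r s = ∑ c, mxU A r c * f (mxEig A c) * mxU A s c := by
  unfold mxFun
  rw [Matrix.mul_apply]
  apply sum_congr rfl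
  intro c _
  rw [Matrix.mul_diagonal, Matrix.transpose_apply]

/-- entries of `Uᵀ M U` -/
theorem wi_mxRot_apply (A M : Mx m) (i j : Fin m) :
    mxRot A M i j = ∑ a, ∑ b, mxU A a i * M a b * mxU A b j := by
  unfold mxRot
  rw [Matrix.mul_apply]
  simp_rw [Matrix.mul_apply, Matrix.transpose_apply, sum_mul]
  rw [sum_comm]

/-- contraction of a rank-one form with `f(A)` -/
theorem wi_contract (A : Mx m) (f : ℝ → ℝ) (v w : Fin m → ℝ) :
    ∑ r, ∑ s, mxFun f A r s * (v r * w s)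
      = ∑ c, f (mxEig A c) * ((∑ r, mxU A r c * v r) * (∑ s, mxU A s c * w s)) := by
  simp_rw [wi_mxFun_apply, sum_mul_sum, sum_mul, mul_sum]
  calc ∑ r, ∑ s, ∑ c, mxU A r c * f (mxEig A c) * mxU A s c * (v r * w s)
      = ∑ r, ∑ c, ∑ s, mxU A r c * f (mxEig A c) * mxU A s c * (v r * w s) := by
        apply sum_congr rfl; intro r _; rw [sum_comm]
    _ = ∑ c, ∑ r, ∑ s, mxU A r c * f (mxEig A c) * mxU A s c * (v r * w s) := by
        rw [sum_comm]
    _ = _ := by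
        apply sum_congr rfl; intro c _
        apply sum_congr rfl; intro r _
        apply sum_congr rfl; intro s _
        ring

/-- Parseval for the rotation of the derivative index -/
theorem wi_parseval (A : Mx m) (v w : Fin m → ℝ) :
    ∑ c, (∑ r, mxU A r c * v r) * (∑ s, mxU A s c * w s) = ∑ r, v r * w r := by
  have h := wi_contract A (fun _ => 1) v w
  simp only [one_mul] at h
  rw [← h, mxFun_const, one_smul]
  apply sum_congr rfl; intro r _
  simp [Matrix.one_apply]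

theorem wi_contract2 (A : Mx m) (f : ℝ → ℝ) (α : Fin m → Fin m → ℝ)
    (R R' : Fin m → Fin m → Fin m → ℝ) :
    ∑ r, ∑ s, mxFun f A r s * (∑ i, ∑ j, α i j * (R r i j * R' s i j))
      = ∑ i, ∑ j, ∑ c, f (mxEig A c) * α i j
          * ((∑ r, mxU A r c * R r i j) * (∑ s, mxU A s c * R' s i j)) := by
  have h : ∀ i j, ∑ c, f (mxEig A c) * α i j
        * ((∑ r, mxU A r c * R r i j) * (∑ s, mxU A s c * R' s i j))
      = α i j * ∑ r, ∑ s, mxFun f A r s * (R r i j * R' s i j) := by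
    intro i j
    rw [wi_contract, mul_sum]
    apply sum_congr rfl; intro c _; ring
  simp_rw [h, mul_sum]
  calc ∑ r, ∑ s, ∑ i, ∑ j, mxFun f A r s * (α i j * (R r i j * R' s i j))
      = ∑ r, ∑ i, ∑ s, ∑ j, mxFun f A r s * (α i j * (R r i j * R' s i j)) := by
        apply sum_congr rfl; intro r _; rw [sum_comm]
    _ = ∑ i, ∑ r, ∑ s, ∑ j, mxFun f A r s * (α i j * (R r i j * R' s i j)) := by
        rw [sum_comm]
    _ = ∑ i, ∑ r, ∑ j, ∑ s, mxFun f A r s * (α i j * (R r i j * R' s i j)) := by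
        apply sum_congr rfl; intro i _
        apply sum_congr rfl; intro r _; rw [sum_comm]
    _ = ∑ i, ∑ j, ∑ r, ∑ s, mxFun f A r s * (α i j * (R r i j * R' s i j)) := by
        apply sum_congr rfl; intro i _; rw [sum_comm]
    _ = _ := by
        apply sum_congr rfl; intro i _
        apply sum_congr rfl; intro j _
        apply sum_congr rfl; intro r _
        apply sum_congr rfl; intro s _
        ring

theorem wi_parseval2 (A : Mx m) (α : Fin m → Fin m → ℝ) (R R' : Fin m → Fin m → Fin m → ℝ) :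
    ∑ r, ∑ i, ∑ j, α i j * (R r i j * R' r i j)
      = ∑ i, ∑ j, ∑ c, α i j
          * ((∑ r, mxU A r c * R r i j) * (∑ s, mxU A s c * R' s i j)) := by
  simp_rw [← mul_sum, wi_parseval, mul_sum]
  calc ∑ r, ∑ i, ∑ j, α i j * (R r i j * R' r i j)
      = ∑ i, ∑ r, ∑ j, α i j * (R r i j * R' r i j) := by rw [sum_comm]
    _ = _ := by apply sum_congr rfl; intro i _; rw [sum_comm]

/-- trace of a product in the eigenbasis -/
theorem wi_trace_mul (A M N : Mx m) :
    Matrix.trace (M * N) = ∑ i, ∑ j, mxRot A M i j * mxRot A N j i := by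
  rw [← mxRot_trace A, mxRot_mul, Matrix.trace]
  simp_rw [Matrix.diag_apply, Matrix.mul_apply]

theorem wi_mxDD_symm (f f' : ℝ → ℝ) (u v : ℝ) : mxDD f f' u v = mxDD f f' v u := by
  unfold mxDD
  by_cases h : u = v
  · subst h; rfl
  · rw [if_neg h, if_neg (Ne.symm h), ← neg_sub (f v) (f u), ← neg_sub v u, neg_div_neg_eq]

/-- the part of `MxScal.Good` used by package WI (Prop 2.5) -/
structure MxScal.WiGood (σ : MxScal) : Prop where
  q_pos : ∀ a, 0 < σ.q a
  q_deriv : ∀ a, HasDerivAt σ.q (σ.q1 a) a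
  q_strictMono : StrictMono σ.q
  k_deriv : ∀ a, HasDerivAt σ.k (σ.b a) a
  b_deriv : ∀ a, HasDerivAt σ.b (σ.l a) a
  d_pos : ∀ a, 0 < σ.q a - a
  pair25 : ∀ ai aj : ℝ,
      1 - mxDD σ.k σ.b ai aj ^ 2 + σ.Rw ai aj
        ≤ mxDD σ.q σ.q1 ai aj ^ 2 * σ.Mar ai aj / (σ.q ai * σ.q aj)
  mar_mono : ∀ u v w : ℝ, u ≤ v → v ≤ w → σ.Mar u v ≤ σ.Mar u w ∧ σ.Mar u w ≤ σ.Mar v w
  mar_symm : ∀ u v : ℝ, σ.Mar u v = σ.Mar v u

theorem MxScal.Good.wiGood {σ : MxScal} (h : σ.Good) : σ.WiGood :=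
  ⟨h.q_pos, h.q_deriv, h.q_strictMono, h.k_deriv, h.b_deriv, h.d_pos, h.pair25, h.mar_mono,
    h.mar_symm⟩

/-- product rule for divided differences: `M^{ar} q[u,v] = k(u)² q[u,v] + q(v) (k²)[u,v]` -/
theorem wi_mar_mul (σ : MxScal) (hσ : σ.WiGood) (u v : ℝ) :
    σ.Mar u v * mxDD σ.q σ.q1 u v
      = σ.kk u * mxDD σ.q σ.q1 u v + σ.q v * mxDD σ.kk σ.kk1 u v := by
  unfold MxScal.Mar mxDD MxScal.kk MxScal.kk1 MxScal.q1
  by_cases h : u = v
  · subst h
    simp only [if_true]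
    have := (hσ.d_pos u).ne'
    field_simp
  · simp only [if_neg h]
    have h1 : u - v ≠ 0 := sub_ne_zero.2 h
    have h2 : σ.q u - σ.q v ≠ 0 := sub_ne_zero.2 (fun e => h (hσ.q_strictMono.injective e))
    field_simp
    ring

/-- the derivative fields with all three indices rotated into the eigenbasis of `A` -/
noncomputable def wiZt (A : Mx m) (Z : Fin m → Mx m) (i j c : Fin m) : ℝ :=
  ∑ r, mxU A r c * mxRot A (Z r) i j

/-- the tensor `Θ = ∂J` with all three indices rotated into the eigenbasis of `A` -/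
noncomputable def wiTht (σ : MxScal) (A : Mx m) (Z : Fin m → Mx m) (i j c : Fin m) : ℝ :=
  mxDD σ.q σ.q1 (mxEig A i) (mxEig A j) * wiZt A Z i j c

theorem wiZt_symm (A : Mx m) {Z : Fin m → Mx m} (hZ : ∀ r, (Z r).IsSymm) (i j c : Fin m) :
    wiZt A Z i j c = wiZt A Z j i c := by
  unfold wiZt
  apply sum_congr rfl; intro r _; rw [mxRot_symm_apply A (hZ r)]

/-- rotation of a Schur multiple -/
theorem wiZt_mxSchur (w : ℝ → ℝ → ℝ) (A : Mx m) (Z : Fin m → Mx m) (i j c : Fin m) :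
    wiZt A (fun r => mxSchur w A (Z r)) i j c = w (mxEig A i) (mxEig A j) * wiZt A Z i j c := by
  unfold wiZt
  rw [mul_sum]
  apply sum_congr rfl; intro r _
  rw [mxRot_mxSchur_apply]; ring

theorem wiZt_eq (A : Mx m) (Z : Fin m → Mx m) (i j c : Fin m) :
    wiZt A Z i j c = ∑ r, ∑ x, ∑ y, mxU A r c * (mxU A x i * Z r x y * mxU A y j) := by
  unfold wiZt
  apply sum_congr rfl; intro r _
  rw [wi_mxRot_apply, mul_sum]
  apply sum_congr rfl; intro x _; rw [mul_sum]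

theorem wiTht_eq (σ : MxScal) (A : Mx m) (Z : Fin m → Mx m) (i j c : Fin m) :
    wiTht σ A Z i j c = wiZt A (fun r => mxTh σ A (Z r)) i j c := by
  unfold wiTht mxTh mxDK
  rw [wiZt_mxSchur]

theorem wiTht_symm12 (σ : MxScal) (A : Mx m) {Z : Fin m → Mx m} (hZ : ∀ r, (Z r).IsSymm)
    (i j c : Fin m) : wiTht σ A Z i j c = wiTht σ A Z j i c := by
  unfold wiTht
  rw [wiZt_symm A hZ i j c, wi_mxDD_symm]

theorem wiTht_symm13 (σ : MxScal) (A : Mx m) {Z : Fin m → Mx m}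
    (hTh : ∀ r i j, mxTh σ A (Z r) i j = mxTh σ A (Z i) r j) (i j c : Fin m) :
    wiTht σ A Z i j c = wiTht σ A Z c j i := by
  rw [wiTht_eq, wiTht_eq, wiZt_eq, wiZt_eq, sum_comm]
  apply sum_congr rfl; intro x _
  apply sum_congr rfl; intro r _
  apply sum_congr rfl; intro y _
  rw [hTh r x y]
  ring

theorem wiTht_symm23 (σ : MxScal) (A : Mx m) {Z : Fin m → Mx m} (hZ : ∀ r, (Z r).IsSymm)
    (hTh : ∀ r i j, mxTh σ A (Z r) i j = mxTh σ A (Z i) r j) (i j c : Fin m) :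
    wiTht σ A Z i j c = wiTht σ A Z i c j := by
  rw [wiTht_symm12 σ A hZ i j c, wiTht_symm13 σ A hTh j i c, wiTht_symm12 σ A hZ c i j]

/-- the coordinate form of the right-hand side of (2.19) -/
noncomputable def wiXiC (σ : MxScal) (A : Mx m) (Z : Fin m → Mx m) : ℝ :=
  ∑ i, ∑ j, ∑ c, wiTht σ A Z i j c ^ 2 * σ.Mar (mxEig A i) (mxEig A j)
    / (σ.q (mxEig A j) * σ.q (mxEig A c))

/-- the left-hand side of the surplus inequality in coordinates -/
theorem wi_sur_eq (σ : MxScal) (A : Mx m) (Z : Fin m → Mx m) :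
    ∑ r, mxSq (Z r) - ∑ r, mxSq (mxK σ A (Z r)) + mxCsep σ A Z
      = ∑ i, ∑ j, ∑ c, (1 - mxDD σ.k σ.b (mxEig A i) (mxEig A j) ^ 2
          + σ.Rw (mxEig A i) (mxEig A j)) * wiZt A Z i j c ^ 2 := by
  have e1 : ∑ r, mxSq (Z r) = ∑ i, ∑ j, ∑ c, 1 * (wiZt A Z i j c * wiZt A Z i j c) := by
    unfold wiZt
    rw [← wi_parseval2 A (fun _ _ => 1) (fun r i j => mxRot A (Z r) i j)
      (fun r i j => mxRot A (Z r) i j)]
    apply sum_congr rfl; intro r _
    rw [mxSq_rot A]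
    apply sum_congr rfl; intro i _
    apply sum_congr rfl; intro j _
    ring
  have e2 : ∑ r, mxSq (mxK σ A (Z r))
      = ∑ i, ∑ j, ∑ c, mxDD σ.k σ.b (mxEig A i) (mxEig A j) ^ 2
          * (wiZt A Z i j c * wiZt A Z i j c) := by
    unfold wiZt
    rw [← wi_parseval2 A (fun i j => mxDD σ.k σ.b (mxEig A i) (mxEig A j) ^ 2)
      (fun r i j => mxRot A (Z r) i j) (fun r i j => mxRot A (Z r) i j)]
    apply sum_congr rfl; intro r _
    rw [mxSq_rot A]
    apply sum_congr rfl; intro i _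
    apply sum_congr rfl; intro j _
    rw [mxK, mxRot_mxDK_apply]
    ring
  have e3 : mxCsep σ A Z = ∑ i, ∑ j, ∑ c, σ.Rw (mxEig A i) (mxEig A j)
      * (wiZt A Z i j c * wiZt A Z i j c) := by
    unfold wiZt
    rw [← wi_parseval2 A (fun i j => σ.Rw (mxEig A i) (mxEig A j))
      (fun r i j => mxRot A (Z r) i j) (fun r i j => mxRot A (Z r) i j), mxCsep]
    apply sum_congr rfl; intro r _
    apply sum_congr rfl; intro i _
    apply sum_congr rfl; intro j _
    ring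
  rw [e1, e2, e3]
  simp_rw [← sum_sub_distrib, ← sum_add_distrib]
  apply sum_congr rfl; intro i _
  apply sum_congr rfl; intro j _
  apply sum_congr rfl; intro c _
  ring

/-- the right-hand side of (2.19) in coordinates -/
theorem wi_mxXi_eq (σ : MxScal) (hσ : σ.WiGood) (A : Mx m) (Z : Fin m → Mx m)
    (hZ : ∀ r, (Z r).IsSymm)
    (hTh : ∀ r i j, mxTh σ A (Z r) i j = mxTh σ A (Z i) r j) :
    mxXi σ A Z = wiXiC σ A Z := by
  have t1 : ∀ i j, Matrix.trace (mxFun (fun a => (σ.q a)⁻¹) A * mxTh σ A (Z i) *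
        mxFun (fun a => (σ.q a)⁻¹) A * mxTh σ A (Z j))
      = ∑ x, ∑ y, ((σ.q (mxEig A x))⁻¹ * (σ.q (mxEig A y))⁻¹
          * mxDD σ.q σ.q1 (mxEig A x) (mxEig A y) ^ 2)
          * (mxRot A (Z i) x y * mxRot A (Z j) x y) := by
    intro i j
    rw [Matrix.mul_assoc (mxFun (fun a => (σ.q a)⁻¹) A * mxTh σ A (Z i)), wi_trace_mul A]
    apply sum_congr rfl; intro x _
    apply sum_congr rfl; intro y _
    rw [mxRot_mxFun_mul_apply, mxRot_mxFun_mul_apply, mxTh, mxTh, mxRot_mxDK_apply,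
      mxRot_mxDK_apply, wi_mxDD_symm σ.q σ.q1 (mxEig A y) (mxEig A x),
      mxRot_symm_apply A (hZ j) y x]
    ring
  have t2 : ∀ r s, Matrix.trace (mxDK σ.kk σ.kk1 A (Z r) * mxTh σ A (Z s))
      = ∑ x, ∑ y, (mxDD σ.kk σ.kk1 (mxEig A x) (mxEig A y)
          * mxDD σ.q σ.q1 (mxEig A x) (mxEig A y))
          * (mxRot A (Z r) x y * mxRot A (Z s) x y) := by
    intro r s
    rw [wi_trace_mul A]
    apply sum_congr rfl; intro x _
    apply sum_congr rfl; intro y _
    rw [mxTh, mxRot_mxDK_apply, mxRot_mxDK_apply, wi_mxDD_symm σ.q σ.q1 (mxEig A y) (mxEig A x),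
      mxRot_symm_apply A (hZ s) y x]
    ring
  unfold mxXi wiXiC
  simp_rw [t1, t2]
  rw [wi_contract2 A σ.kk _ (fun r i j => mxRot A (Z r) i j) (fun r i j => mxRot A (Z r) i j),
    wi_contract2 A (fun a => (σ.q a)⁻¹) _ (fun r i j => mxRot A (Z r) i j)
      (fun r i j => mxRot A (Z r) i j)]
  -- first sum: rotate the roles of the indices
  have r1 : ∑ i, ∑ j, ∑ c, σ.kk (mxEig A c)
        * ((σ.q (mxEig A i))⁻¹ * (σ.q (mxEig A j))⁻¹
          * mxDD σ.q σ.q1 (mxEig A i) (mxEig A j) ^ 2)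
        * ((∑ r, mxU A r c * mxRot A (Z r) i j) * (∑ s, mxU A s c * mxRot A (Z s) i j))
      = ∑ i, ∑ j, ∑ c, σ.kk (mxEig A i) * wiTht σ A Z i j c ^ 2
          / (σ.q (mxEig A j) * σ.q (mxEig A c)) := by
    rw [← wi_sum_rot' (fun i j c => σ.kk (mxEig A i) * wiTht σ A Z i j c ^ 2
      / (σ.q (mxEig A j) * σ.q (mxEig A c)))]
    apply sum_congr rfl; intro i _
    apply sum_congr rfl; intro j _
    apply sum_congr rfl; intro c _
    have hrot : wiTht σ A Z c i j = wiTht σ A Z i j c := by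
      rw [wiTht_symm13 σ A hTh c i j, wiTht_symm12 σ A hZ j i c]
    rw [hrot]
    unfold wiTht wiZt
    have h1 := (hσ.q_pos (mxEig A i)).ne'
    have h2 := (hσ.q_pos (mxEig A j)).ne'
    field_simp
  rw [r1, ← sum_add_distrib]
  apply sum_congr rfl; intro i _
  rw [← sum_add_distrib]
  apply sum_congr rfl; intro j _
  rw [← sum_add_distrib]
  apply sum_congr rfl; intro c _
  have hm := wi_mar_mul σ hσ (mxEig A i) (mxEig A j)
  have h2 := (hσ.q_pos (mxEig A j)).ne'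
  have h3 := (hσ.q_pos (mxEig A c)).ne'
  have hz : (∑ r, mxU A r c * mxRot A (Z r) i j) = wiZt A Z i j c := rfl
  rw [hz]
  unfold wiTht
  have key : (mxDD σ.q σ.q1 (mxEig A i) (mxEig A j) * wiZt A Z i j c) ^ 2
        * σ.Mar (mxEig A i) (mxEig A j)
      = σ.kk (mxEig A i) * (mxDD σ.q σ.q1 (mxEig A i) (mxEig A j) * wiZt A Z i j c) ^ 2
        + σ.q (mxEig A j) * (mxDD σ.kk σ.kk1 (mxEig A i) (mxEig A j)
          * mxDD σ.q σ.q1 (mxEig A i) (mxEig A j)) * wiZt A Z i j c ^ 2 := by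
    have : (mxDD σ.q σ.q1 (mxEig A i) (mxEig A j) * wiZt A Z i j c) ^ 2
          * σ.Mar (mxEig A i) (mxEig A j)
        = (σ.Mar (mxEig A i) (mxEig A j) * mxDD σ.q σ.q1 (mxEig A i) (mxEig A j))
          * mxDD σ.q σ.q1 (mxEig A i) (mxEig A j) * wiZt A Z i j c ^ 2 := by ring
    rw [this, hm]
    ring
  rw [key]
  field_simp

/-- the surplus inequality for the coordinate form -/
theorem wi_sur_le_wiXiC (σ : MxScal) (hσ : σ.WiGood) (A : Mx m) (Z : Fin m → Mx m)
    (hZ : ∀ r, (Z r).IsSymm)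
    (hTh : ∀ r i j, mxTh σ A (Z r) i j = mxTh σ A (Z i) r j) :
    ∑ r, mxSq (Z r) - ∑ r, mxSq (mxK σ A (Z r)) + mxCsep σ A Z ≤ wiXiC σ A Z := by
  rw [wi_sur_eq]
  exact wi_surplus_coord (mxEig A) hσ.q_strictMono.monotone hσ.q_pos hσ.mar_symm hσ.mar_mono
    hσ.pair25 (wiZt A Z) (wiTht σ A Z) (fun _ _ _ => rfl) (wiTht_symm12 σ A hZ)
    (wiTht_symm23 σ A hZ hTh)

/-- **Pointwise part of Prop 2.5** (= `mx_surplus` of `MxPair.lean`). -/
theorem wi_mx_surplus (σ : MxScal) (hσ : σ.Good) {A : Mx m} (_hA : A.IsSymm) (Z : Fin m → Mx m)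
    (hZ : ∀ r, (Z r).IsSymm)
    (hTh : ∀ r i j, mxTh σ A (Z r) i j = mxTh σ A (Z i) r j) :
    ∑ r, mxSq (Z r) - ∑ r, mxSq (mxK σ A (Z r)) + mxCsep σ A Z ≤ mxXi σ A Z := by
  rw [wi_mxXi_eq σ hσ.wiGood A Z hZ hTh]
  exact wi_sur_le_wiXiC σ hσ.wiGood A Z hZ hTh

theorem wi_surplus_eqns_cite : True := by
  have := @wiZt.eq_1
  have := @wiTht.eq_1
  have := @wiXiC.eq_1
  trivial

end Claimed.Agent.R260

/-!
# Row 260, package WI: pointwise lemmas for the integrated identity (2.19)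

With `G = (1/q)(A)`, `c = (q k²)(A)`, `dG_l = D(1/q)(A)[Z_l]`, `dc_l = D(q k²)(A)[Z_l]`:
* `wi_full_contract` : invariance of the full contraction under the rotation of all three indices
* `wi_dGdc_eq` : `∑_{jkl} (dG_j)_{kl} (dc_l)_{jk} = - wiXiC`
* `wi_trace_Gc` : `∑_{jk} G_{kj} c_{jk} = tr k(A)²`
* `wi_cDN_nonneg` : `∑_{jk} c_{jk} DN_{kj} ≥ 0` if `⟨DN e, J e⟩ ≥ 0` for all `e`
-/

set_option autoImplicit false

namespace Claimed.Agent.R260

open Matrix Finset

variable {m : ℕ}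

namespace MxScal

variable (σ : MxScal)

/-- `1/q` -/ noncomputable def wiQi (a : ℝ) : ℝ := (σ.q a)⁻¹
/-- derivative of `1/q` -/ noncomputable def wiQi1 (a : ℝ) : ℝ := -σ.q1 a / σ.q a ^ 2
/-- `P = k² q` -/ def wiP (a : ℝ) : ℝ := σ.kk a * σ.q a
/-- derivative of `P` -/ def wiP1 (a : ℝ) : ℝ := σ.kk1 a * σ.q a + σ.kk a * σ.q1 a

end MxScal

theorem wi_point_eqns_cite : True := by
  have := @MxScal.wiQi.eq_1
  have := @MxScal.wiQi1.eq_1
  have := @MxScal.wiP.eq_1
  have := @MxScal.wiP1.eq_1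
  trivial

theorem wi_mxDD_qi (σ : MxScal) (hσ : σ.WiGood) (u v : ℝ) :
    mxDD σ.wiQi σ.wiQi1 u v = -mxDD σ.q σ.q1 u v / (σ.q u * σ.q v) := by
  unfold mxDD MxScal.wiQi MxScal.wiQi1
  have hu := (hσ.q_pos u).ne'
  have hv := (hσ.q_pos v).ne'
  by_cases h : u = v
  · subst h
    simp only [if_true]
    field_simp
  · simp only [if_neg h]
    have h1 : u - v ≠ 0 := sub_ne_zero.2 h
    field_simp
    ring

theorem wi_mxDD_P (σ : MxScal) (hσ : σ.WiGood) (u v : ℝ) :
    mxDD σ.wiP σ.wiP1 u v = σ.Mar u v * mxDD σ.q σ.q1 u v := by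
  rw [wi_mar_mul σ hσ]
  unfold mxDD MxScal.wiP MxScal.wiP1
  by_cases h : u = v
  · subst h
    simp only [if_true]
    ring
  · simp only [if_neg h]
    have h1 : u - v ≠ 0 := sub_ne_zero.2 h
    field_simp
    ring

/-- moving the derivative index of a family into a matrix index -/
theorem wiZt_perm (A : Mx m) (M : Fin m → Mx m) (a b c : Fin m) :
    wiZt A M c a b = wiZt A (fun j => Matrix.of fun k l => M l j k) a b c := by
  rw [wiZt_eq, wiZt_eq]
  rw [← wi_sum_rot' (fun r x y => mxU A r b * (mxU A x c * M r x y * mxU A y a))]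
  apply sum_congr rfl; intro r _
  apply sum_congr rfl; intro x _
  apply sum_congr rfl; intro y _
  simp only [Matrix.of_apply]
  ring

/-- the full contraction is invariant under the rotation of all three indices -/
theorem wi_full_contract (A : Mx m) (M M' : Fin m → Mx m) :
    ∑ j, ∑ k, ∑ l, M j k l * M' l j k = ∑ a, ∑ b, ∑ c, wiZt A M a b c * wiZt A M' c a b := by
  have h1 : ∀ j, ∑ k, ∑ l, M j k l * M' l j k
      = ∑ a, ∑ b, 1 * (mxRot A (M j) a b * mxRot A (Matrix.of fun k l => M' l j k) a b) := by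
    intro j
    have := mxIP_rot A (M j) (Matrix.of fun k l => M' l j k)
    rw [mxIP_eq_sum] at this
    simp only [Matrix.of_apply] at this
    simp only [one_mul]
    exact this
  simp_rw [h1]
  rw [wi_parseval2 A (fun _ _ => 1) (fun j a b => mxRot A (M j) a b)
    (fun j a b => mxRot A (Matrix.of fun k l => M' l j k) a b)]
  apply sum_congr rfl; intro a _
  apply sum_congr rfl; intro b _
  apply sum_congr rfl; intro c _
  rw [wiZt_perm A M' a b c, one_mul]
  rfl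

/-- `∑_{jkl} (dG_j)_{kl} (dc_l)_{jk} = - wiXiC` -/
theorem wi_dGdc_eq (σ : MxScal) (hσ : σ.WiGood) (A : Mx m) (Z : Fin m → Mx m)
    (hZ : ∀ r, (Z r).IsSymm)
    (hTh : ∀ r i j, mxTh σ A (Z r) i j = mxTh σ A (Z i) r j) :
    ∑ j, ∑ k, ∑ l, mxDK σ.wiQi σ.wiQi1 A (Z j) k l * mxDK σ.wiP σ.wiP1 A (Z l) j k
      = -wiXiC σ A Z := by
  rw [wi_full_contract A]
  unfold mxDK wiXiC
  simp_rw [wiZt_mxSchur]
  rw [← wi_sum_rot' (fun i j c => wiTht σ A Z i j c ^ 2 * σ.Mar (mxEig A i) (mxEig A j)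
    / (σ.q (mxEig A j) * σ.q (mxEig A c)))]
  simp_rw [← sum_neg_distrib]
  apply sum_congr rfl; intro a _
  apply sum_congr rfl; intro b _
  apply sum_congr rfl; intro c _
  rw [wi_mxDD_qi σ hσ, wi_mxDD_P σ hσ]
  have hrot : wiTht σ A Z a b c = wiTht σ A Z c a b := by
    rw [wiTht_symm13 σ A hTh a b c, wiTht_symm23 σ A hZ hTh c b a]
  have e1 : mxDD σ.q σ.q1 (mxEig A a) (mxEig A b) * wiZt A Z a b c = wiTht σ A Z c a b := by
    rw [← hrot]; rfl
  have e2 : mxDD σ.q σ.q1 (mxEig A c) (mxEig A a) * wiZt A Z c a b = wiTht σ A Z c a b := rfl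
  have ha := (hσ.q_pos (mxEig A a)).ne'
  have hb := (hσ.q_pos (mxEig A b)).ne'
  calc -mxDD σ.q σ.q1 (mxEig A a) (mxEig A b) / (σ.q (mxEig A a) * σ.q (mxEig A b))
          * wiZt A Z a b c
        * (σ.Mar (mxEig A c) (mxEig A a) * mxDD σ.q σ.q1 (mxEig A c) (mxEig A a)
          * wiZt A Z c a b)
      = -((mxDD σ.q σ.q1 (mxEig A a) (mxEig A b) * wiZt A Z a b c)
          * (mxDD σ.q σ.q1 (mxEig A c) (mxEig A a) * wiZt A Z c a b)
          * σ.Mar (mxEig A c) (mxEig A a) / (σ.q (mxEig A a) * σ.q (mxEig A b))) := by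
        field_simp
    _ = _ := by rw [e1, e2]; ring

/-- `∑_{jk} G_{kj} c_{jk} = tr k(A)²` -/
theorem wi_trace_Gc (σ : MxScal) (hσ : σ.WiGood) (A : Mx m) :
    ∑ j, ∑ k, mxFun σ.wiQi A k j * mxFun σ.wiP A j k = Matrix.trace (mxFun σ.kk A) := by
  have h : mxFun σ.kk A = mxFun σ.wiQi A * mxFun σ.wiP A := by
    rw [← mxFun_mul]
    apply mxFun_congr
    intro i
    unfold MxScal.wiQi MxScal.wiP
    have := (hσ.q_pos (mxEig A i)).ne'
    field_simp
  rw [h, Matrix.trace, sum_comm]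
  simp_rw [Matrix.diag_apply, Matrix.mul_apply]

/-- `J u_i = q(a_i) u_i` -/
theorem wi_mxFun_mul_col (f : ℝ → ℝ) (A : Mx m) (k i : Fin m) :
    ∑ i', mxFun f A k i' * mxU A i' i = mxU A k i * f (mxEig A i) := by
  have h : mxFun f A * mxU A = mxU A * Matrix.diagonal (fun i => f (mxEig A i)) := by
    unfold mxFun
    rw [Matrix.mul_assoc, mxU_transpose_mul, Matrix.mul_one]
  have h2 := congrFun (congrFun h k) i
  rw [Matrix.mul_apply, Matrix.mul_diagonal] at h2
  exact h2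

/-- `tr(F(J) J DN) ≥ 0` -/
theorem wi_cDN_nonneg (σ : MxScal) (_hσ : σ.WiGood) (A : Mx m) (DN : Fin m → Fin m → ℝ)
    (hmono : ∀ e : Fin m → ℝ, 0 ≤ ∑ k, (∑ j, DN k j * e j) * (∑ i, mxFun σ.q A k i * e i)) :
    0 ≤ ∑ j, ∑ k, mxFun σ.wiP A j k * DN k j := by
  have h : ∑ j, ∑ k, mxFun σ.wiP A j k * DN k j
      = ∑ i, σ.kk (mxEig A i)
          * ∑ k, (∑ j, DN k j * mxU A j i) * (∑ i', mxFun σ.q A k i' * mxU A i' i) := by
    have hR : ∀ i, σ.kk (mxEig A i)
          * ∑ k, (∑ j, DN k j * mxU A j i) * (∑ i', mxFun σ.q A k i' * mxU A i' i)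
        = ∑ k, ∑ j, mxU A j i * σ.wiP (mxEig A i) * mxU A k i * DN k j := by
      intro i
      rw [mul_sum]
      apply sum_congr rfl; intro k _
      rw [wi_mxFun_mul_col, sum_mul, mul_sum]
      apply sum_congr rfl; intro j _
      unfold MxScal.wiP
      ring
    have hL : ∀ j k, mxFun σ.wiP A j k * DN k j
        = ∑ i, mxU A j i * σ.wiP (mxEig A i) * mxU A k i * DN k j := by
      intro j k
      rw [wi_mxFun_apply, sum_mul]
    simp_rw [hR, hL]
    calc ∑ j, ∑ k, ∑ i, mxU A j i * σ.wiP (mxEig A i) * mxU A k i * DN k j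
        = ∑ j, ∑ i, ∑ k, mxU A j i * σ.wiP (mxEig A i) * mxU A k i * DN k j := by
          apply sum_congr rfl; intro j _; rw [sum_comm]
      _ = ∑ i, ∑ j, ∑ k, mxU A j i * σ.wiP (mxEig A i) * mxU A k i * DN k j := by
          rw [sum_comm]
      _ = ∑ i, ∑ k, ∑ j, mxU A j i * σ.wiP (mxEig A i) * mxU A k i * DN k j := by
          apply sum_congr rfl; intro i _; rw [sum_comm]
  rw [h]
  apply sum_nonneg
  intro i _
  apply mul_nonneg
  · unfold MxScal.kk; positivity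
  · exact hmono (fun j => mxU A j i)

end Claimed.Agent.R260

/-!
# Row 260, package WI: the integrated inequality (2.19)

`wi_identity` : `E mxXi ≤ E tr k(A)²`, from
* `A` symmetric bounded with entries in `GH1` (derivative fields `Z r`),
* total symmetry of `Θ_r = ∂_r q(A)`,
* `N = ∇V ∘ T` with entries in `GH1`, `N_k = ∑_l ∂_l^* (J⁻¹)_{kl}` a.e.,
* monotonicity `⟨DN e, J e⟩ ≥ 0` a.e.
Proof (captain's memo #2): `E tr(F(J) J DN) = ∑ E[N_k ∂_j^* c_{jk}]`, `c = F(J) J`,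
`= ∑ E[∂_l^* G_{kl} ∂_j^* c_{jk}] = ∑ E[∂_j G_{kl} ∂_l c_{jk}] + E tr(G c)`.
-/

set_option autoImplicit false

namespace Claimed.Agent.R260

open Matrix Finset MeasureTheory

variable {m : ℕ}

theorem wi_int_mul {f g : EE m → ℝ} (hf : MemLp f 2 (gam m)) (hg : MemLp g 2 (gam m)) :
    Integrable (fun x => f x * g x) (gam m) := hf.integrable_mul hg

/-- `∂_r^* u = x_r u - ∂_r u ∈ L²` -/
theorem GH1.wi_dstar_memLp {u : EE m → ℝ} {du : Fin m → EE m → ℝ} (hu : GH1 u du) (r : Fin m) :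
    MemLp (fun x => x r * u x - du r x) 2 (gam m) :=
  (hu.coord_mul_memLp r).sub (hu.2.1 r)

/-- adjointness: `E[u ∂_r v] = E[(∂_r^* u) v]` -/
theorem GH1.wi_adjoint {u v : EE m → ℝ} {du dv : Fin m → EE m → ℝ} (hu : GH1 u du)
    (hv : GH1 v dv) (r : Fin m) :
    ∫ x, u x * dv r x ∂gam m = ∫ x, (x r * u x - du r x) * v x ∂gam m := by
  have h := hu.ibp_mul hv r
  have e : ∀ x : EE m, (x r * u x - du r x) * v x = x r * u x * v x - du r x * v x := by
    intro x; ring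
  simp_rw [e]
  rw [integral_sub (wi_int_mul (hu.coord_mul_memLp r) hv.1) (wi_int_mul (hu.2.1 r) hv.1), h]
  ring

/-- the key computation for one pair `(j,k)` -/
theorem wi_key_jk {c N : EE m → ℝ} {dc dN : Fin m → EE m → ℝ} {G : Fin m → EE m → ℝ}
    {dG : Fin m → Fin m → EE m → ℝ} (hc : GH1 c dc) (hN : GH1 N dN) (hG : ∀ l, GH1 (G l) (dG l))
    (hNid : ∀ᵐ x ∂gam m, N x = ∑ l, (x l * G l x - dG l l x)) (j : Fin m) :
    ∫ x, c x * dN j x ∂gam m
      = ∑ l, ∫ x, dG l j x * dc l x ∂gam m + ∫ x, G j x * c x ∂gam m := by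
  rw [hc.wi_adjoint hN j]
  have h1 : ∫ x, (x j * c x - dc j x) * N x ∂gam m
      = ∫ x, ∑ l, (x l * G l x - dG l l x) * (x j * c x - dc j x) ∂gam m := by
    apply integral_congr_ae
    filter_upwards [hNid] with x hx
    rw [hx, mul_comm, sum_mul]
  rw [h1, integral_finsetSum _ (fun l _ =>
    wi_int_mul ((hG l).wi_dstar_memLp l) (hc.wi_dstar_memLp j))]
  simp_rw [(hG _).comm hc _ j]
  rw [sum_add_distrib]
  congr 1
  simp

section scalars

variable (σ : MxScal) (hσ : σ.WiGood)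
include hσ

theorem wi_q_cont : Continuous σ.q :=
  continuous_iff_continuousAt.2 fun x => (hσ.q_deriv x).continuousAt

theorem wi_k_cont : Continuous σ.k :=
  continuous_iff_continuousAt.2 fun x => (hσ.k_deriv x).continuousAt

theorem wi_b_cont : Continuous σ.b :=
  continuous_iff_continuousAt.2 fun x => (hσ.b_deriv x).continuousAt

theorem wi_q1_cont : Continuous σ.q1 := by
  have := wi_q_cont σ hσ
  unfold MxScal.q1
  fun_prop

theorem wi_hasDerivAt_qi (a : ℝ) : HasDerivAt σ.wiQi (σ.wiQi1 a) a := by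
  have h := (hσ.q_deriv a).inv (hσ.q_pos a).ne'
  exact h

theorem wi_qi1_cont : Continuous σ.wiQi1 := by
  have h1 := wi_q_cont σ hσ
  have h2 := wi_q1_cont σ hσ
  have h3 : ∀ a, σ.q a ^ 2 ≠ 0 := fun a => pow_ne_zero 2 (hσ.q_pos a).ne'
  unfold MxScal.wiQi1
  fun_prop (disch := assumption)

theorem wi_hasDerivAt_kk (a : ℝ) : HasDerivAt σ.kk (σ.kk1 a) a := by
  have h := (hσ.k_deriv a).fun_pow 2
  refine h.congr_deriv ?_
  unfold MxScal.kk1
  simp

theorem wi_hasDerivAt_P (a : ℝ) : HasDerivAt σ.wiP (σ.wiP1 a) a :=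
  (wi_hasDerivAt_kk σ hσ a).fun_mul (hσ.q_deriv a)

theorem wi_P1_cont : Continuous σ.wiP1 := by
  have h1 := wi_q_cont σ hσ
  have h2 := wi_q1_cont σ hσ
  have h3 := wi_k_cont σ hσ
  have h4 := wi_b_cont σ hσ
  unfold MxScal.wiP1 MxScal.kk MxScal.kk1
  fun_prop

end scalars

/-- **The integrated inequality (2.19).** -/
theorem wi_identity (σ : MxScal) (hσ : σ.WiGood) {A : EE m → Mx m} {Z : Fin m → EE m → Mx m}
    (hA : MxSymBd A) (hAZ : MxGH1 A Z) (hZ : ∀ᵐ x ∂gam m, ∀ r, (Z r x).IsSymm)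
    (hTh : ∀ᵐ x ∂gam m, ∀ r i j, mxTh σ (A x) (Z r x) i j = mxTh σ (A x) (Z i x) r j)
    {N : Fin m → EE m → ℝ} {dN : Fin m → Fin m → EE m → ℝ} (hN : ∀ k, GH1 (N k) (dN k))
    (hNid : ∀ k, ∀ᵐ x ∂gam m, N k x = ∑ l, (x l * mxFun σ.wiQi (A x) k l
        - mxDK σ.wiQi σ.wiQi1 (A x) (Z l x) k l))
    (hmono : ∀ᵐ x ∂gam m, ∀ e : Fin m → ℝ,
        0 ≤ ∑ k, (∑ j, dN k j x * e j) * (∑ i, mxFun σ.q (A x) k i * e i)) :
    Integrable (fun x => mxXi σ (A x) (fun r => Z r x)) (gam m) ∧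
      ∫ x, mxXi σ (A x) (fun r => Z r x) ∂gam m
        ≤ ∫ x, Matrix.trace (mxFun σ.kk (A x)) ∂gam m := by
  have hG : MxGH1 (fun x => mxFun σ.wiQi (A x)) (fun r x => mxDK σ.wiQi σ.wiQi1 (A x) (Z r x)) :=
    mx_gh1_chain hA hAZ (wi_hasDerivAt_qi σ hσ) (wi_qi1_cont σ hσ)
  have hc : MxGH1 (fun x => mxFun σ.wiP (A x)) (fun r x => mxDK σ.wiP σ.wiP1 (A x) (Z r x)) :=
    mx_gh1_chain hA hAZ (wi_hasDerivAt_P σ hσ) (wi_P1_cont σ hσ)
  -- the key identity, summed
  have key : ∀ j k, ∫ x, mxFun σ.wiP (A x) j k * dN k j x ∂gam m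
      = ∑ l, ∫ x, mxDK σ.wiQi σ.wiQi1 (A x) (Z j x) k l * mxDK σ.wiP σ.wiP1 (A x) (Z l x) j k
          ∂gam m
        + ∫ x, mxFun σ.wiQi (A x) k j * mxFun σ.wiP (A x) j k ∂gam m := by
    intro j k
    exact wi_key_jk (hc j k) (hN k) (fun l => hG k l) (hNid k) j
  -- integrability
  have i1 : ∀ j k, Integrable (fun x => mxFun σ.wiP (A x) j k * dN k j x) (gam m) :=
    fun j k => wi_int_mul (hc j k).1 ((hN k).2.1 j)
  have i2 : ∀ j k l, Integrable (fun x => mxDK σ.wiQi σ.wiQi1 (A x) (Z j x) k l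
      * mxDK σ.wiP σ.wiP1 (A x) (Z l x) j k) (gam m) :=
    fun j k l => wi_int_mul ((hG k l).2.1 j) ((hc j k).2.1 l)
  have i3 : ∀ j k, Integrable (fun x => mxFun σ.wiQi (A x) k j * mxFun σ.wiP (A x) j k)
      (gam m) := fun j k => wi_int_mul (hG k j).1 (hc j k).1
  have I1 : ∫ x, ∑ j, ∑ k, mxFun σ.wiP (A x) j k * dN k j x ∂gam m
      = ∫ x, ∑ j, ∑ k, ∑ l, mxDK σ.wiQi σ.wiQi1 (A x) (Z j x) k l
          * mxDK σ.wiP σ.wiP1 (A x) (Z l x) j k ∂gam m
        + ∫ x, ∑ j, ∑ k, mxFun σ.wiQi (A x) k j * mxFun σ.wiP (A x) j k ∂gam m := by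
    rw [integral_finsetSum _ (fun j _ => integrable_finsetSum _ (fun k _ => i1 j k)),
      integral_finsetSum _ (fun j _ => integrable_finsetSum _ (fun k _ =>
        integrable_finsetSum _ (fun l _ => i2 j k l))),
      integral_finsetSum _ (fun j _ => integrable_finsetSum _ (fun k _ => i3 j k)),
      ← sum_add_distrib]
    apply sum_congr rfl; intro j _
    rw [integral_finsetSum _ (fun k _ => i1 j k),
      integral_finsetSum _ (fun k _ => integrable_finsetSum _ (fun l _ => i2 j k l)),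
      integral_finsetSum _ (fun k _ => i3 j k), ← sum_add_distrib]
    apply sum_congr rfl; intro k _
    rw [integral_finsetSum _ (fun l _ => i2 j k l)]
    exact key j k
  -- pointwise facts
  have p1 : 0 ≤ ∫ x, ∑ j, ∑ k, mxFun σ.wiP (A x) j k * dN k j x ∂gam m := by
    apply integral_nonneg_of_ae
    filter_upwards [hmono] with x hx
    exact wi_cDN_nonneg σ hσ (A x) (fun k j => dN k j x) hx
  have p2 : (fun x => -∑ j, ∑ k, ∑ l, mxDK σ.wiQi σ.wiQi1 (A x) (Z j x) k l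
      * mxDK σ.wiP σ.wiP1 (A x) (Z l x) j k) =ᵐ[gam m] fun x => mxXi σ (A x) (fun r => Z r x) := by
    filter_upwards [hTh, hZ] with x hx hz
    rw [wi_dGdc_eq σ hσ (A x) (fun r => Z r x) hz hx, neg_neg,
      wi_mxXi_eq σ hσ (A x) (fun r => Z r x) hz hx]
  have i4 : Integrable (fun x => -∑ j, ∑ k, ∑ l, mxDK σ.wiQi σ.wiQi1 (A x) (Z j x) k l
      * mxDK σ.wiP σ.wiP1 (A x) (Z l x) j k) (gam m) :=
    (integrable_finsetSum _ (fun j _ => integrable_finsetSum _ (fun k _ =>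
        integrable_finsetSum _ (fun l _ => i2 j k l)))).neg
  refine ⟨i4.congr p2, ?_⟩
  rw [← integral_congr_ae p2, integral_neg]
  simp_rw [wi_trace_Gc σ hσ] at I1
  linarith

end Claimed.Agent.R260

/-!
# Row 260, package WI/P25: instantiation of the abstract scalar system on the functions of the paper

* `wi_sys` : `WiSys (log ∘ scQ) scD scK scB`
* `wiScal` : the concrete `MxScal` (`q = scQ`, `k = scK`, `b = scB`, `l = scL`, `Rw = r δ²`)
* `wi_sc_mar_symm`, `wi_sc_mar_mono`, `wi_sc_pair25` : the fields `mar_symm`, `mar_mono`, `pair25`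
  of `MxScal.Good wiScal`.
-/

set_option autoImplicit false

namespace Claimed.Agent.R260

open Real Set

theorem wi_scD_continuous : Continuous scD :=
  continuous_iff_continuousAt.2 fun x => (hasDerivAt_scD x).continuousAt

theorem wi_scB_continuous : Continuous scB :=
  continuous_iff_continuousAt.2 fun x => (hasDerivAt_scB x).continuousAt

theorem wi_scB_mono : Monotone scB :=
  monotone_of_deriv_nonneg (fun x => (hasDerivAt_scB x).differentiableAt)
    (fun x => by rw [(hasDerivAt_scB x).deriv]; exact (scL_pos x).le)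

/-- the abstract scalar system of `WiPair.lean` for the functions of the paper -/
theorem wi_sys : WiSys (fun x => Real.log (scQ x)) scD scK scB where
  hs x := by
    have h := (hasDerivAt_scQ x).log (scQ_pos x).ne'
    refine h.congr_deriv ?_
    have := (scQ_pos x).ne'
    field_simp
  hk := hasDerivAt_scK
  d_pos := scD_pos
  b_pos := scB_pos
  b_lt := scB_lt_half
  rel x := rfl
  d_cont := wi_scD_continuous
  b_cont := wi_scB_continuous
  mono := by
    have h : (fun x => (1 + scB x) / scD x) = fun x => (1 + scB x) * (scD x)⁻¹ := by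
      funext x; rw [div_eq_mul_inv]
    rw [h]
    apply Monotone.mul
    · exact fun x y hxy => by have := wi_scB_mono hxy; linarith
    · intro x y hxy
      exact inv_anti₀ (scD_pos y) (scD_strictAnti.antitone hxy)
    · intro x; have := scB_pos x; linarith
    · intro x; exact (inv_pos.2 (scD_pos x)).le

/-- the concrete scalar data of the paper in the format of `MxDefs.lean` -/
noncomputable def wiScal : MxScal where
  q := scQ
  k := scK
  b := scB
  l := scL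
  Rw := fun a a' => scRw a a' * scDel a a' ^ 2

theorem wi_sc_eqns_cite : True := by
  have := @wiScal.eq_1
  trivial

theorem wi_exp_log_scQ (x : ℝ) : Real.exp (Real.log (scQ x)) = scQ x :=
  Real.exp_log (scQ_pos x)

theorem wi_sc_mar_eq (u v : ℝ) :
    wiScal.Mar u v = wiMar (fun x => Real.log (scQ x)) scD scK scB u v := by
  unfold MxScal.Mar wiMar wiScal
  by_cases h : u = v
  · subst h
    simp only [if_true]
    have hd := (scD_pos u).ne'
    have hk := wi_sys.k_eq u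
    have hd' : scQ u - u = scD u := rfl
    rw [hd', hk]
    field_simp
    ring
  · simp only [if_neg h, wi_exp_log_scQ]

theorem wi_sc_mar_symm (u v : ℝ) : wiScal.Mar u v = wiScal.Mar v u := by
  rw [wi_sc_mar_eq, wi_sc_mar_eq, wi_sys.mar_symm]

theorem wi_sc_mar_mono (u v w : ℝ) (huv : u ≤ v) (hvw : v ≤ w) :
    wiScal.Mar u v ≤ wiScal.Mar u w ∧ wiScal.Mar u w ≤ wiScal.Mar v w := by
  rw [wi_sc_mar_eq, wi_sc_mar_eq, wi_sc_mar_eq]
  exact wi_sys.mar_mono huv hvw

theorem wi_sc_tilt (u v : ℝ) :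
    MonotoneOn (fun x => (1 - scB x ^ 2) / scD x ^ 2
      * Real.exp (-(scm0 (min u v) * Real.log (scQ x)))) (Icc (min u v) (max u v)) := by
  have h := scM_mul_exp_mono (min u v)
  have e : (fun a => scM a * Real.exp (-(scm0 (min u v)) * Real.log (scQ a)))
      = fun x => (1 - scB x ^ 2) / scD x ^ 2
          * Real.exp (-(scm0 (min u v) * Real.log (scQ x))) := by
    funext x
    unfold scM scD0
    rw [neg_mul]
    have := (scD_pos x).ne'
    field_simp
  rw [e] at h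
  exact h.mono Icc_subset_Ici_self

theorem wi_sc_Rw_eq (u v : ℝ) :
    wiScal.Rw u v = wiRw (fun x => Real.log (scQ x)) (scm0 (min u v)) u v := by
  unfold wiScal wiRw scRw scDel
  simp only
  have h2 : |Real.log (scQ u) - Real.log (scQ v)| ^ 2
      = (Real.log (scQ v) - Real.log (scQ u)) ^ 2 := by
    rw [sq_abs]; ring
  have h4 : |Real.log (scQ u) - Real.log (scQ v)| ^ 4
      = (Real.log (scQ v) - Real.log (scQ u)) ^ 4 := by
    have : |Real.log (scQ u) - Real.log (scQ v)| ^ 4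
        = (|Real.log (scQ u) - Real.log (scQ v)| ^ 2) ^ 2 := by ring
    rw [this, h2]; ring
  rw [h4, h2]
  ring

/-- the field `pair25` of `MxScal.Good wiScal` -/
theorem wi_sc_pair25 (ai aj : ℝ) :
    1 - mxDD wiScal.k wiScal.b ai aj ^ 2 + wiScal.Rw ai aj
      ≤ mxDD wiScal.q wiScal.q1 ai aj ^ 2 * wiScal.Mar ai aj / (wiScal.q ai * wiScal.q aj) := by
  have h := wi_sys.pair25 (u := ai) (v := aj) (scm0_nonneg _) (scm0_le_one _) (wi_sc_tilt ai aj)
  rw [← wi_sc_Rw_eq, ← wi_sc_mar_eq] at h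
  have e1 : wiDD scK scB ai aj = mxDD wiScal.k wiScal.b ai aj := rfl
  have e2 : wiDD (fun x => Real.exp (Real.log (scQ x)))
      (fun x => Real.exp (Real.log (scQ x)) * scD x) ai aj = mxDD wiScal.q wiScal.q1 ai aj := by
    simp only [wi_exp_log_scQ]
    rfl
  rw [e1, e2, wi_exp_log_scQ, wi_exp_log_scQ] at h
  exact h

end Claimed.Agent.R260

/-!
# Row 260, package WI: the export `core_wi` of `Core.lean`

`wi_core` = statement `core_wi` verbatim: `CorePre T A Z`, `N` Lipschitz, monotone along `T`, and the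
first variation identity (W) imply `CoreSurplus A Z`.
-/

set_option autoImplicit false

namespace Claimed.Agent.R260

open Matrix Finset MeasureTheory Filter Topology
open scoped InnerProductSpace

variable {m : ℕ}

/-- the scalar facts used by WI, for the functions of the paper -/
theorem wi_core_good : coreσ.WiGood where
  q_pos := scQ_pos
  q_deriv := hasDerivAt_scQ
  q_strictMono := scQ_strictMono
  k_deriv := hasDerivAt_scK
  b_deriv := hasDerivAt_scB
  d_pos := scD_pos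
  pair25 := wi_sc_pair25
  mar_mono := wi_sc_mar_mono
  mar_symm := wi_sc_mar_symm

theorem CorePre.wi_symBd {T : EE m → EE m} {A : EE m → Mat m} {Z : Fin m → EE m → Mat m}
    (hpre : CorePre T A Z) : MxSymBd A where
  symm := hpre.A_symm
  meas := hpre.A_meas
  bdd := by
    obtain ⟨C, hC⟩ := hpre.A_bdd
    refine ⟨Real.sqrt (∑ _i : Fin m, ∑ _j : Fin m, C ^ 2), fun x i => ?_⟩
    apply Real.abs_le_sqrt
    refine (mxEig_sq_le (hpre.A_symm x) i).trans ?_
    rw [mxSq_eq_sum]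
    apply sum_le_sum; intro a _
    apply sum_le_sum; intro b _
    exact sq_le_sq' (by have := (abs_le.1 (hC x a b)).1; linarith) (abs_le.1 (hC x a b)).2

theorem wi_coord_lipschitz {T : EE m → EE m} (hT : ∃ K : NNReal, LipschitzWith K T) (i : Fin m) :
    ∃ K : NNReal, LipschitzWith K (fun y => T y i) := by
  obtain ⟨K, hK⟩ := hT
  exact ⟨_, (EuclideanSpace.proj i : EE m →L[ℝ] ℝ).lipschitz.comp hK⟩

/-- total symmetry of `Θ_r = ∂_r q(A)` -/
theorem CorePre.wi_th_symm {T : EE m → EE m} {A : EE m → Mat m} {Z : Fin m → EE m → Mat m}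
    (hpre : CorePre T A Z) :
    ∀ᵐ x ∂gam m, ∀ r i j, mxTh coreσ (A x) (Z r x) i j = mxTh coreσ (A x) (Z i x) r j := by
  have hJ : MxGH1 (fun x => mxFun coreσ.q (A x))
      (fun r x => mxDK coreσ.q coreσ.q1 (A x) (Z r x)) :=
    mx_gh1_chain hpre.wi_symBd hpre.A_gh1 wi_core_good.q_deriv (wi_q1_cont coreσ wi_core_good)
  have hess : ∀ i r s : Fin m, (fun x => mxDK coreσ.q coreσ.q1 (A x) (Z s x) i r)
      =ᵐ[gam m] fun x => mxDK coreσ.q coreσ.q1 (A x) (Z r x) i s := by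
    intro i r s
    obtain ⟨K, hK⟩ := wi_coord_lipschitz hpre.T_lip i
    have h1 : GH1 (fun y => T y i) (fun r => pd r (fun y => T y i)) := gk_gh1_of_lipschitz hK
    have h2 : GH1 (fun y => T y i) (fun r x => mxFun coreσ.q (A x) i r) := by
      refine h1.congr_ae (EventuallyEq.refl _ _) (fun r => ?_)
      filter_upwards [hpre.jac] with x hx
      exact congrFun (congrFun hx i) r
    exact h2.hess_symm (ddu := fun r s x => mxDK coreσ.q coreσ.q1 (A x) (Z s x) i r)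
      (fun r => hJ i r) r s
  have hall : ∀ᵐ x ∂gam m, ∀ i r s : Fin m, mxDK coreσ.q coreσ.q1 (A x) (Z s x) i r
      = mxDK coreσ.q coreσ.q1 (A x) (Z r x) i s := by
    rw [ae_all_iff]; intro i
    rw [ae_all_iff]; intro r
    rw [ae_all_iff]; intro s
    exact hess i r s
  filter_upwards [hall, hpre.Z_symm] with x hx hz r i j
  have s1 : ∀ r a b, mxDK coreσ.q coreσ.q1 (A x) (Z r x) a b
      = mxDK coreσ.q coreσ.q1 (A x) (Z r x) b a := fun r a b =>
    (mxDK_isSymm coreσ.q coreσ.q1 (A x) (hz r)).apply b a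
  unfold mxTh
  rw [s1 r i j, hx j i r, s1 i j r]

/-- `N_k = ∑_l ∂_l^* G_{kl}` a.e., from the first variation identity (W) -/
theorem wi_Nid {N : EE m → ℝ} (hN : ∃ K : NNReal, LipschitzWith K N) {G : Fin m → EE m → ℝ}
    {dG : Fin m → Fin m → EE m → ℝ} (hG : ∀ l, GH1 (G l) (dG l))
    (hweak : ∀ (ζ : EE m → ℝ) (K : NNReal), LipschitzWith K ζ →
      ∫ x, ∑ l, G l x * pd l ζ x ∂gam m = ∫ x, ζ x * N x ∂gam m) :
    ∀ᵐ x ∂gam m, N x = ∑ l, (x l * G l x - dG l l x) := by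
  obtain ⟨K, hK⟩ := hN
  have hN1 : GH1 N (fun r => pd r N) := gk_gh1_of_lipschitz hK
  have hsum : MemLp (fun x => ∑ l, (x l * G l x - dG l l x)) 2 (gam m) :=
    memLp_finsetSum _ (fun l _ => (hG l).wi_dstar_memLp l)
  have hf : MemLp (fun x => N x - ∑ l, (x l * G l x - dG l l x)) 2 (gam m) := hN1.1.sub hsum
  have h0 := gk_ae_eq_zero_of_niceB hf (fun η hη => by
    obtain ⟨L, hL⟩ := hη.toNiceL.toC1L.lipschitz
    have hη1 : GH1 η (fun r => pd r η) := gk_gh1_of_lipschitz hL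
    have e : ∀ x : EE m, (N x - ∑ l, (x l * G l x - dG l l x)) * η x
        = η x * N x - ∑ l, (x l * G l x - dG l l x) * η x := by
      intro x; rw [sub_mul, sum_mul]; ring
    simp_rw [e]
    rw [integral_sub (wi_int_mul hη1.1 hN1.1)
      (integrable_finsetSum _ (fun l _ => wi_int_mul ((hG l).wi_dstar_memLp l) hη1.1)),
      integral_finsetSum _ (fun l _ => wi_int_mul ((hG l).wi_dstar_memLp l) hη1.1),
      ← hweak η L hL, integral_finsetSum _ (fun l _ => wi_int_mul (hG l).1 (hη1.2.1 l))]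
    rw [sub_eq_zero]
    apply sum_congr rfl; intro l _
    exact (hG l).wi_adjoint hη1 l)
  filter_upwards [h0] with x hx
  simp only [Pi.zero_apply] at hx
  linarith

/-- monotonicity passes to the derivatives -/
theorem wi_mono_fderiv {E : Type*} [NormedAddCommGroup E] [InnerProductSpace ℝ E] {N T : E → E}
    {N' T' : E →L[ℝ] E} {x : E} (hN : HasFDerivAt N N' x) (hT : HasFDerivAt T T' x)
    (hmono : ∀ x y, 0 ≤ ⟪N x - N y, T x - T y⟫_ℝ) (v : E) : 0 ≤ ⟪N' v, T' v⟫_ℝ := by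
  have h : Tendsto (fun c : ℝ => ⟪c • (N (x + c⁻¹ • v) - N x), c • (T (x + c⁻¹ • v) - T x)⟫_ℝ)
      atTop (𝓝 ⟪N' v, T' v⟫_ℝ) := (hN.lim_real v).inner (𝕜 := ℝ) (hT.lim_real v)
  refine ge_of_tendsto' h (fun c => ?_)
  rw [real_inner_smul_left, real_inner_smul_right, ← mul_assoc]
  exact mul_nonneg (mul_self_nonneg c) (hmono _ _)

theorem wi_pd_coord {N : EE m → EE m} {N' : EE m →L[ℝ] EE m} {x : EE m} (hN : HasFDerivAt N N' x)
    (k j : Fin m) : pd j (fun y => N y k) x = N' (eb j) k := by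
  have h : HasFDerivAt (fun y => N y k) ((EuclideanSpace.proj k : EE m →L[ℝ] ℝ).comp N') x :=
    (EuclideanSpace.proj k : EE m →L[ℝ] ℝ).hasFDerivAt.comp x hN
  unfold pd
  rw [h.fderiv]
  rfl

theorem wi_sum_pd {N : EE m → EE m} {N' : EE m →L[ℝ] EE m} {x : EE m} (hN : HasFDerivAt N N' x)
    (e : Fin m → ℝ) (k : Fin m) :
    ∑ j, pd j (fun y => N y k) x * e j = N' (∑ j, e j • eb j) k := by
  simp_rw [wi_pd_coord hN, map_sum, map_smul]
  have : (∑ j, e j • N' (eb j)) k = ∑ j, (e j • N' (eb j)) k := by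
    simp
  rw [this]
  apply sum_congr rfl; intro j _
  simp [mul_comm]

/-- `⟨DN e, J e⟩ ≥ 0` a.e. -/
theorem wi_mono_ae {T N : EE m → EE m} (hT : ∃ K : NNReal, LipschitzWith K T)
    (hN : ∃ K : NNReal, LipschitzWith K N)
    (hmono : ∀ x y, 0 ≤ ⟪N x - N y, T x - T y⟫_ℝ) :
    ∀ᵐ x ∂gam m, ∀ e : Fin m → ℝ,
      0 ≤ ∑ k, (∑ j, pd j (fun y => N y k) x * e j) * (∑ i, coreJ T x k i * e i) := by
  obtain ⟨K, hK⟩ := hT
  obtain ⟨L, hL⟩ := hN
  filter_upwards [gk_gam_ac_volume.ae_le hK.ae_differentiableAt,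
    gk_gam_ac_volume.ae_le hL.ae_differentiableAt] with x hx1 hx2 e
  have h := wi_mono_fderiv hx2.hasFDerivAt hx1.hasFDerivAt hmono (∑ j, e j • eb j)
  rw [PiLp.inner_apply] at h
  refine le_of_le_of_eq h ?_
  apply sum_congr rfl; intro k _
  rw [wi_sum_pd hx2.hasFDerivAt]
  have : ∑ i, coreJ T x k i * e i = fderiv ℝ T x (∑ j, e j • eb j) k :=
    wi_sum_pd hx1.hasFDerivAt e k
  rw [this]
  simp [mul_comm]

/-- **Export `core_wi` of `Core.lean`** (the inequality (2.19) and Prop 2.5). -/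
theorem wi_core {T N : EE m → EE m} {A : EE m → Mat m} {Z : Fin m → EE m → Mat m}
    (hpre : CorePre T A Z) (hN : ∃ K : NNReal, LipschitzWith K N)
    (hmono : ∀ x y, 0 ≤ ⟪N x - N y, T x - T y⟫_ℝ)
    (hweak : ∀ (k : Fin m) (ζ : EE m → ℝ) (K : NNReal), LipschitzWith K ζ →
      ∫ x, ∑ l, mxFun (fun a => (scQ a)⁻¹) (A x) k l * pd l ζ x ∂gam m
        = ∫ x, ζ x * N x k ∂gam m) :
    CoreSurplus A Z := by
  have hg := wi_core_good
  have hA := hpre.wi_symBd
  have hTh := hpre.wi_th_symm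
  have hG : MxGH1 (fun x => mxFun coreσ.wiQi (A x))
      (fun r x => mxDK coreσ.wiQi coreσ.wiQi1 (A x) (Z r x)) :=
    mx_gh1_chain hA hpre.A_gh1 (wi_hasDerivAt_qi coreσ hg) (wi_qi1_cont coreσ hg)
  have hN1 : ∀ k, GH1 (fun x => N x k) (fun r => pd r (fun y => N y k)) := by
    intro k
    obtain ⟨K, hK⟩ := wi_coord_lipschitz hN k
    exact gk_gh1_of_lipschitz hK
  have hNid : ∀ k, ∀ᵐ x ∂gam m, N x k = ∑ l, (x l * mxFun coreσ.wiQi (A x) k l
      - mxDK coreσ.wiQi coreσ.wiQi1 (A x) (Z l x) k l) := by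
    intro k
    exact wi_Nid (wi_coord_lipschitz hN k) (fun l => hG k l) (hweak k)
  have hm : ∀ᵐ x ∂gam m, ∀ e : Fin m → ℝ,
      0 ≤ ∑ k, (∑ j, pd j (fun y => N y k) x * e j) * (∑ i, mxFun coreσ.q (A x) k i * e i) := by
    filter_upwards [wi_mono_ae hpre.T_lip hN hmono, hpre.jac] with x hx hj e
    have := hx e
    rw [hj] at this
    exact this
  obtain ⟨i1, i2⟩ := wi_identity coreσ hg hA hpre.A_gh1 hpre.Z_symm hTh hN1 hNid hm
  refine ⟨fun x => mxXi coreσ (A x) (fun r => Z r x), i1, ?_, ?_⟩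
  · refine le_of_le_of_eq i2 ?_
    congr 1
    funext x
    rw [← mxFun_mul]
    congr 1
    apply mxFun_congr
    intro i
    show scK _ ^ 2 = _
    ring
  · filter_upwards [hTh, hpre.Z_symm] with x hx hz
    rw [wi_mxXi_eq coreσ hg (A x) (fun r => Z r x) hz hx]
    exact wi_sur_le_wiXiC coreσ hg (A x) (fun r => Z r x) hz hx

end Claimed.Agent.R260
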