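/-
Row 260.  CORE: `CoreThm m` (paper Prop 2.3 + Thm 3.1 with remainder) from the packages.
Owner: helper194 (captain).  Every `sorry` below is the EXPORT of one package; its owner proves the
same statement in his own files and I wire it here.

  core_norm      NORM  (helper181)   Prop 2.3
  core_push_*    LC    (helper235)   the potential of an affine image
  core_tr        TR    (helper170)   T2, T3, T4
  core_pre       DK    (helper184)   A = q⁻¹(J) is in GH1 (chain rule for mxFun)
  core_weakA     DK    (helper184)   (W) rewritten with A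
  core_wi        WI    (helper12)    (2.19) + Prop 2.5 pointwise
  core_sec3      SEC3  (helper191)   Thm 3.1, abstract form
  core_entropy   glue                deficit identity (3.3)
  core_rig       RIG   (helper30)    bridge to `RigCoreData`
-/
import Claimed.Agent.R260.CoreDefs
import Claimed.Agent.R260.ScLemma21
import Claimed.Agent.R260.Top
import Claimed.Agent.R260.CoreEntropy
import Claimed.Agent.R260.CoreN
import Claimed.Agent.R260.CorePre
import Claimed.Agent.R260.CorePush
import Claimed.Agent.R260.RigBridge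
import Claimed.Agent.R260.M3Core
import Claimed.Agent.R260.NormMain
import Claimed.Agent.R260.WiCore
import Claimed.Agent.R260.TrExport

set_option autoImplicit false

namespace Claimed.Agent.R260

open MeasureTheory ProbabilityTheory Matrix
open scoped InnerProductSpace

variable {m : ℕ}

/-- LC. -/
theorem core_push_nicePot {V : EE m → ℝ} (hV : NicePot V) {P : Mat m} (hP : P.PosDef) :
    NicePot (corePush P V) :=
  lcp_push_nicePot hV hP

/-- LC. -/
theorem core_push_map {V : EE m → ℝ} (hV : NicePot V) {P : Mat m} (hP : P.PosDef) :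
    otMeas (corePush P V) = (otMeas V).map (coreLin P) :=
  lcp_push_map hV hP

/-- LC: affine invariance of the gap. -/
theorem core_push_gap {V : EE m → ℝ} (hV : NicePot V) {P : Mat m} (hP : P.PosDef) :
    lcGap (densOf (corePush P V)) = lcGap (densOf V) :=
  lcp_push_gap hV hP

/-- LC: the covariance of the transport map is positive definite. -/
theorem core_cov_posDef {W : EE m → ℝ} (hW : NicePot W) {T : EE m → EE m}
    (hmap : (gam m).map T = otMeas W) : (coreCov T).PosDef :=
  lcp_cov_posDef hW hmap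

/-- TR (T2, T3, T4). -/
theorem core_tr {W φ : EE m → ℝ} {lam Lam : ℝ} (hW : NicePot W) (hlam : 0 < lam)
    (hφ : QC lam Lam φ) (hmap : (gam m).map (gradient φ) = otMeas W) : TrOut W φ lam Lam :=
  tr_out hW hlam hφ hmap

/-- NORM (Prop 2.3). -/
theorem core_norm {V : EE m → ℝ} (hV : NicePot V) :
    ∃ (P : Mat m) (φ : EE m → ℝ) (lam Lam : ℝ), P.PosDef ∧ 0 < lam ∧ QC lam Lam φ ∧
      (gam m).map (gradient φ) = otMeas (corePush P V) ∧
      ∀ i j, ∫ x, mxFun scQinv (coreJ (gradient φ) x) i j ∂gam m = 0 :=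
  norm_main (fun _ _ _ _ hW hlam hφ hmap => core_tr hW hlam hφ hmap) hV

/-- DK: `A = q⁻¹(J)` belongs to `GH1`, `J = q(A)`.  (`A` is an everywhere measurable, symmetric and
bounded version, e.g. `mxFun (scQinv ∘ clamp lam Lam) (J x)`.) -/
theorem core_pre {W φ : EE m → ℝ} {lam Lam : ℝ} (hlam : 0 < lam) (hφ : QC lam Lam φ)
    (htr : TrOut W φ lam Lam) :
    ∃ (A : EE m → Mat m) (Z : Fin m → EE m → Mat m), CorePre (gradient φ) A Z ∧
      ∀ᵐ x ∂gam m, A x = mxFun scQinv (coreJ (gradient φ) x) :=
  corePre_main hlam hφ htr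

/-- DK: the inverse Jacobian is `(1/q)(A)` a.e. -/
theorem core_weakA {T : EE m → EE m} {A : EE m → Mat m} {Z : Fin m → EE m → Mat m}
    (hpre : CorePre T A Z) :
    ∀ᵐ x ∂gam m, (coreJ T x)⁻¹ = mxFun (fun a => (scQ a)⁻¹) (A x) :=
  corePre_weakA hpre

/-- WI + P25 (the inequality (2.19) and Prop 2.5).  `N = ∇W ∘ T`. -/
theorem core_wi {T N : EE m → EE m} {A : EE m → Mat m} {Z : Fin m → EE m → Mat m}
    (hpre : CorePre T A Z) (hN : ∃ K : NNReal, LipschitzWith K N)
    (hmono : ∀ x y, 0 ≤ ⟪N x - N y, T x - T y⟫_ℝ)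
    (hweak : ∀ (k : Fin m) (ζ : EE m → ℝ) (K : NNReal), LipschitzWith K ζ →
      ∫ x, ∑ l, mxFun (fun a => (scQ a)⁻¹) (A x) k l * pd l ζ x ∂gam m
        = ∫ x, ζ x * N x k ∂gam m) :
    CoreSurplus A Z :=
  wi_core hpre hN hmono hweak

/-- OT class calculus: `N = ∇W ∘ ∇φ` is Lipschitz and monotone along `T = ∇φ`. -/
theorem core_N {W φ : EE m → ℝ} {lam Lam : ℝ} (hW : NicePot W) (hlam : 0 < lam)
    (hφ : QC lam Lam φ) :
    (∃ K : NNReal, LipschitzWith K (fun x => gradient W (gradient φ x))) ∧
      ∀ x y, 0 ≤ ⟪gradient W (gradient φ x) - gradient W (gradient φ y),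
        gradient φ x - gradient φ y⟫_ℝ :=
  coreN_main hW hlam hφ

/-- SEC3 (Thm 3.1, abstract form: no measure `μ`, no potential `V`). -/
theorem core_sec3 {T : EE m → EE m} {A : EE m → Mat m} {Z : Fin m → EE m → Mat m}
    (hpre : CorePre T A Z) (hsur : CoreSurplus A Z)
    (hmean : ∀ i j, ∫ x, A x i j ∂gam m = 0) (hC : (coreCov T).PosDef) :
    coreDef A + Real.log (coreCov T).det + m ≤ -coreRem A :=
  m3_core_sec3 hpre hsur hmean hC

/-- the deficit identity (3.3). -/
theorem core_entropy {W : EE m → ℝ} (hW : NicePot W) {T : EE m → EE m} {A : EE m → Mat m}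
    {Z : Fin m → EE m → Mat m} (hpre : CorePre T A Z) (hmap : (gam m).map T = otMeas W)
    (hma : ∀ᵐ x ∂gam m, W (T x)
      = Real.log (coreJ T x).det + ‖x‖ ^ 2 / 2 + (m : ℝ) / 2 * Real.log (2 * Real.pi)) :
    2 * lcGap (densOf W) = -(coreDef A + Real.log (coreCov T).det + m) :=
  coreE_entropy hW hpre hmap hma

/-- RIG bridge. -/
theorem core_rig {V : EE m → ℝ} {P : Mat m} {T : EE m → EE m} {A : EE m → Mat m}
    (hV : NicePot V) (h : CoreOut V P T A) : Nonempty (RigCoreData scQ scOmega (densOf V)) :=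
  rigB_core_rig h

/-! ### assembly -/

theorem core_out {V : EE m → ℝ} (hV : NicePot V) :
    ∃ (P : Mat m) (T : EE m → EE m) (A : EE m → Mat m), CoreOut V P T A := by
  obtain ⟨P, φ, lam, Lam, hP, hlam, hφ, hmap, hmean⟩ := core_norm hV
  have hW := core_push_nicePot hV hP
  have htr := core_tr hW hlam hφ hmap
  obtain ⟨A, Z, hpre, hA⟩ := core_pre hlam hφ htr
  obtain ⟨hN, hmono⟩ := core_N hW hlam hφ
  have hmean' : ∀ i j, ∫ x, A x i j ∂gam m = 0 := fun i j => by
    rw [← hmean i j]
    refine integral_congr_ae ?_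
    filter_upwards [hA] with x hx
    rw [hx]
  have hsur : CoreSurplus A Z := by
    refine core_wi hpre hN hmono fun k ζ K hζ => ?_
    rw [← htr.weak k ζ K hζ]
    refine integral_congr_ae ?_
    filter_upwards [core_weakA hpre] with x hx
    rw [hx]
  have hC := core_cov_posDef hW hmap
  have h3 := core_sec3 hpre hsur hmean' hC
  have he := core_entropy hW hpre hmap htr.ma
  refine ⟨P, gradient φ, A, hP, hpre.T_lip, hpre.A_symm, hpre.A_meas, hpre.A_bdd, hpre.jac, ?_, ?_⟩
  · rw [hmap, core_push_map hV hP]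
  · rw [← core_push_gap hV hP, he]
    linarith

theorem core_thm (m : ℕ) : CoreThm m := fun _ hV => by
  obtain ⟨P, T, A, h⟩ := core_out hV
  exact core_rig hV h

end Claimed.Agent.R260
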