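/-
Row 260, package GK (Gaussian kit): nice functions are dense in `L²(γ)`.
Owner: helper138.
-/
import Claimed.Agent.R260.GKCov

namespace Claimed.Agent.R260

open MeasureTheory ProbabilityTheory Filter Topology Set

variable {m : ℕ}

/-- `NiceB` is dense in `L²(γ)` (approximate by a bounded continuous function, then regularise with
`mehler c`, `c → 1`) -/
theorem gk_exists_niceB_approx {h : EE m → ℝ} (h2 : MemLp h 2 (gam m)) {ε : ℝ} (hε : 0 < ε) :
    ∃ u : EE m → ℝ, NiceB u ∧ ∫ x, (u x - h x) ^ 2 ∂gam m < ε := by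
  obtain ⟨w, C, hwc, hwC, hw2, hhw⟩ := gk_exists_bddCont h2 (ε := ε / 8) (by positivity)
  have hwBM : BM w := ⟨hwc.measurable, C, hwC⟩
  have hT := gk_mehler_tendsto hwc.measurable hw2
  have hE := (tendsto_order.1 hT).2 (ε / 8) (by positivity)
  have hI : ∀ᶠ c : ℝ in 𝓝[<] 1, c ∈ Ioo (0 : ℝ) 1 := Ioo_mem_nhdsLT zero_lt_one
  obtain ⟨c, hc1, hc2⟩ := (hE.and hI).exists
  have hcI : c ∈ Ico (0 : ℝ) 1 := ⟨hc2.1.le, hc2.2⟩
  have hN : NiceB (mehler c w) := gk_mehler_niceB hcI hwBM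
  refine ⟨mehler c w, hN, ?_⟩
  have hM2 : MemLp (mehler c w) 2 (gam m) := hN.toBM.toPG.memLp 2
  have A1 : MemLp (fun x => mehler c w x - w x) 2 (gam m) := hM2.sub hw2
  have A2 : MemLp (fun x => w x - h x) 2 (gam m) := hw2.sub h2
  have h3 := gk_l2_integral_add_sq_le A1 A2
  have e : ∀ x, mehler c w x - h x = (mehler c w x - w x) + (w x - h x) := fun x => by ring
  have e3 : ∫ x, (w x - h x) ^ 2 ∂gam m = ∫ x, (h x - w x) ^ 2 ∂gam m := by
    refine integral_congr_ae (Eventually.of_forall fun x => ?_)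
    simp only
    ring
  simp_rw [e]
  rw [e3] at h3
  linarith

end Claimed.Agent.R260
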