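/-
Row 260, package GK (Gaussian kit): commutation relations, symmetry of second derivatives, constants.
Statements by helper200; proofs by helper299.
-/
import Claimed.Agent.R260.GKClosD

namespace Claimed.Agent.R260

open MeasureTheory ProbabilityTheory Filter Topology Set

/-! ### Auxiliary `L²` lemmas -/

section Aux

variable {α : Type*} [MeasurableSpace α] {μ : Measure α}

theorem gkm_integral_add_sq_le {p q : α → ℝ} (hp : MemLp p 2 μ) (hq : MemLp q 2 μ) :
    ∫ x, (p x + q x) ^ 2 ∂μ ≤ 2 * ∫ x, p x ^ 2 ∂μ + 2 * ∫ x, q x ^ 2 ∂μ := by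
  have i1 := (gkb_sq_integrable hp).const_mul 2
  have i2 := (gkb_sq_integrable hq).const_mul 2
  rw [← integral_const_mul, ← integral_const_mul, ← integral_add i1 i2]
  refine integral_mono (gkb_sq_integrable (hp.add hq)) (i1.add i2) fun x => ?_
  simp only
  nlinarith [sq_nonneg (p x - q x)]

theorem gkm_tendsto_add_sq {ι : Type*} {l : Filter ι} {p q : ι → α → ℝ}
    (hp : ∀ i, MemLp (p i) 2 μ) (hq : ∀ i, MemLp (q i) 2 μ)
    (h1 : Tendsto (fun i => ∫ x, p i x ^ 2 ∂μ) l (𝓝 0))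
    (h2 : Tendsto (fun i => ∫ x, q i x ^ 2 ∂μ) l (𝓝 0)) :
    Tendsto (fun i => ∫ x, (p i x + q i x) ^ 2 ∂μ) l (𝓝 0) := by
  have hb : Tendsto (fun i => 2 * ∫ x, p i x ^ 2 ∂μ + 2 * ∫ x, q i x ^ 2 ∂μ) l (𝓝 0) := by
    simpa using (h1.const_mul 2).add (h2.const_mul 2)
  exact squeeze_zero (fun i => integral_nonneg fun x => sq_nonneg _)
    (fun i => gkm_integral_add_sq_le (hp i) (hq i)) hb

/-- transitivity of `L²` approximation -/
theorem gkm_tendsto_trans {ι : Type*} {l : Filter ι} {w v : ι → α → ℝ} {u : α → ℝ}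
    (hw : ∀ i, MemLp (w i) 2 μ) (hv : ∀ i, MemLp (v i) 2 μ) (hu : MemLp u 2 μ)
    (h1 : Tendsto (fun i => ∫ x, (w i x - v i x) ^ 2 ∂μ) l (𝓝 0))
    (h2 : Tendsto (fun i => ∫ x, (v i x - u x) ^ 2 ∂μ) l (𝓝 0)) :
    Tendsto (fun i => ∫ x, (w i x - u x) ^ 2 ∂μ) l (𝓝 0) := by
  have := gkm_tendsto_add_sq (fun i => gkb_memLp_sub (hw i) (hv i))
    (fun i => gkb_memLp_sub (hv i) hu) h1 h2
  refine this.congr fun i => ?_
  congr 1
  ext x
  ring

/-- differences of `L²`-convergent families converge -/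
theorem gkm_tendsto_sub {ι : Type*} {l : Filter ι} {f g : ι → α → ℝ} {F G : α → ℝ}
    (hf : ∀ i, MemLp (f i) 2 μ) (hg : ∀ i, MemLp (g i) 2 μ) (hF : MemLp F 2 μ) (hG : MemLp G 2 μ)
    (h1 : Tendsto (fun i => ∫ x, (f i x - F x) ^ 2 ∂μ) l (𝓝 0))
    (h2 : Tendsto (fun i => ∫ x, (g i x - G x) ^ 2 ∂μ) l (𝓝 0)) :
    Tendsto (fun i => ∫ x, ((f i x - g i x) - (F x - G x)) ^ 2 ∂μ) l (𝓝 0) := by
  have h2' : Tendsto (fun i => ∫ x, (G x - g i x) ^ 2 ∂μ) l (𝓝 0) := by
    refine h2.congr fun i => ?_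
    congr 1
    ext x
    ring
  have := gkm_tendsto_add_sq (fun i => gkb_memLp_sub (hf i) hF)
    (fun i => gkb_memLp_sub hG (hg i)) h1 h2'
  refine this.congr fun i => ?_
  congr 1
  ext x
  ring

end Aux

variable {m : ℕ}

/-! ### Calculus of `pd` -/

theorem gkm_pd_sub {u v : EE m → ℝ} (hu : ContDiff ℝ 1 u) (hv : ContDiff ℝ 1 v) (r : Fin m)
    (x : EE m) : pd r (fun x => u x - v x) x = pd r u x - pd r v x := by
  have hd : DifferentiableAt ℝ u x := (hu.differentiable one_ne_zero) x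
  have hd' : DifferentiableAt ℝ v x := (hv.differentiable one_ne_zero) x
  unfold pd
  rw [fderiv_fun_sub hd hd']
  rfl

theorem gkm_pd_pd_eq {u : EE m → ℝ} (hu : ContDiff ℝ 2 u) (j l : Fin m) (x : EE m) :
    pd j (pd l u) x = fderiv ℝ (fderiv ℝ u) x (eb j) (eb l) := by
  have hd : DifferentiableAt ℝ (fderiv ℝ u) x :=
    ((hu.fderiv_right (m := 1) (by norm_num)).differentiable one_ne_zero) x
  have e : pd l u = (ContinuousLinearMap.apply ℝ ℝ (eb l)) ∘ (fderiv ℝ u) := by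
    ext y; rfl
  unfold pd at e ⊢
  rw [e, fderiv_comp x (ContinuousLinearMap.differentiableAt _) hd, ContinuousLinearMap.fderiv]
  rfl

/-- second partial derivatives commute -/
theorem gkm_pd_pd_comm {u : EE m → ℝ} (hu : ContDiff ℝ 2 u) (j l : Fin m) (x : EE m) :
    pd j (pd l u) x = pd l (pd j u) x := by
  rw [gkm_pd_pd_eq hu, gkm_pd_pd_eq hu]
  exact (hu.contDiffAt.isSymmSndFDerivAt (by simp)) _ _

theorem gkm_C1P_sub {u v : EE m → ℝ} (hu : C1P u) (hv : C1P v) : C1P (fun x => u x - v x) := by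
  obtain ⟨hc, C, k, hC⟩ := hu
  obtain ⟨hc', D, l, hD⟩ := hv
  refine ⟨hc.sub hc', |C| + |D|, k + l, fun x => ?_⟩
  have hd : DifferentiableAt ℝ u x := (hc.differentiable one_ne_zero) x
  have hd' : DifferentiableAt ℝ v x := (hc'.differentiable one_ne_zero) x
  have e : fderiv ℝ (fun x => u x - v x) x = fderiv ℝ u x - fderiv ℝ v x := fderiv_fun_sub hd hd'
  have h1 := gk_growth_add x (hC x) (hD x)
  have h2 := abs_sub (u x) (v x)
  have h3 := norm_sub_le (fderiv ℝ u x) (fderiv ℝ v x)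
  rw [e]
  linarith

theorem NiceL.contDiff_two {u : EE m → ℝ} (hu : NiceL u) : ContDiff ℝ 2 u :=
  by exact_mod_cast contDiff_infty.mp hu.1 2

theorem NiceL.pd_C1L {u : EE m → ℝ} (hu : NiceL u) (r : Fin m) : C1L (pd r u) :=
  (hu.niceB_pd r).toNiceL.toC1L

/-- the adjoint derivative `∂_l^* a = x_l a - ∂_l a` of a nice function -/
theorem gkm_C1P_adj {a : EE m → ℝ} (ha : NiceL a) (l : Fin m) :
    C1P (fun x : EE m => x l * a x - pd l a x) :=
  gkm_C1P_sub ((gkb_C1L_coord l).toC1P.mul ha.toC1L.toC1P) (ha.pd_C1L l).toC1P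

theorem gkm_pd_adj {a : EE m → ℝ} (ha : NiceL a) (l j : Fin m) (x : EE m) :
    pd j (fun x : EE m => x l * a x - pd l a x) x =
      (if j = l then 1 else 0) * a x + x l * pd j a x - pd j (pd l a) x := by
  rw [gkm_pd_sub ((gkb_C1L_coord l).1.mul ha.toC1L.1) (ha.pd_C1L l).1,
    gk_pd_mul (gkb_C1L_coord l).1 ha.toC1L.1, gk_pd_coord]

/-! ### Density of `NiceL` -/

theorem gkm_exists_niceL_of_C1L {v : EE m → ℝ} (hv : C1L v) {ε : ℝ} (hε : 0 < ε) :
    ∃ w : EE m → ℝ, NiceL w ∧ ∫ x, (w x - v x) ^ 2 ∂gam m < ε ∧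
      ∀ r, ∫ x, (pd r w x - pd r v x) ^ 2 ∂gam m < ε := by
  obtain ⟨K, hK⟩ := hv.lipschitz
  have t0 := gk_mehler_tendsto hv.1.continuous.measurable hv.memLp
  have t1 : ∀ r, Tendsto (fun c => ∫ x, (c * mehler c (pd r v) x - pd r v x) ^ 2 ∂gam m)
      (𝓝[<] 1) (𝓝 0) := by
    intro r
    have hm : Measurable (pd r v) := (gk_continuous_pd hv.1 r).measurable
    have h2 := hv.pd_memLp r
    have t := gk_mehler_tendsto hm h2
    have hc1 : Tendsto (fun c : ℝ => c) (𝓝[<] 1) (𝓝 1) := tendsto_nhdsWithin_of_tendsto_nhds tendsto_id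
    have hb : Tendsto (fun c : ℝ => 2 * (c ^ 2 * ∫ x, (mehler c (pd r v) x - pd r v x) ^ 2 ∂gam m)
        + 2 * ((c - 1) ^ 2 * ∫ x, (pd r v x) ^ 2 ∂gam m)) (𝓝[<] 1) (𝓝 0) := by
      have a1 := (((hc1.pow 2).mul t).const_mul 2)
      have a2 := ((((hc1.sub_const 1).pow 2).mul_const (∫ x, (pd r v x) ^ 2 ∂gam m)).const_mul 2)
      simpa using a1.add a2
    refine squeeze_zero' (Eventually.of_forall fun c => integral_nonneg fun x => sq_nonneg _) ?_ hb
    filter_upwards [Ioo_mem_nhdsLT zero_lt_one] with c hc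
    have hP : MemLp (mehler c (pd r v)) 2 (gam m) := gk_mehler_memLp ⟨hc.1.le, hc.2.le⟩ hm h2
    have := gkm_integral_add_sq_le ((gkb_memLp_sub hP h2).const_mul c) (h2.const_mul (c - 1))
    simp only [mul_pow, integral_const_mul] at this
    refine le_trans (le_of_eq ?_) this
    congr 1
    ext x
    ring
  have e0 : ∀ᶠ c in 𝓝[<] (1 : ℝ), ∫ x, (mehler c v x - v x) ^ 2 ∂gam m < ε :=
    t0.eventually (gt_mem_nhds hε)
  have e1 : ∀ᶠ c in 𝓝[<] (1 : ℝ), ∀ r,
      ∫ x, (c * mehler c (pd r v) x - pd r v x) ^ 2 ∂gam m < ε :=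
    eventually_all.mpr fun r => (t1 r).eventually (gt_mem_nhds hε)
  obtain ⟨c, h0, h1, hc⟩ := (e0.and (e1.and (Ioo_mem_nhdsLT zero_lt_one))).exists
  refine ⟨mehler c v, gk_mehler_niceL ⟨hc.1.le, hc.2⟩ hK, h0, fun r => ?_⟩
  simp_rw [gk_pd_mehler ⟨hc.1.le, hc.2.le⟩ hv r]
  exact h1 r

/-- `NiceL` is dense in `GH1` (Mehler regularisation of the `C1L` approximants) -/
theorem GH1.exists_niceL {u : EE m → ℝ} {du : Fin m → EE m → ℝ} (hu : GH1 u du) :
    ∃ v : ℕ → EE m → ℝ, (∀ n, NiceL (v n)) ∧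
      Tendsto (fun n => ∫ x, (v n x - u x) ^ 2 ∂gam m) atTop (𝓝 0) ∧
      ∀ r, Tendsto (fun n => ∫ x, (pd r (v n) x - du r x) ^ 2 ∂gam m) atTop (𝓝 0) := by
  obtain ⟨hu2, hdu2, v, hv, hv0, hv1⟩ := hu
  choose w hw hw0 hw1 using fun n : ℕ =>
    gkm_exists_niceL_of_C1L (hv n) (ε := 1 / ((n : ℝ) + 1)) (by positivity)
  have hlim : Tendsto (fun n : ℕ => 1 / ((n : ℝ) + 1)) atTop (𝓝 0) :=
    tendsto_one_div_add_atTop_nhds_zero_nat
  refine ⟨w, hw, ?_, fun r => ?_⟩
  · refine gkm_tendsto_trans (fun n => (hw n).toC1L.memLp) (fun n => (hv n).memLp) hu2 ?_ hv0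
    exact squeeze_zero (fun n => integral_nonneg fun x => sq_nonneg _) (fun n => (hw0 n).le) hlim
  · refine gkm_tendsto_trans (fun n => (hw n).toC1L.pd_memLp r) (fun n => (hv n).pd_memLp r)
      (hdu2 r) ?_ (hv1 r)
    exact squeeze_zero (fun n => integral_nonneg fun x => sq_nonneg _) (fun n => (hw1 n r).le) hlim

/-! ### The commutation relation -/

/-- the commutation relation with one nice factor -/
theorem gkm_comm_niceL {a c : EE m → ℝ} {dc : Fin m → EE m → ℝ} (ha : NiceL a) (hc : GH1 c dc)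
    (l j : Fin m) :
    ∫ x, (x l * a x - pd l a x) * (x j * c x - dc j x) ∂gam m
      = ∫ x, pd j a x * dc l x ∂gam m + (if j = l then ∫ x, a x * c x ∂gam m else 0) := by
  have hAG := gk_gh1_of_C1P (gkm_C1P_adj ha l)
  have e1 := hAG.ibp_mul hc j
  have e2 := (gk_gh1_of_C1L (ha.pd_C1L j)).ibp_mul hc l
  simp_rw [gkm_pd_adj ha l j, gkm_pd_pd_comm ha.contDiff_two j l] at e1
  have hc2 := hc.1
  have mA : MemLp (fun x : EE m => x l * a x - pd l a x) 2 (gam m) := hAG.1
  have i1 : Integrable (fun x : EE m => x j * (x l * a x - pd l a x) * c x) (gam m) := by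
    refine (gkb_mul_integrable mA (hc.coord_mul_memLp j)).congr (ae_of_all _ fun x => ?_)
    simp only
    ring
  have i2 := gkb_mul_integrable mA (hc.2.1 j)
  have L : ∫ x, (x l * a x - pd l a x) * (x j * c x - dc j x) ∂gam m =
      ∫ x, x j * (x l * a x - pd l a x) * c x ∂gam m -
        ∫ x, (x l * a x - pd l a x) * dc j x ∂gam m := by
    rw [← integral_sub i1 i2]
    congr 1
    ext x
    ring
  have j1 := gkb_mul_integrable ha.toC1L.memLp hc2
  have j2 := gkb_mul_integrable ((ha.pd_C1L j).coord_mul_memLp l) hc2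
  have j3 := gkb_mul_integrable ((ha.pd_C1L j).pd_memLp l) hc2
  have j12 : Integrable (fun x : EE m => (if j = l then (1 : ℝ) else 0) * (a x * c x) +
      x l * pd j a x * c x) (gam m) := (j1.const_mul _).add j2
  have M : ∫ x, ((if j = l then 1 else 0) * a x + x l * pd j a x - pd l (pd j a) x) * c x ∂gam m =
      (if j = l then 1 else 0) * ∫ x, a x * c x ∂gam m + ∫ x, x l * pd j a x * c x ∂gam m -
        ∫ x, pd l (pd j a) x * c x ∂gam m := by
    rw [← integral_const_mul, ← integral_add (j1.const_mul _) j2, ← integral_sub j12 j3]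
    congr 1
    ext x
    ring
  have D : (if j = l then (1 : ℝ) else 0) * ∫ x, a x * c x ∂gam m =
      if j = l then ∫ x, a x * c x ∂gam m else 0 := by
    split_ifs <;> simp
  rw [L, ← D]
  linarith

/-- commutation relation `E[∂_l^* a ∂_j^* c] = E[∂_j a ∂_l c] + δ_{jl} E[a c]` -/
theorem GH1.comm {a c : EE m → ℝ} {da dc : Fin m → EE m → ℝ} (ha : GH1 a da) (hc : GH1 c dc)
    (l j : Fin m) :
    ∫ x, (x l * a x - da l x) * (x j * c x - dc j x) ∂gam m
      = ∫ x, da j x * dc l x ∂gam m + (if j = l then ∫ x, a x * c x ∂gam m else 0) := by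
  obtain ⟨v, hv, hv0, hv1⟩ := ha.exists_niceL
  have hx : Tendsto (fun n => ∫ x, (x l * v n x - x l * a x) ^ 2 ∂gam m) atTop (𝓝 0) := by
    have hbd : Tendsto (fun n => 2 * ∫ x, (v n x - a x) ^ 2 ∂gam m +
        4 * ∫ x, (pd l (v n) x - da l x) ^ 2 ∂gam m) atTop (𝓝 0) := by
      simpa using (hv0.const_mul 2).add ((hv1 l).const_mul 4)
    refine squeeze_zero (fun n => integral_nonneg fun x => sq_nonneg _) (fun n => ?_) hbd
    have := ((gk_gh1_of_C1L (hv n).toC1L).sub ha).coord_mul_sq_le l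
    simpa only [mul_sub] using this
  have hA : Tendsto (fun n => ∫ x, ((x l * v n x - pd l (v n) x) - (x l * a x - da l x)) ^ 2
      ∂gam m) atTop (𝓝 0) :=
    gkm_tendsto_sub (fun n => (hv n).toC1L.coord_mul_memLp l) (fun n => (hv n).toC1L.pd_memLp l)
      (ha.coord_mul_memLp l) (ha.2.1 l) hx (hv1 l)
  have mG : MemLp (fun x : EE m => x j * c x - dc j x) 2 (gam m) :=
    gkb_memLp_sub (hc.coord_mul_memLp j) (hc.2.1 j)
  have l1 := gkb_tendsto_integral_mul (l := atTop)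
    (f := fun (n : ℕ) (x : EE m) => x l * v n x - pd l (v n) x)
    (g := fun (_ : ℕ) (x : EE m) => x j * c x - dc j x)
    (fun n => gkb_memLp_sub ((hv n).toC1L.coord_mul_memLp l) ((hv n).toC1L.pd_memLp l))
    (fun _ => mG) (gkb_memLp_sub (ha.coord_mul_memLp l) (ha.2.1 l)) mG hA (by simp)
  have l2 := gkb_tendsto_integral_mul (l := atTop) (f := fun (n : ℕ) => pd j (v n))
    (g := fun (_ : ℕ) => dc l) (fun n => (hv n).toC1L.pd_memLp j) (fun _ => hc.2.1 l)
    (ha.2.1 j) (hc.2.1 l) (hv1 j) (by simp)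
  have l3 := gkb_tendsto_integral_mul (l := atTop) (f := v) (g := fun (_ : ℕ) => c)
    (fun n => (hv n).toC1L.memLp) (fun _ => hc.1) ha.1 hc.1 hv0 (by simp)
  refine tendsto_nhds_unique l1 ?_
  have l4 : Tendsto (fun n => if j = l then ∫ x, v n x * c x ∂gam m else 0) atTop
      (𝓝 (if j = l then ∫ x, a x * c x ∂gam m else 0)) := by
    split_ifs
    · exact l3
    · exact tendsto_const_nhds
  exact (l2.add l4).congr fun n => (gkm_comm_niceL (hv n) hc l j).symm

/-! ### Symmetry of weak second derivatives -/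

/-- the second adjoint derivative of a nice test function is symmetric -/
theorem gkm_adj_adj_symm {η : EE m → ℝ} (hη : NiceL η) (r s : Fin m) (x : EE m) :
    x r * (x s * η x - pd s η x) - pd r (fun x : EE m => x s * η x - pd s η x) x =
      x s * (x r * η x - pd r η x) - pd s (fun x : EE m => x r * η x - pd r η x) x := by
  rw [gkm_pd_adj hη s r, gkm_pd_adj hη r s, gkm_pd_pd_comm hη.contDiff_two r s]
  by_cases h : r = s
  · subst h
    ring
  · rw [if_neg h, if_neg (Ne.symm h)]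
    ring

/-- double integration by parts against a nice test function -/
theorem gkm_hess_test {u : EE m → ℝ} {du : Fin m → EE m → ℝ} {ddu : Fin m → Fin m → EE m → ℝ}
    (hu : GH1 u du) (hdu : ∀ r, GH1 (du r) (ddu r)) {η : EE m → ℝ} (hη : NiceL η) (r s : Fin m) :
    ∫ x, ddu r s x * η x ∂gam m =
      ∫ x, u x * (x r * (x s * η x - pd s η x) -
        pd r (fun x : EE m => x s * η x - pd s η x) x) ∂gam m := by
  have hηG := gk_gh1_of_C1L hη.toC1L
  have hζ := gkm_C1P_adj hη s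
  have hζG := gk_gh1_of_C1P hζ
  have e1 := (hdu r).ibp_mul hηG s
  have e2 := hu.ibp_mul hζG r
  have mζ : MemLp (fun x : EE m => x s * η x - pd s η x) 2 (gam m) := hζG.1
  -- `∫ du_r ζ = ∫ x_s du_r η - ∫ du_r ∂_s η`
  have i1 : Integrable (fun x : EE m => x s * du r x * η x) (gam m) :=
    gkb_mul_integrable ((hdu r).coord_mul_memLp s) hη.toC1L.memLp
  have i2 := gkb_mul_integrable (hu.2.1 r) (hη.toC1L.pd_memLp s)
  have A : ∫ x, du r x * (x s * η x - pd s η x) ∂gam m =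
      ∫ x, x s * du r x * η x ∂gam m - ∫ x, du r x * pd s η x ∂gam m := by
    rw [← integral_sub i1 i2]
    congr 1
    ext x
    ring
  have k1 : Integrable (fun x : EE m => x r * u x * (x s * η x - pd s η x)) (gam m) :=
    gkb_mul_integrable (hu.coord_mul_memLp r) mζ
  have k2 := gkb_mul_integrable hu.1 (hζG.2.1 r)
  have B : ∫ x, u x * (x r * (x s * η x - pd s η x) -
        pd r (fun x : EE m => x s * η x - pd s η x) x) ∂gam m =
      ∫ x, x r * u x * (x s * η x - pd s η x) ∂gam m -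
        ∫ x, u x * pd r (fun x : EE m => x s * η x - pd s η x) x ∂gam m := by
    rw [← integral_sub k1 k2]
    congr 1
    ext x
    ring
  rw [B]
  linarith

/-- weak second derivatives are symmetric -/
theorem GH1.hess_symm {u : EE m → ℝ} {du : Fin m → EE m → ℝ} {ddu : Fin m → Fin m → EE m → ℝ}
    (hu : GH1 u du) (hdu : ∀ r, GH1 (du r) (ddu r)) (r s : Fin m) :
    ddu r s =ᵐ[gam m] ddu s r := by
  have hz : (fun x => ddu r s x - ddu s r x) =ᵐ[gam m] 0 := by
    refine gk_ae_eq_zero_of_niceB (gkb_memLp_sub ((hdu r).2.1 s) ((hdu s).2.1 r)) fun η hη => ?_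
    have hL := hη.toNiceL
    have e1 := gkm_hess_test hu hdu hL r s
    have e2 := gkm_hess_test hu hdu hL s r
    simp_rw [gkm_adj_adj_symm hL r s] at e1
    have e3 : ∫ x, (ddu r s x - ddu s r x) * η x ∂gam m =
        ∫ x, ddu r s x * η x ∂gam m - ∫ x, ddu s r x * η x ∂gam m := by
      rw [← integral_sub (gkb_mul_integrable ((hdu r).2.1 s) hL.toC1L.memLp)
        (gkb_mul_integrable ((hdu s).2.1 r) hL.toC1L.memLp)]
      congr 1
      ext x
      ring
    rw [e3, e1, e2, sub_self]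
  filter_upwards [hz] with x hx
  simpa [sub_eq_zero] using hx

/-! ### Constants -/

/-- vanishing derivative implies constant -/
theorem GH1.ae_const {u : EE m → ℝ} {du : Fin m → EE m → ℝ} (hu : GH1 u du)
    (h : ∀ r, du r =ᵐ[gam m] 0) : u =ᵐ[gam m] fun _ => ∫ x, u x ∂gam m := by
  have hp := hu.poincare
  have hz : ∫ x, ∑ r, (du r x) ^ 2 ∂gam m = 0 := by
    have : (fun x => ∑ r, (du r x) ^ 2) =ᵐ[gam m] 0 := by
      filter_upwards [eventually_all.mpr h] with x hx
      simp [hx]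
    rw [integral_congr_ae this]
    simp
  rw [hz] at hp
  have hint : Integrable u (gam m) := hu.1.integrable (by norm_num)
  have hsq := gkb_sq_integrable hu.1
  set I := ∫ x, u x ∂gam m with hI
  have hmem : MemLp (fun x => u x - I) 2 (gam m) := gkb_memLp_sub hu.1 (memLp_const I)
  have e : ∫ x, (u x - I) ^ 2 ∂gam m = ∫ x, (u x) ^ 2 ∂gam m - I ^ 2 := by
    have i1 : Integrable (fun x => 2 * I * u x) (gam m) := hint.const_mul _
    have i2 : Integrable (fun x => (u x) ^ 2 - 2 * I * u x) (gam m) := hsq.sub i1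
    have : ∫ x, (u x - I) ^ 2 ∂gam m = ∫ x, ((u x) ^ 2 - 2 * I * u x + I ^ 2) ∂gam m := by
      congr 1
      ext x
      ring
    rw [this, integral_add i2 (integrable_const _), integral_sub hsq i1, integral_const_mul,
      integral_const, ← hI]
    simp
    ring
  have h0 : ∫ x, (u x - I) ^ 2 ∂gam m = 0 :=
    le_antisymm (by rw [e]; exact hp) (integral_nonneg fun x => sq_nonneg _)
  rw [integral_eq_zero_iff_of_nonneg (fun x => sq_nonneg _) (gkb_sq_integrable hmem)] at h0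
  filter_upwards [h0] with x hx
  have : (u x - I) ^ 2 = 0 := hx
  have := pow_eq_zero_iff (two_ne_zero) |>.mp this
  linarith

end Claimed.Agent.R260
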