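/-
Row 260, package GK (Gaussian kit): the number operator `N = ∑ ∂_l^* ∂_l` on nice functions
(linearity, pairing, Bochner identity).  Used for COV (`GKCovDual.lean`).
Owner: helper77.  Statements verbatim from helper200's skeleton; no sorry in this file.
-/
import Claimed.Agent.R260.GKComm

namespace Claimed.Agent.R260

open MeasureTheory ProbabilityTheory Filter Topology Set

variable {m : ℕ}

/-- the Ornstein--Uhlenbeck number operator `N w = ∑_l (x_l ∂_l w - ∂_l ∂_l w)` -/
noncomputable def gkN (w : EE m → ℝ) (x : EE m) : ℝ := ∑ l, (x l * pd l w x - pd l (pd l w) x)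

theorem gkN_eqns_cite : True := by
  have := @gkN.eq_1
  trivial

theorem NiceL.add {u v : EE m → ℝ} (hu : NiceL u) (hv : NiceL v) : NiceL (fun x => u x + v x) := by
  refine ⟨hu.1.add hv.1, fun k hk => ?_⟩
  obtain ⟨C, hC⟩ := hu.2 k hk
  obtain ⟨D, hD⟩ := hv.2 k hk
  refine ⟨C + D, fun x => ?_⟩
  have h1 : ContDiffAt ℝ k u x := (hu.1.of_le (by exact_mod_cast le_top)).contDiffAt
  have h2 : ContDiffAt ℝ k v x := (hv.1.of_le (by exact_mod_cast le_top)).contDiffAt
  have h3 : (fun x => u x + v x) = u + v := rfl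
  rw [h3, iteratedFDeriv_add_apply h1 h2]
  exact (norm_add_le _ _).trans (add_le_add (hC x) (hD x))

theorem NiceL.const_mul {u : EE m → ℝ} (hu : NiceL u) (a : ℝ) : NiceL (fun x => a * u x) := by
  refine ⟨contDiff_const.mul hu.1, fun k hk => ?_⟩
  obtain ⟨C, hC⟩ := hu.2 k hk
  refine ⟨|a| * C, fun x => ?_⟩
  have h1 : ContDiffAt ℝ k u x := (hu.1.of_le (by exact_mod_cast le_top)).contDiffAt
  have h2 := iteratedFDeriv_const_smul_apply' (𝕜 := ℝ) (a := a) h1
  simp only [smul_eq_mul] at h2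
  rw [h2, norm_smul, Real.norm_eq_abs]
  gcongr
  exact hC x

theorem NiceL.contDiff_one {u : EE m → ℝ} (hu : NiceL u) : ContDiff ℝ 1 u := hu.toC1L.1

theorem NiceL.pd_contDiff_one {u : EE m → ℝ} (hu : NiceL u) (l : Fin m) : ContDiff ℝ 1 (pd l u) :=
  (hu.niceB_pd l).toNiceL.contDiff_one

theorem gkN_add {u v : EE m → ℝ} (hu : NiceL u) (hv : NiceL v) (x : EE m) :
    gkN (fun x => u x + v x) x = gkN u x + gkN v x := by
  unfold gkN
  rw [← Finset.sum_add_distrib]
  refine Finset.sum_congr rfl fun l _ => ?_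
  have h1 : pd l (fun x => u x + v x) = fun x => pd l u x + pd l v x := by
    funext y
    exact gk_closA_pd_add hu.contDiff_one hv.contDiff_one l y
  rw [h1, gk_closA_pd_add (hu.pd_contDiff_one l) (hv.pd_contDiff_one l) l x]
  ring

theorem gkN_const_mul {u : EE m → ℝ} (hu : NiceL u) (a : ℝ) (x : EE m) :
    gkN (fun x => a * u x) x = a * gkN u x := by
  unfold gkN
  rw [Finset.mul_sum]
  refine Finset.sum_congr rfl fun l _ => ?_
  have h1 : pd l (fun x => a * u x) = fun x => a * pd l u x := by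
    funext y
    exact gk_closA_pd_const_mul hu.contDiff_one a l y
  rw [h1, gk_closA_pd_const_mul (hu.pd_contDiff_one l) a l x]
  ring

theorem gkN_PG_const (a : ℝ) : PG (fun _ : EE m => a) :=
  BM.toPG ⟨measurable_const, |a|, fun _ => le_rfl⟩

theorem gkN_PG_sum {ι : Type*} (s : Finset ι) {u : ι → EE m → ℝ} (hu : ∀ i ∈ s, PG (u i)) :
    PG (fun x => ∑ i ∈ s, u i x) := by
  classical
  induction s using Finset.induction_on with
  | empty => simpa using gkN_PG_const (m := m) 0
  | insert a s ha ih =>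
    simp only [Finset.sum_insert ha]
    exact (hu a (Finset.mem_insert_self a s)).add
      (ih fun i hi => hu i (Finset.mem_insert_of_mem hi))

theorem gkN_PG_sub {u v : EE m → ℝ} (hu : PG u) (hv : PG v) : PG (fun x => u x - v x) := by
  have h := hu.add ((gkN_PG_const (m := m) (-1)).mul hv)
  have e : (fun x => u x + -1 * v x) = fun x => u x - v x := by
    funext x
    ring
  rwa [e] at h

theorem gkN_memLp {u : EE m → ℝ} (hu : PG u) : MemLp u 2 (gam m) := hu.memLp 2

theorem NiceL.pd_PG {w : EE m → ℝ} (hw : NiceL w) (l : Fin m) : PG (pd l w) :=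
  (hw.niceB_pd l).toBM.toPG

theorem NiceL.pd_pd_PG {w : EE m → ℝ} (hw : NiceL w) (l r : Fin m) : PG (pd r (pd l w)) :=
  (hw.niceB_pd l).toNiceL.pd_PG r

theorem gkN_term_PG {w : EE m → ℝ} (hw : NiceL w) (l : Fin m) :
    PG (fun x : EE m => x l * pd l w x - pd l (pd l w) x) :=
  gkN_PG_sub ((gk_PG_coord l).mul (hw.pd_PG l)) (hw.pd_pd_PG l l)

theorem gkN_PG {w : EE m → ℝ} (hw : NiceL w) : PG (gkN w) :=
  gkN_PG_sum Finset.univ fun l _ => gkN_term_PG hw l

theorem NiceL.pd_gh1 {w : EE m → ℝ} (hw : NiceL w) (l : Fin m) :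
    GH1 (pd l w) (fun r => pd r (pd l w)) :=
  gk_gh1_of_C1L (hw.niceB_pd l).toNiceL.toC1L

/-- `E[t N w] = ∑_l E[∂_l t ∂_l w]` (from `GH1.ibp_mul`) -/
theorem gkN_pairing {t w : EE m → ℝ} {dt : Fin m → EE m → ℝ} (ht : GH1 t dt) (hw : NiceL w) :
    ∫ x, t x * gkN w x ∂gam m = ∑ l, ∫ x, dt l x * pd l w x ∂gam m := by
  have ht2 : MemLp t 2 (gam m) := ht.1
  have hint : ∀ l : Fin m, Integrable
      (fun x : EE m => t x * (x l * pd l w x - pd l (pd l w) x)) (gam m) := fun l =>
    ht2.integrable_mul (gkN_memLp (gkN_term_PG hw l))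
  unfold gkN
  simp only [Finset.mul_sum]
  rw [integral_finsetSum _ fun l _ => hint l]
  refine Finset.sum_congr rfl fun l _ => ?_
  have h1 := ht.ibp_mul (hw.pd_gh1 l) l
  have i1 : Integrable (fun x : EE m => x l * t x * pd l w x) (gam m) := by
    have := ht2.integrable_mul (gkN_memLp ((gk_PG_coord l).mul (hw.pd_PG l)))
    refine this.congr (Eventually.of_forall fun x => ?_)
    simp only [Pi.mul_apply]
    ring
  have i2 : Integrable (fun x : EE m => t x * pd l (pd l w) x) (gam m) :=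
    ht2.integrable_mul (gkN_memLp (hw.pd_pd_PG l l))
  have h2 : ∫ x, t x * (x l * pd l w x - pd l (pd l w) x) ∂gam m
      = ∫ x, x l * t x * pd l w x ∂gam m - ∫ x, t x * pd l (pd l w) x ∂gam m := by
    rw [← integral_sub i1 i2]
    refine integral_congr_ae (Eventually.of_forall fun x => ?_)
    simp only
    ring
  rw [h2, h1]
  ring

theorem gkN_integral {w : EE m → ℝ} (hw : NiceL w) : ∫ x, gkN w x ∂gam m = 0 := by
  have h := gkN_pairing (gk_gh1_const (m := m) 1) hw
  simpa using h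

/-- Bochner identity `‖N w‖² = ‖∂w‖² + ‖∂²w‖²` (from `GH1.comm` and `GH1.hess_symm`) -/
theorem gkN_bochner {w : EE m → ℝ} (hw : NiceL w) :
    ∫ x, (gkN w x) ^ 2 ∂gam m
      = ∑ l, ∫ x, (pd l w x) ^ 2 ∂gam m + ∑ l, ∑ r, ∫ x, (pd r (pd l w) x) ^ 2 ∂gam m := by
  have hint : ∀ l j : Fin m, Integrable (fun x : EE m =>
      (x l * pd l w x - pd l (pd l w) x) * (x j * pd j w x - pd j (pd j w) x)) (gam m) :=
    fun l j => (gkN_memLp (gkN_term_PG hw l)).integrable_mul (gkN_memLp (gkN_term_PG hw j))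
  have h0 : ∀ x : EE m, (gkN w x) ^ 2 = ∑ l, ∑ j,
      (x l * pd l w x - pd l (pd l w) x) * (x j * pd j w x - pd j (pd j w) x) := by
    intro x
    unfold gkN
    rw [sq, Finset.sum_mul_sum]
  simp only [h0]
  rw [integral_finsetSum _ fun l _ => integrable_finsetSum _ fun j _ => hint l j]
  have h1 : ∀ l : Fin m, ∫ x, ∑ j,
      (x l * pd l w x - pd l (pd l w) x) * (x j * pd j w x - pd j (pd j w) x) ∂gam m
      = ∫ x, (pd l w x) ^ 2 ∂gam m + ∑ r, ∫ x, (pd r (pd l w) x) ^ 2 ∂gam m := by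
    intro l
    rw [integral_finsetSum _ fun j _ => hint l j]
    have h2 : ∀ j : Fin m, ∫ x,
        (x l * pd l w x - pd l (pd l w) x) * (x j * pd j w x - pd j (pd j w) x) ∂gam m
        = ∫ x, (pd j (pd l w) x) ^ 2 ∂gam m
          + (if j = l then ∫ x, (pd l w x) ^ 2 ∂gam m else 0) := by
      intro j
      rw [(hw.pd_gh1 l).comm (hw.pd_gh1 j) l j]
      congr 1
      · have hs := GH1.hess_symm (gk_gh1_of_C1L hw.toC1L) (fun r => hw.pd_gh1 r) j l
        refine integral_congr_ae ?_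
        filter_upwards [hs] with x hx
        rw [hx, sq]
      · split_ifs with h
        · subst h
          simp only [sq]
        · rfl
    simp only [h2]
    rw [Finset.sum_add_distrib, Finset.sum_ite_eq' Finset.univ l]
    simp [add_comm]
  simp only [h1]
  rw [Finset.sum_add_distrib]

end Claimed.Agent.R260
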