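/-
Row 260, package GK (Gaussian kit): the orthogonal complement of the range of the number operator
consists of constants.
Owner: helper77.  Statement verbatim from helper200's skeleton; no sorry in this file.
-/
import Claimed.Agent.R260.GKCdN
import Claimed.Agent.R260.GKCdDense

namespace Claimed.Agent.R260

open MeasureTheory ProbabilityTheory Filter Topology Set

variable {m : ℕ}

/-- the constant `‖∂v‖² + ‖∂²v‖²` -/
noncomputable def gkcoD (v : EE m → ℝ) : ℝ :=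
  ∑ l, ∫ x, (pd l v x) ^ 2 ∂gam m + ∑ l, ∑ r, ∫ x, (pd r (pd l v) x) ^ 2 ∂gam m

theorem gkco_niceL_mehler {c : ℝ} (hc : c ∈ Ioc (0 : ℝ) 1) {v : EE m → ℝ} (hv : NiceL v) :
    NiceL (mehler c v) := by
  rcases hc.2.lt_or_eq with h | h
  · obtain ⟨K, hK⟩ := hv.toC1L.lipschitz
    exact gk_mehler_niceL ⟨hc.1.le, h⟩ hK
  · rw [h, gk_mehler_one]
    exact hv

/-- `‖N (c⁻¹ P_c v)‖² ≤ ‖∂v‖² + ‖∂²v‖²` -/
theorem gkco_norm_le {c : ℝ} (hc : c ∈ Ioc (0 : ℝ) 1) {v : EE m → ℝ} (hv : NiceL v) :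
    NiceL (fun x => c⁻¹ * mehler c v x) ∧
    (∀ r, pd r (fun x => c⁻¹ * mehler c v x) = mehler c (pd r v)) ∧
    ∫ x, (gkN (fun x => c⁻¹ * mehler c v x) x) ^ 2 ∂gam m ≤ gkcoD v := by
  have hc' : c ∈ Icc (0 : ℝ) 1 := ⟨hc.1.le, hc.2⟩
  have hM := gkco_niceL_mehler hc hv
  have hw : NiceL (fun x => c⁻¹ * mehler c v x) := hM.const_mul _
  have hpd : ∀ r, pd r (fun x => c⁻¹ * mehler c v x) = mehler c (pd r v) := by
    intro r
    funext x
    rw [gk_closA_pd_const_mul hM.contDiff_one, gk_pd_mehler hc' hv.toC1L r x, ← mul_assoc,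
      inv_mul_cancel₀ hc.1.ne', one_mul]
  refine ⟨hw, hpd, ?_⟩
  rw [gkN_bochner hw]
  unfold gkcoD
  refine add_le_add (Finset.sum_le_sum fun l _ => ?_)
    (Finset.sum_le_sum fun l _ => Finset.sum_le_sum fun r _ => ?_)
  · rw [hpd l]
    exact gk_mehler_sq_le hc' (hv.pd_PG l).1 (gkN_memLp (hv.pd_PG l))
  · rw [hpd l]
    have h1 : pd r (mehler c (pd l v)) = fun x => c * mehler c (pd r (pd l v)) x := by
      funext x
      exact gk_pd_mehler hc' (hv.niceB_pd l).toNiceL.toC1L r x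
    rw [h1]
    have h2 := gk_mehler_sq_le hc' (hv.pd_pd_PG l r).1 (gkN_memLp (hv.pd_pd_PG l r))
    have h3 : ∫ x, (c * mehler c (pd r (pd l v)) x) ^ 2 ∂gam m
        = c ^ 2 * ∫ x, (mehler c (pd r (pd l v)) x) ^ 2 ∂gam m := by
      rw [← integral_const_mul]
      refine integral_congr_ae (Eventually.of_forall fun x => ?_)
      simp only
      ring
    rw [h3]
    have h4 : 0 ≤ ∫ x, (mehler c (pd r (pd l v)) x) ^ 2 ∂gam m :=
      integral_nonneg fun x => sq_nonneg _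
    have h5 : c ^ 2 ≤ 1 := by nlinarith [hc.1, hc.2]
    nlinarith

/-- the integrand of the covariance representation is small when `u` is close to `h` -/
theorem gkco_bound {h : EE m → ℝ} (h2 : MemLp h 2 (gam m))
    (hN : ∀ w : EE m → ℝ, NiceL w → ∫ x, h x * gkN w x ∂gam m = 0) {v : EE m → ℝ} (hv : NiceL v)
    {u : EE m → ℝ} (hu : NiceB u) {c : ℝ} (hc : c ∈ Ioc (0 : ℝ) 1) :
    |∫ x, ∑ r, pd r u x * mehler c (pd r v) x ∂gam m|
      ≤ Real.sqrt (∫ x, (u x - h x) ^ 2 ∂gam m) * Real.sqrt (gkcoD v) := by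
  obtain ⟨hw, hpd, hle⟩ := gkco_norm_le hc hv
  set w : EE m → ℝ := fun x => c⁻¹ * mehler c v x with hwdef
  have hu2 : MemLp u 2 (gam m) := gkN_memLp hu.toBM.toPG
  have hNw : MemLp (gkN w) 2 (gam m) := gkN_memLp (gkN_PG hw)
  have h1 : ∫ x, ∑ r, pd r u x * mehler c (pd r v) x ∂gam m = ∫ x, u x * gkN w x ∂gam m := by
    rw [gkN_pairing (gk_gh1_of_C1L hu.toNiceL.toC1L) hw, integral_finsetSum]
    · simp only [hpd]
    · intro r _
      rw [← hpd r]
      exact (gkN_memLp (hu.toNiceL.pd_PG r)).integrable_mul (gkN_memLp (hw.pd_PG r))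
  have h3 : ∫ x, u x * gkN w x ∂gam m = ∫ x, (u x - h x) * gkN w x ∂gam m := by
    have e : ∀ x, (u x - h x) * gkN w x = u x * gkN w x - h x * gkN w x := fun x => by ring
    simp only [e]
    have i1 : Integrable (fun x => u x * gkN w x) (gam m) := hu2.integrable_mul hNw
    have i2 : Integrable (fun x => h x * gkN w x) (gam m) := h2.integrable_mul hNw
    rw [integral_sub i1 i2, hN w hw, sub_zero]
  rw [h1, h3]
  refine (gkb_abs_integral_mul_le (gkb_memLp_sub hu2 h2) hNw).trans ?_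
  exact mul_le_mul_of_nonneg_left (Real.sqrt_le_sqrt hle) (Real.sqrt_nonneg _)

theorem gkco_abs_integral_le {f : EE m → ℝ} (hf : MemLp f 2 (gam m)) :
    |∫ x, f x ∂gam m| ≤ Real.sqrt (∫ x, (f x) ^ 2 ∂gam m) := by
  have h1 := gkb_abs_integral_mul_le hf (gkN_memLp (gkN_PG_const (m := m) 1))
  simpa using h1

/-- If `h ∈ L²` is orthogonal to `N w` for all nice `w`, then `Cov(h, v) = 0` for all nice `v`.
Proof: for `u` in `NiceB`, `gk_cov_repr` gives `Cov(u,v) = ∫₀¹ E[∑ ∂_r u · P_c ∂_r v] dc` and for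
`c ∈ (0,1]` the integrand is `E[u · N w_c] = E[(u - h) · N w_c]` with `w_c = c⁻¹ P_c v`
(`gk_pd_mehler`, `gkN_pairing`), and `‖N w_c‖² ≤ ‖∂v‖² + ‖∂²v‖²` by `gkN_bochner` and
`gk_mehler_sq_le`.  So `|Cov(u,v)| ≤ ‖u - h‖ · D`; let `u → h` (`gk_exists_niceB_approx`). -/
theorem gk_cd_orth {h : EE m → ℝ} (h2 : MemLp h 2 (gam m))
    (hN : ∀ w : EE m → ℝ, NiceL w → ∫ x, h x * gkN w x ∂gam m = 0) {v : EE m → ℝ} (hv : NiceL v) :
    ∫ x, h x * v x ∂gam m = (∫ x, h x ∂gam m) * ∫ x, v x ∂gam m := by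
  have hv2 : MemLp v 2 (gam m) := gkN_memLp hv.toC1L.toC1P.toPG
  set V := Real.sqrt (∫ x, (v x) ^ 2 ∂gam m) with hV
  set D := Real.sqrt (gkcoD v) + 2 * V with hD
  have hV0 : 0 ≤ V := Real.sqrt_nonneg _
  have hD0 : 0 ≤ D := by have := Real.sqrt_nonneg (gkcoD v); positivity
  set X := ∫ x, h x * v x ∂gam m - (∫ x, h x ∂gam m) * ∫ x, v x ∂gam m with hX
  -- the main estimate
  have key : ∀ u : EE m → ℝ, NiceB u →
      |X| ≤ Real.sqrt (∫ x, (u x - h x) ^ 2 ∂gam m) * D := by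
    intro u hu
    have hu2 : MemLp u 2 (gam m) := gkN_memLp hu.toBM.toPG
    have hd2 : MemLp (fun x => u x - h x) 2 (gam m) := gkb_memLp_sub hu2 h2
    set δ := Real.sqrt (∫ x, (u x - h x) ^ 2 ∂gam m) with hδ
    have hδ0 : 0 ≤ δ := Real.sqrt_nonneg _
    have c1 : |∫ x, u x * v x ∂gam m - (∫ x, u x ∂gam m) * ∫ x, v x ∂gam m|
        ≤ δ * Real.sqrt (gkcoD v) := by
      rw [gk_cov_repr hu.toNiceL.toC1L hv.toC1L]
      have := intervalIntegral.norm_integral_le_of_norm_le_const (a := (0 : ℝ)) (b := 1)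
        (f := fun c => ∫ x, ∑ r, pd r u x * mehler c (pd r v) x ∂gam m)
        (C := δ * Real.sqrt (gkcoD v)) (fun c hc => by
          rw [uIoc_of_le zero_le_one] at hc
          exact gkco_bound h2 hN hv hu hc)
      simpa using this
    have c2 : |∫ x, (u x - h x) * v x ∂gam m| ≤ δ * V := gkb_abs_integral_mul_le hd2 hv2
    have c3 : |∫ x, (u x - h x) ∂gam m| ≤ δ := gkco_abs_integral_le hd2
    have c4 : |∫ x, v x ∂gam m| ≤ V := gkco_abs_integral_le hv2
    have e1 : ∫ x, (u x - h x) * v x ∂gam m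
        = ∫ x, u x * v x ∂gam m - ∫ x, h x * v x ∂gam m := by
      have i1 : Integrable (fun x => u x * v x) (gam m) := hu2.integrable_mul hv2
      have i2 : Integrable (fun x => h x * v x) (gam m) := h2.integrable_mul hv2
      rw [← integral_sub i1 i2]
      refine integral_congr_ae (Eventually.of_forall fun x => ?_)
      simp only
      ring
    have e2 : ∫ x, (u x - h x) ∂gam m = ∫ x, u x ∂gam m - ∫ x, h x ∂gam m :=
      integral_sub (hu2.integrable (by norm_num)) (h2.integrable (by norm_num))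
    have e3 : X = (∫ x, u x * v x ∂gam m - (∫ x, u x ∂gam m) * ∫ x, v x ∂gam m)
        - ∫ x, (u x - h x) * v x ∂gam m + (∫ x, (u x - h x) ∂gam m) * ∫ x, v x ∂gam m := by
      rw [e1, e2, hX]
      ring
    have c5 : |(∫ x, (u x - h x) ∂gam m) * ∫ x, v x ∂gam m| ≤ δ * V := by
      rw [abs_mul]
      exact mul_le_mul c3 c4 (abs_nonneg _) hδ0
    rw [e3]
    calc |(∫ x, u x * v x ∂gam m - (∫ x, u x ∂gam m) * ∫ x, v x ∂gam m)
          - ∫ x, (u x - h x) * v x ∂gam m + (∫ x, (u x - h x) ∂gam m) * ∫ x, v x ∂gam m|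
        ≤ |∫ x, u x * v x ∂gam m - (∫ x, u x ∂gam m) * ∫ x, v x ∂gam m|
          + |∫ x, (u x - h x) * v x ∂gam m|
          + |(∫ x, (u x - h x) ∂gam m) * ∫ x, v x ∂gam m| :=
            (abs_add_le _ _).trans (add_le_add_left (abs_sub _ _) _)
      _ ≤ δ * Real.sqrt (gkcoD v) + δ * V + δ * V := add_le_add (add_le_add c1 c2) c5
      _ = δ * D := by rw [hD]; ring
  -- let `u → h`
  have hX0 : X = 0 := by
    by_contra hne
    have hpos : 0 < |X| := abs_pos.mpr hne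
    set η := |X| / (2 * (D + 1)) with hη
    have hη0 : 0 < η := by positivity
    obtain ⟨u, hu, hlt⟩ := gk_exists_niceB_approx h2 (sq_pos_of_pos hη0)
    have h1 := key u hu
    have h3 : Real.sqrt (∫ x, (u x - h x) ^ 2 ∂gam m) ≤ η :=
      Real.sqrt_le_iff.mpr ⟨hη0.le, hlt.le⟩
    have h4 : |X| ≤ η * D := h1.trans (mul_le_mul_of_nonneg_right h3 hD0)
    have h5 : η * D < |X| := by
      rw [hη, div_mul_eq_mul_div, div_lt_iff₀ (by positivity)]
      nlinarith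
    linarith
  linarith [hX0, hX]

end Claimed.Agent.R260
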