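/-
Row 260, package GK (Gaussian kit): the range of the number operator is dense in the mean zero
functions.
Owner: helper138.
-/
import Claimed.Agent.R260.GKCdOrth

namespace Claimed.Agent.R260

open MeasureTheory ProbabilityTheory Filter Topology Set

variable {m : ℕ}

theorem gk_cdr_memLp {w : EE m → ℝ} (hw : NiceL w) : MemLp (gkN w) 2 (gam m) :=
  (gkN_PG hw).memLp 2

/-- the range of the number operator as a submodule of `L²(γ)` (it needs one nice function to
contain `0`) -/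
noncomputable def gkCdRange {v : EE m → ℝ} (hv : NiceL v) : Submodule ℝ (Lp ℝ 2 (gam m)) where
  carrier := {F | ∃ (w : EE m → ℝ) (hw : NiceL w), F = (gk_cdr_memLp hw).toLp (gkN w)}
  add_mem' := by
    rintro _ _ ⟨u, hu, rfl⟩ ⟨w, hw, rfl⟩
    refine ⟨fun x => u x + w x, hu.add hw, ?_⟩
    rw [← MemLp.toLp_add]
    refine (MemLp.toLp_eq_toLp_iff _ _).2 (Eventually.of_forall fun x => ?_)
    simp only [Pi.add_apply]
    exact (gkN_add hu hw x).symm
  zero_mem' := by
    refine ⟨fun x => 0 * v x, hv.const_mul 0, ?_⟩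
    rw [← MemLp.toLp_zero (MemLp.zero' (p := 2) (μ := gam m) (ε := ℝ))]
    refine (MemLp.toLp_eq_toLp_iff _ _).2 (Eventually.of_forall fun x => ?_)
    rw [gkN_const_mul hv 0 x]
    simp
  smul_mem' := by
    rintro a _ ⟨w, hw, rfl⟩
    refine ⟨fun x => a * w x, hw.const_mul a, ?_⟩
    rw [← MemLp.toLp_const_smul]
    refine (MemLp.toLp_eq_toLp_iff _ _).2 (Eventually.of_forall fun x => ?_)
    simp only [Pi.smul_apply, smul_eq_mul]
    exact (gkN_const_mul hw a x).symm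

theorem gkCdRange_eqns_cite : True := by
  have := @gkCdRange.eq_1
  trivial

/-- Nice case.  Hilbert space argument in `Lp ℝ 2 (gam m)`: `K := {[N w] : w nice}` is a submodule
(`NiceL.add`, `gkN_add`, ...), `Kᗮᗮ = K.topologicalClosure`
(`Submodule.orthogonal_orthogonal_eq_closure`), and `[v - E v] ∈ Kᗮᗮ` by `gk_cd_orth`. -/
theorem gk_cd_range_dense_nice {v : EE m → ℝ} (hv : NiceL v) {ε : ℝ} (hε : 0 < ε) :
    ∃ w : EE m → ℝ, NiceL w ∧ ∫ x, (v x - (∫ y, v y ∂gam m) - gkN w x) ^ 2 ∂gam m < ε := by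
  set c : ℝ := ∫ y, v y ∂gam m with hc
  have hv2 : MemLp v 2 (gam m) := hv.toC1L.memLp
  have hf : MemLp (fun x => v x - c) 2 (gam m) := hv2.sub (memLp_const c)
  have hcl : hf.toLp _ ∈ (gkCdRange hv).topologicalClosure := by
    rw [← Submodule.orthogonal_orthogonal_eq_closure, Submodule.mem_orthogonal]
    intro g hg
    rw [Submodule.mem_orthogonal] at hg
    have hg2 : MemLp (g : EE m → ℝ) 2 (gam m) := Lp.memLp g
    have hgi : Integrable (g : EE m → ℝ) (gam m) := gk_l2_integrable hg2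
    have hN : ∀ w : EE m → ℝ, NiceL w → ∫ x, g x * gkN w x ∂gam m = 0 := by
      intro w hw
      have h1 := hg _ ⟨w, hw, rfl⟩
      rw [← Lp.toLp_coeFn g hg2, gk_l2_inner_toLp] at h1
      rw [← h1]
      refine integral_congr_ae (Eventually.of_forall fun x => ?_)
      simp only
      ring
    have h2 := gk_cd_orth hg2 hN hv
    rw [← Lp.toLp_coeFn g hg2, gk_l2_inner_toLp]
    have e : ∀ x, g x * (v x - c) = g x * v x - c * g x := fun x => by ring
    simp_rw [e]
    rw [integral_sub (gk_l2_integrable_mul hg2 hv2) (hgi.const_mul c), integral_const_mul, h2]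
    ring
  have hcl' : hf.toLp _ ∈ closure ((gkCdRange hv : Submodule ℝ (Lp ℝ 2 (gam m))) :
      Set (Lp ℝ 2 (gam m))) := by
    rw [← Submodule.topologicalClosure_coe]
    exact hcl
  obtain ⟨F, hF, hd⟩ := Metric.mem_closure_iff.1 hcl' (Real.sqrt ε) (Real.sqrt_pos.2 hε)
  obtain ⟨w, hw, rfl⟩ := hF
  refine ⟨w, hw, ?_⟩
  rw [← gk_l2_norm_sub_toLp_sq hf (gk_cdr_memLp hw), ← dist_eq_norm]
  calc dist (hf.toLp _) ((gk_cdr_memLp hw).toLp (gkN w)) ^ 2 < Real.sqrt ε ^ 2 := by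
        exact pow_lt_pow_left₀ hd dist_nonneg (by norm_num)
    _ = ε := Real.sq_sqrt hε.le

/-- Lipschitz case: apply the nice case to `mehler b t`, `b → 1` (`gk_mehler_niceL`,
`gk_mehler_tendsto`, `gk_integral_mehler`). -/
theorem gk_cd_range_dense {t : EE m → ℝ} {K : NNReal} (ht : LipschitzWith K t) {ε : ℝ}
    (hε : 0 < ε) :
    ∃ w : EE m → ℝ, NiceL w ∧ ∫ x, (t x - (∫ y, t y ∂gam m) - gkN w x) ^ 2 ∂gam m < ε := by
  have htPG : PG t := gk_PG_of_lipschitz ht
  have htm : Measurable t := htPG.1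
  have ht2 : MemLp t 2 (gam m) := htPG.memLp 2
  have hT := gk_mehler_tendsto htm ht2
  have hE := (tendsto_order.1 hT).2 (ε / 8) (by positivity)
  have hI : ∀ᶠ b : ℝ in 𝓝[<] 1, b ∈ Ioo (0 : ℝ) 1 := Ioo_mem_nhdsLT zero_lt_one
  obtain ⟨b, hb1, hb2⟩ := (hE.and hI).exists
  have hbI : b ∈ Ico (0 : ℝ) 1 := ⟨hb2.1.le, hb2.2⟩
  have hbI' : b ∈ Icc (0 : ℝ) 1 := ⟨hb2.1.le, hb2.2.le⟩
  have hN : NiceL (mehler b t) := gk_mehler_niceL hbI ht
  obtain ⟨w, hw, hwε⟩ := gk_cd_range_dense_nice hN (ε := ε / 8) (by positivity)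
  rw [gk_integral_mehler hbI' htm htPG.integrable] at hwε
  refine ⟨w, hw, ?_⟩
  set c : ℝ := ∫ y, t y ∂gam m with hc
  have hM2 : MemLp (mehler b t) 2 (gam m) := hN.toC1L.memLp
  have A1 : MemLp (fun x => t x - mehler b t x) 2 (gam m) := ht2.sub hM2
  have A2 : MemLp (fun x => mehler b t x - c - gkN w x) 2 (gam m) :=
    (hM2.sub (memLp_const c)).sub (gk_cdr_memLp hw)
  have h3 := gk_l2_integral_add_sq_le A1 A2
  have e : ∀ x, t x - c - gkN w x = (t x - mehler b t x) + (mehler b t x - c - gkN w x) :=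
    fun x => by ring
  have e3 : ∫ x, (t x - mehler b t x) ^ 2 ∂gam m = ∫ x, (mehler b t x - t x) ^ 2 ∂gam m := by
    refine integral_congr_ae (Eventually.of_forall fun x => ?_)
    simp only
    ring
  simp_rw [e]
  rw [e3] at h3
  linarith

end Claimed.Agent.R260
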