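/-
Row 260, package GK (Gaussian kit): GH1, products and chain rule.
Statements by helper200; proofs by helper291.
-/
import Claimed.Agent.R260.GKClosA
import Claimed.Agent.R260.GKClosC0

namespace Claimed.Agent.R260

open MeasureTheory ProbabilityTheory Filter Topology Set

variable {m : ℕ}

/-! ### auxiliary lemmas -/

theorem gkc_memLp_mul_bdd {α : Type*} {mα : MeasurableSpace α} {μ : Measure α} {f η : α → ℝ}
    {C : ℝ} (hf : MemLp f 2 μ) (hη : AEStronglyMeasurable η μ) (hC : ∀ᵐ x ∂μ, |η x| ≤ C) :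
    MemLp (fun x => f x * η x) 2 μ := by
  refine hf.of_le_mul (c := C) (hf.aestronglyMeasurable.mul hη) ?_
  filter_upwards [hC] with x hx
  rw [Real.norm_eq_abs, Real.norm_eq_abs, abs_mul, mul_comm]
  exact mul_le_mul_of_nonneg_right hx (abs_nonneg _)

theorem gkc_tendsto_add_zero {α : Type*} {mα : MeasurableSpace α} {μ : Measure α} {ι : Type*}
    {l : Filter ι} {X Y : ι → α → ℝ} (hX : ∀ i, MemLp (X i) 2 μ) (hY : ∀ i, MemLp (Y i) 2 μ)
    (h : Tendsto (fun i => ∫ x, (X i x) ^ 2 ∂μ) l (𝓝 0))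
    (h' : Tendsto (fun i => ∫ x, (Y i x) ^ 2 ∂μ) l (𝓝 0)) :
    Tendsto (fun i => ∫ x, (X i x + Y i x) ^ 2 ∂μ) l (𝓝 0) := by
  have h0 : MemLp (fun _ : α => (0 : ℝ)) 2 μ := MemLp.zero
  have := gkl_tendsto_add hX h0 hY h0 (by simpa using h) (by simpa using h')
  simpa using this

theorem gkc_clm_pi_apply {ι : Type*} [Fintype ι] [DecidableEq ι] (L : (ι → ℝ) →L[ℝ] ℝ)
    (y : ι → ℝ) : L y = ∑ i, L (Pi.single i 1) * y i := by
  have h : y = ∑ i, y i • (Pi.single i (1 : ℝ) : ι → ℝ) := by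
    ext j
    simp [Finset.sum_apply, Pi.single_apply]
  conv_lhs => rw [h]
  rw [map_sum]
  refine Finset.sum_congr rfl fun i _ => ?_
  rw [map_smul, smul_eq_mul, mul_comm]

theorem gkc_abs_clm_single_le {ι : Type*} [Fintype ι] [DecidableEq ι] (L : (ι → ℝ) →L[ℝ] ℝ)
    (i : ι) : |L (Pi.single i 1)| ≤ ‖L‖ := by
  have h := L.le_opNorm (Pi.single i 1)
  have h1 : ‖(Pi.single i (1 : ℝ) : ι → ℝ)‖ = 1 := by
    rw [Pi.norm_single]; simp
  rwa [h1, mul_one, Real.norm_eq_abs] at h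

/-- product with a bounded `C¹` function with bounded derivative -/
theorem GH1.mul_C1L {u η : EE m → ℝ} {du : Fin m → EE m → ℝ} (hu : GH1 u du) (hη : C1L η)
    (hb : ∃ C, ∀ x, |η x| ≤ C) :
    GH1 (fun x => u x * η x) (fun r x => du r x * η x + u x * pd r η x) := by
  obtain ⟨hu2, hdu2, v, hv, h0, h1⟩ := hu
  obtain ⟨C, hC⟩ := hb
  have hηc := hη.1
  obtain ⟨C', hC'⟩ := hη.2
  have hηm : AEStronglyMeasurable η (gam m) := hηc.continuous.aestronglyMeasurable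
  have hpm : ∀ r, AEStronglyMeasurable (pd r η) (gam m) := fun r =>
    (gk_continuous_pd hηc r).aestronglyMeasurable
  have hpb : ∀ r x, |pd r η x| ≤ C' := fun r x => (gk_abs_pd_le r η x).trans (hC' x)
  have hv2 : ∀ n, MemLp (v n) 2 (gam m) := fun n => (hv n).toC1P.toPG.memLp_two
  have hpv2 : ∀ n r, MemLp (pd r (v n)) 2 (gam m) := fun n r => ((hv n).toC1P.pd_PG r).memLp_two
  refine gk_gh1_of_tendsto (l := atTop) (v := fun n x => v n x * η x)
    (dv := fun n r => pd r (fun x => v n x * η x))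
    (Eventually.of_forall fun n => gkc_gh1_of_C1P ((hv n).toC1P.mul hη.toC1P))
    (gkc_memLp_mul_bdd hu2 hηm (Eventually.of_forall hC))
    (fun r => (gkc_memLp_mul_bdd (hdu2 r) hηm (Eventually.of_forall hC)).add
      (gkc_memLp_mul_bdd hu2 (hpm r) (Eventually.of_forall (hpb r))))
    (gkl_tendsto_mul_bdd hv2 hu2 (fun _ => Eventually.of_forall hC) h0) (fun r => ?_)
  have l1 := gkl_tendsto_mul_bdd (η := fun _ => η) (fun n => hpv2 n r) (hdu2 r)
    (fun _ => Eventually.of_forall hC) (h1 r)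
  have l2 := gkl_tendsto_mul_bdd (η := fun _ => pd r η) hv2 hu2
    (fun _ => Eventually.of_forall (hpb r)) h0
  have l3 := gkl_tendsto_add
    (fun n => gkc_memLp_mul_bdd (hpv2 n r) hηm (Eventually.of_forall hC))
    (gkc_memLp_mul_bdd (hdu2 r) hηm (Eventually.of_forall hC))
    (fun n => gkc_memLp_mul_bdd (hv2 n) (hpm r) (Eventually.of_forall (hpb r)))
    (gkc_memLp_mul_bdd hu2 (hpm r) (Eventually.of_forall (hpb r))) l1 l2
  refine l3.congr fun n => ?_
  refine integral_congr_ae (Eventually.of_forall fun x => ?_)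
  simp only
  rw [gk_pd_mul (hv n).1 hηc]

section Chain

variable {ι : Type*} [Fintype ι] [DecidableEq ι] {Φ : (ι → ℝ) → ℝ} {C : ℝ}

omit [DecidableEq ι] in
theorem gkc_lipschitz (hΦ : ContDiff ℝ 1 Φ) (hC : ∀ y, ‖fderiv ℝ Φ y‖ ≤ C) :
    LipschitzWith C.toNNReal Φ :=
  lipschitzWith_of_nnnorm_fderiv_le (hΦ.differentiable one_ne_zero) fun y => by
    rw [← NNReal.coe_le_coe, coe_nnnorm]
    exact (hC y).trans (Real.le_coe_toNNReal C)

omit [DecidableEq ι] in
theorem gkc_norm_sq_le (y : ι → ℝ) : ‖y‖ ^ 2 ≤ ∑ i, (y i) ^ 2 := by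
  have hS : 0 ≤ ∑ i, (y i) ^ 2 := Finset.sum_nonneg fun i _ => sq_nonneg _
  have h4 : ‖y‖ ≤ Real.sqrt (∑ i, (y i) ^ 2) := by
    rw [pi_norm_le_iff_of_nonneg (Real.sqrt_nonneg _)]
    intro i
    refine Real.le_sqrt_of_sq_le ?_
    rw [Real.norm_eq_abs, sq_abs]
    exact Finset.single_le_sum (f := fun i => (y i) ^ 2) (fun i _ => sq_nonneg _)
      (Finset.mem_univ i)
  calc ‖y‖ ^ 2 ≤ Real.sqrt (∑ i, (y i) ^ 2) ^ 2 := pow_le_pow_left₀ (norm_nonneg _) h4 2
    _ = _ := Real.sq_sqrt hS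

omit [DecidableEq ι] in
theorem gkc_lip_sq (hΦ : ContDiff ℝ 1 Φ) (hC : ∀ y, ‖fderiv ℝ Φ y‖ ≤ C) (y y' : ι → ℝ) :
    (Φ y - Φ y') ^ 2 ≤ C ^ 2 * ∑ i, (y i - y' i) ^ 2 := by
  have hC0 : 0 ≤ C := (norm_nonneg _).trans (hC 0)
  have h2 := (gkc_lipschitz hΦ hC).dist_le_mul y y'
  rw [Real.dist_eq, Real.coe_toNNReal C hC0, dist_eq_norm] at h2
  have h3 : ‖y - y'‖ ^ 2 ≤ ∑ i, (y i - y' i) ^ 2 := gkc_norm_sq_le (y - y')
  calc (Φ y - Φ y') ^ 2 = |Φ y - Φ y'| ^ 2 := (sq_abs _).symm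
    _ ≤ (C * ‖y - y'‖) ^ 2 := pow_le_pow_left₀ (abs_nonneg _) h2 2
    _ = C ^ 2 * ‖y - y'‖ ^ 2 := mul_pow _ _ _
    _ ≤ _ := mul_le_mul_of_nonneg_left h3 (sq_nonneg C)

omit [DecidableEq ι] in
theorem gkc_aesm_pi {U : ι → EE m → ℝ} (hU2 : ∀ i, MemLp (U i) 2 (gam m)) :
    AEStronglyMeasurable (fun x => (fun i => U i x)) (gam m) :=
  (aemeasurable_pi_lambda _ fun i => (hU2 i).aestronglyMeasurable.aemeasurable).aestronglyMeasurable

omit [DecidableEq ι] in
theorem gkc_memLp_comp (hΦ : ContDiff ℝ 1 Φ) (hC : ∀ y, ‖fderiv ℝ Φ y‖ ≤ C) {U : ι → EE m → ℝ}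
    (hU2 : ∀ i, MemLp (U i) 2 (gam m)) : MemLp (fun x => Φ (fun i => U i x)) 2 (gam m) := by
  have hC0 : 0 ≤ C := (norm_nonneg _).trans (hC 0)
  have hs : MemLp (fun x => ∑ i, |U i x|) 2 (gam m) :=
    memLp_finsetSum Finset.univ fun i _ => (hU2 i).norm
  have hc : MemLp (fun _ : EE m => |Φ 0|) 2 (gam m) := memLp_const _
  have hg : MemLp (fun x => |Φ 0| + C * ∑ i, |U i x|) 2 (gam m) := hc.add (hs.const_mul C)
  refine hg.of_le (hΦ.continuous.comp_aestronglyMeasurable (gkc_aesm_pi hU2))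
    (Eventually.of_forall fun x => ?_)
  have h2 := (gkc_lipschitz hΦ hC).dist_le_mul (fun i => U i x) 0
  rw [Real.dist_eq, Real.coe_toNNReal C hC0, dist_zero_right] at h2
  have h3 : ‖(fun i => U i x)‖ ≤ ∑ i, |U i x| := by
    rw [pi_norm_le_iff_of_nonneg (Finset.sum_nonneg fun i _ => abs_nonneg _)]
    intro i
    exact Finset.single_le_sum (f := fun i => |U i x|) (fun i _ => abs_nonneg _)
      (Finset.mem_univ i)
  have h4 : |Φ (fun i => U i x)| ≤ |Φ (fun i => U i x) - Φ 0| + |Φ 0| := by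
    have := abs_add_le (Φ (fun i => U i x) - Φ 0) (Φ 0)
    simpa using this
  have h5 : 0 ≤ |Φ 0| + C * ∑ i, |U i x| :=
    add_nonneg (abs_nonneg _) (mul_nonneg hC0 (Finset.sum_nonneg fun i _ => abs_nonneg _))
  rw [Real.norm_eq_abs, Real.norm_eq_abs, abs_of_nonneg h5]
  have h6 := mul_le_mul_of_nonneg_left h3 hC0
  linarith

omit [DecidableEq ι] in
theorem gkc_fderiv_comp (hΦ : ContDiff ℝ 1 Φ) {V : ι → EE m → ℝ} (hV : ∀ i, C1L (V i))
    (x : EE m) : fderiv ℝ (fun x => Φ (fun i => V i x)) x = (fderiv ℝ Φ (fun i => V i x)).comp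
      (ContinuousLinearMap.pi fun i => fderiv ℝ (V i) x) := by
  have hd : ∀ i, DifferentiableAt ℝ (V i) x := fun i => ((hV i).1.differentiable one_ne_zero) x
  have h2 : HasFDerivAt (fun x => (fun i => V i x))
      (ContinuousLinearMap.pi fun i => fderiv ℝ (V i) x) x :=
    hasFDerivAt_pi.2 fun i => (hd i).hasFDerivAt
  exact (((hΦ.differentiable one_ne_zero) _).hasFDerivAt.comp x h2).fderiv

theorem gkc_pd_comp (hΦ : ContDiff ℝ 1 Φ) {V : ι → EE m → ℝ} (hV : ∀ i, C1L (V i)) (r : Fin m)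
    (x : EE m) : pd r (fun x => Φ (fun i => V i x)) x
      = ∑ i, fderiv ℝ Φ (fun i => V i x) (Pi.single i 1) * pd r (V i) x := by
  unfold pd
  rw [gkc_fderiv_comp hΦ hV, ContinuousLinearMap.comp_apply, gkc_clm_pi_apply]
  rfl

omit [DecidableEq ι] in
theorem gkc_C1L_comp (hΦ : ContDiff ℝ 1 Φ) (hC : ∀ y, ‖fderiv ℝ Φ y‖ ≤ C) {V : ι → EE m → ℝ}
    (hV : ∀ i, C1L (V i)) : C1L (fun x => Φ (fun i => V i x)) := by
  have hC0 : 0 ≤ C := (norm_nonneg _).trans (hC 0)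
  refine ⟨hΦ.comp (contDiff_pi.2 fun i => (hV i).1), ?_⟩
  choose Cb hCb using fun i => (hV i).2
  refine ⟨C * ∑ i, |Cb i|, fun x => ?_⟩
  rw [gkc_fderiv_comp hΦ hV]
  refine (ContinuousLinearMap.opNorm_comp_le _ _).trans
    (mul_le_mul (hC _) ?_ (norm_nonneg _) hC0)
  have hK : 0 ≤ ∑ i, |Cb i| := Finset.sum_nonneg fun i _ => abs_nonneg _
  refine ContinuousLinearMap.opNorm_le_bound _ hK fun y => ?_
  rw [pi_norm_le_iff_of_nonneg (mul_nonneg hK (norm_nonneg _))]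
  intro i
  refine ((fderiv ℝ (V i) x).le_opNorm y).trans
    (mul_le_mul_of_nonneg_right ?_ (norm_nonneg _))
  exact ((hCb i x).trans (le_abs_self _)).trans
    (Finset.single_le_sum (f := fun i => |Cb i|) (fun i _ => abs_nonneg _) (Finset.mem_univ i))

omit [DecidableEq ι] in
/-- simultaneous a.e. convergent subsequence -/
theorem gkc_exists_subseq {U : ι → EE m → ℝ} {V : ι → ℕ → EE m → ℝ}
    (hU2 : ∀ i, MemLp (U i) 2 (gam m)) (hV2 : ∀ i n, MemLp (V i n) 2 (gam m))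
    (h0 : ∀ i, Tendsto (fun n => ∫ x, (V i n x - U i x) ^ 2 ∂gam m) atTop (𝓝 0)) :
    ∃ k : ℕ → ℕ, StrictMono k ∧
      (∀ᵐ x ∂gam m, Tendsto (fun n => (fun i => V i (k n) x)) atTop (𝓝 (fun i => U i x))) := by
  set S : ℕ → EE m → ℝ := fun n x => ∑ i, (V i n x - U i x) ^ 2 with hS
  have hSi : ∀ n, Integrable (S n) (gam m) := fun n =>
    integrable_finsetSum _ fun i _ => ((hV2 i n).sub (hU2 i)).integrable_sq
  have hSlim : Tendsto (fun n => ∫ x, S n x ∂gam m) atTop (𝓝 0) := by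
    have e : ∀ n, ∫ x, S n x ∂gam m = ∑ i, ∫ x, (V i n x - U i x) ^ 2 ∂gam m := fun n =>
      integral_finsetSum _ fun i _ => ((hV2 i n).sub (hU2 i)).integrable_sq
    simp only [e]
    simpa using tendsto_finsetSum Finset.univ fun i _ => h0 i
  obtain ⟨k, hk, hae⟩ := gkl_exists_subseq_ae hSi
    (fun n x => Finset.sum_nonneg fun i _ => sq_nonneg _) hSlim
  refine ⟨k, hk, ?_⟩
  filter_upwards [hae] with x hx
  rw [tendsto_pi_nhds]
  intro i
  have h2 : Tendsto (fun n => (V i (k n) x - U i x) ^ 2) atTop (𝓝 0) :=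
    squeeze_zero (fun n => sq_nonneg _) (fun n =>
      Finset.single_le_sum (f := fun i => (V i (k n) x - U i x) ^ 2) (fun i _ => sq_nonneg _)
        (Finset.mem_univ i)) hx
  have h3 : Tendsto (fun n => |V i (k n) x - U i x|) atTop (𝓝 0) := by
    have h4 := (Real.continuous_sqrt.tendsto 0).comp h2
    rw [Real.sqrt_zero] at h4
    exact h4.congr fun n => Real.sqrt_sq_eq_abs _
  have h5 : Tendsto (fun n => V i (k n) x - U i x) atTop (𝓝 0) :=
    (tendsto_zero_iff_abs_tendsto_zero _).2 h3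
  simpa using h5.add_const (U i x)

/-- `a_n p_n → a q` in `L²` if `p_n → q` in `L²`, `|a_n|, |a| ≤ C` and `a_n → a` a.e. -/
theorem gkc_tendsto_mul_of_ae {α : Type*} {mα : MeasurableSpace α} {μ : Measure α}
    {a : ℕ → α → ℝ} {a' : α → ℝ} {p : ℕ → α → ℝ} {q : α → ℝ} {C : ℝ} (hC0 : 0 ≤ C)
    (ham : ∀ n, AEStronglyMeasurable (a n) μ) (ha'm : AEStronglyMeasurable a' μ)
    (hab : ∀ n x, |a n x| ≤ C) (ha'b : ∀ x, |a' x| ≤ C)
    (hp : ∀ n, MemLp (p n) 2 μ) (hq : MemLp q 2 μ)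
    (hlim : Tendsto (fun n => ∫ x, (p n x - q x) ^ 2 ∂μ) atTop (𝓝 0))
    (hae : ∀ᵐ x ∂μ, Tendsto (fun n => a n x) atTop (𝓝 (a' x))) :
    Tendsto (fun n => ∫ x, (a n x * p n x - a' x * q x) ^ 2 ∂μ) atTop (𝓝 0) := by
  have lX : Tendsto (fun n => ∫ x, (p n x * a n x - q x * a n x) ^ 2 ∂μ) atTop (𝓝 0) :=
    gkl_tendsto_mul_bdd hp hq (fun n => Eventually.of_forall (hab n)) hlim
  have hsub : ∀ n x, |a n x - a' x| ≤ 2 * C := fun n x => by
    have := abs_sub (a n x) (a' x)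
    linarith [hab n x, ha'b x]
  have lY : Tendsto (fun n => ∫ x, (q x * (a n x - a' x)) ^ 2 ∂μ) atTop (𝓝 0) := by
    refine gkl_tendsto_of_dominated (hq.const_mul (2 * C)) (fun n => ?_)
      (fun n => Eventually.of_forall fun x => ?_) ?_
    · exact hq.aestronglyMeasurable.mul ((ham n).sub ha'm)
    · rw [abs_mul, abs_mul, abs_of_nonneg (by positivity : 0 ≤ 2 * C), mul_comm]
      exact mul_le_mul_of_nonneg_right (hsub n x) (abs_nonneg _)
    · filter_upwards [hae] with x hx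
      have h3 := (hx.sub_const (a' x)).const_mul (q x)
      simpa using h3
  have hXm : ∀ n, MemLp (fun x => p n x * a n x - q x * a n x) 2 μ := fun n =>
    (gkc_memLp_mul_bdd (hp n) (ham n) (Eventually.of_forall (hab n))).sub
      (gkc_memLp_mul_bdd hq (ham n) (Eventually.of_forall (hab n)))
  have hYm : ∀ n, MemLp (fun x => q x * (a n x - a' x)) 2 μ := fun n =>
    gkc_memLp_mul_bdd hq ((ham n).sub ha'm) (Eventually.of_forall (hsub n))
  refine (gkc_tendsto_add_zero hXm hYm lX lY).congr fun n => ?_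
  refine integral_congr_ae (Eventually.of_forall fun x => ?_)
  simp only
  ring

end Chain

/-- chain rule: a globally `C¹` function with bounded derivative of finitely many elements -/
theorem GH1.comp {ι : Type*} [Fintype ι] [DecidableEq ι] {U : ι → EE m → ℝ}
    {dU : ι → Fin m → EE m → ℝ} (hU : ∀ i, GH1 (U i) (dU i)) {Φ : (ι → ℝ) → ℝ}
    (hΦ : ContDiff ℝ 1 Φ) (hb : ∃ C, ∀ y, ‖fderiv ℝ Φ y‖ ≤ C) :
    GH1 (fun x => Φ (fun i => U i x))
      (fun r x => ∑ i, fderiv ℝ Φ (fun i => U i x) (Pi.single i 1) * dU i r x) := by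
  obtain ⟨C, hC⟩ := hb
  have hC0 : 0 ≤ C := (norm_nonneg _).trans (hC 0)
  have hU2 : ∀ i, MemLp (U i) 2 (gam m) := fun i => (hU i).1
  have hdU2 : ∀ i r, MemLp (dU i r) 2 (gam m) := fun i => (hU i).2.1
  choose V hV h0 h1 using fun i => (hU i).2.2
  have hV2 : ∀ i n, MemLp (V i n) 2 (gam m) := fun i n => (hV i n).toC1P.toPG.memLp_two
  have hpV2 : ∀ i n r, MemLp (pd r (V i n)) 2 (gam m) := fun i n r =>
    ((hV i n).toC1P.pd_PG r).memLp_two
  obtain ⟨k, hk, hVae⟩ := gkc_exists_subseq hU2 hV2 h0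
  have hdΦc : ∀ i, Continuous fun y => fderiv ℝ Φ y (Pi.single i 1) := fun i =>
    (hΦ.continuous_fderiv one_ne_zero).clm_apply continuous_const
  have hVc : ∀ n, Continuous fun x => (fun i => V i n x) := fun n =>
    continuous_pi fun i => (hV i n).1.continuous
  have hdb : ∀ i y, |fderiv ℝ Φ y (Pi.single i 1)| ≤ C := fun i y =>
    (gkc_abs_clm_single_le _ i).trans (hC y)
  have ham : ∀ i, AEStronglyMeasurable (fun x => fderiv ℝ Φ (fun i => U i x) (Pi.single i 1))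
      (gam m) := fun i => (hdΦc i).comp_aestronglyMeasurable (gkc_aesm_pi hU2)
  have hanm : ∀ i n, AEStronglyMeasurable (fun x => fderiv ℝ Φ (fun i => V i n x) (Pi.single i 1))
      (gam m) := fun i n => ((hdΦc i).comp (hVc n)).aestronglyMeasurable
  have hg2 : ∀ i r, MemLp (fun x => fderiv ℝ Φ (fun i => U i x) (Pi.single i 1) * dU i r x) 2
      (gam m) := fun i r => by
    have := gkc_memLp_mul_bdd (hdU2 i r) (ham i) (Eventually.of_forall fun x => hdb i _)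
    simpa only [mul_comm] using this
  have hf2 : ∀ i r n, MemLp (fun x => fderiv ℝ Φ (fun i => V i (k n) x) (Pi.single i 1)
      * pd r (V i (k n)) x) 2 (gam m) := fun i r n => by
    have := gkc_memLp_mul_bdd (hpV2 i (k n) r) (hanm i (k n)) (Eventually.of_forall fun x => hdb i _)
    simpa only [mul_comm] using this
  refine ⟨gkc_memLp_comp hΦ hC hU2, fun r => memLp_finsetSum Finset.univ fun i _ => hg2 i r,
    fun n x => Φ (fun i => V i (k n) x), fun n => gkc_C1L_comp hΦ hC fun i => hV i (k n), ?_,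
    fun r => ?_⟩
  · -- convergence of the functions
    have hSi : ∀ n, Integrable (fun x => ∑ i, (V i n x - U i x) ^ 2) (gam m) := fun n =>
      integrable_finsetSum _ fun i _ => ((hV2 i n).sub (hU2 i)).integrable_sq
    have hSlim : Tendsto (fun n => ∫ x, ∑ i, (V i n x - U i x) ^ 2 ∂gam m) atTop (𝓝 0) := by
      have e : ∀ n, ∫ x, ∑ i, (V i n x - U i x) ^ 2 ∂gam m
          = ∑ i, ∫ x, (V i n x - U i x) ^ 2 ∂gam m := fun n =>
        integral_finsetSum _ fun i _ => ((hV2 i n).sub (hU2 i)).integrable_sq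
      simp only [e]
      simpa using tendsto_finsetSum Finset.univ fun i _ => h0 i
    have l1 : Tendsto (fun n => C ^ 2 * ∫ x, ∑ i, (V i (k n) x - U i x) ^ 2 ∂gam m) atTop
        (𝓝 0) := by
      simpa using (hSlim.comp hk.tendsto_atTop).const_mul (C ^ 2)
    refine squeeze_zero (fun n => integral_nonneg fun x => sq_nonneg _) (fun n => ?_) l1
    rw [← integral_const_mul]
    exact integral_mono_of_nonneg (Eventually.of_forall fun x => sq_nonneg _)
      ((hSi (k n)).const_mul _) (Eventually.of_forall fun x => gkc_lip_sq hΦ hC _ _)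
  · -- convergence of the derivatives
    have e : ∀ n x, pd r (fun x => Φ (fun i => V i (k n) x)) x
        = ∑ i, fderiv ℝ Φ (fun i => V i (k n) x) (Pi.single i 1) * pd r (V i (k n)) x :=
      fun n x => gkc_pd_comp hΦ (fun i => hV i (k n)) r x
    simp only [e]
    refine gkl_tendsto_sum Finset.univ (fun i n => hf2 i r n) (fun i => hg2 i r) fun i _ => ?_
    refine gkc_tendsto_mul_of_ae hC0 (fun n => hanm i (k n)) (ham i) (fun n x => hdb i _)
      (fun x => hdb i _) (fun n => hpV2 i (k n) r) (hdU2 i r)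
      ((h1 i r).comp hk.tendsto_atTop) ?_
    filter_upwards [hVae] with x hx
    exact ((hdΦc i).tendsto _).comp hx

/-! ### products of bounded elements -/

/-- the truncation `s ↦ s · bump s`, equal to the identity on `[-R, R]` -/
noncomputable def gkcTr (R : ℝ) (hR : 0 < R) (s : ℝ) : ℝ :=
  s * (⟨R, R + 1, hR, by linarith⟩ : ContDiffBump (0 : ℝ)) s

theorem gkcTr_contDiff (R : ℝ) (hR : 0 < R) : ContDiff ℝ 1 (gkcTr R hR) :=
  contDiff_id.mul (ContDiffBump.contDiff _)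

theorem gkcTr_eq_self {R : ℝ} (hR : 0 < R) {s : ℝ} (hs : |s| ≤ R) : gkcTr R hR s = s := by
  unfold gkcTr
  rw [ContDiffBump.one_of_mem_closedBall, mul_one]
  rw [mem_closedBall_zero_iff, Real.norm_eq_abs]
  exact hs

theorem gkcTr_eq_zero {R : ℝ} (hR : 0 < R) {s : ℝ} (hs : R + 1 ≤ |s|) : gkcTr R hR s = 0 := by
  unfold gkcTr
  rw [ContDiffBump.zero_of_le_dist, mul_zero]
  rw [dist_zero_right, Real.norm_eq_abs]
  exact hs

/-- the truncated product on `ℝ²` -/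
noncomputable def gkcPr (R : ℝ) (hR : 0 < R) (y : Fin 2 → ℝ) : ℝ :=
  gkcTr R hR (y 0) * gkcTr R hR (y 1)

theorem gkcPr_contDiff (R : ℝ) (hR : 0 < R) : ContDiff ℝ 1 (gkcPr R hR) :=
  ((gkcTr_contDiff R hR).comp (contDiff_apply ℝ ℝ 0)).mul
    ((gkcTr_contDiff R hR).comp (contDiff_apply ℝ ℝ 1))

theorem gkcPr_hasCompactSupport (R : ℝ) (hR : 0 < R) : HasCompactSupport (gkcPr R hR) := by
  refine HasCompactSupport.intro (isCompact_closedBall 0 (R + 1)) fun y hy => ?_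
  rw [mem_closedBall_zero_iff, pi_norm_le_iff_of_nonneg (by linarith), Fin.forall_fin_two,
    not_and_or] at hy
  unfold gkcPr
  rcases hy with h | h
  · rw [gkcTr_eq_zero hR (by rw [Real.norm_eq_abs] at h; exact (not_le.1 h).le), zero_mul]
  · rw [gkcTr_eq_zero hR (s := y 1) (by rw [Real.norm_eq_abs] at h; exact (not_le.1 h).le),
      mul_zero]

theorem gkcPr_eq {R : ℝ} (hR : 0 < R) {y : Fin 2 → ℝ} (h0 : |y 0| ≤ R) (h1 : |y 1| ≤ R) :
    gkcPr R hR y = y 0 * y 1 := by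
  unfold gkcPr
  rw [gkcTr_eq_self hR h0, gkcTr_eq_self hR h1]

theorem gkcPr_fderiv {R : ℝ} (hR : 0 < R) {y : Fin 2 → ℝ} (h0 : |y 0| < R) (h1 : |y 1| < R) :
    fderiv ℝ (gkcPr R hR) y
      = y 0 • (ContinuousLinearMap.proj 1 : (Fin 2 → ℝ) →L[ℝ] ℝ)
        + y 1 • (ContinuousLinearMap.proj 0 : (Fin 2 → ℝ) →L[ℝ] ℝ) := by
  have hopen : IsOpen {z : Fin 2 → ℝ | |z 0| < R ∧ |z 1| < R} :=
    (isOpen_lt (continuous_apply 0).abs continuous_const).inter
      (isOpen_lt (continuous_apply 1).abs continuous_const)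
  have hev : gkcPr R hR =ᶠ[𝓝 y] fun z => z 0 * z 1 := by
    filter_upwards [hopen.mem_nhds ⟨h0, h1⟩] with z hz
    exact gkcPr_eq hR hz.1.le hz.2.le
  rw [hev.fderiv_eq]
  exact ((hasFDerivAt_apply (𝕜 := ℝ) (0 : Fin 2) y).mul (hasFDerivAt_apply (1 : Fin 2) y)).fderiv

/-- product of two bounded elements -/
theorem GH1.mul_bdd {u v : EE m → ℝ} {du dv : Fin m → EE m → ℝ} (hu : GH1 u du) (hv : GH1 v dv)
    (hbu : ∃ C, ∀ᵐ x ∂gam m, |u x| ≤ C) (hbv : ∃ C, ∀ᵐ x ∂gam m, |v x| ≤ C) :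
    GH1 (fun x => u x * v x) (fun r x => du r x * v x + u x * dv r x) := by
  obtain ⟨Cu, hCu⟩ := hbu
  obtain ⟨Cv, hCv⟩ := hbv
  set R : ℝ := |Cu| + |Cv| + 1 with hRdef
  have hR : 0 < R := by positivity
  have hU : ∀ i : Fin 2, GH1 ((![u, v] : Fin 2 → EE m → ℝ) i)
      ((![du, dv] : Fin 2 → Fin m → EE m → ℝ) i) := by
    rw [Fin.forall_fin_two]
    exact ⟨hu, hv⟩
  have hmain := GH1.comp hU (gkcPr_contDiff R hR)
    (((gkcPr_contDiff R hR).continuous_fderiv one_ne_zero).bounded_above_of_compact_support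
      ((gkcPr_hasCompactSupport R hR).fderiv ℝ))
  have hbd : ∀ᵐ x ∂gam m, |u x| < R ∧ |v x| < R := by
    filter_upwards [hCu, hCv] with x h1 h2
    constructor
    · have := le_abs_self Cu
      have := abs_nonneg Cv
      linarith
    · have := le_abs_self Cv
      have := abs_nonneg Cu
      linarith
  refine hmain.congr_ae ?_ fun r => ?_
  · filter_upwards [hbd] with x hx
    exact gkcPr_eq hR hx.1.le hx.2.le
  · filter_upwards [hbd] with x hx
    have e : fderiv ℝ (gkcPr R hR) (fun i => (![u, v] : Fin 2 → EE m → ℝ) i x)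
        = u x • (ContinuousLinearMap.proj 1 : (Fin 2 → ℝ) →L[ℝ] ℝ)
          + v x • (ContinuousLinearMap.proj 0 : (Fin 2 → ℝ) →L[ℝ] ℝ) :=
      gkcPr_fderiv hR hx.1 hx.2
    rw [Fin.sum_univ_two, e]
    simp
    ring

end Claimed.Agent.R260
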