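/-
Row 260, package GK (Gaussian kit): COV, the dual variance bound.
Assembly from the leaves `GKCdN`, `GKCdRange`.  Owner: helper200.
-/
import Claimed.Agent.R260.GKCdRange

namespace Claimed.Agent.R260

open MeasureTheory ProbabilityTheory Filter Topology Set

variable {m : ℕ}

/-- **COV** (the only form in which Lemma 3.1 of the paper is used).  If the gradient of a
Lipschitz function `t` is `a + ∂^* c` weakly, then `Var t ≤ ‖a‖² + ‖c‖²`. -/
theorem gk_cov_dual {t : EE m → ℝ} {K : NNReal} (ht : LipschitzWith K t)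
    {a : Fin m → EE m → ℝ} {c : Fin m → Fin m → EE m → ℝ}
    (ha : ∀ l, MemLp (a l) 2 (gam m)) (hc : ∀ r l, MemLp (c r l) 2 (gam m))
    (h : ∀ l, ∀ η : EE m → ℝ, NiceB η →
      ∫ x, pd l t x * η x ∂gam m
        = ∫ x, a l x * η x ∂gam m + ∑ r, ∫ x, c r l x * pd r η x ∂gam m) :
    ∫ x, (t x) ^ 2 ∂gam m - (∫ x, t x ∂gam m) ^ 2
      ≤ ∑ l, ∫ x, (a l x) ^ 2 ∂gam m + ∑ r, ∑ l, ∫ x, (c r l x) ^ 2 ∂gam m := by
  refine le_of_forall_pos_le_add fun ε hε => ?_
  obtain ⟨w, hw, hwε⟩ := gk_cd_range_dense ht hε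
  set E : ℝ := ∫ y, t y ∂gam m with hE
  have ht2 : MemLp t 2 (gam m) := (gk_PG_of_lipschitz ht).memLp 2
  have hN2 : MemLp (gkN w) 2 (gam m) := (gkN_PG hw).memLp 2
  have hGt : GH1 t (fun r => pd r t) := gk_gh1_of_lipschitz ht
  have hti : Integrable t (gam m) := gk_l2_integrable ht2
  have hNi : Integrable (gkN w) (gam m) := gk_l2_integrable hN2
  have htN : Integrable (fun x => t x * gkN w x) (gam m) := gk_l2_integrable_mul ht2 hN2
  -- expansion of the square
  have hexp : ∫ x, (t x - E - gkN w x) ^ 2 ∂gam m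
      = (∫ x, (t x) ^ 2 ∂gam m - E ^ 2) - 2 * (∑ l, ∫ x, pd l t x * pd l w x ∂gam m)
        + ∫ x, (gkN w x) ^ 2 ∂gam m := by
    have e1 : ∀ x, (t x - E - gkN w x) ^ 2
        = (t x) ^ 2 + (gkN w x) ^ 2 + E ^ 2 - 2 * E * t x - 2 * (t x * gkN w x)
          + 2 * E * gkN w x := fun x => by ring
    simp_rw [e1]
    have i1 := ht2.integrable_sq
    have i2 := hN2.integrable_sq
    have i3 : Integrable (fun _ : EE m => E ^ 2) (gam m) := integrable_const _
    have i4 : Integrable (fun x => 2 * E * t x) (gam m) := hti.const_mul _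
    have i5 : Integrable (fun x => 2 * (t x * gkN w x)) (gam m) := htN.const_mul _
    have i6 : Integrable (fun x => 2 * E * gkN w x) (gam m) := hNi.const_mul _
    have j2 : Integrable (fun x => (t x) ^ 2 + (gkN w x) ^ 2) (gam m) := i1.add i2
    have j3 : Integrable (fun x => (t x) ^ 2 + (gkN w x) ^ 2 + E ^ 2) (gam m) := j2.add i3
    have j4 : Integrable (fun x => (t x) ^ 2 + (gkN w x) ^ 2 + E ^ 2 - 2 * E * t x) (gam m) :=
      j3.sub i4
    have j5 : Integrable (fun x => (t x) ^ 2 + (gkN w x) ^ 2 + E ^ 2 - 2 * E * t x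
        - 2 * (t x * gkN w x)) (gam m) := j4.sub i5
    rw [integral_add j5 i6, integral_sub j4 i5, integral_sub j3 i4, integral_add j2 i3,
      integral_add i1 i2,
      integral_const_mul, integral_const_mul, integral_const_mul, gkN_integral hw,
      gkN_pairing hGt hw, integral_const]
    simp only [probReal_univ, smul_eq_mul, one_mul, mul_zero, add_zero]
    rw [← hE]
    ring
  -- the duality inequality, one `l` at a time
  have hl : ∀ l, 2 * ∫ x, pd l t x * pd l w x ∂gam m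
      ≤ ∫ x, (a l x) ^ 2 ∂gam m + ∫ x, (pd l w x) ^ 2 ∂gam m
        + ∑ r, (∫ x, (c r l x) ^ 2 ∂gam m + ∫ x, (pd r (pd l w) x) ^ 2 ∂gam m) := by
    intro l
    have hη : NiceB (pd l w) := hw.niceB_pd l
    have hη2 : MemLp (pd l w) 2 (gam m) := hη.toBM.toPG.memLp 2
    have hdη2 : ∀ r, MemLp (pd r (pd l w)) 2 (gam m) := fun r =>
      (hη.toNiceL.niceB_pd r).toBM.toPG.memLp 2
    rw [h l _ hη, mul_add, Finset.mul_sum]
    have h1 := gk_l2_two_integral_mul_le (ha l) hη2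
    have h2 : ∑ r, 2 * ∫ x, c r l x * pd r (pd l w) x ∂gam m
        ≤ ∑ r, (∫ x, (c r l x) ^ 2 ∂gam m + ∫ x, (pd r (pd l w) x) ^ 2 ∂gam m) :=
      Finset.sum_le_sum fun r _ => gk_l2_two_integral_mul_le (hc r l) (hdη2 r)
    linarith
  have hsum : 2 * ∑ l, ∫ x, pd l t x * pd l w x ∂gam m
      ≤ (∑ l, ∫ x, (a l x) ^ 2 ∂gam m + ∑ r, ∑ l, ∫ x, (c r l x) ^ 2 ∂gam m)
        + ∫ x, (gkN w x) ^ 2 ∂gam m := by
    rw [gkN_bochner hw, Finset.mul_sum]
    refine (Finset.sum_le_sum fun l _ => hl l).trans (le_of_eq ?_)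
    simp only [Finset.sum_add_distrib]
    rw [Finset.sum_comm (f := fun r l => ∫ x, (c r l x) ^ 2 ∂gam m)]
    ring
  linarith

end Claimed.Agent.R260
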