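/-
Row 260, package GK (Gaussian kit): the g-lemma.
Statement by helper200; proof by helper117 (Hahn-Banach + Riesz).
-/
import Claimed.Agent.R260.GKClosD
import Claimed.Agent.R260.GKHilb

namespace Claimed.Agent.R260

open MeasureTheory ProbabilityTheory Filter Topology Set

variable {m : ℕ}

/-! ### the key bound, in function form -/

theorem gk_existsG_integral_coord (r : Fin m) : ∫ x : EE m, x r ∂gam m = 0 := by
  have h := (gk_gh1_const (m := m) 1).ibp r
  simpa using h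

/-- `E (f - E f)² ≤ E f²` -/
theorem gk_existsG_var_le {f : EE m → ℝ} (hf : MemLp f 2 (gam m)) :
    ∫ x, (f x - ∫ y, f y ∂gam m) ^ 2 ∂gam m ≤ ∫ x, (f x) ^ 2 ∂gam m := by
  set a := ∫ y, f y ∂gam m with ha
  have hi : Integrable f (gam m) := gk_l2_integrable hf
  have e : ∫ x, (f x - a) ^ 2 ∂gam m = ∫ x, (f x) ^ 2 ∂gam m - a ^ 2 := by
    have e1 : (fun x => (f x - a) ^ 2) = fun x => (f x) ^ 2 - (2 * a * f x - a ^ 2) := by
      funext x; ring
    have i1 : Integrable (fun x => 2 * a * f x) (gam m) := hi.const_mul _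
    have i2 : Integrable (fun _ : EE m => a ^ 2) (gam m) := integrable_const _
    have i3 : Integrable (fun x => 2 * a * f x - a ^ 2) (gam m) := i1.sub i2
    rw [e1, integral_sub hf.integrable_sq i3, integral_sub i1 i2, integral_const_mul,
      integral_const, ← ha]
    simp
    ring
  rw [e]
  nlinarith [sq_nonneg a]

/-- the centred and "de-trended" function -/
theorem gk_existsG_center {z : EE m → ℝ} {dz : Fin m → EE m → ℝ} (hz : GH1 z dz) (c : ℝ)
    (a : Fin m → ℝ) :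
    GH1 (fun x => z x - c - ∑ s, a s * x s) (fun r x => dz r x - a r) := by
  have h1 := (hz.sub (gk_gh1_const c)).sub
    (GH1.sum Finset.univ (u := fun s (x : EE m) => a s * x s)
      (du := fun s r _ => a s * (if r = s then 1 else 0))
      fun s _ => (gk_gh1_coord s).const_mul (a s))
  have e : (fun (r : Fin m) (x : EE m) => dz r x - 0 - ∑ s, a s * (if r = s then (1 : ℝ) else 0)) =
      fun r x => dz r x - a r := by
    funext r x
    simp
  rwa [e] at h1

theorem gk_existsG_key {y : EE m → ℝ} {dy : Fin m → EE m → ℝ} (hy : GH1 y dy)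
    (h0 : ∫ x, y x ∂gam m = 0) (h1 : ∀ r, ∫ x, dy r x ∂gam m = 0)
    {z : EE m → ℝ} {dz : Fin m → EE m → ℝ} (hz : GH1 z dz) :
    (∫ x, y x * z x ∂gam m) ^ 2 ≤
      ((1 / 2) * ∫ x, (y x) ^ 2 ∂gam m) * ∑ r, ∫ x, (dz r x) ^ 2 ∂gam m := by
  set c := ∫ x, z x ∂gam m with hc
  set a : Fin m → ℝ := fun r => ∫ x, dz r x ∂gam m with ha
  have hz' := gk_existsG_center hz c a
  have hy2 := hy.1
  have hz2 := hz.1
  have hx2 : ∀ s : Fin m, MemLp (fun x : EE m => x s) 2 (gam m) := fun s => (gk_gh1_coord s).1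
  have hyi : Integrable y (gam m) := gk_l2_integrable hy2
  have hzi : Integrable z (gam m) := gk_l2_integrable hz2
  -- the pairing with `y` is unchanged
  have e1 : ∫ x, y x * (z x - c - ∑ s, a s * x s) ∂gam m = ∫ x, y x * z x ∂gam m := by
    have hs : ∀ s ∈ (Finset.univ : Finset (Fin m)),
        Integrable (fun x : EE m => a s * (x s * y x)) (gam m) :=
      fun s _ => (gk_l2_integrable_mul (hx2 s) hy2).const_mul _
    have e2 : (fun x => y x * (z x - c - ∑ s, a s * x s)) =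
        fun x => y x * z x - c * y x - ∑ s, a s * (x s * y x) := by
      funext x
      rw [mul_sub, mul_sub, Finset.mul_sum]
      congr 1
      · ring
      · exact Finset.sum_congr rfl fun s _ => by ring
    have i1 : Integrable (fun x => y x * z x) (gam m) := gk_l2_integrable_mul hy2 hz2
    have i2 : Integrable (fun x => c * y x) (gam m) := hyi.const_mul c
    have i3 : Integrable (fun x => y x * z x - c * y x) (gam m) := i1.sub i2
    have i4 : Integrable (fun x : EE m => ∑ s, a s * (x s * y x)) (gam m) :=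
      integrable_finsetSum _ hs
    rw [e2, integral_sub i3 i4, integral_sub i1 i2, integral_const_mul, h0,
      integral_finsetSum _ hs]
    have : ∀ s : Fin m, ∫ x, a s * (x s * y x) ∂gam m = 0 := by
      intro s
      rw [integral_const_mul, hy.ibp s, h1 s, mul_zero]
    simp [this]
  -- the mean of the new function vanishes
  have e3 : ∫ x, (z x - c - ∑ s, a s * x s) ∂gam m = 0 := by
    have hs : ∀ s ∈ (Finset.univ : Finset (Fin m)),
        Integrable (fun x : EE m => a s * x s) (gam m) :=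
      fun s _ => (gk_l2_integrable (hx2 s)).const_mul _
    have i2 : Integrable (fun _ : EE m => c) (gam m) := integrable_const c
    have i3 : Integrable (fun x => z x - c) (gam m) := hzi.sub i2
    have i4 : Integrable (fun x : EE m => ∑ s, a s * x s) (gam m) := integrable_finsetSum _ hs
    rw [integral_sub i3 i4, integral_sub hzi i2, integral_finsetSum _ hs, integral_const]
    have : ∀ s : Fin m, ∫ x : EE m, a s * x s ∂gam m = 0 := by
      intro s
      rw [integral_const_mul, gk_existsG_integral_coord, mul_zero]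
    simp [this, hc]
  -- the derivatives of the new function are centred
  have e4 : ∀ r, ∫ x, (dz r x - a r) ∂gam m = 0 := by
    intro r
    rw [integral_sub (gk_l2_integrable (hz.2.1 r)) (integrable_const _), integral_const]
    simp [ha]
  have hP := hz'.poincare2 e4
  rw [e3] at hP
  have hsum : ∫ x, ∑ r, (dz r x - a r) ^ 2 ∂gam m ≤ ∑ r, ∫ x, (dz r x) ^ 2 ∂gam m := by
    rw [integral_finsetSum _ fun r _ => (hz'.2.1 r).integrable_sq]
    exact Finset.sum_le_sum fun r _ => gk_existsG_var_le (hz.2.1 r)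
  have hCS := gk_l2_sq_integral_mul_le hy2 hz'.1
  rw [e1] at hCS
  have hy0 : 0 ≤ ∫ x, (y x) ^ 2 ∂gam m := gk_l2_integral_sq_nonneg _
  calc (∫ x, y x * z x ∂gam m) ^ 2
      ≤ (∫ x, (y x) ^ 2 ∂gam m) * ∫ x, (z x - c - ∑ s, a s * x s) ^ 2 ∂gam m := hCS
    _ ≤ (∫ x, (y x) ^ 2 ∂gam m) * ((1 / 2) * ∑ r, ∫ x, (dz r x) ^ 2 ∂gam m) := by
        refine mul_le_mul_of_nonneg_left ?_ hy0
        have : ∫ x, (z x - c - ∑ s, a s * x s) ^ 2 ∂gam m ≤
            (1 / 2) * ∫ x, ∑ r, (dz r x - a r) ^ 2 ∂gam m := by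
          simpa using hP
        linarith
    _ = _ := by ring

/-! ### the Hilbert space set-up -/

/-- the space of `L²` vector fields -/
abbrev GkVF (m : ℕ) : Type := PiLp 2 (fun _ : Fin m => Lp ℝ 2 (gam m))

/-- the graph of the weak gradient, as a submodule of `L² × L²(vector fields)` -/
def gkGraph (m : ℕ) : Submodule ℝ (Lp ℝ 2 (gam m) × GkVF m) where
  carrier := {p | GH1 (p.1 : EE m → ℝ) (fun r => (p.2 r : EE m → ℝ))}
  zero_mem' := by
    refine (gk_gh1_const (m := m) 0).congr_ae ?_ fun r => ?_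
    · exact (Lp.coeFn_zero ℝ 2 (gam m)).symm
    · exact (Lp.coeFn_zero ℝ 2 (gam m)).symm
  add_mem' := by
    intro p q hp hq
    refine (GH1.add hp hq).congr_ae ?_ fun r => ?_
    · exact (Lp.coeFn_add p.1 q.1).symm
    · exact (Lp.coeFn_add (p.2 r) (q.2 r)).symm
  smul_mem' := by
    intro c p hp
    refine (GH1.const_mul hp c).congr_ae ?_ fun r => ?_
    · exact (Lp.coeFn_smul c p.1).symm
    · exact (Lp.coeFn_smul c (p.2 r)).symm

theorem gk_existsG_mem_graph {p : Lp ℝ 2 (gam m) × GkVF m} :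
    p ∈ gkGraph m ↔ GH1 (p.1 : EE m → ℝ) (fun r => (p.2 r : EE m → ℝ)) := Iff.rfl

theorem gk_existsG_norm_sq (Z : GkVF m) : ‖Z‖ ^ 2 = ∑ r, ∫ x, (Z r x) ^ 2 ∂gam m := by
  rw [PiLp.norm_sq_eq_of_L2]
  exact Finset.sum_congr rfl fun r _ => gk_l2_norm_coe_sq (Z r)

/-- the element of the graph defined by an element of `GH1` -/
noncomputable def gkGraphMk {ζ : EE m → ℝ} {dζ : Fin m → EE m → ℝ} (h : GH1 ζ dζ) :
    Lp ℝ 2 (gam m) × GkVF m :=
  (h.1.toLp ζ, WithLp.toLp 2 fun r => (h.2.1 r).toLp (dζ r))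

theorem gk_existsG_mk_mem {ζ : EE m → ℝ} {dζ : Fin m → EE m → ℝ} (h : GH1 ζ dζ) :
    gkGraphMk h ∈ gkGraph m := by
  refine h.congr_ae ?_ fun r => ?_
  · exact h.1.coeFn_toLp.symm
  · exact (h.2.1 r).coeFn_toLp.symm

/-- **g-lemma** (replaces `g = ∂ N⁻¹ Y`). -/
theorem gk_exists_g {y : EE m → ℝ} {dy : Fin m → EE m → ℝ} (hy : GH1 y dy)
    (h0 : ∫ x, y x ∂gam m = 0) (h1 : ∀ r, ∫ x, dy r x ∂gam m = 0) :
    ∃ g : Fin m → EE m → ℝ, (∀ r, Measurable (g r)) ∧ (∀ r, MemLp (g r) 2 (gam m)) ∧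
      ∫ x, ∑ r, (g r x) ^ 2 ∂gam m ≤ (1 / 2) * ∫ x, (y x) ^ 2 ∂gam m ∧
      ∀ (ζ : EE m → ℝ) (dζ : Fin m → EE m → ℝ), GH1 ζ dζ →
        ∫ x, y x * ζ x ∂gam m = ∑ r, ∫ x, g r x * dζ r x ∂gam m := by
  set Y : Lp ℝ 2 (gam m) := hy.1.toLp y with hY
  set K : ℝ := (1 / 2) * ∫ x, (y x) ^ 2 ∂gam m with hK
  have hK0 : 0 ≤ K := by
    have := gk_l2_integral_sq_nonneg (μ := gam m) y
    positivity
  set C : ℝ := Real.sqrt K with hC
  have hC0 : 0 ≤ C := Real.sqrt_nonneg _
  -- the functional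
  let ell : (Lp ℝ 2 (gam m) × GkVF m) →ₗ[ℝ] ℝ :=
    (innerSL ℝ Y).toLinearMap.comp (LinearMap.fst ℝ (Lp ℝ 2 (gam m)) (GkVF m))
  have hell : ∀ p, ell p = ∫ x, y x * p.1 x ∂gam m := by
    intro p
    show inner ℝ Y p.1 = _
    rw [gk_l2_inner_coe]
    refine integral_congr_ae ?_
    filter_upwards [hy.1.coeFn_toLp] with x hx
    rw [hx]
  let N : (Lp ℝ 2 (gam m) × GkVF m) → ℝ := fun p => C * ‖p.2‖
  have hbound : ∀ p : (ell.toPMap (gkGraph m)).domain, (ell.toPMap (gkGraph m)) p ≤ N p := by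
    intro p
    have hp : GH1 ((p : Lp ℝ 2 (gam m) × GkVF m).1 : EE m → ℝ)
        (fun r => ((p : Lp ℝ 2 (gam m) × GkVF m).2 r : EE m → ℝ)) := p.2
    have hk := gk_existsG_key hy h0 h1 hp
    rw [← hell, ← gk_existsG_norm_sq, ← hK] at hk
    show ell (p : Lp ℝ 2 (gam m) × GkVF m) ≤ _
    refine (le_abs_self _).trans ?_
    refine abs_le_of_sq_le_sq' ?_ (by positivity) |>.2
    show _ ≤ (C * ‖(p : Lp ℝ 2 (gam m) × GkVF m).2‖) ^ 2
    rw [mul_pow, hC, Real.sq_sqrt hK0, sq_abs]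
    exact hk
  obtain ⟨G, hG1, hG2⟩ := exists_extension_of_le_sublinear (ell.toPMap (gkGraph m)) N
    (fun c hc p => by
      show C * ‖c • p.2‖ = c * (C * ‖p.2‖)
      rw [norm_smul, Real.norm_eq_abs, abs_of_pos hc]
      ring)
    (fun p q => by
      show C * ‖p.2 + q.2‖ ≤ C * ‖p.2‖ + C * ‖q.2‖
      rw [← mul_add]
      exact mul_le_mul_of_nonneg_left (norm_add_le _ _) hC0)
    hbound
  -- `G` does not see the first component
  have hGfst : ∀ z : Lp ℝ 2 (gam m), G (z, 0) = 0 := by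
    intro z
    have a1 : G (z, 0) ≤ 0 := by
      have := hG2 (z, 0)
      simpa [N] using this
    have a2 : G (-z, 0) ≤ 0 := by
      have := hG2 (-z, 0)
      simpa [N] using this
    have a3 : G (-z, 0) = - G (z, 0) := by
      rw [← map_neg]
      congr 1
      simp
    linarith
  let G2 : GkVF m →ₗ[ℝ] ℝ := G.comp (LinearMap.inr ℝ (Lp ℝ 2 (gam m)) (GkVF m))
  have hG2b : ∀ Z, ‖G2 Z‖ ≤ C * ‖Z‖ := by
    intro Z
    rw [Real.norm_eq_abs, abs_le]
    constructor
    · have := hG2 (0, -Z)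
      have a3 : G (0, -Z) = - G (0, Z) := by
        rw [← map_neg]
        congr 1
        simp
      have a4 : N (0, -Z) = C * ‖Z‖ := by simp [N]
      rw [a3, a4] at this
      show -(C * ‖Z‖) ≤ G (0, Z)
      linarith
    · exact hG2 (0, Z)
  let G2c : GkVF m →L[ℝ] ℝ := G2.mkContinuous C hG2b
  let gH : GkVF m := (InnerProductSpace.toDual ℝ (GkVF m)).symm G2c
  have hgH : ∀ Z, inner ℝ gH Z = G (0, Z) := by
    intro Z
    exact InnerProductSpace.toDual_symm_apply
  have hgHn : ‖gH‖ ≤ C := by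
    rw [LinearIsometryEquiv.norm_map]
    exact LinearMap.mkContinuous_norm_le _ hC0 _
  refine ⟨fun r => (gH r : EE m → ℝ), fun r => (Lp.stronglyMeasurable (gH r)).measurable,
    fun r => Lp.memLp (gH r), ?_, ?_⟩
  · rw [integral_finsetSum _ fun r _ => (Lp.memLp (gH r)).integrable_sq, ← gk_existsG_norm_sq,
      ← Real.sq_sqrt hK0, ← hC]
    exact pow_le_pow_left₀ (norm_nonneg _) hgHn 2
  · intro ζ dζ hζ
    have hm := gk_existsG_mk_mem hζ
    have e1 : G (gkGraphMk hζ) = ell (gkGraphMk hζ) := hG1 ⟨gkGraphMk hζ, hm⟩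
    have e2 : ell (gkGraphMk hζ) = ∫ x, y x * ζ x ∂gam m := gk_l2_inner_toLp hy.1 hζ.1
    have e3 : G (gkGraphMk hζ) = G ((gkGraphMk hζ).1, 0) + G (0, (gkGraphMk hζ).2) := by
      rw [← map_add]
      congr 1
      simp
    rw [← e2, ← e1, e3, hGfst, zero_add, ← hgH, PiLp.inner_apply]
    refine Finset.sum_congr rfl fun r _ => ?_
    show inner ℝ (gH r) ((hζ.2.1 r).toLp (dζ r)) = _
    rw [gk_l2_inner_coe]
    refine integral_congr_ae ?_
    filter_upwards [(hζ.2.1 r).coeFn_toLp] with x hx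
    rw [hx]

end Claimed.Agent.R260
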