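/-
Row 260, package LC = IFACE + AFF (sub-captain helper235).  Leaf LC2: the covariance matrix of a density is positive definite.
-/
import Claimed.Agent.R260.LcDefs

set_option autoImplicit false

namespace Claimed.Agent.R260

open MeasureTheory Set Filter Topology
open Claims.C0429

variable {m : ℕ}

/-! ### LC2: the covariance matrix -/

theorem LcMom.integrable {f : (Fin m → ℝ) → ℝ} (hf : LcMom f) : Integrable f :=
  integrable_of_integral_eq_one hf.mass

/-- pointwise expansion of the centred second moment -/
theorem lc_centred_expand (f : (Fin m → ℝ) → ℝ) (a c : ℝ) (i k : Fin m) (x : Fin m → ℝ) :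
    (x i - a) * (x k - c) * f x
      = x i * x k * f x - c * (x i * f x) - a * (x k * f x) + a * c * f x := by ring

theorem LcMom.integrable_centred {f : (Fin m → ℝ) → ℝ} (hf : LcMom f) (a c : ℝ) (i k : Fin m) :
    Integrable (fun x : Fin m → ℝ => (x i - a) * (x k - c) * f x) := by
  simp only [lc_centred_expand]
  exact (((hf.int2 i k).sub ((hf.int1 i).const_mul c)).sub ((hf.int1 k).const_mul a)).add
    (hf.integrable.const_mul (a * c))

theorem lc_integral_centred {f : (Fin m → ℝ) → ℝ} (hf : LcMom f) (a c : ℝ) (i k : Fin m) :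
    ∫ x, (x i - a) * (x k - c) * f x
      = (∫ x, x i * x k * f x) - c * densityMean f i - a * densityMean f k + a * c := by
  simp only [lc_centred_expand]
  have e1 : Integrable (fun x : Fin m → ℝ => x i * x k * f x) := hf.int2 i k
  have e2 : Integrable (fun x : Fin m → ℝ => c * (x i * f x)) := (hf.int1 i).const_mul c
  have e3 : Integrable (fun x : Fin m → ℝ => a * (x k * f x)) := (hf.int1 k).const_mul a
  have e4 : Integrable (fun x : Fin m → ℝ => a * c * f x) := hf.integrable.const_mul (a * c)
  have e12 : Integrable (fun x : Fin m → ℝ => x i * x k * f x - c * (x i * f x)) := e1.sub e2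
  have e123 : Integrable (fun x : Fin m → ℝ => x i * x k * f x - c * (x i * f x)
      - a * (x k * f x)) := e12.sub e3
  rw [integral_add e123 e4, integral_sub e12 e3, integral_sub e1 e2,
    integral_const_mul, integral_const_mul, integral_const_mul, hf.mass, mul_one]
  rfl

/-- LC2a -/
theorem lc_cov_eq {f : (Fin m → ℝ) → ℝ} (hf : LcMom f) (i k : Fin m) :
    densityCov f i k = (∫ x, x i * x k * f x) - densityMean f i * densityMean f k := by
  unfold densityCov
  rw [lc_integral_centred hf]
  ring

/-- LC2b -/
theorem lc_cov_quad {f : (Fin m → ℝ) → ℝ} (hf : LcMom f) (v : Fin m → ℝ) :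
    v ⬝ᵥ (densityCov f).mulVec v = ∫ x, (∑ i, v i * (x i - densityMean f i)) ^ 2 * f x := by
  set c := densityMean f with hc
  have h1 : ∀ x : Fin m → ℝ, (∑ i, v i * (x i - c i)) ^ 2 * f x
      = ∑ i, ∑ k, v i * v k * ((x i - c i) * (x k - c k) * f x) := by
    intro x
    rw [sq, Finset.sum_mul_sum, Finset.sum_mul]
    refine Finset.sum_congr rfl fun i _ => ?_
    rw [Finset.sum_mul]
    refine Finset.sum_congr rfl fun k _ => ?_
    ring
  simp only [h1]
  rw [integral_finsetSum _ fun i _ => integrable_finsetSum _ fun k _ =>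
    (hf.integrable_centred (c i) (c k) i k).const_mul (v i * v k)]
  simp only [dotProduct, Matrix.mulVec, Finset.mul_sum]
  refine Finset.sum_congr rfl fun i _ => ?_
  rw [integral_finsetSum _ fun k _ => (hf.integrable_centred (c i) (c k) i k).const_mul (v i * v k)]
  refine Finset.sum_congr rfl fun k _ => ?_
  rw [integral_const_mul]
  unfold densityCov
  rw [← hc]
  ring

/-- an affine hyperplane is a null set -/
theorem lc_hyperplane_null {v : Fin m → ℝ} (hv : v ≠ 0) (c : Fin m → ℝ) :
    volume {x : Fin m → ℝ | ∑ i, v i * (x i - c i) = 0} = 0 := by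
  set φ : (Fin m → ℝ) →ₗ[ℝ] ℝ := ∑ i, v i • LinearMap.proj i with hφ
  have hφa : ∀ x, φ x = ∑ i, v i * x i := by
    intro x
    simp [hφ, LinearMap.sum_apply]
  have hker : LinearMap.ker φ ≠ ⊤ := by
    intro htop
    have : v ∈ LinearMap.ker φ := by rw [htop]; trivial
    rw [LinearMap.mem_ker, hφa] at this
    obtain ⟨i, hi⟩ := Function.ne_iff.1 hv
    have hpos : 0 < ∑ i, v i * v i :=
      Finset.sum_pos' (fun i _ => mul_self_nonneg _) ⟨i, Finset.mem_univ i, mul_self_pos.2 hi⟩
    exact hpos.ne' this
  have h0 := Measure.addHaar_submodule (volume : Measure (Fin m → ℝ)) (LinearMap.ker φ) hker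
  have hset : {x : Fin m → ℝ | ∑ i, v i * (x i - c i) = 0}
      = (fun x => x + (-c)) ⁻¹' (LinearMap.ker φ : Set (Fin m → ℝ)) := by
    ext x
    simp only [Set.mem_ofPred_eq, mem_preimage, SetLike.mem_coe, LinearMap.mem_ker, hφa]
    simp [sub_eq_add_neg]
  rw [hset, measure_preimage_add_right]
  exact h0

/-- LC2c -/
theorem lc_cov_posDef {f : (Fin m → ℝ) → ℝ} (hf : LcMom f) : (densityCov f).PosDef := by
  refine Matrix.PosDef.of_dotProduct_mulVec_pos ?_ ?_
  · ext i k
    simp only [Matrix.conjTranspose_apply, star_trivial, densityCov]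
    congr 1
    funext x
    ring
  · intro v hv
    rw [star_trivial, lc_cov_quad hf v]
    set c := densityMean f with hc
    have hnn : ∀ x : Fin m → ℝ, 0 ≤ (∑ i, v i * (x i - c i)) ^ 2 * f x :=
      fun x => mul_nonneg (sq_nonneg _) (hf.nonneg x)
    have hint : Integrable (fun x : Fin m → ℝ => (∑ i, v i * (x i - c i)) ^ 2 * f x) := by
      have h1 : ∀ x : Fin m → ℝ, (∑ i, v i * (x i - c i)) ^ 2 * f x
          = ∑ i, ∑ k, v i * v k * ((x i - c i) * (x k - c k) * f x) := by
        intro x
        rw [sq, Finset.sum_mul_sum, Finset.sum_mul]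
        refine Finset.sum_congr rfl fun i _ => ?_
        rw [Finset.sum_mul]
        refine Finset.sum_congr rfl fun k _ => ?_
        ring
      simp only [h1]
      exact integrable_finsetSum _ fun i _ => integrable_finsetSum _ fun k _ =>
        (hf.integrable_centred (c i) (c k) i k).const_mul (v i * v k)
    refine lt_of_le_of_ne (integral_nonneg hnn) fun h0 => ?_
    have hae := (integral_eq_zero_iff_of_nonneg hnn hint).1 h0.symm
    have hnull : ∀ᵐ x : Fin m → ℝ, ∑ i, v i * (x i - c i) ≠ 0 := by
      rw [ae_iff]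
      simpa using lc_hyperplane_null hv c
    have hf0 : f =ᵐ[volume] 0 := by
      filter_upwards [hae, hnull] with x h1 h2
      have : (∑ i, v i * (x i - c i)) ^ 2 * f x = 0 := h1
      rcases mul_eq_zero.1 this with h | h
      · exact absurd (pow_eq_zero_iff (two_ne_zero)|>.1 h) h2
      · exact h
    have := hf.mass
    rw [integral_congr_ae hf0] at this
    simp at this

end Claimed.Agent.R260
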