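/-
Row 260, package LC = IFACE + AFF (sub-captain helper235).  Leaf LC3: affine images of densities (mean, covariance, entropy).
-/
import Claimed.Agent.R260.LcDefs
import Claimed.Agent.R260.LcCov

set_option autoImplicit false

namespace Claimed.Agent.R260

open MeasureTheory Set Filter Topology
open Claims.C0429

variable {m : ℕ}

/-! ### LC3: affine images -/

/-- `y ↦ M⁻¹ y` as a homeomorphism. -/
noncomputable def lcInvHomeo {M : Matrix (Fin m) (Fin m) ℝ} (hM : M.det ≠ 0) :
    (Fin m → ℝ) ≃ₜ (Fin m → ℝ) :=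
  (Matrix.toLin'OfInv (M := M) (M' := M⁻¹)
    (Matrix.mul_nonsing_inv M (isUnit_iff_ne_zero.2 hM))
    (Matrix.nonsing_inv_mul M (isUnit_iff_ne_zero.2 hM))).toContinuousLinearEquiv.toHomeomorph

theorem lcInvHomeo_apply {M : Matrix (Fin m) (Fin m) ℝ} (hM : M.det ≠ 0) (y : Fin m → ℝ) :
    lcInvHomeo hM y = M⁻¹.mulVec y := rfl

theorem lc_map_inv {M : Matrix (Fin m) (Fin m) ℝ} (hM : M.det ≠ 0) :
    Measure.map (lcInvHomeo hM) volume = ENNReal.ofReal |M.det| • volume := by
  have hdN : (M⁻¹).det = (M.det)⁻¹ := by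
    rw [Matrix.det_nonsing_inv, Ring.inverse_eq_inv']
  have hN : (M⁻¹).det ≠ 0 := by rw [hdN]; exact inv_ne_zero hM
  have hmap := Real.map_matrix_volume_pi_eq_smul_volume_pi hN
  rw [hdN, inv_inv] at hmap
  exact hmap

theorem lc_mul_inv_mulVec {M : Matrix (Fin m) (Fin m) ℝ} (hM : M.det ≠ 0) (y : Fin m → ℝ) :
    M.mulVec (M⁻¹.mulVec y) = y := by
  rw [Matrix.mulVec_mulVec, Matrix.mul_nonsing_inv M (isUnit_iff_ne_zero.2 hM), Matrix.one_mulVec]

theorem lc_inv_mul_mulVec {M : Matrix (Fin m) (Fin m) ℝ} (hM : M.det ≠ 0) (y : Fin m → ℝ) :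
    M⁻¹.mulVec (M.mulVec y) = y := by
  rw [Matrix.mulVec_mulVec, Matrix.nonsing_inv_mul M (isUnit_iff_ne_zero.2 hM), Matrix.one_mulVec]

/-- LC3a -/
theorem lc_integral_push {M : Matrix (Fin m) (Fin m) ℝ} (hM : M.det ≠ 0) (b : Fin m → ℝ)
    (G : (Fin m → ℝ) → ℝ) : ∫ y, |M.det|⁻¹ * G (M⁻¹.mulVec (y - b)) = ∫ x, G x := by
  rw [integral_const_mul, integral_sub_right_eq_self (fun y => G (M⁻¹.mulVec y)) b]
  have h2 : ∫ u, G u ∂(Measure.map (lcInvHomeo hM) volume) = ∫ y, G (M⁻¹.mulVec y) :=
    (lcInvHomeo hM).measurableEmbedding.integral_map G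
  rw [← h2, lc_map_inv hM, integral_smul_measure, ENNReal.toReal_ofReal (abs_nonneg _),
    smul_eq_mul, ← mul_assoc, inv_mul_cancel₀ (abs_ne_zero.2 hM), one_mul]

/-- LC3b -/
theorem lc_integrable_push {M : Matrix (Fin m) (Fin m) ℝ} (hM : M.det ≠ 0) (b : Fin m → ℝ)
    (G : (Fin m → ℝ) → ℝ) : Integrable (fun y => G (M⁻¹.mulVec (y - b))) ↔ Integrable G := by
  have h1 : Integrable (fun y => G (M⁻¹.mulVec (y - b))) ↔
      Integrable (fun y => G (M⁻¹.mulVec y)) := by
    constructor
    · intro h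
      have := h.comp_add_right b
      simpa using this
    · intro h
      exact h.comp_sub_right b
  have h2 : Integrable G (Measure.map (lcInvHomeo hM) volume) ↔
      Integrable (fun y => G (M⁻¹.mulVec y)) :=
    (lcInvHomeo hM).measurableEmbedding.integrable_map_iff
  rw [h1, ← h2, lc_map_inv hM]
  exact integrable_smul_measure (by simpa using hM) ENNReal.ofReal_ne_top

/-- transfer of integrals against an affine image -/
theorem lc_integral_mul_push {M : Matrix (Fin m) (Fin m) ℝ} (hM : M.det ≠ 0) (b : Fin m → ℝ)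
    (f F : (Fin m → ℝ) → ℝ) :
    ∫ y, F y * lcPush M b f y = ∫ x, F (M.mulVec x + b) * f x := by
  rw [← lc_integral_push hM b (fun x => F (M.mulVec x + b) * f x)]
  refine integral_congr_ae (Eventually.of_forall fun y => ?_)
  simp only [lcPush, lc_mul_inv_mulVec hM, sub_add_cancel]
  ring

theorem lc_integrable_mul_push {M : Matrix (Fin m) (Fin m) ℝ} (hM : M.det ≠ 0) (b : Fin m → ℝ)
    (f F : (Fin m → ℝ) → ℝ) :
    Integrable (fun y => F y * lcPush M b f y) ↔ Integrable (fun x => F (M.mulVec x + b) * f x) := by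
  rw [← lc_integrable_push hM b (fun x => F (M.mulVec x + b) * f x)]
  have hd : |M.det|⁻¹ ≠ 0 := inv_ne_zero (abs_ne_zero.2 hM)
  have : (fun y => F y * lcPush M b f y)
      = fun y => |M.det|⁻¹ * (F (M.mulVec (M⁻¹.mulVec (y - b)) + b) * f (M⁻¹.mulVec (y - b))) := by
    funext y
    simp only [lcPush, lc_mul_inv_mulVec hM, sub_add_cancel]
    ring
  rw [this]
  exact integrable_const_mul_iff (isUnit_iff_ne_zero.2 hd) _

/-- the entropy integrand of an affine image -/
theorem lc_entropy_integrand {d s : ℝ} (hd : 0 < d) (hs : 0 ≤ s) :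
    (d * s) * Real.log (d * s) = d * (Real.log d * s + s * Real.log s) := by
  rcases hs.eq_or_lt with rfl | hpos
  · simp
  · rw [Real.log_mul hd.ne' hpos.ne']
    ring

theorem lc_coord_affine (M : Matrix (Fin m) (Fin m) ℝ) (b x : Fin m → ℝ) (i : Fin m) :
    (M.mulVec x + b) i = ∑ p, M i p * x p + b i := by
  simp [Matrix.mulVec, dotProduct]

theorem LcMom.integrable_affine1 {f : (Fin m → ℝ) → ℝ} (hf : LcMom f)
    (M : Matrix (Fin m) (Fin m) ℝ) (b : Fin m → ℝ) (i : Fin m) :
    Integrable (fun x => (M.mulVec x + b) i * f x) := by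
  have : (fun x => (M.mulVec x + b) i * f x)
      = fun x => ∑ p, M i p * (x p * f x) + b i * f x := by
    funext x
    rw [lc_coord_affine, add_mul, Finset.sum_mul]
    congr 1
    exact Finset.sum_congr rfl fun p _ => by ring
  rw [this]
  exact (integrable_finsetSum _ fun p _ => (hf.int1 p).const_mul _).add
    (hf.integrable.const_mul _)

theorem lc_affine2_expand (f : (Fin m → ℝ) → ℝ) (M : Matrix (Fin m) (Fin m) ℝ)
    (b c : Fin m → ℝ) (i k : Fin m) (x : Fin m → ℝ) :
    ((M.mulVec x + b) i - (M.mulVec c + b) i) * ((M.mulVec x + b) k - (M.mulVec c + b) k) * f x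
      = ∑ p, ∑ q, M i p * M k q * ((x p - c p) * (x q - c q) * f x) := by
  have h : ∀ j, (M.mulVec x + b) j - (M.mulVec c + b) j = ∑ p, M j p * (x p - c p) := by
    intro j
    rw [lc_coord_affine, lc_coord_affine, add_sub_add_right_eq_sub, ← Finset.sum_sub_distrib]
    exact Finset.sum_congr rfl fun p _ => by ring
  rw [h i, h k, Finset.sum_mul_sum, Finset.sum_mul]
  refine Finset.sum_congr rfl fun p _ => ?_
  rw [Finset.sum_mul]
  exact Finset.sum_congr rfl fun q _ => by ring

theorem LcMom.integrable_affine2 {f : (Fin m → ℝ) → ℝ} (hf : LcMom f)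
    (M : Matrix (Fin m) (Fin m) ℝ) (b : Fin m → ℝ) (i k : Fin m) :
    Integrable (fun x => (M.mulVec x + b) i * (M.mulVec x + b) k * f x) := by
  have h0 : ∀ j, (M.mulVec (0 : Fin m → ℝ) + b) j = b j := by intro j; simp
  have h1 : Integrable (fun x => ((M.mulVec x + b) i - b i) * ((M.mulVec x + b) k - b k) * f x) := by
    have := lc_affine2_expand f M b 0 i k
    simp only [h0] at this
    simp only [this]
    exact integrable_finsetSum _ fun p _ => integrable_finsetSum _ fun q _ =>
      (hf.integrable_centred _ _ p q).const_mul _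
  have h2 := ((h1.add ((hf.integrable_affine1 M b i).const_mul (b k))).add
    ((hf.integrable_affine1 M b k).const_mul (b i))).sub (hf.integrable.const_mul (b i * b k))
  refine h2.congr (Eventually.of_forall fun x => ?_)
  simp only [Pi.add_apply, Pi.sub_apply]
  ring

/-- LC3c -/
theorem LcMom.push {f : (Fin m → ℝ) → ℝ} (hf : LcMom f) {M : Matrix (Fin m) (Fin m) ℝ}
    (hM : M.det ≠ 0) (b : Fin m → ℝ) : LcMom (lcPush M b f) := by
  have hd : 0 < |M.det|⁻¹ := inv_pos.2 (abs_pos.2 hM)
  refine ⟨fun y => mul_nonneg hd.le (hf.nonneg _), ?_, fun i => ?_, fun i k => ?_, ?_⟩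
  · have := lc_integral_push hM b f
    rw [hf.mass] at this
    exact this
  · exact (lc_integrable_mul_push hM b f (fun y => y i)).2 (hf.integrable_affine1 M b i)
  · exact (lc_integrable_mul_push hM b f (fun y => y i * y k)).2 (hf.integrable_affine2 M b i k)
  · have h1 : Integrable (fun x => Real.log |M.det|⁻¹ * f x + f x * Real.log (f x)) :=
      (hf.integrable.const_mul _).add hf.intE
    have h2 := ((lc_integrable_push hM b _).2 h1).const_mul |M.det|⁻¹
    refine h2.congr (Eventually.of_forall fun y => ?_)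
    simp only [lcPush]
    rw [lc_entropy_integrand hd (hf.nonneg _)]

/-- LC3d -/
theorem lc_mean_push {f : (Fin m → ℝ) → ℝ} (hf : LcMom f) {M : Matrix (Fin m) (Fin m) ℝ}
    (hM : M.det ≠ 0) (b : Fin m → ℝ) :
    densityMean (lcPush M b f) = M.mulVec (densityMean f) + b := by
  funext i
  unfold densityMean
  rw [lc_integral_mul_push hM b f (fun y => y i)]
  have : (fun x => (M.mulVec x + b) i * f x)
      = fun x => ∑ p, M i p * (x p * f x) + b i * f x := by
    funext x
    rw [lc_coord_affine, add_mul, Finset.sum_mul]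
    congr 1
    exact Finset.sum_congr rfl fun p _ => by ring
  rw [this, integral_add (integrable_finsetSum _ fun p _ => (hf.int1 p).const_mul _)
    (hf.integrable.const_mul _), integral_finsetSum _ fun p _ => (hf.int1 p).const_mul _,
    integral_const_mul, hf.mass, mul_one, lc_coord_affine]
  congr 1
  exact Finset.sum_congr rfl fun p _ => integral_const_mul _ _

/-- LC3e -/
theorem lc_cov_push {f : (Fin m → ℝ) → ℝ} (hf : LcMom f) {M : Matrix (Fin m) (Fin m) ℝ}
    (hM : M.det ≠ 0) (b : Fin m → ℝ) :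
    densityCov (lcPush M b f) = M * densityCov f * M.transpose := by
  have hL : ∀ i k, densityCov (lcPush M b f) i k
      = ∑ p, ∑ q, M i p * M k q * densityCov f p q := by
    intro i k
    unfold densityCov
    rw [lc_mean_push hf hM b]
    set c := densityMean f with hc
    rw [lc_integral_mul_push hM b f
      (fun y => (y i - (M.mulVec c + b) i) * (y k - (M.mulVec c + b) k))]
    simp only [lc_affine2_expand]
    rw [integral_finsetSum _ fun p _ => integrable_finsetSum _ fun q _ =>
      (hf.integrable_centred _ _ p q).const_mul _]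
    refine Finset.sum_congr rfl fun p _ => ?_
    rw [integral_finsetSum _ fun q _ => (hf.integrable_centred _ _ p q).const_mul _]
    refine Finset.sum_congr rfl fun q _ => ?_
    rw [integral_const_mul]
  ext i k
  rw [hL, Matrix.mul_apply]
  simp only [Matrix.mul_apply, Matrix.transpose_apply, Finset.sum_mul]
  rw [Finset.sum_comm]
  refine Finset.sum_congr rfl fun p _ => ?_
  refine Finset.sum_congr rfl fun q _ => ?_
  ring

/-- LC3f -/
theorem lc_entropy_push {f : (Fin m → ℝ) → ℝ} (hf : LcMom f) {M : Matrix (Fin m) (Fin m) ℝ}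
    (hM : M.det ≠ 0) (b : Fin m → ℝ) :
    diffEntropy (lcPush M b f) = diffEntropy f + Real.log |M.det| := by
  have hd : 0 < |M.det|⁻¹ := inv_pos.2 (abs_pos.2 hM)
  unfold diffEntropy
  have h1 : (fun y => lcPush M b f y * Real.log (lcPush M b f y))
      = fun y => |M.det|⁻¹ * ((fun x => Real.log |M.det|⁻¹ * f x + f x * Real.log (f x))
          (M⁻¹.mulVec (y - b))) := by
    funext y
    simp only [lcPush]
    rw [lc_entropy_integrand hd (hf.nonneg _)]
  rw [h1, lc_integral_push hM b (fun x => Real.log |M.det|⁻¹ * f x + f x * Real.log (f x)),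
    integral_add (hf.integrable.const_mul _) hf.intE,
    integral_const_mul, hf.mass, mul_one, Real.log_inv]
  ring

/-- LC3g -/
theorem lc_logConcave_push {f : (Fin m → ℝ) → ℝ} (hf : IsLogConcaveDensityOn f)
    {M : Matrix (Fin m) (Fin m) ℝ} (hM : M.det ≠ 0) (b : Fin m → ℝ) :
    IsLogConcaveDensityOn (lcPush M b f) := by
  obtain ⟨h1, h2, h3, h4, h5⟩ := hf
  have hd : 0 < |M.det|⁻¹ := inv_pos.2 (abs_pos.2 hM)
  have hu : ∀ (y z : Fin m → ℝ) (s t : ℝ), s + t = 1 →
      M⁻¹.mulVec (s • y + t • z - b) = s • M⁻¹.mulVec (y - b) + t • M⁻¹.mulVec (z - b) := by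
    intro y z s t hst
    rw [← Matrix.mulVec_smul, ← Matrix.mulVec_smul, ← Matrix.mulVec_add]
    congr 1
    have : b = s • b + t • b := by rw [← add_smul, hst, one_smul]
    rw [smul_sub, smul_sub]
    nth_rewrite 1 [this]
    abel
  have hpos : ∀ y, 0 < lcPush M b f y ↔ 0 < f (M⁻¹.mulVec (y - b)) := by
    intro y
    simp only [lcPush]
    exact mul_pos_iff_of_pos_left hd
  have hconv : Convex ℝ {y | 0 < lcPush M b f y} := by
    intro y hy z hz s t hs ht hst
    have hy' := (hpos y).1 hy
    have hz' := (hpos z).1 hz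
    refine (hpos _).2 ?_
    rw [hu y z s t hst]
    exact h4 hy' hz' hs ht hst
  refine ⟨?_, fun y => mul_nonneg hd.le (h2 _), ?_, hconv, hconv, ?_⟩
  · unfold lcPush
    have hc : Continuous (fun y : Fin m → ℝ => M⁻¹.mulVec (y - b)) :=
      (lcInvHomeo hM).continuous.comp (continuous_id.sub continuous_const)
    exact (h1.comp hc.measurable).const_mul _
  · have := lc_integral_push hM b f
    rw [h3] at this
    exact this
  · intro y hy z hz s t hs ht hst
    have hy' := (hpos y).1 hy
    have hz' := (hpos z).1 hz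
    have hyz : 0 < f (M⁻¹.mulVec (s • y + t • z - b)) := (hpos _).1 (hconv hy hz hs ht hst)
    have key := h5.2 hy' hz' hs ht hst
    simp only [lcPush, smul_eq_mul] at key ⊢
    rw [Real.log_mul hd.ne' hy'.ne', Real.log_mul hd.ne' hz'.ne', Real.log_mul hd.ne' hyz.ne',
      hu y z s t hst]
    have : s * Real.log |M.det|⁻¹ + t * Real.log |M.det|⁻¹ = Real.log |M.det|⁻¹ := by
      rw [← add_mul, hst, one_mul]
    linarith

end Claimed.Agent.R260
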