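/-
Row 260, package LC = IFACE + AFF (sub-captain helper235).  Leaf LC1: moments and entropy integrability of a log-concave density.
-/
import Claimed.Agent.R260.LcDefs
import Claimed.Agent.R260.ApCoercive

set_option autoImplicit false

namespace Claimed.Agent.R260

open MeasureTheory Set Filter Topology
open Claims.C0429

variable {m : ℕ}

/-! ### LC1: moments of a log-concave density -/

theorem lc_exp_decay {f : (Fin m → ℝ) → ℝ} (hf : IsLogConcaveDensityOn f) :
    ∃ a b : ℝ, 0 < a ∧ ∀ x, f x ≤ Real.exp (b - a * ‖x‖) := by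
  obtain ⟨h1, h2, h3, h4, h5⟩ := hf
  exact (ApLC.mk h1 h2 h3 h4 h5 : ApLC volume f).exp_decay

/-- scalar bound behind LC1a -/
theorem lc_pow_mul_exp_le {a : ℝ} (ha : 0 < a) (n : ℕ) {t : ℝ} (ht : 0 ≤ t) :
    (1 + t) ^ n * Real.exp (-(a * t)) ≤ (n.factorial : ℝ) * Real.exp a / a ^ n := by
  have h1 : (a * (1 + t)) ^ n / (n.factorial : ℝ) ≤ Real.exp (a * (1 + t)) :=
    Real.pow_div_factorial_le_exp _ (by positivity) n
  have hf : (0 : ℝ) < n.factorial := by positivity
  have han : 0 < a ^ n := by positivity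
  rw [div_le_iff₀ hf, mul_pow] at h1
  rw [le_div_iff₀ han]
  have h2 : Real.exp (a * (1 + t)) * Real.exp (-(a * t)) = Real.exp a := by
    rw [← Real.exp_add]; congr 1; ring
  have h3 : 0 < Real.exp (-(a * t)) := Real.exp_pos _
  calc (1 + t) ^ n * Real.exp (-(a * t)) * a ^ n
      = (a ^ n * (1 + t) ^ n) * Real.exp (-(a * t)) := by ring
    _ ≤ (Real.exp (a * (1 + t)) * n.factorial) * Real.exp (-(a * t)) := by gcongr
    _ = (n.factorial : ℝ) * (Real.exp (a * (1 + t)) * Real.exp (-(a * t))) := by ring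
    _ = (n.factorial : ℝ) * Real.exp a := by rw [h2]

/-- LC1a -/
theorem lc_integrable_env {a : ℝ} (ha : 0 < a) (k : ℕ) :
    Integrable (fun x : Fin m → ℝ => (1 + ‖x‖) ^ k * Real.exp (-(a * ‖x‖))) := by
  have hr : (Module.finrank ℝ (Fin m → ℝ) : ℝ) < ((m + 1 : ℕ) : ℝ) := by
    simp
  have h0 := (integrable_one_add_norm (E := Fin m → ℝ) (μ := volume) hr).const_mul
    (((k + (m + 1)).factorial : ℝ) * Real.exp a / a ^ (k + (m + 1)))
  refine h0.mono' ?_ ?_
  · have : Continuous (fun x : Fin m → ℝ => (1 + ‖x‖) ^ k * Real.exp (-(a * ‖x‖))) := by fun_prop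
    exact this.aestronglyMeasurable
  · refine Eventually.of_forall fun x => ?_
    have hx : 0 < 1 + ‖x‖ := by positivity
    rw [Real.norm_of_nonneg (by positivity), Real.rpow_neg hx.le, Real.rpow_natCast]
    have := lc_pow_mul_exp_le ha (k + (m + 1)) (norm_nonneg x)
    rw [← div_eq_mul_inv, le_div_iff₀ (by positivity)]
    calc (1 + ‖x‖) ^ k * Real.exp (-(a * ‖x‖)) * (1 + ‖x‖) ^ (m + 1)
        = (1 + ‖x‖) ^ (k + (m + 1)) * Real.exp (-(a * ‖x‖)) := by rw [pow_add]; ring
      _ ≤ _ := this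

/-- LC1b -/
theorem lc_integrable_weight_of_le {f : (Fin m → ℝ) → ℝ} (hfm : Measurable f)
    (h0 : ∀ x, 0 ≤ f x) {a b : ℝ} (ha : 0 < a) (hb : ∀ x, f x ≤ Real.exp (b - a * ‖x‖))
    {p : (Fin m → ℝ) → ℝ} (hp : Measurable p) {c : ℝ} {k : ℕ}
    (hpc : ∀ x, |p x| ≤ c * (1 + ‖x‖) ^ k) : Integrable (fun x => p x * f x) := by
  refine ((lc_integrable_env (m := m) ha k).const_mul (c * Real.exp b)).mono'
    (hp.mul hfm).aestronglyMeasurable ?_
  refine Eventually.of_forall fun x => ?_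
  rw [Real.norm_eq_abs, abs_mul, abs_of_nonneg (h0 x)]
  have h1 : Real.exp (b - a * ‖x‖) = Real.exp b * Real.exp (-(a * ‖x‖)) := by
    rw [← Real.exp_add]; congr 1
  calc |p x| * f x ≤ (c * (1 + ‖x‖) ^ k) * Real.exp (b - a * ‖x‖) :=
        mul_le_mul (hpc x) (hb x) (h0 x) ((abs_nonneg _).trans (hpc x))
    _ = c * Real.exp b * ((1 + ‖x‖) ^ k * Real.exp (-(a * ‖x‖))) := by rw [h1]; ring

/-- scalar bound behind LC1c -/
theorem lc_abs_mul_log_le {s : ℝ} (hs : 0 ≤ s) : |s * Real.log s| ≤ 2 * Real.sqrt s + s ^ 2 := by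
  rcases hs.eq_or_lt with rfl | hpos
  · simp
  rcases le_total s 1 with h1 | h1
  · have h := Real.abs_log_mul_self_rpow_lt s (1 / 2) hpos h1 (by norm_num)
    rw [← Real.sqrt_eq_rpow] at h
    have hsq : Real.sqrt s * Real.sqrt s = s := Real.mul_self_sqrt hs
    have h2 : |s * Real.log s| = |Real.log s * Real.sqrt s| * Real.sqrt s := by
      rw [← abs_of_nonneg (Real.sqrt_nonneg s), ← abs_mul, abs_of_nonneg (Real.sqrt_nonneg s)]
      congr 1
      calc s * Real.log s = (Real.sqrt s * Real.sqrt s) * Real.log s := by rw [hsq]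
        _ = _ := by ring
    rw [h2]
    have h3 : |Real.log s * Real.sqrt s| ≤ 2 := by
      have : (1 : ℝ) / (1 / 2) = 2 := by norm_num
      rw [this] at h
      exact h.le
    nlinarith [Real.sqrt_nonneg s, sq_nonneg s]
  · have hl0 : 0 ≤ Real.log s := Real.log_nonneg h1
    have hl1 : Real.log s ≤ s - 1 := Real.log_le_sub_one_of_pos hpos
    rw [abs_of_nonneg (mul_nonneg hs hl0)]
    nlinarith [Real.sqrt_nonneg s]

/-- LC1c -/
theorem lc_integrable_entropy_of_le {f : (Fin m → ℝ) → ℝ} (hfm : Measurable f)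
    (h0 : ∀ x, 0 ≤ f x) {a b : ℝ} (ha : 0 < a) (hb : ∀ x, f x ≤ Real.exp (b - a * ‖x‖)) :
    Integrable (fun x => f x * Real.log (f x)) := by
  have i1 := (lc_integrable_env (m := m) (half_pos ha) 0).const_mul (2 * Real.exp (b / 2))
  have i2 := (lc_integrable_env (m := m) (mul_pos two_pos ha) 0).const_mul (Real.exp (2 * b))
  refine (i1.add i2).mono' (hfm.mul (Real.measurable_log.comp hfm)).aestronglyMeasurable ?_
  refine Eventually.of_forall fun x => ?_
  rw [Real.norm_eq_abs]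
  refine (lc_abs_mul_log_le (h0 x)).trans ?_
  have e1 : Real.sqrt (f x) ≤ Real.exp (b / 2) * Real.exp (-(a / 2 * ‖x‖)) := by
    rw [← Real.exp_add]
    refine Real.sqrt_le_iff.2 ⟨(Real.exp_pos _).le, ?_⟩
    rw [← Real.exp_nat_mul]
    refine (hb x).trans (le_of_eq ?_)
    congr 1
    push_cast
    ring
  have e2 : f x ^ 2 ≤ Real.exp (2 * b) * Real.exp (-(2 * a * ‖x‖)) := by
    rw [← Real.exp_add]
    calc f x ^ 2 ≤ Real.exp (b - a * ‖x‖) ^ 2 := by
          have := hb x
          have := h0 x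
          gcongr
      _ = _ := by
          rw [← Real.exp_nat_mul]
          congr 1
          push_cast
          ring
  simp only [pow_zero, one_mul, Pi.add_apply]
  nlinarith [e1, e2]

/-- LC1d -/
theorem lc_mom {f : (Fin m → ℝ) → ℝ} (hf : IsLogConcaveDensityOn f) : LcMom f := by
  obtain ⟨a, b, ha, hb⟩ := lc_exp_decay hf
  have hx : ∀ (x : Fin m → ℝ) (i : Fin m), |x i| ≤ ‖x‖ := fun x i => by
    have := norm_le_pi_norm x i
    rwa [Real.norm_eq_abs] at this
  refine ⟨hf.2.1, hf.2.2.1, fun i => ?_, fun i k => ?_, ?_⟩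
  · refine lc_integrable_weight_of_le hf.1 hf.2.1 ha hb (p := fun x => x i) (measurable_pi_apply i)
      (c := 1) (k := 1) fun x => ?_
    have := hx x i
    linarith
  · refine lc_integrable_weight_of_le hf.1 hf.2.1 ha hb (p := fun x => x i * x k)
      ((measurable_pi_apply i).mul (measurable_pi_apply k)) (c := 1) (k := 2) fun x => ?_
    rw [abs_mul]
    have h1 := hx x i
    have h2 := hx x k
    have h3 := norm_nonneg x
    nlinarith [abs_nonneg (x i), abs_nonneg (x k), mul_le_mul h1 h2 (abs_nonneg _) h3]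
  · exact lc_integrable_entropy_of_le hf.1 hf.2.1 ha hb

end Claimed.Agent.R260
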