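/-
Row 260, package LC = IFACE + AFF (sub-captain helper235).  Leaf LC4: the product of one-sided exponential densities.
-/
import Claimed.Agent.R260.LcMoments
import Claimed.Agent.R260.LcCov

set_option autoImplicit false

namespace Claimed.Agent.R260

open MeasureTheory Set Filter Topology
open Claims.C0429

variable {m : ℕ}

/-! ### LC4: the exponential product -/

theorem lc_oneSided_measurable : Measurable oneSidedExpDensity := by
  unfold oneSidedExpDensity
  exact Measurable.ite measurableSet_Ici (by fun_prop) measurable_const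

theorem lc_oneSided_nonneg (u : ℝ) : 0 ≤ oneSidedExpDensity u := by
  unfold oneSidedExpDensity
  split_ifs
  · exact (Real.exp_pos _).le
  · exact le_rfl

/-- the moments of the one-sided exponential density -/
theorem lc_oneSided_moment (k : ℕ) : ∫ u : ℝ, u ^ k * oneSidedExpDensity u = (k.factorial : ℝ) := by
  have h : (fun u : ℝ => u ^ k * oneSidedExpDensity u) =
      (Set.Ici (0 : ℝ)).indicator fun u => u ^ k * Real.exp (-u) := by
    funext u
    by_cases hu : 0 ≤ u
    · simp [oneSidedExpDensity, hu]
    · simp [oneSidedExpDensity, hu]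
  rw [h, integral_indicator measurableSet_Ici, integral_Ici_eq_integral_Ioi,
    ← Real.Gamma_nat_eq_factorial, Real.Gamma_eq_integral (by positivity)]
  refine setIntegral_congr_fun measurableSet_Ioi (fun t _ => ?_)
  simp only [add_sub_cancel_right, Real.rpow_natCast]
  ring

theorem lc_expProd_eq (u : Fin m → ℝ) :
    lcExpProd u = if ∀ i, 0 ≤ u i then Real.exp (-∑ i, u i) else 0 := by
  unfold lcExpProd
  split_ifs with h
  · rw [← Finset.sum_neg_distrib, Real.exp_sum]
    refine Finset.prod_congr rfl fun i _ => ?_
    simp [oneSidedExpDensity, h i]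
  · push Not at h
    obtain ⟨i, hi⟩ := h
    refine Finset.prod_eq_zero (Finset.mem_univ i) ?_
    simp [oneSidedExpDensity, not_le.2 hi]

theorem lc_expProd_pos_iff (u : Fin m → ℝ) : 0 < lcExpProd u ↔ ∀ i, 0 ≤ u i := by
  rw [lc_expProd_eq]
  split_ifs with h
  · simp [h, Real.exp_pos]
  · simp [h]

/-- Fubini for a product weight against the exponential product -/
theorem lc_expProd_integral_weight (w : Fin m → ℝ → ℝ) :
    ∫ u : Fin m → ℝ, (∏ j, w j (u j)) * lcExpProd u = ∏ j, ∫ s : ℝ, w j s * oneSidedExpDensity s := by
  rw [← integral_fintype_prod_volume_eq_prod (fun j s => w j s * oneSidedExpDensity s)]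
  refine integral_congr_ae (Eventually.of_forall fun u => ?_)
  simp only [lcExpProd, Finset.prod_mul_distrib]

theorem lc_expProd_mass : ∫ u : Fin m → ℝ, lcExpProd u = 1 := by
  have h := lc_expProd_integral_weight (m := m) (fun _ _ => 1)
  have h0 := lc_oneSided_moment 0
  simp only [pow_zero, one_mul, Nat.factorial_zero, Nat.cast_one] at h0
  simpa [h0] using h

/-- LC4a -/
theorem lc_expProd_logConcave : IsLogConcaveDensityOn (lcExpProd (m := m)) := by
  have hsupp : {u : Fin m → ℝ | 0 < lcExpProd u} = {u | ∀ i, 0 ≤ u i} := by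
    ext u; exact lc_expProd_pos_iff u
  have hconv : Convex ℝ {u : Fin m → ℝ | ∀ i, 0 ≤ u i} := by
    intro u hu v hv s t hs ht _ i
    have := hu i
    have := hv i
    simp only [Pi.add_apply, Pi.smul_apply, smul_eq_mul]
    positivity
  refine ⟨?_, fun u => Finset.prod_nonneg fun i _ => lc_oneSided_nonneg _, lc_expProd_mass, ?_, ?_⟩
  · exact Finset.measurable_prod _ fun i _ => lc_oneSided_measurable.comp (measurable_pi_apply i)
  · rw [hsupp]; exact hconv
  · rw [hsupp]
    refine ⟨hconv, ?_⟩
    intro u hu v hv s t hs ht hst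
    have huv : ∀ i, 0 ≤ (s • u + t • v) i := hconv hu hv hs ht hst
    have hu : ∀ i, 0 ≤ u i := hu
    have hv : ∀ i, 0 ≤ v i := hv
    beta_reduce
    rw [lc_expProd_eq u, lc_expProd_eq v, lc_expProd_eq (s • u + t • v), if_pos hu, if_pos hv,
      if_pos huv, Real.log_exp, Real.log_exp, Real.log_exp]
    simp only [Pi.add_apply, Pi.smul_apply, smul_eq_mul, Finset.sum_add_distrib]
    apply le_of_eq
    simp only [mul_neg, Finset.mul_sum]
    ring

theorem lc_expProd_mom : LcMom (lcExpProd (m := m)) := lc_mom lc_expProd_logConcave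

theorem lc_expProd_moment1 (i : Fin m) : ∫ u : Fin m → ℝ, u i * lcExpProd u = 1 := by
  have h := lc_expProd_integral_weight (m := m) (fun j s => if j = i then s else 1)
  have h0 := lc_oneSided_moment 0
  have h1 := lc_oneSided_moment 1
  simp only [pow_zero, one_mul, Nat.factorial_zero, Nat.cast_one, pow_one,
    Nat.factorial_one] at h0 h1
  have hl : ∀ u : Fin m → ℝ, (∏ j, if j = i then u j else 1) = u i := by
    intro u
    rw [Finset.prod_eq_single i (fun j _ hj => by simp [hj]) (fun h => absurd (Finset.mem_univ i) h)]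
    simp
  have hr : (∏ j, ∫ s : ℝ, (if j = i then s else 1) * oneSidedExpDensity s) = 1 := by
    refine Finset.prod_eq_one fun j _ => ?_
    by_cases hj : j = i
    · simp [hj, h1]
    · simp [hj, h0]
  simp only [hl] at h
  rw [h, hr]

/-- LC4b -/
theorem lc_expProd_mean (i : Fin m) : densityMean (lcExpProd (m := m)) i = 1 :=
  lc_expProd_moment1 i

theorem lc_expProd_moment2 (i k : Fin m) :
    ∫ u : Fin m → ℝ, u i * u k * lcExpProd u = if i = k then 2 else 1 := by
  have h0 := lc_oneSided_moment 0
  have h1 := lc_oneSided_moment 1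
  have h2 := lc_oneSided_moment 2
  simp only [pow_zero, one_mul, Nat.factorial_zero, Nat.cast_one, pow_one,
    Nat.factorial_one] at h0 h1
  have h2' : ∫ u : ℝ, u ^ 2 * oneSidedExpDensity u = 2 := by
    rw [h2]; norm_num [Nat.factorial]
  by_cases hik : i = k
  · subst hik
    rw [if_pos rfl]
    have h := lc_expProd_integral_weight (m := m) (fun j s => if j = i then s ^ 2 else 1)
    have hl : ∀ u : Fin m → ℝ, (∏ j, if j = i then u j ^ 2 else 1) = u i * u i := by
      intro u
      rw [Finset.prod_eq_single i (fun j _ hj => by simp [hj])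
        (fun h => absurd (Finset.mem_univ i) h)]
      simp [sq]
    have hr : (∏ j, ∫ s : ℝ, (if j = i then s ^ 2 else 1) * oneSidedExpDensity s) = 2 := by
      rw [Finset.prod_eq_single i (fun j _ hj => by simp [hj, h0])
        (fun h => absurd (Finset.mem_univ i) h)]
      simp [h2']
    simp only [hl] at h
    rw [h, hr]
  · rw [if_neg hik]
    have h := lc_expProd_integral_weight (m := m)
      (fun j s => if j = i then s else if j = k then s else 1)
    have hl : ∀ u : Fin m → ℝ, (∏ j, if j = i then u j else if j = k then u j else 1)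
        = u i * u k := by
      intro u
      rw [Finset.prod_eq_mul i k hik (fun j _ hj => by simp [hj.1, hj.2])
        (fun h => absurd (Finset.mem_univ i) h) (fun h => absurd (Finset.mem_univ k) h)]
      simp [Ne.symm hik]
    have hr : (∏ j, ∫ s : ℝ, (if j = i then s else if j = k then s else 1)
        * oneSidedExpDensity s) = 1 := by
      refine Finset.prod_eq_one fun j _ => ?_
      by_cases hj : j = i
      · simp [hj, h1]
      · by_cases hj' : j = k
        · simp [hj', h1, Ne.symm hik]
        · simp [hj, hj', h0]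
    simp only [hl] at h
    rw [h, hr]

/-- LC4c -/
theorem lc_expProd_cov : densityCov (lcExpProd (m := m)) = 1 := by
  ext i k
  rw [lc_cov_eq lc_expProd_mom, lc_expProd_mean, lc_expProd_mean, lc_expProd_moment2,
    Matrix.one_apply]
  split_ifs <;> norm_num

/-- LC4d -/
theorem lc_expProd_entropy : diffEntropy (lcExpProd (m := m)) = (m : ℝ) := by
  unfold diffEntropy
  have h : ∀ u : Fin m → ℝ, lcExpProd u * Real.log (lcExpProd u) = -∑ i, u i * lcExpProd u := by
    intro u
    rw [← Finset.sum_mul, lc_expProd_eq]
    split_ifs with hu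
    · rw [Real.log_exp]; ring
    · simp
  simp only [h]
  rw [integral_neg, neg_neg, integral_finsetSum _ fun i _ => lc_expProd_mom.int1 i]
  simp [lc_expProd_moment1]

end Claimed.Agent.R260
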