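/-
Row 260, package SEC3: `m3x_fn_facts`, `m3x_Ysq` (= statements `m3_fn_facts`, `m3_Ysq` of M3Point.lean).
Owner: helper162.
-/
import Claimed.Agent.R260.M3Spec

set_option autoImplicit false

namespace Claimed.Agent.R260

open Matrix

variable {m : ℕ}

/-- `|Y v(A)|_F² = tr (Y Y v²(A))` for symmetric `Y`. -/
theorem M3Pt.frobSq_mul_fn (P : M3Pt m) (h : P.Ok) {Y : Mat m} (hY : Yᵀ = Y) (v : ℝ → ℝ) :
    frobSq (Y * P.fn v) = (Y * Y * P.fn (fun a => v a ^ 2)).trace := by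
  rw [frobSq_eq_trace, Matrix.transpose_mul, hY, P.fn_transpose]
  have e : P.fn (fun a => v a ^ 2) = P.fn v * P.fn v := by
    rw [← P.fn_mul h]; congr 1; funext a; ring
  rw [e, Matrix.mul_assoc (P.fn v) Y (Y * P.fn v), Matrix.trace_mul_comm (P.fn v)]
  simp only [Matrix.mul_assoc]

/-- functional calculus facts used by the assembly. -/
theorem m3x_fn_facts (P : M3Pt m) (Sc : M3Sc) (hP : P.Ok) (hS : Sc.Alg) :
    (P.fn Sc.p)ᵀ = P.fn Sc.p ∧ (P.fn Sc.pis)ᵀ = P.fn Sc.pis ∧ (P.fn Sc.b)ᵀ = P.fn Sc.b ∧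
      P.fn Sc.pis * P.fn Sc.pis * P.fn Sc.p = 1 ∧
      P.fn Sc.pis * P.fn Sc.p = P.fn Sc.p * P.fn Sc.pis ∧
      (∀ r, (P.K Sc r * P.K Sc r).trace = frobSq (P.K Sc r)) := by
  refine ⟨P.fn_transpose _, P.fn_transpose _, P.fn_transpose _, ?_, P.fn_comm hP _ _, ?_⟩
  · rw [← P.fn_mul hP, ← P.fn_mul hP, ← P.fn_one hP]
    refine P.fn_congr fun a => ?_
    have hp := hS.ppos a
    have hs : Real.sqrt (Sc.p a) ≠ 0 := (Real.sqrt_pos.mpr hp).ne'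
    have hsq : Real.sqrt (Sc.p a) * Real.sqrt (Sc.p a) = Sc.p a := Real.mul_self_sqrt hp.le
    simp only [M3Sc.pis]
    field_simp
    nlinarith [hsq]
  · intro r
    exact (frobSq_eq_trace_of_symm (P.dfn_transpose hP _ _ r)).symm

/-- bookkeeping of the two `Y²` terms. -/
theorem m3x_Ysq (P : M3Pt m) (Sc : M3Sc) (hP : P.Ok) (hS : Sc.Alg) :
    m3s * frobSq (P.Y * (P.fn Sc.b - m3β • (1 : Mat m)))
      + m3α * m3s * frobSq (P.Y * P.fn Sc.h0 * P.fn Sc.pis) / (4 * (1 - m3ε - m3κ))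
    = m3s * (P.Y * P.Y * P.fn Sc.cy).trace := by
  have hY := P.Y_transpose hP
  have e1 : P.fn Sc.b - m3β • (1 : Mat m) = P.fn (fun a => Sc.b a - m3β) := by
    rw [P.fn_sub, P.fn_const hP]
  have e2 : P.Y * P.fn Sc.h0 * P.fn Sc.pis = P.Y * P.fn (fun a => Sc.h0 a * Sc.pis a) := by
    rw [Matrix.mul_assoc, ← P.fn_mul hP]
  rw [e1, e2, P.frobSq_mul_fn hP hY, P.frobSq_mul_fn hP hY]
  have e3 : P.fn Sc.cy = P.fn (fun a => (Sc.b a - m3β) ^ 2)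
      + (m3α / (4 * (1 - m3ε - m3κ))) • P.fn (fun a => (Sc.h0 a * Sc.pis a) ^ 2) := by
    rw [← P.fn_smul, ← P.fn_add]
    refine P.fn_congr fun a => ?_
    have hp := hS.ppos a
    have hs : Real.sqrt (Sc.p a) ≠ 0 := (Real.sqrt_pos.mpr hp).ne'
    have hsq : Real.sqrt (Sc.p a) ^ 2 = Sc.p a := Real.sq_sqrt hp.le
    have hc : (4 * (1 - m3ε - m3κ) : ℝ) ≠ 0 := by norm_num [m3ε, m3κ]
    simp only [M3Sc.cy, M3Sc.pis]
    rw [mul_pow, div_pow, hsq, one_pow]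
    field_simp
  rw [e3, Matrix.mul_add, Matrix.mul_smul, Matrix.trace_add, Matrix.trace_smul, smul_eq_mul]
  ring

end Claimed.Agent.R260
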