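/-
Row 260, package R6 (rigidity).  Second half of Lemma 6.1 (pure linear algebra): commuting symmetric
coefficients with `X_r e_s = X_s e_r` and `sum X_r^2 = 1` are, in a common orthonormal eigenbasis,
`A(x) = U diag(sigma_i (U^T x)_i) U^T` with signs `sigma_i`.
Leaf file.  Owner: see table subtask (R6-Alg).
-/
import Claimed.Agent.R260.RigMat

set_option autoImplicit false

open MeasureTheory ProbabilityTheory Matrix Filter Topology
open scoped BigOperators ENNReal NNReal

namespace Claimed.Agent.R260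

variable {m : ℕ}

open Module.End in
/-- A commuting family of symmetric operators has an orthonormal basis of joint eigenvectors. -/
lemma rig_exists_joint_basis {E : Type*} [NormedAddCommGroup E] [InnerProductSpace ℝ E]
    [FiniteDimensional ℝ E] {ι : Type*} (T : ι → E →ₗ[ℝ] E) (hT : ∀ i, (T i).IsSymmetric)
    (hC : Pairwise (Function.onFun Commute T)) {n : ℕ} (hn : Module.finrank ℝ E = n) :
    ∃ b : OrthonormalBasis (Fin n) ℝ E, ∃ l : ι → Fin n → ℝ, ∀ r i, T r (b i) = l r i • b i := by
  classical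
  set V : (ι → ℝ) → Submodule ℝ E := fun χ => ⨅ j, eigenspace (T j) (χ j) with hV
  have hO : OrthogonalFamily ℝ (fun χ => V χ) (fun χ => (V χ).subtypeₗᵢ) :=
    LinearMap.IsSymmetric.orthogonalFamily_iInf_eigenspaces hT
  have hfin : Finite {χ // V χ ≠ ⊥} :=
    (Submodule.finite_ne_bot_of_iSupIndep hO.independent).to_subtype
  have : Fintype {χ // V χ ≠ ⊥} := Fintype.ofFinite _
  have hO' : OrthogonalFamily ℝ (fun χ : {χ // V χ ≠ ⊥} => V χ.1)
      (fun χ => (V χ.1).subtypeₗᵢ) := hO.comp Subtype.val_injective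
  have hI : DirectSum.IsInternal (fun χ : {χ // V χ ≠ ⊥} => V χ.1) := by
    rw [hO'.isInternal_iff, iSup_ne_bot_subtype,
      LinearMap.IsSymmetric.iSup_iInf_eq_top_of_commute hT hC, Submodule.top_orthogonal_eq_bot]
  refine ⟨hI.subordinateOrthonormalBasis hn hO',
    fun r i => (hI.subordinateOrthonormalBasisIndex hn i hO').1 r, fun r i => ?_⟩
  have hmem := hI.subordinateOrthonormalBasis_subordinate hn i hO'
  have h2 := (Submodule.mem_iInf _).mp hmem r
  exact mem_eigenspace_iff.mp h2

/-- Simultaneous orthogonal diagonalisation of commuting symmetric matrices. -/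
lemma rig_simul_diag {ι : Type*} [Finite ι] (X : ι → Matrix (Fin m) (Fin m) ℝ)
    (hX : ∀ r, (X r).IsSymm) (hcomm : ∀ r s, X r * X s = X s * X r) :
    ∃ U : Matrix (Fin m) (Fin m) ℝ, U * Uᵀ = 1 ∧ ∃ l : ι → Fin m → ℝ,
      ∀ r, X r = U * diagonal (l r) * Uᵀ := by
  have hT : ∀ r, (Matrix.toEuclideanLin (X r)).IsSymmetric := by
    intro r
    rw [Matrix.isSymmetric_toEuclideanLin_iff, Matrix.IsHermitian,
      Matrix.conjTranspose_eq_transpose_of_trivial]
    exact hX r
  have hC : Pairwise (Function.onFun Commute fun r => Matrix.toEuclideanLin (X r)) := by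
    intro r s _
    show Matrix.toEuclideanLin (X r) * Matrix.toEuclideanLin (X s) =
      Matrix.toEuclideanLin (X s) * Matrix.toEuclideanLin (X r)
    apply LinearMap.ext
    intro v
    simp only [Module.End.mul_apply, Matrix.toLpLin_apply, Matrix.mulVec_mulVec, hcomm r s]
  obtain ⟨b, l, hb⟩ := rig_exists_joint_basis (fun r => Matrix.toEuclideanLin (X r)) hT hC
    (n := m) (by simp)
  set U : Matrix (Fin m) (Fin m) ℝ := Matrix.of fun j i => b i j with hUdef
  have hU' : Uᵀ * U = 1 := by
    ext i k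
    have h := b.orthonormal
    rw [orthonormal_iff_ite] at h
    have h2 := h i k
    rw [PiLp.inner_apply] at h2
    simp only [Matrix.mul_apply, Matrix.transpose_apply, hUdef, Matrix.of_apply, Matrix.one_apply]
    rw [← h2]
    refine Finset.sum_congr rfl fun j _ => ?_
    simp [mul_comm]
  have hU : U * Uᵀ = 1 := mul_eq_one_comm.mp hU'
  refine ⟨U, hU, l, fun r => ?_⟩
  have hXU : X r * U = U * diagonal (l r) := by
    ext j i
    have h := congrArg (fun v : EuclideanSpace ℝ (Fin m) => v j) (hb r i)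
    simp only [Matrix.toLpLin_apply, PiLp.smul_apply, smul_eq_mul] at h
    rw [Matrix.mul_diagonal]
    simp only [Matrix.mul_apply, hUdef, Matrix.of_apply]
    rw [mul_comm (b i j)]
    rw [← h]
    simp [Matrix.mulVec, dotProduct]
  calc X r = X r * (U * Uᵀ) := by rw [hU, Matrix.mul_one]
    _ = U * diagonal (l r) * Uᵀ := by rw [← Matrix.mul_assoc, hXU]

lemma rig_alg {X : Fin m → Matrix (Fin m) (Fin m) ℝ} (hX : ∀ r, (X r).IsSymm)
    (hsum : ∑ r, X r * X r = 1) (h1 : ∀ r s i, X r i s = X s i r)
    (hcomm : ∀ r s, X r * X s = X s * X r) :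
    ∃ U : Matrix (Fin m) (Fin m) ℝ, U * Uᵀ = 1 ∧ ∃ σ : Fin m → ℝ,
      (∀ i, σ i = 1 ∨ σ i = -1) ∧
      ∀ x, rig_lin X x = U * diagonal (fun i => σ i * (Uᵀ *ᵥ x) i) * Uᵀ := by
  obtain ⟨U, hU, l, hl⟩ := rig_simul_diag X hX hcomm
  have hU' : Uᵀ * U = 1 := mul_eq_one_comm.mp hU
  have hcol : ∀ k, ∑ j, U j k * U j k = 1 := by
    intro k
    have := congrFun (congrFun hU' k) k
    simpa [Matrix.mul_apply] using this
  have hUX : ∀ r, Uᵀ * X r = diagonal (l r) * Uᵀ := by
    intro r
    calc Uᵀ * X r = (Uᵀ * U) * diagonal (l r) * Uᵀ := by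
          rw [hl r]; simp only [Matrix.mul_assoc]
      _ = _ := by rw [hU', Matrix.one_mul]
  have hXU : ∀ r, X r * U = U * diagonal (l r) := by
    intro r
    calc X r * U = U * diagonal (l r) * (Uᵀ * U) := by
          rw [hl r]; simp only [Matrix.mul_assoc]
      _ = _ := by rw [hU', Matrix.mul_one]
  have hent : ∀ r k s, ∑ j, U j k * X r j s = l r k * U s k := by
    intro r k s
    have := congrFun (congrFun (hUX r) k) s
    rw [Matrix.diagonal_mul] at this
    simpa [Matrix.mul_apply] using this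
  have key : ∀ r s k, l r k * U s k = l s k * U r k := by
    intro r s k
    rw [← hent r k s, ← hent s k r]
    exact Finset.sum_congr rfl fun j _ => by rw [h1 r s j]
  set σ : Fin m → ℝ := fun k => ∑ s, l s k * U s k with hσdef
  have hσ : ∀ r k, l r k = σ k * U r k := by
    intro r k
    calc l r k = l r k * ∑ s, U s k * U s k := by rw [hcol k, mul_one]
      _ = ∑ s, (l r k * U s k) * U s k := by
          rw [Finset.mul_sum]; exact Finset.sum_congr rfl fun s _ => by ring
      _ = ∑ s, (l s k * U r k) * U s k := by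
          exact Finset.sum_congr rfl fun s _ => by rw [key r s k]
      _ = σ k * U r k := by
          rw [hσdef, Finset.sum_mul]; exact Finset.sum_congr rfl fun s _ => by ring
  have hsq : ∀ k, ∑ r, l r k ^ 2 = 1 := by
    intro k
    have h2 : ∀ r, Uᵀ * (X r * X r) * U = diagonal (fun k => l r k ^ 2) := by
      intro r
      calc Uᵀ * (X r * X r) * U = (Uᵀ * X r) * (X r * U) := by simp only [Matrix.mul_assoc]
        _ = diagonal (l r) * (Uᵀ * U) * diagonal (l r) := by
            rw [hUX, hXU]; simp only [Matrix.mul_assoc]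
        _ = diagonal (fun k => l r k ^ 2) := by
            rw [hU', Matrix.mul_one, Matrix.diagonal_mul_diagonal]
            congr 1; funext k; ring
    have h3 : ∑ r, diagonal (fun k => l r k ^ 2) = (1 : Matrix (Fin m) (Fin m) ℝ) := by
      calc ∑ r, diagonal (fun k => l r k ^ 2) = ∑ r, Uᵀ * (X r * X r) * U :=
            Finset.sum_congr rfl fun r _ => (h2 r).symm
        _ = Uᵀ * (∑ r, X r * X r) * U := by rw [Finset.mul_sum, Finset.sum_mul]
        _ = 1 := by rw [hsum, Matrix.mul_one, hU']
    have h4 := congrFun (congrFun h3 k) k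
    simpa [Matrix.sum_apply] using h4
  have hσsq : ∀ k, σ k ^ 2 = 1 := by
    intro k
    calc σ k ^ 2 = σ k ^ 2 * ∑ r, U r k * U r k := by rw [hcol k, mul_one]
      _ = ∑ r, l r k ^ 2 := by
          rw [Finset.mul_sum]; exact Finset.sum_congr rfl fun r _ => by rw [hσ r k]; ring
      _ = 1 := hsq k
  refine ⟨U, hU, σ, fun i => sq_eq_one_iff.mp (hσsq i), fun x => ?_⟩
  have hd : ∑ r, x r • diagonal (l r) = diagonal (fun i => σ i * (Uᵀ *ᵥ x) i) := by
    ext i k
    by_cases hik : i = k
    · subst hik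
      simp only [Matrix.sum_apply, Matrix.smul_apply, Matrix.diagonal_apply_eq, smul_eq_mul,
        Matrix.mulVec, dotProduct, Matrix.transpose_apply, Finset.mul_sum]
      exact Finset.sum_congr rfl fun r _ => by rw [hσ r i]; ring
    · simp [Matrix.sum_apply, Matrix.diagonal_apply_ne _ hik]
  calc rig_lin X x = ∑ r, x r • (U * diagonal (l r) * Uᵀ) := by
        unfold rig_lin; exact Finset.sum_congr rfl fun r _ => by rw [← hl r]
    _ = U * (∑ r, x r • diagonal (l r)) * Uᵀ := by
        rw [Finset.mul_sum, Finset.sum_mul]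
        exact Finset.sum_congr rfl fun r _ => by rw [Matrix.mul_smul, Matrix.smul_mul]
    _ = _ := by rw [hd]

end Claimed.Agent.R260
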