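/-
Row 260, package R6 (rigidity).  Facts on the standard Gaussian measure `rig_gam m` on `Fin m → ℝ`.
Leaf file.  Owner: helper27 (subtask R6-Gauss).
-/
import Claimed.Agent.R260.RigDefs

set_option autoImplicit false

open MeasureTheory ProbabilityTheory Matrix Filter Topology
open scoped BigOperators ENNReal NNReal

namespace Claimed.Agent.R260

variable {m : ℕ}

instance rig_gam_isProb : IsProbabilityMeasure (rig_gam m) := by
  unfold rig_gam; infer_instance

/-- The density of `rig_gam m`. -/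
noncomputable def rig_rho (x : Fin m → ℝ) : ℝ := ∏ i, gaussianPDFReal 0 1 (x i)

lemma rig_rho_pos (x : Fin m → ℝ) : 0 < rig_rho x :=
  Finset.prod_pos fun i _ => gaussianPDFReal_pos 0 1 (x i) one_ne_zero

lemma rig_rho_continuous : Continuous (rig_rho (m := m)) := by
  unfold rig_rho
  refine continuous_finsetProd _ fun i _ => ?_
  unfold gaussianPDFReal
  fun_prop

set_option backward.isDefEq.respectTransparency false in
/-- Tonelli for a product of functions of one variable each. -/
lemma rig_lintegral_fin_prod {n : ℕ} (μ : Fin n → Measure ℝ) [∀ i, SigmaFinite (μ i)]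
    (f : Fin n → ℝ → ℝ≥0∞) (hf : ∀ i, Measurable (f i)) :
    ∫⁻ x : Fin n → ℝ, ∏ i, f i (x i) ∂(Measure.pi μ) = ∏ i, ∫⁻ x, f i x ∂(μ i) := by
  induction n with
  | zero => simp
  | succ n n_ih =>
      calc
        _ = ∫⁻ x : ℝ × (Fin n → ℝ),
            f 0 x.1 * ∏ i : Fin n, f (Fin.succ i) (x.2 i)
            ∂((μ 0).prod (Measure.pi (fun i ↦ μ i.succ))) := by
          rw [← ((measurePreserving_piFinSuccAbove μ 0).symm).lintegral_comp_emb
            (MeasurableEquiv.measurableEmbedding _)]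
          simp_rw [MeasurableEquiv.piFinSuccAbove_symm_apply, Fin.insertNthEquiv,
            Fin.prod_univ_succ, Fin.insertNth_zero, Equiv.coe_fn_mk, Fin.cons_succ,
            Fin.zero_succAbove, cast_eq, Fin.cons_zero]
        _ = (∫⁻ x, f 0 x ∂μ 0)
            * ∏ i : Fin n, ∫⁻ (x : ℝ), f (Fin.succ i) x ∂(μ i.succ) := by
          rw [← n_ih _ _ (fun i => hf _), ← lintegral_prod_mul (hf 0).aemeasurable]
          exact (Finset.measurable_prod _ fun i _ =>
            (hf _).comp (measurable_pi_apply i)).aemeasurable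
        _ = ∏ i, ∫⁻ x, f i x ∂(μ i) := by rw [Fin.prod_univ_succ]

/-- A product of measures with densities has the product density. -/
lemma rig_pi_withDensity {n : ℕ} (f : Fin n → ℝ → ℝ≥0∞)
    (hf : ∀ i, Measurable (f i))
    [∀ i, SigmaFinite ((volume : Measure ℝ).withDensity (f i))] :
    Measure.pi (fun i => (volume : Measure ℝ).withDensity (f i)) =
      (volume : Measure (Fin n → ℝ)).withDensity (fun x => ∏ i, f i (x i)) := by
  refine Measure.pi_eq fun s hs => ?_
  rw [withDensity_apply _ (MeasurableSet.univ_pi hs)]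
  have h1 : ∀ x : Fin n → ℝ, (Set.univ.pi s).indicator (fun x => ∏ i, f i (x i)) x =
      ∏ i, (s i).indicator (f i) (x i) := by
    intro x
    by_cases hx : x ∈ Set.univ.pi s
    · rw [Set.indicator_of_mem hx]
      refine Finset.prod_congr rfl fun i _ => ?_
      rw [Set.indicator_of_mem (hx i (Set.mem_univ i))]
    · rw [Set.indicator_of_notMem hx]
      simp only [Set.mem_pi, Set.mem_univ, true_imp_iff, not_forall] at hx
      obtain ⟨i, hi⟩ := hx
      exact (Finset.prod_eq_zero (Finset.mem_univ i) (Set.indicator_of_notMem hi _)).symm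
  rw [← lintegral_indicator (MeasurableSet.univ_pi hs)]
  simp_rw [h1]
  rw [volume_pi, rig_lintegral_fin_prod _ _ (fun i => (hf i).indicator (hs i))]
  refine Finset.prod_congr rfl fun i _ => ?_
  rw [lintegral_indicator (hs i), withDensity_apply _ (hs i)]

lemma rig_gam_eq_withDensity :
    rig_gam m = volume.withDensity (fun x => ENNReal.ofReal (rig_rho x)) := by
  have h1 : (fun _ : Fin m => gaussianReal 0 1) =
      fun _ : Fin m => (volume : Measure ℝ).withDensity (gaussianPDF 0 1) := by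
    funext i
    exact gaussianReal_of_var_ne_zero 0 one_ne_zero
  have hsf : SigmaFinite ((volume : Measure ℝ).withDensity (gaussianPDF 0 1)) := by
    rw [← gaussianReal_of_var_ne_zero 0 one_ne_zero]
    infer_instance
  rw [rig_gam, h1, rig_pi_withDensity (n := m) (fun _ => gaussianPDF 0 1)
      (fun _ => measurable_gaussianPDF 0 1)]
  congr 1
  funext x
  simp only [gaussianPDF, rig_rho]
  rw [← ENNReal.ofReal_prod_of_nonneg (fun i _ => gaussianPDFReal_nonneg _ _ _)]

lemma rig_rho_measurable : Measurable (fun x : Fin m → ℝ => ENNReal.ofReal (rig_rho x)) :=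
  rig_rho_continuous.measurable.ennreal_ofReal

lemma rig_ae_gam_iff {p : (Fin m → ℝ) → Prop} :
    (∀ᵐ x ∂(rig_gam m), p x) ↔ ∀ᵐ x, p x := by
  rw [rig_gam_eq_withDensity, ae_withDensity_iff rig_rho_measurable]
  refine eventually_congr (Eventually.of_forall fun x => ?_)
  have : ENNReal.ofReal (rig_rho x) ≠ 0 := by
    simpa using rig_rho_pos x
  simp [this]

lemma rig_integral_gam (F : (Fin m → ℝ) → ℝ) :
    ∫ x, F x ∂(rig_gam m) = ∫ x, F x * rig_rho x := by
  rw [rig_gam_eq_withDensity, integral_withDensity_eq_integral_toReal_smul rig_rho_measurable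
    (Eventually.of_forall fun x => ENNReal.ofReal_lt_top)]
  refine integral_congr_ae (Eventually.of_forall fun x => ?_)
  simp only [ENNReal.toReal_ofReal (rig_rho_pos x).le, smul_eq_mul]
  ring

lemma rig_integrable_gam_iff {F : (Fin m → ℝ) → ℝ} :
    Integrable F (rig_gam m) ↔ Integrable (fun x => F x * rig_rho x) := by
  rw [rig_gam_eq_withDensity, integrable_withDensity_iff_integrable_smul' rig_rho_measurable
    (Eventually.of_forall fun x => ENNReal.ofReal_lt_top)]
  refine integrable_congr (Eventually.of_forall fun x => ?_)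
  simp only [ENNReal.toReal_ofReal (rig_rho_pos x).le, smul_eq_mul]
  ring

/-- One-coordinate marginals. -/
lemma rig_integral_coord (h : ℝ → ℝ) (r : Fin m) :
    ∫ x, h (x r) ∂(rig_gam m) = ∫ a, h a ∂(gaussianReal 0 1) := by
  have key := integral_fintype_prod_eq_prod (ι := Fin m) (𝕜 := ℝ) (E := fun _ => ℝ)
    (fun i => if i = r then h else fun _ => 1) (μ := fun _ => gaussianReal 0 1)
  have h1 : ∀ x : Fin m → ℝ,
      ∏ i, (if i = r then h else fun _ => (1 : ℝ)) (x i) = h (x r) := by
    intro x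
    rw [Finset.prod_eq_single r]
    · simp
    · intro b _ hb; simp [hb]
    · intro hr; exact absurd (Finset.mem_univ r) hr
  have h2 : ∏ i : Fin m, ∫ a, (if i = r then h else fun _ => (1 : ℝ)) a ∂(gaussianReal 0 1)
      = ∫ a, h a ∂(gaussianReal 0 1) := by
    rw [Finset.prod_eq_single r]
    · simp
    · intro b _ hb; simp [hb]
    · intro hr; exact absurd (Finset.mem_univ r) hr
  simp_rw [h1] at key
  rw [rig_gam, key, h2]

lemma rig_integrable_coord {h : ℝ → ℝ} (hh : Integrable h (gaussianReal 0 1)) (r : Fin m) :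
    Integrable (fun x : Fin m → ℝ => h (x r)) (rig_gam m) :=
  integrable_comp_eval (μ := fun _ : Fin m => gaussianReal 0 1) (i := r) hh

/-- Two independent coordinates. -/
lemma rig_integral_coord_mul {h k : ℝ → ℝ} {r s : Fin m} (hrs : r ≠ s) :
    ∫ x, h (x r) * k (x s) ∂(rig_gam m)
      = (∫ a, h a ∂(gaussianReal 0 1)) * ∫ a, k a ∂(gaussianReal 0 1) := by
  have key := integral_fintype_prod_eq_prod (ι := Fin m) (𝕜 := ℝ) (E := fun _ => ℝ)
    (fun i => if i = r then h else if i = s then k else fun _ => 1)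
    (μ := fun _ => gaussianReal 0 1)
  have h1 : ∀ x : Fin m → ℝ,
      ∏ i, (if i = r then h else if i = s then k else fun _ => (1 : ℝ)) (x i)
        = h (x r) * k (x s) := by
    intro x
    rw [← Finset.mul_prod_erase _ _ (Finset.mem_univ r),
      ← Finset.mul_prod_erase _ _ (Finset.mem_erase.mpr ⟨hrs.symm, Finset.mem_univ s⟩),
      Finset.prod_eq_one]
    · simp [hrs.symm]
    · intro i hi
      simp only [Finset.mem_erase, Finset.mem_univ, and_true] at hi
      simp [hi.1, hi.2]
  have h2 : ∏ i : Fin m, ∫ a, (if i = r then h else if i = s then k else fun _ => (1 : ℝ)) a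
        ∂(gaussianReal 0 1)
      = (∫ a, h a ∂(gaussianReal 0 1)) * ∫ a, k a ∂(gaussianReal 0 1) := by
    rw [← Finset.mul_prod_erase _ _ (Finset.mem_univ r),
      ← Finset.mul_prod_erase _ _ (Finset.mem_erase.mpr ⟨hrs.symm, Finset.mem_univ s⟩),
      Finset.prod_eq_one]
    · simp [hrs.symm]
    · intro i hi
      simp only [Finset.mem_erase, Finset.mem_univ, and_true] at hi
      simp [hi.1, hi.2]
  simp_rw [h1] at key
  rw [rig_gam, key, h2]

lemma rig_integrable_coord_mul {h k : ℝ → ℝ} (hh : Integrable h (gaussianReal 0 1))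
    (hk : Integrable k (gaussianReal 0 1)) {r s : Fin m} (hrs : r ≠ s) :
    Integrable (fun x : Fin m → ℝ => h (x r) * k (x s)) (rig_gam m) := by
  have key := Integrable.fintype_prod (ι := Fin m) (𝕜 := ℝ) (E := ℝ)
    (f := fun i => if i = r then h else if i = s then k else fun _ => 1)
    (μ := fun _ => gaussianReal 0 1) (by
      intro i
      by_cases hir : i = r
      · simpa [hir] using hh
      · by_cases his : i = s
        · simpa [hir, his, hrs.symm] using hk
        · simpa [hir, his] using integrable_const (1 : ℝ))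
  have h1 : ∀ x : Fin m → ℝ,
      ∏ i, (if i = r then h else if i = s then k else fun _ => (1 : ℝ)) (x i)
        = h (x r) * k (x s) := by
    intro x
    rw [← Finset.mul_prod_erase _ _ (Finset.mem_univ r),
      ← Finset.mul_prod_erase _ _ (Finset.mem_erase.mpr ⟨hrs.symm, Finset.mem_univ s⟩),
      Finset.prod_eq_one]
    · simp [hrs.symm]
    · intro i hi
      simp only [Finset.mem_erase, Finset.mem_univ, and_true] at hi
      simp [hi.1, hi.2]
  simp_rw [h1] at key
  exact key

/-- All polynomial moments of the one-dimensional Gaussian are finite. -/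
lemma rig_integrable_pow_gaussianReal (n : ℕ) :
    Integrable (fun a : ℝ => a ^ n) (gaussianReal 0 1) := by
  have h := (memLp_id_gaussianReal (μ := 0) (v := 1) (n : ℝ≥0))
  have h2 : MemLp (id : ℝ → ℝ) (n : ℝ≥0∞) (gaussianReal 0 1) := by simpa using h
  have h3 := h2.integrable_norm_pow'
  refine (integrable_norm_iff ?_).mp ?_
  · exact (continuous_pow n).aestronglyMeasurable
  · simpa [norm_pow] using h3

lemma rig_integral_sq_gaussianReal : ∫ a : ℝ, a ^ 2 ∂(gaussianReal 0 1) = 1 := by
  have h := variance_id_gaussianReal (μ := 0) (v := 1)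
  rw [variance_eq_integral (by fun_prop)] at h
  simpa [integral_id_gaussianReal] using h

lemma rig_integral_id_gaussianReal : ∫ a : ℝ, a ∂(gaussianReal 0 1) = 0 :=
  integral_id_gaussianReal

lemma rig_integrable_sum_sq : Integrable (fun x : Fin m → ℝ => ∑ r, x r ^ 2) (rig_gam m) :=
  integrable_finsetSum _ fun r _ =>
    rig_integrable_coord (h := fun a => a ^ 2) (rig_integrable_pow_gaussianReal 2) r

lemma rig_integral_sum_sq : ∫ x : Fin m → ℝ, ∑ r, x r ^ 2 ∂(rig_gam m) = m := by
  rw [integral_finsetSum _ fun r _ =>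
    rig_integrable_coord (h := fun a => a ^ 2) (rig_integrable_pow_gaussianReal 2) r]
  simp_rw [rig_integral_coord (fun a => a ^ 2), rig_integral_sq_gaussianReal]
  simp

/-- Rotation invariance. -/
lemma rig_gam_map_orth {U : Matrix (Fin m) (Fin m) ℝ} (hU : U * Uᵀ = 1) :
    (rig_gam m).map (fun x => U *ᵥ x) = rig_gam m := by
  have hU' : Uᵀ * U = 1 := mul_eq_one_comm.mp hU
  let L : EuclideanSpace ℝ (Fin m) →ₗ[ℝ] EuclideanSpace ℝ (Fin m) := Matrix.toEuclideanLin U
  have hL : ∀ x : EuclideanSpace ℝ (Fin m), WithLp.ofLp (L x) = U *ᵥ (WithLp.ofLp x) := by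
    intro x; rfl
  have hdot : ∀ y : Fin m → ℝ, (U *ᵥ y) ⬝ᵥ (U *ᵥ y) = y ⬝ᵥ y := by
    intro y
    rw [Matrix.dotProduct_mulVec, ← Matrix.mulVec_transpose, Matrix.mulVec_mulVec, hU',
      Matrix.one_mulVec]
  have hnorm : ∀ x, ‖L x‖ = ‖x‖ := by
    intro x
    rw [EuclideanSpace.norm_eq, EuclideanSpace.norm_eq]
    congr 1
    have := hdot (WithLp.ofLp x)
    simp only [dotProduct, ← hL] at this
    simpa [sq] using this
  let Li : EuclideanSpace ℝ (Fin m) →ₗᵢ[ℝ] EuclideanSpace ℝ (Fin m) := ⟨L, hnorm⟩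
  let e : EuclideanSpace ℝ (Fin m) ≃ₗᵢ[ℝ] EuclideanSpace ℝ (Fin m) :=
    Li.toLinearIsometryEquiv rfl
  have hfun : (fun x : Fin m → ℝ => U *ᵥ x)
      = (WithLp.ofLp : EuclideanSpace ℝ (Fin m) → (Fin m → ℝ)) ∘ (⇑e ∘ (WithLp.toLp 2)) := by
    funext x; rfl
  have hm1 : Measurable (WithLp.toLp 2 : (Fin m → ℝ) → EuclideanSpace ℝ (Fin m)) := by fun_prop
  have hm2 : Measurable (WithLp.ofLp : EuclideanSpace ℝ (Fin m) → (Fin m → ℝ)) := by fun_prop
  have hm3 : Measurable (⇑e) := e.continuous.measurable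
  have hpi : (rig_gam m).map (WithLp.toLp 2) = stdGaussian (EuclideanSpace ℝ (Fin m)) :=
    map_pi_eq_stdGaussian
  rw [hfun, ← Measure.map_map hm2 (hm3.comp hm1), ← Measure.map_map hm3 hm1, hpi,
    stdGaussian_map e, ← hpi, Measure.map_map hm2 hm1]
  have : (WithLp.ofLp : EuclideanSpace ℝ (Fin m) → (Fin m → ℝ)) ∘ (WithLp.toLp 2) = id := by
    funext x; rfl
  rw [this, Measure.map_id]

lemma rig_norm_sq_le_sum_sq (x : Fin m → ℝ) : ‖x‖ ^ 2 ≤ ∑ r, x r ^ 2 := by
  have h0 : 0 ≤ ∑ r, x r ^ 2 := Finset.sum_nonneg fun r _ => sq_nonneg _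
  have h1 : ‖x‖ ≤ Real.sqrt (∑ r, x r ^ 2) := by
    refine (pi_norm_le_iff_of_nonneg (Real.sqrt_nonneg _)).mpr fun r => ?_
    rw [Real.norm_eq_abs]
    refine Real.abs_le_sqrt ?_
    exact Finset.single_le_sum (f := fun r => x r ^ 2) (fun i _ => sq_nonneg _) (Finset.mem_univ r)
  calc ‖x‖ ^ 2 ≤ (Real.sqrt (∑ r, x r ^ 2)) ^ 2 := by gcongr
    _ = _ := Real.sq_sqrt h0

/-- Lipschitz functions are square integrable. -/
lemma rig_integrable_sq_of_lipschitz {f : (Fin m → ℝ) → ℝ} (hf : ∃ K : ℝ≥0, LipschitzWith K f) :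
    Integrable (fun x => f x ^ 2) (rig_gam m) := by
  obtain ⟨K, hK⟩ := hf
  have hdom : Integrable (fun x : Fin m → ℝ => 2 * f 0 ^ 2 + 2 * (K : ℝ) ^ 2 * ∑ r, x r ^ 2)
      (rig_gam m) := (integrable_const _).add (rig_integrable_sum_sq.const_mul _)
  refine hdom.mono' (hK.continuous.pow 2).aestronglyMeasurable (Eventually.of_forall fun x => ?_)
  have h1 : |f x - f 0| ≤ K * ‖x‖ := by
    have := hK.dist_le_mul x 0
    simpa [Real.dist_eq, dist_zero_right] using this
  have h2 : (f x - f 0) ^ 2 ≤ (K : ℝ) ^ 2 * ∑ r, x r ^ 2 := by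
    calc (f x - f 0) ^ 2 = |f x - f 0| ^ 2 := (sq_abs _).symm
      _ ≤ (K * ‖x‖) ^ 2 := by gcongr
      _ = (K : ℝ) ^ 2 * ‖x‖ ^ 2 := by ring
      _ ≤ _ := by gcongr; exact rig_norm_sq_le_sum_sq x
  rw [Real.norm_eq_abs, abs_of_nonneg (sq_nonneg _)]
  nlinarith [sq_nonneg (f x - 2 * f 0)]

lemma rig_integrable_of_lipschitz {f : (Fin m → ℝ) → ℝ} (hf : ∃ K : ℝ≥0, LipschitzWith K f) :
    Integrable f (rig_gam m) := by
  have h2 := rig_integrable_sq_of_lipschitz hf
  obtain ⟨K, hK⟩ := hf
  refine ((integrable_const (1 : ℝ)).add h2).mono' hK.continuous.aestronglyMeasurable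
    (Eventually.of_forall fun x => ?_)
  rw [Real.norm_eq_abs]
  simp only [Pi.add_apply]
  nlinarith [sq_nonneg (|f x| - 1), sq_abs (f x), abs_nonneg (f x)]

/-- Cauchy-Schwarz on the probability space `rig_gam m`. -/
lemma rig_abs_integral_mul_le {u v : (Fin m → ℝ) → ℝ}
    (hu : AEStronglyMeasurable u (rig_gam m)) (hv : AEStronglyMeasurable v (rig_gam m))
    (hu2 : Integrable (fun x => u x ^ 2) (rig_gam m))
    (hv2 : Integrable (fun x => v x ^ 2) (rig_gam m)) :
    Integrable (fun x => u x * v x) (rig_gam m) ∧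
    |∫ x, u x * v x ∂(rig_gam m)| ≤
      Real.sqrt (∫ x, u x ^ 2 ∂(rig_gam m)) * Real.sqrt (∫ x, v x ^ 2 ∂(rig_gam m)) := by
  have huv : Integrable (fun x => u x * v x) (rig_gam m) := by
    refine (hu2.add hv2).mono' (hu.mul hv) (Eventually.of_forall fun x => ?_)
    rw [Real.norm_eq_abs, abs_le]
    simp only [Pi.add_apply]
    constructor <;> nlinarith [sq_nonneg (u x - v x), sq_nonneg (u x + v x)]
  refine ⟨huv, ?_⟩
  set A := ∫ x, u x ^ 2 ∂(rig_gam m) with hA
  set B := ∫ x, v x ^ 2 ∂(rig_gam m) with hB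
  set C := ∫ x, u x * v x ∂(rig_gam m) with hC
  have hA0 : 0 ≤ A := integral_nonneg fun x => sq_nonneg _
  have hB0 : 0 ≤ B := integral_nonneg fun x => sq_nonneg _
  have hquad : ∀ t : ℝ, 0 ≤ A * (t * t) + (2 * C) * t + B := by
    intro t
    have h1 : ∫ x, (t * u x + v x) ^ 2 ∂(rig_gam m) = A * (t * t) + (2 * C) * t + B := by
      have e1 : ∀ x, (t * u x + v x) ^ 2 = t ^ 2 * u x ^ 2 + (2 * t) * (u x * v x) + v x ^ 2 := by
        intro x; ring
      simp_rw [e1]
      have i1 : Integrable (fun x => t ^ 2 * u x ^ 2) (rig_gam m) := hu2.const_mul _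
      have i2 : Integrable (fun x => (2 * t) * (u x * v x)) (rig_gam m) := huv.const_mul _
      have i3 : Integrable (fun x => t ^ 2 * u x ^ 2 + (2 * t) * (u x * v x)) (rig_gam m) :=
        i1.add i2
      rw [integral_add i3 hv2, integral_add i1 i2, integral_const_mul, integral_const_mul]
      ring
    rw [← h1]
    exact integral_nonneg fun x => sq_nonneg _
  have hd := discrim_le_zero hquad
  have hCAB : C ^ 2 ≤ A * B := by
    unfold discrim at hd
    nlinarith
  rw [← Real.sqrt_mul hA0, ← Real.sqrt_sq_eq_abs]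
  exact Real.sqrt_le_sqrt hCAB

end Claimed.Agent.R260
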