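/-
Row 260.  RIG bridge (`core_rig` of Core.lean): from the output `CoreOut` of Sec 2-4 on `EE m` to the
representation-free structure `RigCoreData` on `Fin m → ℝ` consumed by Sec 6.  Owner: helper30.
-/
import Claimed.Agent.R260.CoreDefs
import Claimed.Agent.R260.MxConst
import Claimed.Agent.R260.RigGauss

set_option autoImplicit false

open MeasureTheory ProbabilityTheory Matrix Filter Topology
open scoped BigOperators ENNReal NNReal

namespace Claimed.Agent.R260

variable {m : ℕ}

lemma rigB_gam_eq : gam m = (rig_gam m).map (WithLp.toLp 2) := by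
  unfold rig_gam
  exact (map_pi_eq_stdGaussian (ι := Fin m)).symm

lemma rigB_integral_gam (F : EE m → ℝ) :
    ∫ x, F x ∂(gam m) = ∫ y, F (WithLp.toLp 2 y) ∂(rig_gam m) := by
  have h : gam m = (rig_gam m).map (MeasurableEquiv.toLp 2 (Fin m → ℝ)) := rigB_gam_eq
  rw [h, integral_map_equiv]
  rfl

lemma rigB_measurable_toLp : Measurable (WithLp.toLp 2 : (Fin m → ℝ) → EE m) :=
  (MeasurableEquiv.toLp 2 (Fin m → ℝ)).measurable

lemma rigB_measurable_ofLp : Measurable (WithLp.ofLp : EE m → (Fin m → ℝ)) :=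
  (MeasurableEquiv.toLp 2 (Fin m → ℝ)).symm.measurable

lemma rigB_ae {p : EE m → Prop} (h : ∀ᵐ x ∂gam m, p x) :
    ∀ᵐ y ∂(rig_gam m), p (WithLp.toLp 2 y) := by
  rw [rigB_gam_eq] at h
  exact ae_of_ae_map rigB_measurable_toLp.aemeasurable h

/-- The image of `e^{-V} dx` on `EE m` in `Fin m → ℝ`. -/
lemma rigB_otMeas_map (V : EE m → ℝ) : (otMeas V).map WithLp.ofLp = rig_law (densOf V) := by
  ext s hs
  rw [Measure.map_apply rigB_measurable_ofLp hs]
  unfold otMeas rig_law densOf
  rw [withDensity_apply _ (rigB_measurable_ofLp hs), withDensity_apply _ hs]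
  have h := (PiLp.volume_preserving_ofLp (Fin m)).setLIntegral_comp_preimage_emb
    (MeasurableEquiv.toLp 2 (Fin m → ℝ)).symm.measurableEmbedding
    (fun y => ENNReal.ofReal (Real.exp (-V (WithLp.toLp 2 y)))) s
  simpa using h

lemma rigB_X_eq (A : EE m → Mat m) : rig_X (fun y => A (WithLp.toLp 2 y)) = coreX A := by
  ext r i k
  unfold rig_X coreX
  rw [rigB_integral_gam]

lemma rigB_coreX_symm {A : EE m → Mat m} (hA : ∀ x, (A x).IsSymm) (r : Fin m) :
    (coreX A r).IsSymm := by
  ext i k
  rw [Matrix.transpose_apply]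
  unfold coreX
  refine integral_congr_ae (Eventually.of_forall fun x => ?_)
  simp only
  rw [(hA x).apply]

theorem rigB_core_rig {V : EE m → ℝ} {P : Mat m} {T : EE m → EE m} {A : EE m → Mat m}
    (h : CoreOut V P T A) : Nonempty (RigCoreData scQ scOmega (densOf V)) := by
  obtain ⟨K, hK⟩ := h.T_lip
  have hT'lip : LipschitzWith (1 * (K * ((Fintype.card (Fin m) : ℝ≥0) ^ (1 / (2 : ℝ≥0∞)).toReal)))
      (fun y : Fin m → ℝ => WithLp.ofLp (T (WithLp.toLp 2 y))) :=
    (PiLp.lipschitzWith_ofLp 2 (fun _ : Fin m => ℝ)).comp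
      (hK.comp (PiLp.lipschitzWith_toLp 2 (fun _ : Fin m => ℝ)))
  have hXs := rigB_coreX_symm h.A_symm
  refine ⟨{
    P := P
    T := fun y => WithLp.ofLp (T (WithLp.toLp 2 y))
    A := fun y => A (WithLp.toLp 2 y)
    J := fun y => coreJ T (WithLp.toLp 2 y)
    P_det := h.P_pd.det_pos.ne'
    T_lip := ⟨_, hT'lip⟩
    A_meas := fun i k => (h.A_meas i k).comp rigB_measurable_toLp
    J_meas := fun i k => by
      unfold coreJ pd
      exact (measurable_fderiv_apply_const ℝ (fun y => T y i) (eb k)).comp rigB_measurable_toLp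
    A_sq := ?_
    deriv := ?_
    matFun := ?_
    push := ?_
    remainder := ?_ }⟩
  · -- A_sq
    obtain ⟨C, hC⟩ := h.A_bdd
    have hmeas : Measurable (fun y : Fin m → ℝ => rig_fsq (A (WithLp.toLp 2 y))) := by
      unfold rig_fsq
      refine Finset.measurable_sum _ fun i _ => Finset.measurable_sum _ fun k _ => ?_
      exact ((h.A_meas i k).comp rigB_measurable_toLp).pow_const 2
    refine Integrable.of_bound hmeas.aestronglyMeasurable (∑ _i : Fin m, ∑ _k : Fin m, C ^ 2)
      (Eventually.of_forall fun y => ?_)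
    rw [Real.norm_eq_abs, abs_of_nonneg (by unfold rig_fsq; positivity)]
    unfold rig_fsq
    refine Finset.sum_le_sum fun i _ => Finset.sum_le_sum fun k _ => ?_
    exact sq_le_sq' (abs_le.1 (hC _ i k)).1 (abs_le.1 (hC _ i k)).2
  · -- deriv
    have hae : ∀ i : Fin m, ∀ᵐ y ∂(rig_gam m),
        DifferentiableAt ℝ (fun y : Fin m → ℝ => WithLp.ofLp (T (WithLp.toLp 2 y)) i) y := by
      intro i
      have hl : LipschitzWith _ (fun y : Fin m → ℝ => WithLp.ofLp (T (WithLp.toLp 2 y)) i) :=
        (LipschitzWith.eval i).comp hT'lip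
      exact rig_ae_gam_iff.2 hl.ae_differentiableAt
    filter_upwards [ae_all_iff.2 hae] with y hy i s
    set f : (Fin m → ℝ) → ℝ := fun y => WithLp.ofLp (T (WithLp.toLp 2 y)) i with hf
    have hL : HasFDerivAt (fun x : EE m => WithLp.ofLp x)
        ((PiLp.continuousLinearEquiv 2 ℝ (fun _ : Fin m => ℝ)) : EE m →L[ℝ] (Fin m → ℝ))
        (WithLp.toLp 2 y) :=
      ((PiLp.continuousLinearEquiv 2 ℝ (fun _ : Fin m => ℝ)) : EE m →L[ℝ] (Fin m → ℝ)).hasFDerivAt
    have hcomp : HasFDerivAt (fun x : EE m => T x i) ((fderiv ℝ f y).comp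
        ((PiLp.continuousLinearEquiv 2 ℝ (fun _ : Fin m => ℝ)) : EE m →L[ℝ] (Fin m → ℝ)))
        (WithLp.toLp 2 y) := by
      have h1 : HasFDerivAt f (fderiv ℝ f y) (WithLp.ofLp (WithLp.toLp 2 y)) := by
        simpa using (hy i).hasFDerivAt
      exact h1.comp (WithLp.toLp 2 y) hL
    have hJ : coreJ T (WithLp.toLp 2 y) i s = fderiv ℝ f y (Pi.single s 1) := by
      unfold coreJ pd
      rw [hcomp.fderiv]
      simp only [ContinuousLinearMap.comp_apply]
      congr 1
    rw [hJ]
    exact (hy i).hasFDerivAt.hasLineDerivAt _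
  · -- matFun
    filter_upwards [rigB_ae h.jac] with y hy
    refine ⟨mxU (A (WithLp.toLp 2 y)), mxU_mul_transpose _, mxEig (A (WithLp.toLp 2 y)),
      mx_spectral (h.A_symm _), ?_⟩
    rw [hy]
    rfl
  · -- push
    have hTm : Measurable T := hK.continuous.measurable
    have hPm : Measurable (fun x : Fin m → ℝ => P *ᵥ x) := by
      have : Continuous (fun x : Fin m → ℝ => P *ᵥ x) := by fun_prop
      exact this.measurable
    have hcl : Measurable (coreLin P) := by
      unfold coreLin
      exact rigB_measurable_toLp.comp (hPm.comp rigB_measurable_ofLp)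
    have e1 : (rig_gam m).map (fun y => WithLp.ofLp (T (WithLp.toLp 2 y)))
        = ((gam m).map T).map WithLp.ofLp := by
      rw [rigB_gam_eq, Measure.map_map hTm rigB_measurable_toLp,
        Measure.map_map rigB_measurable_ofLp (hTm.comp rigB_measurable_toLp)]
      rfl
    rw [e1, h.push, Measure.map_map rigB_measurable_ofLp hcl, ← rigB_otMeas_map,
      Measure.map_map hPm rigB_measurable_ofLp]
    rfl
  · -- remainder
    refine ⟨mxU (mxB (coreX A)), mxU_mul_transpose _, mxEig (mxB (coreX A)), ?_, ?_⟩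
    · have : rig_B (fun y => A (WithLp.toLp 2 y)) = mxB (coreX A) := by
        unfold rig_B mxB
        rw [rigB_X_eq]
      rw [this]
      exact mx_spectral (mxB_isSymm _ hXs)
    · have hrem := h.rem
      unfold coreRem at hrem
      rw [rigB_integral_gam] at hrem
      have e : ∀ y : Fin m → ℝ, mxSq (coreY A (WithLp.toLp 2 y))
          = rig_fsq (rig_Y (fun y => A (WithLp.toLp 2 y)) y) := by
        intro y
        rw [mxSq_eq_sum]
        unfold rig_fsq rig_Y rig_lin coreY
        rw [rigB_X_eq]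
      simp only [e] at hrem
      exact hrem

end Claimed.Agent.R260
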