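/-
Row 260, package R6 (rigidity).  First half of Lemma 6.1: a linear symmetric matrix field `A` such
that `q(A)` is weakly curl-free has coefficients with `X_r e_s = X_s e_r` and `[X_r, X_s] = 0`.
Method: test functions `psi(x / eps)`, expansion `q(A) = q0 + q1 A + q2 A^2 + O(|A|^3)`.
Owner: helper30.  (Helper lemmas of this file have the prefix `rig_cm_`.)
-/
import Claimed.Agent.R260.RigMat

set_option autoImplicit false

open MeasureTheory ProbabilityTheory Matrix Filter Topology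
open scoped BigOperators ENNReal NNReal ContDiff

namespace Claimed.Agent.R260

variable {m : ℕ}

lemma rig_cm_eq_zero_of_abs_le_mul {a B ε0 : ℝ} (hε0 : 0 < ε0)
    (h : ∀ ε, 0 < ε → ε ≤ ε0 → |a| ≤ B * ε) : a = 0 := by
  by_contra ha
  have hpos : 0 < |a| := abs_pos.2 ha
  have hB : 0 < B := by
    by_contra hB
    have := h ε0 hε0 le_rfl
    nlinarith [not_lt.1 hB]
  have h1 := h (min ε0 (|a| / (2 * B))) (lt_min hε0 (by positivity)) (min_le_left _ _)
  have h2 : B * min ε0 (|a| / (2 * B)) ≤ B * (|a| / (2 * B)) :=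
    mul_le_mul_of_nonneg_left (min_le_right _ _) hB.le
  have h3 : B * (|a| / (2 * B)) = |a| / 2 := by field_simp
  linarith

lemma rig_cm_poly3_zero {a0 a1 a2 C ε0 : ℝ} (hε0 : 0 < ε0)
    (h : ∀ ε, 0 < ε → ε ≤ ε0 → |a0 + ε * a1 + ε ^ 2 * a2| ≤ C * ε ^ 3) :
    a0 = 0 ∧ a1 = 0 ∧ a2 = 0 := by
  have hC : 0 ≤ C := by
    have := (abs_nonneg _).trans (h ε0 hε0 le_rfl)
    have h3 : 0 < ε0 ^ 3 := by positivity
    by_contra hC
    nlinarith [not_le.1 hC]
  have h0 : a0 = 0 := by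
    apply rig_cm_eq_zero_of_abs_le_mul (B := C * ε0 ^ 2 + |a1| + |a2| * ε0) hε0
    intro ε hε hε'
    have h1 := h ε hε hε'
    have e : a0 = (a0 + ε * a1 + ε ^ 2 * a2) - ε * a1 - ε ^ 2 * a2 := by ring
    have h2 : |a0| ≤ |a0 + ε * a1 + ε ^ 2 * a2| + |ε * a1| + |ε ^ 2 * a2| := by
      conv_lhs => rw [e]
      exact (abs_sub _ _).trans (add_le_add (abs_sub _ _) le_rfl)
    rw [abs_mul, abs_mul, abs_of_pos hε, abs_of_pos (by positivity : (0:ℝ) < ε ^ 2)] at h2
    have h3 : C * ε ^ 3 ≤ C * ε0 ^ 2 * ε := by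
      have : ε ^ 2 ≤ ε0 ^ 2 := by gcongr
      calc C * ε ^ 3 = C * ε ^ 2 * ε := by ring
        _ ≤ C * ε0 ^ 2 * ε := by gcongr
    have h4 : ε ^ 2 * |a2| ≤ |a2| * ε0 * ε := by
      calc ε ^ 2 * |a2| = |a2| * ε * ε := by ring
        _ ≤ |a2| * ε0 * ε := by gcongr
    nlinarith
  subst h0
  have h1 : a1 = 0 := by
    apply rig_cm_eq_zero_of_abs_le_mul (B := C * ε0 + |a2|) hε0
    intro ε hε hε'
    have h1 := h ε hε hε'
    have e : (0 : ℝ) + ε * a1 + ε ^ 2 * a2 = ε * (a1 + ε * a2) := by ring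
    rw [e, abs_mul, abs_of_pos hε] at h1
    have h2 : |a1 + ε * a2| ≤ C * ε ^ 2 := by
      have : ε * |a1 + ε * a2| ≤ ε * (C * ε ^ 2) := by linarith [h1, (by ring : ε * (C * ε ^ 2) = C * ε ^ 3)]
      exact le_of_mul_le_mul_left this hε
    have e2 : a1 = (a1 + ε * a2) - ε * a2 := by ring
    have h3 : |a1| ≤ |a1 + ε * a2| + |ε * a2| := by
      conv_lhs => rw [e2]
      exact abs_sub _ _
    rw [abs_mul, abs_of_pos hε] at h3
    have h4 : C * ε ^ 2 ≤ C * ε0 * ε := by
      calc C * ε ^ 2 = C * ε * ε := by ring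
        _ ≤ C * ε0 * ε := by gcongr
    nlinarith
  subst h1
  refine ⟨rfl, rfl, ?_⟩
  apply rig_cm_eq_zero_of_abs_le_mul (B := C) hε0
  intro ε hε hε'
  have h1 := h ε hε hε'
  have e : (0 : ℝ) + ε * 0 + ε ^ 2 * a2 = ε ^ 2 * a2 := by ring
  rw [e, abs_mul, abs_of_pos (by positivity : (0:ℝ) < ε ^ 2)] at h1
  have : ε ^ 2 * |a2| ≤ ε ^ 2 * (C * ε) := by linarith [h1, (by ring : ε ^ 2 * (C * ε) = C * ε ^ 3)]
  exact le_of_mul_le_mul_left this (by positivity)

/-- Integration by parts against a test function. -/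
lemma rig_cm_ibp {f f' ψ : (Fin m → ℝ) → ℝ} {v : Fin m → ℝ} (hfc : Continuous f)
    (hf'c : Continuous f') (hf : ∀ x, HasLineDerivAt ℝ f (f' x) x v)
    (hψ : ContDiff ℝ ∞ ψ) (hc : HasCompactSupport ψ) :
    ∫ x, f x * lineDeriv ℝ ψ x v = - ∫ x, f' x * ψ x := by
  have hd : Differentiable ℝ ψ := hψ.differentiable (by simp)
  have hl : ∀ x, lineDeriv ℝ ψ x v = fderiv ℝ ψ x v := fun x =>
    (hd x).lineDeriv_eq_fderiv
  have hcont : Continuous (fun x => fderiv ℝ ψ x v) :=
    (hψ.continuous_fderiv (by simp)).clm_apply continuous_const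
  have hcs : HasCompactSupport (fun x => fderiv ℝ ψ x v) := hc.fderiv_apply (𝕜 := ℝ) v
  have := integral_bilinear_hasLineDerivAt_right_eq_neg_left_of_integrable
    (μ := (volume : Measure (Fin m → ℝ))) (f := f) (f' := f') (g := ψ)
    (g' := fun x => fderiv ℝ ψ x v) (v := v) (B := ContinuousLinearMap.mul ℝ ℝ)
    ?_ ?_ ?_ (fun x _ => hf x) (fun x _ => (hd x).hasFDerivAt.hasLineDerivAt v)
  · simpa [hl] using this
  · have : Integrable (fun x => f' x * ψ x) :=
      (hf'c.mul hψ.continuous).integrable_of_hasCompactSupport hc.mul_left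
    simpa using this
  · have : Integrable (fun x => f x * fderiv ℝ ψ x v) :=
      (hfc.mul hcont).integrable_of_hasCompactSupport hcs.mul_left
    simpa using this
  · have : Integrable (fun x => f x * ψ x) :=
      (hfc.mul hψ.continuous).integrable_of_hasCompactSupport hc.mul_left
    simpa using this

lemma rig_cm_lin_smul (X : Fin m → Matrix (Fin m) (Fin m) ℝ) (ε : ℝ) (y : Fin m → ℝ) :
    rig_lin X (ε • y) = ε • rig_lin X y := by
  simp [rig_lin, Finset.smul_sum, smul_smul]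

lemma rig_cm_lin_add (X : Fin m → Matrix (Fin m) (Fin m) ℝ) (x y : Fin m → ℝ) :
    rig_lin X (x + y) = rig_lin X x + rig_lin X y := by
  simp [rig_lin, add_smul, Finset.sum_add_distrib]

lemma rig_cm_lin_single (X : Fin m → Matrix (Fin m) (Fin m) ℝ) (r : Fin m) (c : ℝ) :
    rig_lin X (Pi.single r c) = c • X r := by
  unfold rig_lin
  rw [Finset.sum_eq_single r]
  · simp
  · intro b _ hb
    simp [Pi.single_eq_of_ne hb]
  · simp

lemma rig_cm_lin_apply (X : Fin m → Matrix (Fin m) (Fin m) ℝ) (y : Fin m → ℝ) (i k : Fin m) :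
    rig_lin X y i k = ∑ t, y t * X t i k := by
  simp [rig_lin, Matrix.sum_apply]

lemma rig_cm_lin_continuous (X : Fin m → Matrix (Fin m) (Fin m) ℝ) : Continuous (rig_lin X) := by
  unfold rig_lin
  fun_prop

lemma rig_cm_fsq_smul (c : ℝ) (M : Matrix (Fin m) (Fin m) ℝ) :
    rig_fsq (c • M) = c ^ 2 * rig_fsq M := by
  simp [rig_fsq, mul_pow, Finset.mul_sum]

lemma rig_cm_fsq_continuous : Continuous (rig_fsq (m := m)) := by
  unfold rig_fsq
  fun_prop

lemma rig_cm_lineDeriv_comp_smul {ψ : (Fin m → ℝ) → ℝ} (hd : Differentiable ℝ ψ) (c : ℝ)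
    (x v : Fin m → ℝ) :
    lineDeriv ℝ (fun x => ψ (c • x)) x v = c * lineDeriv ℝ ψ (c • x) v := by
  have h1 : HasFDerivAt (fun x : Fin m → ℝ => ψ (c • x))
      ((fderiv ℝ ψ (c • x)).comp (c • ContinuousLinearMap.id ℝ (Fin m → ℝ))) x :=
    (hd (c • x)).hasFDerivAt.comp x ((hasFDerivAt_id x).const_smul c)
  rw [(h1.hasLineDerivAt v).lineDeriv, (hd (c • x)).lineDeriv_eq_fderiv]
  simp

lemma rig_cm_scale {Jl : (Fin m → ℝ) → Matrix (Fin m) (Fin m) ℝ}
    (hWS : ∀ ψ : (Fin m → ℝ) → ℝ, ContDiff ℝ ∞ ψ → HasCompactSupport ψ → ∀ i r s : Fin m,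
      ∫ x, Jl x i s * lineDeriv ℝ ψ x (Pi.single r 1)
        = ∫ x, Jl x i r * lineDeriv ℝ ψ x (Pi.single s 1))
    {ψ : (Fin m → ℝ) → ℝ} (hψ : ContDiff ℝ ∞ ψ) (hc : HasCompactSupport ψ) (i r s : Fin m)
    {ε : ℝ} (hε : 0 < ε) :
    ∫ y, Jl (ε • y) i s * lineDeriv ℝ ψ y (Pi.single r 1)
      = ∫ y, Jl (ε • y) i r * lineDeriv ℝ ψ y (Pi.single s 1) := by
  have hd : Differentiable ℝ ψ := hψ.differentiable (by simp)
  have h := hWS (fun x => ψ (ε⁻¹ • x)) (hψ.comp (contDiff_const_smul _))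
    (hc.comp_smul (inv_ne_zero hε.ne')) i r s
  simp only [rig_cm_lineDeriv_comp_smul hd] at h
  have key : ∀ (k l : Fin m), ∫ y, Jl (ε • y) i k * lineDeriv ℝ ψ y (Pi.single l 1)
      = |(ε ^ Module.finrank ℝ (Fin m → ℝ))⁻¹| • (ε *
        ∫ x, Jl x i k * (ε⁻¹ * lineDeriv ℝ ψ (ε⁻¹ • x) (Pi.single l 1))) := by
    intro k l
    have := Measure.integral_comp_smul (volume : Measure (Fin m → ℝ))
      (fun x => Jl x i k * lineDeriv ℝ ψ (ε⁻¹ • x) (Pi.single l 1)) ε
    simp only [smul_smul, inv_mul_cancel₀ hε.ne', one_smul] at this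
    rw [this, ← integral_const_mul]
    congr 2
    ext x
    field_simp
  rw [key s r, key r s, h]

lemma rig_cm_expand_one {q : ℝ → ℝ} {q0 q1 q2 C δ : ℝ} (hδ : 0 < δ)
    (hq : ∀ a, |a| ≤ δ → |q a - (q0 + q1 * a + q2 * a ^ 2)| ≤ C * |a| ^ 3)
    {X : Fin m → Matrix (Fin m) (Fin m) ℝ}
    {Jl : (Fin m → ℝ) → Matrix (Fin m) (Fin m) ℝ} (hJc : Continuous Jl)
    (hJ : ∀ x, rig_IsMatFun q (rig_lin X x) (Jl x))
    {φ : (Fin m → ℝ) → ℝ} (hφ : Continuous φ) (hc : HasCompactSupport φ) (i k : Fin m) :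
    ∃ C' ε0 : ℝ, 0 < ε0 ∧ ∀ ε, 0 < ε → ε ≤ ε0 →
      |(∫ y, Jl (ε • y) i k * φ y) - (q0 * ((1 : Matrix (Fin m) (Fin m) ℝ) i k * ∫ y, φ y)
        + ε * (q1 * ∫ y, rig_lin X y i k * φ y)
        + ε ^ 2 * (q2 * ∫ y, (rig_lin X y * rig_lin X y) i k * φ y))| ≤ C' * ε ^ 3 := by
  obtain ⟨C0, hC0⟩ := hc.isCompact.exists_bound_of_continuousOn
    (f := fun y => rig_fsq (rig_lin X y))
    (rig_cm_fsq_continuous.comp (rig_cm_lin_continuous X)).continuousOn
  set N : ℝ := |C0| + 1 with hN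
  have hN1 : 1 ≤ N := by have := abs_nonneg C0; linarith
  have hN0 : 0 < N := by linarith
  have hbd : ∀ y ∈ tsupport φ, rig_fsq (rig_lin X y) ≤ N ^ 2 := by
    intro y hy
    have h1 := hC0 y hy
    rw [Real.norm_eq_abs, abs_of_nonneg (rig_fsq_nonneg _)] at h1
    have h2 : C0 ≤ |C0| := le_abs_self _
    nlinarith
  refine ⟨|C| * N ^ 3 * ∫ y, |φ y|, δ / N, by positivity, ?_⟩
  intro ε hε hε'
  have hεN : ε * N ≤ δ := by rwa [le_div_iff₀ hN0] at hε'
  have hAc : Continuous (fun y => rig_lin X y i k) := (rig_cm_lin_continuous X).matrix_elem i k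
  have hAAc : Continuous (fun y => (rig_lin X y * rig_lin X y) i k) :=
    ((rig_cm_lin_continuous X).matrix_mul (rig_cm_lin_continuous X)).matrix_elem i k
  have hJe : Continuous (fun y : Fin m → ℝ => Jl (ε • y) i k) :=
    (hJc.comp (continuous_const_smul ε)).matrix_elem i k
  have hI0 : Integrable φ := hφ.integrable_of_hasCompactSupport hc
  have hI1 : Integrable (fun y => Jl (ε • y) i k * φ y) :=
    (hJe.mul hφ).integrable_of_hasCompactSupport hc.mul_left
  have hI2 : Integrable (fun y => rig_lin X y i k * φ y) :=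
    (hAc.mul hφ).integrable_of_hasCompactSupport hc.mul_left
  have hI3 : Integrable (fun y => (rig_lin X y * rig_lin X y) i k * φ y) :=
    (hAAc.mul hφ).integrable_of_hasCompactSupport hc.mul_left
  have e : (∫ y, Jl (ε • y) i k * φ y) - (q0 * ((1 : Matrix (Fin m) (Fin m) ℝ) i k * ∫ y, φ y)
        + ε * (q1 * ∫ y, rig_lin X y i k * φ y)
        + ε ^ 2 * (q2 * ∫ y, (rig_lin X y * rig_lin X y) i k * φ y))
      = ∫ y, (Jl (ε • y) i k * φ y - (q0 * ((1 : Matrix (Fin m) (Fin m) ℝ) i k * φ y)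
        + ε * (q1 * (rig_lin X y i k * φ y))
        + ε ^ 2 * (q2 * ((rig_lin X y * rig_lin X y) i k * φ y)))) := by
    have hK0 : Integrable (fun y => q0 * ((1 : Matrix (Fin m) (Fin m) ℝ) i k * φ y)) :=
      (hI0.const_mul _).const_mul _
    have hK1 : Integrable (fun y => ε * (q1 * (rig_lin X y i k * φ y))) :=
      (hI2.const_mul _).const_mul _
    have hK2 : Integrable (fun y => ε ^ 2 * (q2 * ((rig_lin X y * rig_lin X y) i k * φ y))) :=
      (hI3.const_mul _).const_mul _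
    have hK01 : Integrable (fun y => q0 * ((1 : Matrix (Fin m) (Fin m) ℝ) i k * φ y)
        + ε * (q1 * (rig_lin X y i k * φ y))) := hK0.add hK1
    have hK012 : Integrable (fun y => q0 * ((1 : Matrix (Fin m) (Fin m) ℝ) i k * φ y)
        + ε * (q1 * (rig_lin X y i k * φ y))
        + ε ^ 2 * (q2 * ((rig_lin X y * rig_lin X y) i k * φ y))) := hK01.add hK2
    rw [integral_sub hI1 hK012, integral_add hK01 hK2, integral_add hK0 hK1]
    simp only [integral_const_mul]
  rw [e]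
  have hpt : ∀ y, ‖Jl (ε • y) i k * φ y - (q0 * ((1 : Matrix (Fin m) (Fin m) ℝ) i k * φ y)
        + ε * (q1 * (rig_lin X y i k * φ y))
        + ε ^ 2 * (q2 * ((rig_lin X y * rig_lin X y) i k * φ y)))‖
      ≤ |C| * N ^ 3 * ε ^ 3 * |φ y| := by
    intro y
    by_cases hy : y ∈ tsupport φ
    · have hA := hbd y hy
      have hsm : rig_fsq (rig_lin X (ε • y)) ≤ δ ^ 2 := by
        rw [rig_cm_lin_smul, rig_cm_fsq_smul]
        calc ε ^ 2 * rig_fsq (rig_lin X y) ≤ ε ^ 2 * N ^ 2 := by gcongr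
          _ = (ε * N) ^ 2 := by ring
          _ ≤ δ ^ 2 := by gcongr
      have ht := rig_isMatFun_taylor hq (hJ (ε • y)) hsm hδ
      have hent := (rig_entry_sq_le_fsq _ i k).trans ht
      have hle : C ^ 2 * rig_fsq (rig_lin X (ε • y)) ^ 3 ≤ (|C| * N ^ 3 * ε ^ 3) ^ 2 := by
        rw [rig_cm_lin_smul, rig_cm_fsq_smul]
        have h0 := rig_fsq_nonneg (rig_lin X y)
        calc C ^ 2 * (ε ^ 2 * rig_fsq (rig_lin X y)) ^ 3
            ≤ C ^ 2 * (ε ^ 2 * N ^ 2) ^ 3 := by gcongr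
          _ = (|C| * N ^ 3 * ε ^ 3) ^ 2 := by rw [mul_pow (|C| * N ^ 3), mul_pow |C|, sq_abs]; ring
      have habs := abs_le_of_sq_le_sq (hent.trans hle) (by positivity)
      have e2 : Jl (ε • y) i k * φ y - (q0 * ((1 : Matrix (Fin m) (Fin m) ℝ) i k * φ y)
        + ε * (q1 * (rig_lin X y i k * φ y))
        + ε ^ 2 * (q2 * ((rig_lin X y * rig_lin X y) i k * φ y)))
          = (Jl (ε • y) - (q0 • (1 : Matrix (Fin m) (Fin m) ℝ) + q1 • rig_lin X (ε • y)
            + q2 • (rig_lin X (ε • y) * rig_lin X (ε • y)))) i k * φ y := by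
        rw [rig_cm_lin_smul]
        simp only [Matrix.sub_apply, Matrix.add_apply, Matrix.smul_apply, smul_eq_mul,
          Matrix.smul_mul, Matrix.mul_smul]
        ring
      rw [e2, Real.norm_eq_abs, abs_mul]
      gcongr
    · have : φ y = 0 := image_eq_zero_of_notMem_tsupport hy
      simp [this]
  calc |∫ y, (Jl (ε • y) i k * φ y - (q0 * ((1 : Matrix (Fin m) (Fin m) ℝ) i k * φ y)
        + ε * (q1 * (rig_lin X y i k * φ y))
        + ε ^ 2 * (q2 * ((rig_lin X y * rig_lin X y) i k * φ y))))|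
      ≤ ∫ y, |C| * N ^ 3 * ε ^ 3 * |φ y| := by
        rw [← Real.norm_eq_abs]
        exact norm_integral_le_of_norm_le (hI0.abs.const_mul _) (Eventually.of_forall hpt)
    _ = |C| * N ^ 3 * (∫ y, |φ y|) * ε ^ 3 := by rw [integral_const_mul]; ring

lemma rig_cm_hasLineDerivAt_lin (X : Fin m → Matrix (Fin m) (Fin m) ℝ) (i s r : Fin m)
    (x : Fin m → ℝ) :
    HasLineDerivAt ℝ (fun y => rig_lin X y i s) (X r i s) x (Pi.single r 1) := by
  unfold HasLineDerivAt
  have e : (fun t : ℝ => rig_lin X (x + t • Pi.single r 1) i s)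
      = fun t => rig_lin X x i s + t * X r i s := by
    ext t
    rw [rig_cm_lin_add, rig_cm_lin_smul, rig_cm_lin_single]
    simp
  rw [e]
  simpa using ((hasDerivAt_id (0 : ℝ)).mul_const (X r i s)).const_add (rig_lin X x i s)

lemma rig_cm_hasLineDerivAt_lin_sq (X : Fin m → Matrix (Fin m) (Fin m) ℝ) (i s r : Fin m)
    (x : Fin m → ℝ) :
    HasLineDerivAt ℝ (fun y => (rig_lin X y * rig_lin X y) i s)
      ((X r * rig_lin X x + rig_lin X x * X r) i s) x (Pi.single r 1) := by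
  unfold HasLineDerivAt
  have e : (fun t : ℝ => (rig_lin X (x + t • Pi.single r 1) * rig_lin X (x + t • Pi.single r 1)) i s)
      = fun t => (rig_lin X x * rig_lin X x) i s
        + t * (X r * rig_lin X x + rig_lin X x * X r) i s + t ^ 2 * (X r * X r) i s := by
    ext t
    rw [rig_cm_lin_add, rig_cm_lin_smul, rig_cm_lin_single]
    simp only [one_smul, Matrix.add_mul, Matrix.mul_add, Matrix.smul_mul, Matrix.mul_smul,
      Matrix.add_apply, Matrix.smul_apply, smul_eq_mul]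
    ring
  rw [e]
  have h1 : HasDerivAt (fun t : ℝ => t * (X r * rig_lin X x + rig_lin X x * X r) i s)
      ((X r * rig_lin X x + rig_lin X x * X r) i s) 0 := by
    simpa using (hasDerivAt_id (0 : ℝ)).mul_const ((X r * rig_lin X x + rig_lin X x * X r) i s)
  have h2 : HasDerivAt (fun t : ℝ => t ^ 2 * (X r * X r) i s) 0 0 := by
    simpa using ((hasDerivAt_id (0 : ℝ)).pow 2).mul_const ((X r * X r) i s)
  have h3 := (h1.const_add ((rig_lin X x * rig_lin X x) i s)).add h2
  rw [add_zero] at h3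
  exact h3

lemma rig_comm_of_weak {q : ℝ → ℝ}
    (taylor : ∃ q0 q1 q2 C δ : ℝ, q1 ≠ 0 ∧ q2 ≠ 0 ∧ 0 < δ ∧
      ∀ a, |a| ≤ δ → |q a - (q0 + q1 * a + q2 * a ^ 2)| ≤ C * |a| ^ 3)
    {X : Fin m → Matrix (Fin m) (Fin m) ℝ} (_hX : ∀ r, (X r).IsSymm)
    {Jl : (Fin m → ℝ) → Matrix (Fin m) (Fin m) ℝ} (hJc : Continuous Jl)
    (hJ : ∀ x, rig_IsMatFun q (rig_lin X x) (Jl x))
    (hWS : ∀ ψ : (Fin m → ℝ) → ℝ, ContDiff ℝ ∞ ψ → HasCompactSupport ψ → ∀ i r s : Fin m,
      ∫ x, Jl x i s * lineDeriv ℝ ψ x (Pi.single r 1)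
        = ∫ x, Jl x i r * lineDeriv ℝ ψ x (Pi.single s 1)) :
    (∀ r s i, X r i s = X s i r) ∧ ∀ r s, X r * X s = X s * X r := by
  obtain ⟨q0, q1, q2, C, δ, hq1, hq2, hδ, hq⟩ := taylor
  have hmain : ∀ ψ : (Fin m → ℝ) → ℝ, ContDiff ℝ ∞ ψ → HasCompactSupport ψ → ∀ i r s : Fin m,
      (∫ y, rig_lin X y i s * lineDeriv ℝ ψ y (Pi.single r 1)
        = ∫ y, rig_lin X y i r * lineDeriv ℝ ψ y (Pi.single s 1)) ∧
      (∫ y, (rig_lin X y * rig_lin X y) i s * lineDeriv ℝ ψ y (Pi.single r 1)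
        = ∫ y, (rig_lin X y * rig_lin X y) i r * lineDeriv ℝ ψ y (Pi.single s 1)) := by
    intro ψ hψ hc i r s
    have hd : Differentiable ℝ ψ := hψ.differentiable (by simp)
    have hl : ∀ v : Fin m → ℝ, (fun y => lineDeriv ℝ ψ y v) = fun y => fderiv ℝ ψ y v := fun v => by
      ext y; exact (hd y).lineDeriv_eq_fderiv
    have hcont : ∀ v : Fin m → ℝ, Continuous (fun y => lineDeriv ℝ ψ y v) := fun v => by
      rw [hl v]; exact (hψ.continuous_fderiv (by simp)).clm_apply continuous_const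
    have hcs : ∀ v : Fin m → ℝ, HasCompactSupport (fun y => lineDeriv ℝ ψ y v) := fun v => by
      rw [hl v]; exact hc.fderiv_apply (𝕜 := ℝ) v
    obtain ⟨C1, e1, he1, h1⟩ := rig_cm_expand_one hδ hq hJc hJ (hcont (Pi.single r 1)) (hcs _) i s
    obtain ⟨C2, e2, he2, h2⟩ := rig_cm_expand_one hδ hq hJc hJ (hcont (Pi.single s 1)) (hcs _) i r
    have h3 := rig_cm_poly3_zero
      (a0 := q0 * ((1 : Matrix (Fin m) (Fin m) ℝ) i s * ∫ y, lineDeriv ℝ ψ y (Pi.single r 1))
        - q0 * ((1 : Matrix (Fin m) (Fin m) ℝ) i r * ∫ y, lineDeriv ℝ ψ y (Pi.single s 1)))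
      (a1 := q1 * (∫ y, rig_lin X y i s * lineDeriv ℝ ψ y (Pi.single r 1))
        - q1 * ∫ y, rig_lin X y i r * lineDeriv ℝ ψ y (Pi.single s 1))
      (a2 := q2 * (∫ y, (rig_lin X y * rig_lin X y) i s * lineDeriv ℝ ψ y (Pi.single r 1))
        - q2 * ∫ y, (rig_lin X y * rig_lin X y) i r * lineDeriv ℝ ψ y (Pi.single s 1))
      (C := C1 + C2) (ε0 := min e1 e2) (lt_min he1 he2) ?_
    · obtain ⟨-, ha1, ha2⟩ := h3
      rw [← mul_sub] at ha1 ha2
      exact ⟨sub_eq_zero.1 ((mul_eq_zero.1 ha1).resolve_left hq1),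
        sub_eq_zero.1 ((mul_eq_zero.1 ha2).resolve_left hq2)⟩
    · intro ε hε hε'
      have hs := rig_cm_scale hWS hψ hc i r s hε
      have h1' := h1 ε hε (hε'.trans (min_le_left _ _))
      have h2' := h2 ε hε (hε'.trans (min_le_right _ _))
      rw [hs] at h1'
      rw [abs_le] at h1' h2' ⊢
      constructor <;> nlinarith [h1'.1, h1'.2, h2'.1, h2'.2]
  -- first order
  have hsym : ∀ r s i, X r i s = X s i r := by
    intro r s i
    let b : ContDiffBump (0 : Fin m → ℝ) := ⟨1, 2, one_pos, one_lt_two⟩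
    have hb := (hmain b b.contDiff b.hasCompactSupport i r s).1
    rw [rig_cm_ibp ((rig_cm_lin_continuous X).matrix_elem i s) continuous_const
        (fun x => rig_cm_hasLineDerivAt_lin X i s r x) b.contDiff b.hasCompactSupport,
      rig_cm_ibp ((rig_cm_lin_continuous X).matrix_elem i r) continuous_const
        (fun x => rig_cm_hasLineDerivAt_lin X i r s x) b.contDiff b.hasCompactSupport,
      integral_const_mul, integral_const_mul] at hb
    have hpos : 0 < ∫ x, b x := b.integral_pos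
    have := neg_injective hb
    exact mul_right_cancel₀ hpos.ne' this
  refine ⟨hsym, ?_⟩
  intro r s
  -- second order
  have hcontF : ∀ (r s i : Fin m), Continuous
      (fun x => (X r * rig_lin X x + rig_lin X x * X r) i s) := fun r s i =>
    ((continuous_const.matrix_mul (rig_cm_lin_continuous X)).add
      ((rig_cm_lin_continuous X).matrix_mul continuous_const)).matrix_elem i s
  have hpt : ∀ (i : Fin m) (y : Fin m → ℝ),
      (X r * rig_lin X y + rig_lin X y * X r) i s = (X s * rig_lin X y + rig_lin X y * X s) i r := by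
    intro i
    have hc0 : Continuous (fun y => (X r * rig_lin X y + rig_lin X y * X r) i s
        - (X s * rig_lin X y + rig_lin X y * X s) i r) := (hcontF r s i).sub (hcontF s r i)
    have hae := ae_eq_zero_of_integral_contDiff_smul_eq_zero
      (μ := (volume : Measure (Fin m → ℝ))) hc0.locallyIntegrable (by
        intro ψ hψ hc
        have hb := (hmain ψ hψ hc i r s).2
        rw [rig_cm_ibp (((rig_cm_lin_continuous X).matrix_mul (rig_cm_lin_continuous X)).matrix_elem i s)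
            (hcontF r s i) (fun x => rig_cm_hasLineDerivAt_lin_sq X i s r x) hψ hc,
          rig_cm_ibp (((rig_cm_lin_continuous X).matrix_mul (rig_cm_lin_continuous X)).matrix_elem i r)
            (hcontF s r i) (fun x => rig_cm_hasLineDerivAt_lin_sq X i r s x) hψ hc] at hb
        have hb' := neg_injective hb
        have hi1 : Integrable (fun x => (X r * rig_lin X x + rig_lin X x * X r) i s * ψ x) :=
          ((hcontF r s i).mul hψ.continuous).integrable_of_hasCompactSupport hc.mul_left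
        have hi2 : Integrable (fun x => (X s * rig_lin X x + rig_lin X x * X s) i r * ψ x) :=
          ((hcontF s r i).mul hψ.continuous).integrable_of_hasCompactSupport hc.mul_left
        have : (fun x => ψ x • ((X r * rig_lin X x + rig_lin X x * X r) i s
            - (X s * rig_lin X x + rig_lin X x * X s) i r))
            = fun x => (X r * rig_lin X x + rig_lin X x * X r) i s * ψ x
              - (X s * rig_lin X x + rig_lin X x * X s) i r * ψ x := by
          ext x; simp only [smul_eq_mul]; ring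
        rw [this, integral_sub hi1 hi2, hb', sub_self])
    have heq := (Continuous.ae_eq_iff_eq (volume : Measure (Fin m → ℝ)) hc0 continuous_const).1 hae
    intro y
    have := congrFun heq y
    simpa [sub_eq_zero] using this
  -- algebra
  have hAX : ∀ (i : Fin m) (y : Fin m → ℝ), (rig_lin X y * X r) i s = (rig_lin X y * X s) i r := by
    intro i y
    simp only [Matrix.mul_apply]
    exact Finset.sum_congr rfl fun k _ => by rw [hsym r s k]
  have hXA : ∀ (a b i : Fin m) (y : Fin m → ℝ), (X a * rig_lin X y) i b = ((X a * X b) *ᵥ y) i := by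
    intro a b i y
    simp only [Matrix.mul_apply, Matrix.mulVec, dotProduct, rig_cm_lin_apply, Finset.mul_sum,
      Finset.sum_mul]
    rw [Finset.sum_comm]
    refine Finset.sum_congr rfl fun t _ => Finset.sum_congr rfl fun k _ => ?_
    rw [hsym t b k]
    ring
  have hfin : ∀ y : Fin m → ℝ, (X r * X s) *ᵥ y = (X s * X r) *ᵥ y := by
    intro y
    ext i
    have h := hpt i y
    simp only [Matrix.add_apply] at h
    rw [hAX i y] at h
    rw [← hXA r s i y, ← hXA s r i y]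
    linarith
  ext i k
  have := congrFun (hfin (Pi.single k 1)) i
  simpa using this

end Claimed.Agent.R260
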