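/-
Row 260, package R6 (rigidity).  The explicit product map `S0(x) = U (sigma_i t(sigma_i (U^T x)_i))_i`,
its moments and law, and the identification of the `L^2(gamma)` limit of the centred transport maps
by the Gaussian Poincare inequality (applied to `T_j - S0^R`, `S0^R` a Lipschitz truncation).
Leaf file.  Skeleton helper30, proofs helper45 (helper lemmas have the prefix `rigm`).
-/
import Claimed.Agent.R260.RigMat
import Claimed.Agent.R260.RigGauss

set_option autoImplicit false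

open MeasureTheory ProbabilityTheory Matrix Filter Topology
open scoped BigOperators ENNReal NNReal

namespace Claimed.Agent.R260

variable {m : ℕ}

/-! ### The exponential law -/

lemma rigm_expDensity_measurable : Measurable Claims.C0429.oneSidedExpDensity := by
  unfold Claims.C0429.oneSidedExpDensity
  exact Measurable.ite measurableSet_Ici (by fun_prop) measurable_const

lemma rigm_expDensity_nonneg (u : ℝ) : 0 ≤ Claims.C0429.oneSidedExpDensity u := by
  unfold Claims.C0429.oneSidedExpDensity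
  split_ifs
  · positivity
  · exact le_rfl

lemma rigm_expDensity_eq_indicator (φ : ℝ → ℝ) :
    (fun u => Claims.C0429.oneSidedExpDensity u * φ u)
      = (Set.Ici (0 : ℝ)).indicator (fun u => φ u * Real.exp (-u)) := by
  funext u
  unfold Claims.C0429.oneSidedExpDensity
  by_cases h : 0 ≤ u
  · rw [Set.indicator_of_mem (show u ∈ Set.Ici (0 : ℝ) from h), if_pos h, mul_comm]
  · rw [Set.indicator_of_notMem (show u ∉ Set.Ici (0 : ℝ) from h), if_neg h, zero_mul]

lemma rigm_integral_exp (φ : ℝ → ℝ) :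
    ∫ u, φ u ∂(volume.withDensity
      (fun u => ENNReal.ofReal (Claims.C0429.oneSidedExpDensity u)))
      = ∫ u in Set.Ioi (0 : ℝ), φ u * Real.exp (-u) := by
  rw [integral_withDensity_eq_integral_toReal_smul
    (rigm_expDensity_measurable.ennreal_ofReal) (Eventually.of_forall fun _ => ENNReal.ofReal_lt_top)]
  simp only [ENNReal.toReal_ofReal (rigm_expDensity_nonneg _), smul_eq_mul]
  rw [rigm_expDensity_eq_indicator, integral_indicator measurableSet_Ici,
    integral_Ici_eq_integral_Ioi]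

lemma rigm_integrable_exp_iff (φ : ℝ → ℝ) :
    Integrable φ (volume.withDensity
      (fun u => ENNReal.ofReal (Claims.C0429.oneSidedExpDensity u)))
      ↔ IntegrableOn (fun u => φ u * Real.exp (-u)) (Set.Ioi (0 : ℝ)) := by
  rw [integrable_withDensity_iff_integrable_smul'
    (rigm_expDensity_measurable.ennreal_ofReal) (Eventually.of_forall fun _ => ENNReal.ofReal_lt_top)]
  simp only [ENNReal.toReal_ofReal (rigm_expDensity_nonneg _), smul_eq_mul]
  rw [rigm_expDensity_eq_indicator, integrable_indicator_iff measurableSet_Ici,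
    integrableOn_Ici_iff_integrableOn_Ioi]

lemma rigm_gamma_integrable (n : ℕ) :
    IntegrableOn (fun u : ℝ => u ^ n * Real.exp (-u)) (Set.Ioi (0 : ℝ)) := by
  have h := Real.GammaIntegral_convergent (s := (n : ℝ) + 1) (by positivity)
  refine h.congr_fun (fun u hu => ?_) measurableSet_Ioi
  simp only [add_sub_cancel_right, Real.rpow_natCast]
  ring

lemma rigm_gamma_integral (n : ℕ) :
    ∫ u in Set.Ioi (0 : ℝ), u ^ n * Real.exp (-u) = (n.factorial : ℝ) := by
  rw [← Real.Gamma_nat_eq_factorial, Real.Gamma_eq_integral (by positivity)]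
  refine setIntegral_congr_fun measurableSet_Ioi (fun u hu => ?_)
  simp only [add_sub_cancel_right, Real.rpow_natCast]
  ring

/-! ### One-dimensional facts on `t` -/

lemma rigm_t_continuous {q t : ℝ → ℝ} (hs : RigScalar q t) : Continuous t :=
  continuous_iff_continuousAt.2 fun a => (hs.t_deriv a).continuousAt

lemma rigm_t_integrable_pow {q t : ℝ → ℝ} (hs : RigScalar q t) (n : ℕ) :
    Integrable (fun a => t a ^ n) (gaussianReal 0 1) := by
  have h1 : Integrable (fun u : ℝ => u ^ n) ((gaussianReal 0 1).map t) := by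
    rw [hs.t_law, rigm_integrable_exp_iff]
    exact rigm_gamma_integrable n
  exact (integrable_map_measure (continuous_pow n).aestronglyMeasurable
    (rigm_t_continuous hs).aemeasurable).1 h1

lemma rigm_t_integral_pow {q t : ℝ → ℝ} (hs : RigScalar q t) (n : ℕ) :
    ∫ a, t a ^ n ∂(gaussianReal 0 1) = (n.factorial : ℝ) := by
  have h1 : ∫ u : ℝ, u ^ n ∂((gaussianReal 0 1).map t) = (n.factorial : ℝ) := by
    rw [hs.t_law, rigm_integral_exp]
    exact rigm_gamma_integral n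
  rw [← h1, integral_map (rigm_t_continuous hs).aemeasurable
    (continuous_pow n).aestronglyMeasurable]

lemma rigm_mp_sign {σ : ℝ} (h : σ = 1 ∨ σ = -1) :
    MeasurePreserving (fun a : ℝ => σ * a) (gaussianReal 0 1) (gaussianReal 0 1) := by
  rcases h with rfl | rfl
  · simp only [one_mul]
    exact MeasurePreserving.id (gaussianReal 0 1)
  · refine ⟨by fun_prop, ?_⟩
    have := gaussianReal_map_neg (μ := 0) (v := 1)
    simpa using this

lemma rigm_integral_sign {σ : ℝ} (h : σ = 1 ∨ σ = -1) (φ : ℝ → ℝ) :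
    ∫ a, φ (σ * a) ∂(gaussianReal 0 1) = ∫ a, φ a ∂(gaussianReal 0 1) := by
  have hσ : σ ≠ 0 := by rcases h with rfl | rfl <;> norm_num
  exact (rigm_mp_sign h).integral_comp (measurableEmbedding_mulLeft₀ hσ) φ

lemma rigm_integrable_sign {σ : ℝ} (h : σ = 1 ∨ σ = -1) {φ : ℝ → ℝ}
    (hφ : Integrable φ (gaussianReal 0 1)) :
    Integrable (fun a => φ (σ * a)) (gaussianReal 0 1) :=
  (rigm_mp_sign h).integrable_comp_of_integrable hφ

lemma rigm_sign_sq {σ : ℝ} (h : σ = 1 ∨ σ = -1) : σ * σ = 1 := by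
  rcases h with rfl | rfl <;> norm_num


/-! ### Definitions -/

/-- The product map in eigen-coordinates. -/
def rig_S (t : ℝ → ℝ) (σ : Fin m → ℝ) (y : Fin m → ℝ) : Fin m → ℝ :=
  fun i => σ i * t (σ i * y i)

/-- The product map in the original coordinates. -/
def rig_S0 (t : ℝ → ℝ) (σ : Fin m → ℝ) (U : Matrix (Fin m) (Fin m) ℝ) (x : Fin m → ℝ) :
    Fin m → ℝ :=
  U *ᵥ rig_S t σ (Uᵀ *ᵥ x)

/-- Centring of a map with respect to the Gaussian measure. -/
noncomputable def rig_ctr (F : (Fin m → ℝ) → (Fin m → ℝ)) (x : Fin m → ℝ) : Fin m → ℝ :=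
  fun i => F x i - ∫ y, F y i ∂(rig_gam m)

/-- The density of the product of `m` standard exponential laws. -/
noncomputable def rig_pe (u : Fin m → ℝ) : ℝ := ∏ i, Claims.C0429.oneSidedExpDensity (u i)

lemma rig_ctr_measurable {F : (Fin m → ℝ) → (Fin m → ℝ)} (hF : Measurable F) :
    Measurable (rig_ctr F) := by
  refine measurable_pi_iff.2 fun i => ?_
  unfold rig_ctr
  exact ((measurable_pi_apply i).comp hF).sub_const _

lemma rig_ctr_eq_sub (F : (Fin m → ℝ) → (Fin m → ℝ)) (x : Fin m → ℝ) :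
    rig_ctr F x = F x - fun i => ∫ y, F y i ∂(rig_gam m) := by
  ext i; simp [rig_ctr]

lemma rig_ctr_sq_integrable {F : (Fin m → ℝ) → (Fin m → ℝ)} (hF : Measurable F)
    (hF2 : ∀ i, Integrable (fun x => F x i ^ 2) (rig_gam m)) (i : Fin m) :
    Integrable (fun x => rig_ctr F x i ^ 2) (rig_gam m) := by
  have hm : Measurable (fun x => F x i) := (measurable_pi_apply i).comp hF
  have h1 : MemLp (fun x => F x i) 2 (rig_gam m) :=
    (memLp_two_iff_integrable_sq hm.aestronglyMeasurable).2 (hF2 i)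
  have h2 : MemLp (fun x => F x i - ∫ y, F y i ∂(rig_gam m)) 2 (rig_gam m) :=
    h1.sub (memLp_const _)
  exact (memLp_two_iff_integrable_sq h2.aestronglyMeasurable).1 h2

lemma rig_lip_coord {T : (Fin m → ℝ) → (Fin m → ℝ)} (hT : ∃ K : ℝ≥0, LipschitzWith K T)
    (i : Fin m) : ∃ K : ℝ≥0, LipschitzWith K (fun x => T x i) := by
  obtain ⟨K, hK⟩ := hT
  exact ⟨1 * K, (LipschitzWith.eval i).comp hK⟩

/-! ### General facts on `rig_S0` -/

lemma rigm_S0_apply (θ : ℝ → ℝ) (σ : Fin m → ℝ) (U : Matrix (Fin m) (Fin m) ℝ) (x : Fin m → ℝ)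
    (i : Fin m) :
    rig_S0 θ σ U x i = ∑ a, U i a * (σ a * θ (σ a * (Uᵀ *ᵥ x) a)) := by
  simp [rig_S0, rig_S, Matrix.mulVec, dotProduct]

lemma rigm_S0_continuous {θ : ℝ → ℝ} (hθ : Continuous θ) (σ : Fin m → ℝ)
    (U : Matrix (Fin m) (Fin m) ℝ) : Continuous (rig_S0 θ σ U) := by
  have h1 : Continuous (fun x : Fin m → ℝ => Uᵀ *ᵥ x) := by fun_prop
  have h2 : Continuous (rig_S θ σ) := by
    unfold rig_S
    fun_prop
  have h3 : Continuous (fun x : Fin m → ℝ => U *ᵥ x) := by fun_prop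
  exact h3.comp (h2.comp h1)

lemma rig_S0_continuous {q t : ℝ → ℝ} (hs : RigScalar q t) (σ : Fin m → ℝ)
    (U : Matrix (Fin m) (Fin m) ℝ) : Continuous (rig_S0 t σ U) :=
  rigm_S0_continuous (rigm_t_continuous hs) σ U

lemma rigm_transpose_orth {U : Matrix (Fin m) (Fin m) ℝ} (hU : U * Uᵀ = 1) : Uᵀ * U = 1 :=
  mul_eq_one_comm.mp hU

lemma rigm_mp_rot {U : Matrix (Fin m) (Fin m) ℝ} (hU : U * Uᵀ = 1) :
    MeasurePreserving (fun x : Fin m → ℝ => Uᵀ *ᵥ x) (rig_gam m) (rig_gam m) := by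
  refine ⟨by fun_prop, rig_gam_map_orth ?_⟩
  rw [Matrix.transpose_transpose]
  exact rigm_transpose_orth hU

lemma rigm_integral_rot {U : Matrix (Fin m) (Fin m) ℝ} (hU : U * Uᵀ = 1)
    {g : (Fin m → ℝ) → ℝ} (hg : Measurable g) :
    ∫ x, g (Uᵀ *ᵥ x) ∂(rig_gam m) = ∫ y, g y ∂(rig_gam m) := by
  have h := rigm_mp_rot hU
  conv_rhs => rw [← h.map_eq]
  rw [integral_map h.measurable.aemeasurable hg.aestronglyMeasurable]

lemma rigm_integrable_rot {U : Matrix (Fin m) (Fin m) ℝ} (hU : U * Uᵀ = 1)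
    {g : (Fin m → ℝ) → ℝ} (hg : Integrable g (rig_gam m)) :
    Integrable (fun x => g (Uᵀ *ᵥ x)) (rig_gam m) :=
  (rigm_mp_rot hU).integrable_comp_of_integrable hg


/-! ### Moments of the product map -/

/-- one coordinate of the product map, centred -/
def rigmW (t : ℝ → ℝ) (s : ℝ) (b : ℝ) : ℝ := s * t (s * b) - s

lemma rigmW_continuous {q t : ℝ → ℝ} (hs : RigScalar q t) (s : ℝ) : Continuous (rigmW t s) := by
  have := rigm_t_continuous hs
  unfold rigmW
  fun_prop

lemma rigm_tau_integrable {q t : ℝ → ℝ} (hs : RigScalar q t) {s : ℝ} (h : s = 1 ∨ s = -1) :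
    Integrable (fun b => s * t (s * b)) (gaussianReal 0 1) := by
  have h1 := rigm_t_integrable_pow hs 1
  simp only [pow_one] at h1
  exact (rigm_integrable_sign h h1).const_mul s

lemma rigm_tau_integral {q t : ℝ → ℝ} (hs : RigScalar q t) {s : ℝ} (h : s = 1 ∨ s = -1) :
    ∫ b, s * t (s * b) ∂(gaussianReal 0 1) = s := by
  have h1 := rigm_t_integral_pow hs 1
  simp only [pow_one, Nat.factorial_one, Nat.cast_one] at h1
  rw [integral_const_mul, rigm_integral_sign h t, h1, mul_one]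

lemma rigm_tau_sq_integrable {q t : ℝ → ℝ} (hs : RigScalar q t) {s : ℝ} (h : s = 1 ∨ s = -1) :
    Integrable (fun b => (s * t (s * b)) ^ 2) (gaussianReal 0 1) := by
  have h1 := (rigm_integrable_sign h (rigm_t_integrable_pow hs 2)).const_mul (s ^ 2)
  refine h1.congr (Eventually.of_forall fun b => ?_)
  simp only [mul_pow]

lemma rigm_tau_sq_integral {q t : ℝ → ℝ} (hs : RigScalar q t) {s : ℝ} (h : s = 1 ∨ s = -1) :
    ∫ b, (s * t (s * b)) ^ 2 ∂(gaussianReal 0 1) = 2 := by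
  have h1 := rigm_t_integral_pow hs 2
  have h2 := rigm_sign_sq h
  simp only [mul_pow]
  rw [integral_const_mul, rigm_integral_sign h (fun a => t a ^ 2), h1]
  have : s ^ 2 = 1 := by rw [sq]; exact h2
  rw [this]
  norm_num

lemma rigmW_integrable {q t : ℝ → ℝ} (hs : RigScalar q t) {s : ℝ} (h : s = 1 ∨ s = -1) :
    Integrable (rigmW t s) (gaussianReal 0 1) :=
  (rigm_tau_integrable hs h).sub (integrable_const s)

lemma rigmW_integral {q t : ℝ → ℝ} (hs : RigScalar q t) {s : ℝ} (h : s = 1 ∨ s = -1) :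
    ∫ b, rigmW t s b ∂(gaussianReal 0 1) = 0 := by
  unfold rigmW
  rw [integral_sub (rigm_tau_integrable hs h) (integrable_const s), rigm_tau_integral hs h]
  simp

lemma rigmW_sq_eq (t : ℝ → ℝ) (s b : ℝ) :
    rigmW t s b * rigmW t s b = (s * t (s * b)) ^ 2 - (2 * s) * (s * t (s * b)) + s ^ 2 := by
  unfold rigmW
  ring

lemma rigmW_sq_integrable {q t : ℝ → ℝ} (hs : RigScalar q t) {s : ℝ} (h : s = 1 ∨ s = -1) :
    Integrable (fun b => rigmW t s b * rigmW t s b) (gaussianReal 0 1) := by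
  simp only [rigmW_sq_eq]
  exact ((rigm_tau_sq_integrable hs h).sub ((rigm_tau_integrable hs h).const_mul _)).add
    (integrable_const _)

lemma rigmW_sq_integral {q t : ℝ → ℝ} (hs : RigScalar q t) {s : ℝ} (h : s = 1 ∨ s = -1) :
    ∫ b, rigmW t s b * rigmW t s b ∂(gaussianReal 0 1) = 1 := by
  simp only [rigmW_sq_eq]
  have i1 := rigm_tau_sq_integrable hs h
  have i2 : Integrable (fun b => (2 * s) * (s * t (s * b))) (gaussianReal 0 1) :=
    (rigm_tau_integrable hs h).const_mul _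
  have e1 : ∫ b, ((s * t (s * b)) ^ 2 - (2 * s) * (s * t (s * b)) + s ^ 2) ∂(gaussianReal 0 1)
      = (∫ b, (s * t (s * b)) ^ 2 ∂(gaussianReal 0 1)
        - ∫ b, (2 * s) * (s * t (s * b)) ∂(gaussianReal 0 1)) + s ^ 2 := by
    have a1 := integral_add (i1.sub i2) (integrable_const (μ := gaussianReal 0 1) (s ^ 2))
    have a2 := integral_sub i1 i2
    simp only [Pi.sub_apply] at a1
    rw [a1, a2]
    simp
  rw [e1, integral_const_mul, rigm_tau_sq_integral hs h, rigm_tau_integral hs h]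
  have h2 := rigm_sign_sq h
  nlinarith

lemma rigm_coord_memLp {θ : ℝ → ℝ} (hm : Measurable θ)
    (h2 : Integrable (fun a => θ a ^ 2) (gaussianReal 0 1)) (a : Fin m) :
    MemLp (fun y : Fin m → ℝ => θ (y a)) 2 (rig_gam m) :=
  (memLp_two_iff_integrable_sq (hm.comp (measurable_pi_apply a)).aestronglyMeasurable).2
    (rig_integrable_coord (h := fun b => θ b ^ 2) h2 a)

lemma rig_S0_sq_integrable {q t : ℝ → ℝ} (hs : RigScalar q t) {σ : Fin m → ℝ}
    (hσ : ∀ i, σ i = 1 ∨ σ i = -1) {U : Matrix (Fin m) (Fin m) ℝ} (hU : U * Uᵀ = 1) (i : Fin m) :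
    Integrable (fun x => rig_S0 t σ U x i ^ 2) (rig_gam m) := by
  have hc := rigm_t_continuous hs
  have h1 : MemLp (fun y : Fin m → ℝ => ∑ a, U i a * (σ a * t (σ a * y a))) 2 (rig_gam m) := by
    refine memLp_finsetSum _ fun a _ => ?_
    exact (rigm_coord_memLp (θ := fun b => σ a * t (σ a * b)) (by fun_prop)
      (rigm_tau_sq_integrable hs (hσ a)) a).const_mul (U i a)
  have h2 := rigm_integrable_rot hU h1.integrable_sq
  refine h2.congr (Eventually.of_forall fun x => ?_)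
  simp only [rigm_S0_apply]

lemma rigm_S0_mean {q t : ℝ → ℝ} (hs : RigScalar q t) {σ : Fin m → ℝ}
    (hσ : ∀ i, σ i = 1 ∨ σ i = -1) {U : Matrix (Fin m) (Fin m) ℝ} (hU : U * Uᵀ = 1) (i : Fin m) :
    ∫ x, rig_S0 t σ U x i ∂(rig_gam m) = ∑ a, U i a * σ a := by
  have hc := rigm_t_continuous hs
  simp only [rigm_S0_apply]
  rw [rigm_integral_rot hU (g := fun y => ∑ a, U i a * (σ a * t (σ a * y a)))
    (Continuous.measurable (by fun_prop)), integral_finsetSum]
  · refine Finset.sum_congr rfl fun a _ => ?_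
    rw [integral_const_mul, rig_integral_coord (fun b => σ a * t (σ a * b)) a,
      rigm_tau_integral hs (hσ a)]
  · intro a _
    exact (rig_integrable_coord (h := fun b => σ a * t (σ a * b))
      (rigm_tau_integrable hs (hσ a)) a).const_mul _

lemma rigm_ctr_S0 {q t : ℝ → ℝ} (hs : RigScalar q t) {σ : Fin m → ℝ}
    (hσ : ∀ i, σ i = 1 ∨ σ i = -1) {U : Matrix (Fin m) (Fin m) ℝ} (hU : U * Uᵀ = 1)
    (x : Fin m → ℝ) (i : Fin m) :
    rig_ctr (rig_S0 t σ U) x i = ∑ a, U i a * rigmW t (σ a) ((Uᵀ *ᵥ x) a) := by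
  unfold rig_ctr
  rw [rigm_S0_mean hs hσ hU, rigm_S0_apply, ← Finset.sum_sub_distrib]
  refine Finset.sum_congr rfl fun a _ => ?_
  unfold rigmW
  ring

/-- The covariance of the product map is the identity. -/
lemma rig_S0_cov {q t : ℝ → ℝ} (hs : RigScalar q t) {σ : Fin m → ℝ}
    (hσ : ∀ i, σ i = 1 ∨ σ i = -1) {U : Matrix (Fin m) (Fin m) ℝ} (hU : U * Uᵀ = 1)
    (i k : Fin m) :
    ∫ x, rig_ctr (rig_S0 t σ U) x i * rig_ctr (rig_S0 t σ U) x k ∂(rig_gam m)
      = (1 : Matrix (Fin m) (Fin m) ℝ) i k := by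
  have hWc := fun a => rigmW_continuous hs (σ a)
  simp only [rigm_ctr_S0 hs hσ hU]
  rw [rigm_integral_rot hU (g := fun y => (∑ a, U i a * rigmW t (σ a) (y a)) *
    (∑ a, U k a * rigmW t (σ a) (y a))) (Continuous.measurable (by fun_prop))]
  simp only [Finset.sum_mul_sum]
  have hint : ∀ a b, Integrable (fun y : Fin m → ℝ =>
      U i a * rigmW t (σ a) (y a) * (U k b * rigmW t (σ b) (y b))) (rig_gam m) := by
    intro a b
    have h1 : Integrable (fun y : Fin m → ℝ => rigmW t (σ a) (y a) * rigmW t (σ b) (y b))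
        (rig_gam m) := by
      by_cases hab : a = b
      · subst hab
        exact rig_integrable_coord (h := fun c => rigmW t (σ a) c * rigmW t (σ a) c)
          (rigmW_sq_integrable hs (hσ a)) a
      · exact rig_integrable_coord_mul (rigmW_integrable hs (hσ a)) (rigmW_integrable hs (hσ b)) hab
    refine (h1.const_mul (U i a * U k b)).congr (Eventually.of_forall fun y => ?_)
    ring
  rw [integral_finsetSum _ fun a _ => integrable_finsetSum _ fun b _ => hint a b]
  have hval : ∀ a, ∫ y, ∑ b, U i a * rigmW t (σ a) (y a) * (U k b * rigmW t (σ b) (y b))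
      ∂(rig_gam m) = U i a * U k a := by
    intro a
    rw [integral_finsetSum _ fun b _ => hint a b, Finset.sum_eq_single a]
    · have : ∀ y : Fin m → ℝ, U i a * rigmW t (σ a) (y a) * (U k a * rigmW t (σ a) (y a))
          = (U i a * U k a) * (rigmW t (σ a) (y a) * rigmW t (σ a) (y a)) := fun y => by ring
      simp only [this]
      rw [integral_const_mul, rig_integral_coord (fun c => rigmW t (σ a) c * rigmW t (σ a) c) a,
        rigmW_sq_integral hs (hσ a), mul_one]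
    · intro b _ hba
      have : ∀ y : Fin m → ℝ, U i a * rigmW t (σ a) (y a) * (U k b * rigmW t (σ b) (y b))
          = (U i a * U k b) * (rigmW t (σ a) (y a) * rigmW t (σ b) (y b)) := fun y => by ring
      simp only [this]
      rw [integral_const_mul, rig_integral_coord_mul (Ne.symm hba), rigmW_integral hs (hσ a)]
      simp
    · intro h; exact absurd (Finset.mem_univ a) h
  simp only [hval]
  rw [← hU, Matrix.mul_apply]
  simp only [Matrix.transpose_apply]


/-! ### The law of the product map -/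

set_option backward.isDefEq.respectTransparency false in
/-- Tonelli for a product of functions of one variable each. -/
theorem rigm_lintegral_fin_prod {n : ℕ} (μ : Fin n → Measure ℝ) [∀ i, SigmaFinite (μ i)]
    (f : Fin n → ℝ → ℝ≥0∞) (hf : ∀ i, Measurable (f i)) :
    ∫⁻ x : Fin n → ℝ, ∏ i, f i (x i) ∂(Measure.pi μ) = ∏ i, ∫⁻ x, f i x ∂(μ i) := by
  induction n with
  | zero => simp
  | succ n n_ih =>
      calc
        _ = ∫⁻ x : ℝ × (Fin n → ℝ),
            f 0 x.1 * ∏ i : Fin n, f (Fin.succ i) (x.2 i)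
            ∂((μ 0).prod (Measure.pi (fun i ↦ μ i.succ))) := by
          rw [← ((measurePreserving_piFinSuccAbove μ 0).symm).lintegral_comp_emb
            (MeasurableEquiv.measurableEmbedding _)]
          simp_rw [MeasurableEquiv.piFinSuccAbove_symm_apply, Fin.insertNthEquiv,
            Fin.prod_univ_succ, Fin.insertNth_zero, Equiv.coe_fn_mk, Fin.cons_succ,
            Fin.zero_succAbove, cast_eq, Fin.cons_zero]
        _ = (∫⁻ x, f 0 x ∂μ 0)
            * ∏ i : Fin n, ∫⁻ (x : ℝ), f (Fin.succ i) x ∂(μ i.succ) := by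
          rw [← n_ih _ _ (fun i => hf _), ← lintegral_prod_mul (hf 0).aemeasurable]
          exact (Finset.measurable_prod _ fun i _ =>
            (hf _).comp (measurable_pi_apply i)).aemeasurable
        _ = ∏ i, ∫⁻ x, f i x ∂(μ i) := by rw [Fin.prod_univ_succ]

/-- A product of measures with densities has the product density. -/
theorem rigm_pi_withDensity {n : ℕ} (f : Fin n → ℝ → ℝ≥0∞)
    (hf : ∀ i, Measurable (f i))
    [∀ i, SigmaFinite ((volume : Measure ℝ).withDensity (f i))] :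
    Measure.pi (fun i => (volume : Measure ℝ).withDensity (f i)) =
      (volume : Measure (Fin n → ℝ)).withDensity (fun x => ∏ i, f i (x i)) := by
  refine Measure.pi_eq fun s hs => ?_
  rw [withDensity_apply _ (MeasurableSet.univ_pi hs)]
  have h1 : ∀ x : Fin n → ℝ, (Set.univ.pi s).indicator (fun x => ∏ i, f i (x i)) x =
      ∏ i, (s i).indicator (f i) (x i) := by
    intro x
    by_cases hx : x ∈ Set.univ.pi s
    · rw [Set.indicator_of_mem hx]
      refine Finset.prod_congr rfl fun i _ => ?_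
      rw [Set.indicator_of_mem (hx i (Set.mem_univ i))]
    · rw [Set.indicator_of_notMem hx]
      simp only [Set.mem_pi, Set.mem_univ, true_imp_iff, not_forall] at hx
      obtain ⟨i, hi⟩ := hx
      exact (Finset.prod_eq_zero (Finset.mem_univ i) (Set.indicator_of_notMem hi _)).symm
  rw [← lintegral_indicator (MeasurableSet.univ_pi hs)]
  simp_rw [h1]
  rw [volume_pi, rigm_lintegral_fin_prod _ _ (fun i => (hf i).indicator (hs i))]
  refine Finset.prod_congr rfl fun i _ => ?_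
  rw [lintegral_indicator (hs i), withDensity_apply _ (hs i)]

lemma rigm_law_pe {q t : ℝ → ℝ} (hs : RigScalar q t) :
    rig_law (rig_pe (m := m)) = Measure.pi (fun _ : Fin m => (gaussianReal 0 1).map t) := by
  have hprob : IsProbabilityMeasure ((volume : Measure ℝ).withDensity
      (fun u => ENNReal.ofReal (Claims.C0429.oneSidedExpDensity u))) := by
    rw [← hs.t_law]
    exact Measure.isProbabilityMeasure_map (rigm_t_continuous hs).aemeasurable
  rw [hs.t_law, rigm_pi_withDensity (n := m)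
    (fun _ u => ENNReal.ofReal (Claims.C0429.oneSidedExpDensity u))
    (fun _ => rigm_expDensity_measurable.ennreal_ofReal)]
  unfold rig_law rig_pe
  congr 1
  funext x
  rw [ENNReal.ofReal_prod_of_nonneg fun i _ => rigm_expDensity_nonneg _]

/-- The law of the product map. -/
lemma rig_S0_law {q t : ℝ → ℝ} (hs : RigScalar q t) {σ : Fin m → ℝ}
    (hσ : ∀ i, σ i = 1 ∨ σ i = -1) {U : Matrix (Fin m) (Fin m) ℝ} (hU : U * Uᵀ = 1) :
    (rig_gam m).map (rig_S0 t σ U) = (rig_law rig_pe).map (fun u => (U * diagonal σ) *ᵥ u) := by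
  have hc := rigm_t_continuous hs
  have h1 : (rig_gam m).map (fun y i => t (σ i * y i))
      = Measure.pi (fun _ : Fin m => (gaussianReal 0 1).map t) := by
    have hmap : ∀ i, (gaussianReal 0 1).map (fun a => t (σ i * a)) = (gaussianReal 0 1).map t := by
      intro i
      have := Measure.map_map (μ := gaussianReal 0 1) hc.measurable (rigm_mp_sign (hσ i)).measurable
      rw [(rigm_mp_sign (hσ i)).map_eq] at this
      rw [this]
      rfl
    have hp : ∀ i, IsProbabilityMeasure ((gaussianReal 0 1).map (fun a => t (σ i * a))) :=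
      fun i => Measure.isProbabilityMeasure_map (Continuous.aemeasurable (by fun_prop))
    unfold rig_gam
    rw [Measure.pi_map_pi (f := fun i a => t (σ i * a))
      (fun i => Continuous.aemeasurable (by fun_prop))]
    simp only [hmap]
  rw [rigm_law_pe hs, ← h1, Measure.map_map (by fun_prop) (Continuous.measurable (by fun_prop))]
  conv_rhs => rw [← (rigm_mp_rot hU).map_eq]
  rw [Measure.map_map (Continuous.measurable (by fun_prop)) (by fun_prop)]
  congr 1
  funext x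
  simp only [Function.comp_apply, rig_S0]
  rw [← Matrix.mulVec_mulVec]
  congr 1
  funext i
  rw [Matrix.mulVec_diagonal]
  rfl


/-! ### Lipschitz truncation of `t` -/

/-- clamp to `[-R, R]` -/
def rigmK (R a : ℝ) : ℝ := max (-R) (min a R)

lemma rigmK_continuous (R : ℝ) : Continuous (rigmK R) := by
  unfold rigmK
  fun_prop

lemma rigmK_abs_le {R : ℝ} (hR : 0 ≤ R) (a : ℝ) : |rigmK R a| ≤ R := by
  unfold rigmK
  exact abs_le.2 ⟨le_max_left _ _, max_le (by linarith) (min_le_right _ _)⟩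

lemma rigmK_eq {R a : ℝ} (h : |a| ≤ R) : rigmK R a = a := by
  unfold rigmK
  rw [min_eq_left ((le_abs_self _).trans h), max_eq_right]
  linarith [neg_abs_le a]

lemma rigmK_sub_abs_le {R : ℝ} (hR : 0 ≤ R) (a : ℝ) : |rigmK R a - a| ≤ |a| := by
  unfold rigmK
  rcases max_cases (-R) (min a R) with ⟨h1, h2⟩ | ⟨h1, h2⟩ <;>
  rcases min_cases a R with ⟨h3, h4⟩ | ⟨h3, h4⟩ <;>
  rcases abs_cases a with ⟨h5, h6⟩ | ⟨h5, h6⟩ <;>
  rw [h1] <;> (try rw [h3]) <;> rw [h5, abs_le] <;> constructor <;> (try rw [h3] at h2) <;> linarith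

lemma rigm_q_abs_sub_le {q t : ℝ → ℝ} (hs : RigScalar q t) (a b : ℝ) : |q a - q b| ≤ |a - b| := by
  have := hs.q_lip.dist_le_mul a b
  simpa [Real.dist_eq] using this

lemma rigm_q_continuous {q t : ℝ → ℝ} (hs : RigScalar q t) : Continuous q := hs.q_lip.continuous

/-- the truncated function: `t` on `[-R,R]`, continued linearly -/
noncomputable def rigmT (q t : ℝ → ℝ) (R a : ℝ) : ℝ := t 0 + ∫ s in (0 : ℝ)..a, q (rigmK R s)

lemma rigmT_hasDerivAt {q t : ℝ → ℝ} (hs : RigScalar q t) (R a : ℝ) :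
    HasDerivAt (rigmT q t R) (q (rigmK R a)) a := by
  have hc : Continuous (fun s => q (rigmK R s)) := (rigm_q_continuous hs).comp (rigmK_continuous R)
  exact (hc.integral_hasStrictDerivAt 0 a).hasDerivAt.const_add (t 0)

lemma rigmT_continuous {q t : ℝ → ℝ} (hs : RigScalar q t) (R : ℝ) : Continuous (rigmT q t R) :=
  continuous_iff_continuousAt.2 fun a => (rigmT_hasDerivAt hs R a).continuousAt

lemma rigmT_lipschitz {q t : ℝ → ℝ} (hs : RigScalar q t) {R : ℝ} (hR : 0 ≤ R) :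
    ∃ K : ℝ≥0, LipschitzWith K (rigmT q t R) := by
  refine ⟨Real.toNNReal (|q 0| + R), lipschitzWith_of_nnnorm_deriv_le
    (fun a => (rigmT_hasDerivAt hs R a).differentiableAt) fun a => ?_⟩
  rw [(rigmT_hasDerivAt hs R a).deriv, ← NNReal.coe_le_coe, coe_nnnorm, Real.norm_eq_abs,
    Real.coe_toNNReal _ (by positivity)]
  have h1 := rigm_q_abs_sub_le hs (rigmK R a) 0
  rw [sub_zero] at h1
  have h2 := rigmK_abs_le hR a
  have h3 := abs_sub_abs_le_abs_sub (q (rigmK R a)) (q 0)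
  linarith

lemma rigm_t_eq {q t : ℝ → ℝ} (hs : RigScalar q t) (a : ℝ) :
    t a = t 0 + ∫ s in (0 : ℝ)..a, q s := by
  rw [intervalIntegral.integral_eq_sub_of_hasDerivAt (fun x _ => hs.t_deriv x)
    ((rigm_q_continuous hs).intervalIntegrable _ _)]
  ring

lemma rigmT_sub_eq {q t : ℝ → ℝ} (hs : RigScalar q t) (R a : ℝ) :
    rigmT q t R a - t a = ∫ s in (0 : ℝ)..a, (q (rigmK R s) - q s) := by
  have hc : Continuous (fun s => q (rigmK R s)) := (rigm_q_continuous hs).comp (rigmK_continuous R)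
  rw [intervalIntegral.integral_sub (hc.intervalIntegrable _ _)
    ((rigm_q_continuous hs).intervalIntegrable _ _), rigm_t_eq hs a]
  unfold rigmT
  ring

lemma rigm_abs_le_of_mem_uIoc {a s : ℝ} (h : s ∈ Set.uIoc 0 a) : |s| ≤ |a| := by
  rcases Set.mem_uIoc.1 h with ⟨h1, h2⟩ | ⟨h1, h2⟩
  · rw [abs_of_pos h1, abs_of_pos (h1.trans_le h2)]; exact h2
  · rw [abs_of_nonpos h2, abs_of_neg (h1.trans_le h2)]; linarith

lemma rigmT_sub_abs_le {q t : ℝ → ℝ} (hs : RigScalar q t) {R : ℝ} (hR : 0 ≤ R) (a : ℝ) :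
    |rigmT q t R a - t a| ≤ a ^ 2 := by
  rw [rigmT_sub_eq hs]
  have h := intervalIntegral.norm_integral_le_of_norm_le_const (a := 0) (b := a) (C := |a|)
    (f := fun s => q (rigmK R s) - q s) (fun s hs' => by
      rw [Real.norm_eq_abs]
      exact ((rigm_q_abs_sub_le hs _ _).trans (rigmK_sub_abs_le hR s)).trans
        (rigm_abs_le_of_mem_uIoc hs'))
  rw [Real.norm_eq_abs, sub_zero, ← sq, sq_abs] at h
  exact h

lemma rigmT_eq {q t : ℝ → ℝ} (hs : RigScalar q t) {R a : ℝ} (h : |a| ≤ R) :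
    rigmT q t R a = t a := by
  have h1 := intervalIntegral.norm_integral_le_of_norm_le_const (a := 0) (b := a) (C := 0)
    (f := fun s => q (rigmK R s) - q s) (fun s hs' => by
      rw [rigmK_eq ((rigm_abs_le_of_mem_uIoc hs').trans h)]
      simp)
  rw [zero_mul, norm_le_zero_iff, ← rigmT_sub_eq hs] at h1
  linarith

lemma rigm_delta_tendsto {q t : ℝ → ℝ} (hs : RigScalar q t) :
    Tendsto (fun j : ℕ => ∫ a, (q a - q (rigmK j a)) ^ 2 ∂(gaussianReal 0 1)) atTop (𝓝 0) := by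
  have hq := rigm_q_continuous hs
  have h := tendsto_integral_of_dominated_convergence (μ := gaussianReal 0 1)
    (F := fun (j : ℕ) a => (q a - q (rigmK j a)) ^ 2) (f := fun _ => 0) (fun a : ℝ => a ^ 2)
    (fun j => Continuous.aestronglyMeasurable (by have := rigmK_continuous (j : ℝ); fun_prop))
    (rig_integrable_pow_gaussianReal 2)
    (fun j => Eventually.of_forall fun a => by
      rw [Real.norm_eq_abs, abs_of_nonneg (sq_nonneg _), ← sq_abs, ← sq_abs a]
      have h1 := (rigm_q_abs_sub_le hs a (rigmK j a))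
      rw [abs_sub_comm a] at h1
      exact pow_le_pow_left₀ (abs_nonneg _) (h1.trans (rigmK_sub_abs_le (Nat.cast_nonneg j) a)) 2)
    (Eventually.of_forall fun a => by
      refine tendsto_const_nhds.congr' ?_
      filter_upwards [eventually_ge_atTop ⌈|a|⌉₊] with j hj
      rw [rigmK_eq ((Nat.le_ceil _).trans (by exact_mod_cast hj))]
      simp)
  simpa using h

lemma rigm_eta_tendsto {q t : ℝ → ℝ} (hs : RigScalar q t) :
    Tendsto (fun j : ℕ => ∫ a, (rigmT q t j a - t a) ^ 2 ∂(gaussianReal 0 1)) atTop (𝓝 0) := by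
  have ht := rigm_t_continuous hs
  have h := tendsto_integral_of_dominated_convergence (μ := gaussianReal 0 1)
    (F := fun (j : ℕ) a => (rigmT q t j a - t a) ^ 2) (f := fun _ => 0) (fun a : ℝ => a ^ 4)
    (fun j => Continuous.aestronglyMeasurable (by have := rigmT_continuous hs (j : ℝ); fun_prop))
    (rig_integrable_pow_gaussianReal 4)
    (fun j => Eventually.of_forall fun a => by
      rw [Real.norm_eq_abs, abs_of_nonneg (sq_nonneg _), ← sq_abs]
      have h1 := rigmT_sub_abs_le hs (Nat.cast_nonneg j) a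
      calc |rigmT q t j a - t a| ^ 2 ≤ (a ^ 2) ^ 2 := pow_le_pow_left₀ (abs_nonneg _) h1 2
        _ = a ^ 4 := by ring)
    (Eventually.of_forall fun a => by
      refine tendsto_const_nhds.congr' ?_
      filter_upwards [eventually_ge_atTop ⌈|a|⌉₊] with j hj
      rw [rigmT_eq hs ((Nat.le_ceil _).trans (by exact_mod_cast hj))]
      simp)
  simpa using h


/-! ### Calculus of the product map for a general scalar function -/

lemma rigm_conj_diag_apply (U : Matrix (Fin m) (Fin m) ℝ) (d : Fin m → ℝ) (i s : Fin m) :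
    (U * diagonal d * Uᵀ) i s = ∑ a, U i a * d a * U s a := by
  rw [Matrix.mul_apply]
  refine Finset.sum_congr rfl fun a _ => ?_
  rw [Matrix.mul_diagonal, Matrix.transpose_apply]

lemma rigm_mulVec_add_smul_single (U : Matrix (Fin m) (Fin m) ℝ) (x : Fin m → ℝ) (h : ℝ)
    (s a : Fin m) :
    (Uᵀ *ᵥ (x + h • Pi.single s (1 : ℝ))) a = (Uᵀ *ᵥ x) a + h * U s a := by
  rw [Matrix.mulVec_add, Matrix.mulVec_smul, Matrix.mulVec_single]
  simp

lemma rigm_S0_hasLineDerivAt {θ θ' : ℝ → ℝ} (hθ : ∀ a, HasDerivAt θ (θ' a) a) {σ : Fin m → ℝ}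
    (hσ : ∀ i, σ i = 1 ∨ σ i = -1) (U : Matrix (Fin m) (Fin m) ℝ) (x : Fin m → ℝ) (i s : Fin m) :
    HasLineDerivAt ℝ (fun y => rig_S0 θ σ U y i)
      ((U * diagonal (fun k => θ' (σ k * (Uᵀ *ᵥ x) k)) * Uᵀ) i s) x (Pi.single s 1) := by
  unfold HasLineDerivAt
  simp only [rigm_S0_apply, rigm_mulVec_add_smul_single, rigm_conj_diag_apply]
  refine HasDerivAt.fun_sum fun a _ => ?_
  have h1 : HasDerivAt (fun h : ℝ => σ a * ((Uᵀ *ᵥ x) a + h * U s a)) (σ a * U s a) 0 := by
    have := (((hasDerivAt_id (0 : ℝ)).mul_const (U s a)).const_add ((Uᵀ *ᵥ x) a)).const_mul (σ a)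
    simpa using this
  have h2 : HasDerivAt θ (θ' (σ a * (Uᵀ *ᵥ x) a)) (σ a * ((Uᵀ *ᵥ x) a + 0 * U s a)) := by
    simpa using hθ (σ a * (Uᵀ *ᵥ x) a)
  have h3 := ((h2.comp (0 : ℝ) h1).const_mul (σ a)).const_mul (U i a)
  have e : U i a * (σ a * (θ' (σ a * (Uᵀ *ᵥ x) a) * (σ a * U s a)))
      = U i a * θ' (σ a * (Uᵀ *ᵥ x) a) * U s a := by
    have := rigm_sign_sq (hσ a)
    calc U i a * (σ a * (θ' (σ a * (Uᵀ *ᵥ x) a) * (σ a * U s a)))
        = (σ a * σ a) * (U i a * θ' (σ a * (Uᵀ *ᵥ x) a) * U s a) := by ring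
      _ = _ := by rw [this, one_mul]
  rw [e] at h3
  exact h3

lemma rigm_S0_lipschitz {θ : ℝ → ℝ} (hθ : ∃ K : ℝ≥0, LipschitzWith K θ) {σ : Fin m → ℝ}
    (hσ : ∀ i, σ i = 1 ∨ σ i = -1) (U : Matrix (Fin m) (Fin m) ℝ) :
    ∃ K : ℝ≥0, LipschitzWith K (rig_S0 θ σ U) := by
  obtain ⟨K, hK⟩ := hθ
  have h1 : LipschitzWith K (rig_S θ σ) := by
    refine LipschitzWith.of_dist_le_mul fun y y' => ?_
    rw [dist_pi_le_iff (by positivity)]
    intro a
    unfold rig_S
    have habs : |σ a| = 1 := by rcases hσ a with h | h <;> rw [h] <;> simp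
    have h2 := hK.dist_le_mul (σ a * y a) (σ a * y' a)
    rw [Real.dist_eq, Real.dist_eq, ← mul_sub, abs_mul, habs, one_mul] at h2
    rw [Real.dist_eq, ← mul_sub, abs_mul, habs, one_mul]
    refine h2.trans (mul_le_mul_of_nonneg_left ?_ K.coe_nonneg)
    rw [← Real.dist_eq]
    exact dist_le_pi_dist y y' a
  have h2 := (Matrix.mulVecLin Uᵀ).toContinuousLinearMap.lipschitz
  have h3 := (Matrix.mulVecLin U).toContinuousLinearMap.lipschitz
  exact ⟨_, h3.comp (h1.comp h2)⟩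

lemma rigm_sum_sq_mulVec {U : Matrix (Fin m) (Fin m) ℝ} (hU : U * Uᵀ = 1) (v : Fin m → ℝ) :
    ∑ i, (U *ᵥ v) i ^ 2 = ∑ k, v k ^ 2 := by
  have h1 : ∑ i, (U *ᵥ v) i ^ 2 = (U *ᵥ v) ⬝ᵥ (U *ᵥ v) := by
    simp [dotProduct, sq]
  have h2 : ∑ k, v k ^ 2 = v ⬝ᵥ v := by
    simp [dotProduct, sq]
  rw [h1, h2, Matrix.dotProduct_mulVec, Matrix.vecMul_mulVec, rigm_transpose_orth hU,
    Matrix.vecMul_one]

lemma rigm_S0_sub_sq {θ₁ θ₂ : ℝ → ℝ} {σ : Fin m → ℝ} (hσ : ∀ i, σ i = 1 ∨ σ i = -1)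
    {U : Matrix (Fin m) (Fin m) ℝ} (hU : U * Uᵀ = 1) (x : Fin m → ℝ) :
    ∑ i, (rig_S0 θ₁ σ U x i - rig_S0 θ₂ σ U x i) ^ 2
      = ∑ k, (θ₁ (σ k * (Uᵀ *ᵥ x) k) - θ₂ (σ k * (Uᵀ *ᵥ x) k)) ^ 2 := by
  have h1 : ∀ i, rig_S0 θ₁ σ U x i - rig_S0 θ₂ σ U x i
      = (U *ᵥ (rig_S θ₁ σ (Uᵀ *ᵥ x) - rig_S θ₂ σ (Uᵀ *ᵥ x))) i := by
    intro i
    rw [Matrix.mulVec_sub]
    rfl
  simp only [h1]
  rw [rigm_sum_sq_mulVec hU]
  refine Finset.sum_congr rfl fun k _ => ?_
  have := rigm_sign_sq (hσ k)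
  simp only [Pi.sub_apply, rig_S]
  calc (σ k * θ₁ (σ k * (Uᵀ *ᵥ x) k) - σ k * θ₂ (σ k * (Uᵀ *ᵥ x) k)) ^ 2
      = (σ k * σ k) * (θ₁ (σ k * (Uᵀ *ᵥ x) k) - θ₂ (σ k * (Uᵀ *ᵥ x) k)) ^ 2 := by ring
    _ = _ := by rw [this, one_mul]

lemma rigm_integrable_sum_coord {h : ℝ → ℝ} (hi : Integrable h (gaussianReal 0 1))
    {σ : Fin m → ℝ} (hσ : ∀ i, σ i = 1 ∨ σ i = -1)
    {U : Matrix (Fin m) (Fin m) ℝ} (hU : U * Uᵀ = 1) :
    Integrable (fun x => ∑ k, h (σ k * (Uᵀ *ᵥ x) k)) (rig_gam m) := by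
  refine rigm_integrable_rot hU (g := fun y => ∑ k, h (σ k * y k)) ?_
  exact integrable_finsetSum _ fun k _ =>
    rig_integrable_coord (h := fun b => h (σ k * b)) (rigm_integrable_sign (hσ k) hi) k

lemma rigm_integral_sum_coord {h : ℝ → ℝ} (hm : Measurable h)
    (hi : Integrable h (gaussianReal 0 1))
    {σ : Fin m → ℝ} (hσ : ∀ i, σ i = 1 ∨ σ i = -1)
    {U : Matrix (Fin m) (Fin m) ℝ} (hU : U * Uᵀ = 1) :
    ∫ x, ∑ k, h (σ k * (Uᵀ *ᵥ x) k) ∂(rig_gam m) = m * ∫ a, h a ∂(gaussianReal 0 1) := by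
  rw [rigm_integral_rot hU (g := fun y => ∑ k, h (σ k * y k)) (by fun_prop), integral_finsetSum]
  · have : ∀ k : Fin m, ∫ y : Fin m → ℝ, h (σ k * y k) ∂(rig_gam m)
        = ∫ a, h a ∂(gaussianReal 0 1) := by
      intro k
      rw [rig_integral_coord (fun b => h (σ k * b)) k, rigm_integral_sign (hσ k)]
    simp [this]
  · intro k _
    exact rig_integrable_coord (h := fun b => h (σ k * b)) (rigm_integrable_sign (hσ k) hi) k


/-! ### The limit map -/

lemma rigm_var_le {g : (Fin m → ℝ) → ℝ} (hg : AEStronglyMeasurable g (rig_gam m)) :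
    ∫ x, (g x - ∫ y, g y ∂(rig_gam m)) ^ 2 ∂(rig_gam m) ≤ ∫ x, g x ^ 2 ∂(rig_gam m) := by
  have h1 := variance_le_expectation_sq (μ := rig_gam m) hg
  rw [variance_eq_integral hg.aemeasurable] at h1
  simpa using h1

lemma rigm_fsq_conj_diag_sub {U : Matrix (Fin m) (Fin m) ℝ} (hU : U * Uᵀ = 1) (d d' : Fin m → ℝ) :
    rig_fsq (U * diagonal d * Uᵀ - U * diagonal d' * Uᵀ) = ∑ k, (d k - d' k) ^ 2 := by
  have : U * diagonal d * Uᵀ - U * diagonal d' * Uᵀ = U * diagonal (fun k => d k - d' k) * Uᵀ := by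
    rw [← Matrix.sub_mul, ← Matrix.mul_sub, Matrix.diagonal_sub]
  rw [this, rig_fsq_conj hU, rig_fsq_diagonal]

lemma rigm_conj_diag_continuous {φ : ℝ → ℝ} (hφ : Continuous φ) (σ : Fin m → ℝ)
    (U : Matrix (Fin m) (Fin m) ℝ) (i s : Fin m) :
    Continuous (fun x : Fin m → ℝ =>
      (U * diagonal (fun k => φ (σ k * (Uᵀ *ᵥ x) k)) * Uᵀ) i s) := by
  simp only [rigm_conj_diag_apply]
  fun_prop

/-- the estimate for one index `j` and one truncation level -/
lemma rigm_map_estimate {q t : ℝ → ℝ} (hs : RigScalar q t) (hP : RigPoincare m)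
    {σ : Fin m → ℝ} (hσ : ∀ i, σ i = 1 ∨ σ i = -1)
    {U : Matrix (Fin m) (Fin m) ℝ} (hU : U * Uᵀ = 1)
    {T : (Fin m → ℝ) → (Fin m → ℝ)} (hT : ∃ K : ℝ≥0, LipschitzWith K T)
    {J : (Fin m → ℝ) → Matrix (Fin m) (Fin m) ℝ}
    (hJm : ∀ i k, Measurable (fun x => J x i k))
    (hder : ∀ᵐ x ∂(rig_gam m), ∀ i s,
      HasLineDerivAt ℝ (fun y => T y i) (J x i s) x (Pi.single s 1))
    (hint : Integrable (fun x => rig_fsq
      (J x - U * diagonal (fun i => q (σ i * (Uᵀ *ᵥ x) i)) * Uᵀ)) (rig_gam m))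
    {R : ℝ} (hR : 0 ≤ R) :
    ∫ x, ∑ i, (rig_ctr T x i - rig_ctr (rig_S0 t σ U) x i) ^ 2 ∂(rig_gam m)
      ≤ 4 * ∫ x, rig_fsq (J x - U * diagonal (fun i => q (σ i * (Uᵀ *ᵥ x) i)) * Uᵀ) ∂(rig_gam m)
        + 4 * (m * ∫ a, (q a - q (rigmK R a)) ^ 2 ∂(gaussianReal 0 1))
        + 2 * (m * ∫ a, (rigmT q t R a - t a) ^ 2 ∂(gaussianReal 0 1)) := by
  have hqc := rigm_q_continuous hs
  have htc := rigm_t_continuous hs
  have hKc := rigmK_continuous R
  have hTRc := rigmT_continuous hs R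
  set θ := rigmT q t R with hθ
  set M : (Fin m → ℝ) → Matrix (Fin m) (Fin m) ℝ :=
    fun x => U * diagonal (fun i => q (σ i * (Uᵀ *ᵥ x) i)) * Uᵀ with hM
  set MR : (Fin m → ℝ) → Matrix (Fin m) (Fin m) ℝ :=
    fun x => U * diagonal (fun i => q (rigmK R (σ i * (Uᵀ *ᵥ x) i))) * Uᵀ with hMR
  -- Lipschitz and `L²` facts
  have hSRlip := rigm_S0_lipschitz (rigmT_lipschitz hs hR) hσ U
  have hTm : ∀ i, Continuous (fun x => T x i) := fun i => by
    obtain ⟨K, hK⟩ := rig_lip_coord hT i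
    exact hK.continuous
  have hSRm : ∀ i, Continuous (fun x => rig_S0 θ σ U x i) := fun i => by
    obtain ⟨K, hK⟩ := rig_lip_coord hSRlip i
    exact hK.continuous
  have hS0m : ∀ i, Continuous (fun x => rig_S0 t σ U x i) := fun i =>
    (continuous_apply i).comp (rig_S0_continuous hs σ U)
  have hT2 : ∀ i, MemLp (fun x => T x i) 2 (rig_gam m) := fun i =>
    (memLp_two_iff_integrable_sq (hTm i).aestronglyMeasurable).2
      (rig_integrable_sq_of_lipschitz (rig_lip_coord hT i))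
  have hSR2 : ∀ i, MemLp (fun x => rig_S0 θ σ U x i) 2 (rig_gam m) := fun i =>
    (memLp_two_iff_integrable_sq (hSRm i).aestronglyMeasurable).2
      (rig_integrable_sq_of_lipschitz (rig_lip_coord hSRlip i))
  have hS02 : ∀ i, MemLp (fun x => rig_S0 t σ U x i) 2 (rig_gam m) := fun i =>
    (memLp_two_iff_integrable_sq (hS0m i).aestronglyMeasurable).2 (rig_S0_sq_integrable hs hσ hU i)
  have hcT : ∀ i, MemLp (fun x => rig_ctr T x i) 2 (rig_gam m) := fun i =>
    (hT2 i).sub (memLp_const _)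
  have hcSR : ∀ i, MemLp (fun x => rig_ctr (rig_S0 θ σ U) x i) 2 (rig_gam m) := fun i =>
    (hSR2 i).sub (memLp_const _)
  have hcS0 : ∀ i, MemLp (fun x => rig_ctr (rig_S0 t σ U) x i) 2 (rig_gam m) := fun i =>
    (hS02 i).sub (memLp_const _)
  -- the difference of the two matrix fields
  have hMMR : ∀ x, rig_fsq (M x - MR x)
      = ∑ k, (fun a => (q a - q (rigmK R a)) ^ 2) (σ k * (Uᵀ *ᵥ x) k) := fun x =>
    rigm_fsq_conj_diag_sub hU _ _
  have hdi : Integrable (fun a => (q a - q (rigmK R a)) ^ 2) (gaussianReal 0 1) := by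
    refine (rig_integrable_pow_gaussianReal 2).mono' (Continuous.aestronglyMeasurable (by fun_prop))
      (Eventually.of_forall fun a => ?_)
    rw [Real.norm_eq_abs, abs_of_nonneg (sq_nonneg _), ← sq_abs, ← sq_abs a]
    have h1 := (rigm_q_abs_sub_le hs a (rigmK R a))
    rw [abs_sub_comm a] at h1
    exact pow_le_pow_left₀ (abs_nonneg _) (h1.trans (rigmK_sub_abs_le hR a)) 2
  have hMMRi : Integrable (fun x => rig_fsq (M x - MR x)) (rig_gam m) := by
    simp only [hMMR]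
    exact rigm_integrable_sum_coord hdi hσ hU
  have hMMRv : ∫ x, rig_fsq (M x - MR x) ∂(rig_gam m)
      = m * ∫ a, (q a - q (rigmK R a)) ^ 2 ∂(gaussianReal 0 1) := by
    simp only [hMMR]
    exact rigm_integral_sum_coord (Continuous.measurable (by fun_prop)) hdi hσ hU
  have hMRm : ∀ i s, Measurable (fun x => MR x i s) := fun i s =>
    (rigm_conj_diag_continuous (φ := fun a => q (rigmK R a)) (by fun_prop) σ U i s).measurable
  have hJMRle : ∀ x, rig_fsq (J x - MR x) ≤ 2 * rig_fsq (J x - M x) + 2 * rig_fsq (M x - MR x) := by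
    intro x
    have := rig_fsq_add_le (J x - M x) (M x - MR x)
    rwa [sub_add_sub_cancel] at this
  have hJMRm : Measurable (fun x => rig_fsq (J x - MR x)) := by
    unfold rig_fsq
    simp only [Matrix.sub_apply]
    exact Finset.measurable_sum _ fun i _ => Finset.measurable_sum _ fun k _ =>
      ((hJm i k).sub (hMRm i k)).pow_const 2
  have hJMRi : Integrable (fun x => rig_fsq (J x - MR x)) (rig_gam m) := by
    refine ((hint.const_mul 2).add (hMMRi.const_mul 2)).mono' hJMRm.aestronglyMeasurable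
      (Eventually.of_forall fun x => ?_)
    rw [Real.norm_eq_abs, abs_of_nonneg (rig_fsq_nonneg _)]
    exact hJMRle x
  have hent : ∀ i s, Integrable (fun x => (J x i s - MR x i s) ^ 2) (rig_gam m) := by
    intro i s
    refine hJMRi.mono' (((hJm i s).sub (hMRm i s)).pow_const 2).aestronglyMeasurable
      (Eventually.of_forall fun x => ?_)
    rw [Real.norm_eq_abs, abs_of_nonneg (sq_nonneg _), ← Matrix.sub_apply]
    exact rig_entry_sq_le_fsq _ i s
  -- Poincare for `T_i - S^R_i`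
  have hpo : ∀ i, ∫ x, (rig_ctr T x i - rig_ctr (rig_S0 θ σ U) x i) ^ 2 ∂(rig_gam m)
      ≤ ∫ x, ∑ s, (J x i s - MR x i s) ^ 2 ∂(rig_gam m) := by
    intro i
    obtain ⟨K1, hK1⟩ := rig_lip_coord hT i
    obtain ⟨K2, hK2⟩ := rig_lip_coord hSRlip i
    have h1 := hP (fun x => T x i - rig_S0 θ σ U x i) ⟨K1 + K2, hK1.sub hK2⟩
    have e1 : ∫ y, (T y i - rig_S0 θ σ U y i) ∂(rig_gam m)
        = ∫ y, T y i ∂(rig_gam m) - ∫ y, rig_S0 θ σ U y i ∂(rig_gam m) :=
      integral_sub ((hT2 i).integrable one_le_two) ((hSR2 i).integrable one_le_two)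
    have e2 : ∀ x, (T x i - rig_S0 θ σ U x i - ∫ y, (T y i - rig_S0 θ σ U y i) ∂(rig_gam m))
        = rig_ctr T x i - rig_ctr (rig_S0 θ σ U) x i := by
      intro x
      rw [e1]
      unfold rig_ctr
      ring
    simp only [e2] at h1
    refine h1.trans (le_of_eq (integral_congr_ae ?_))
    filter_upwards [hder] with x hx
    refine Finset.sum_congr rfl fun s _ => ?_
    have d1 := hx i s
    have d2 := rigm_S0_hasLineDerivAt (θ := θ) (θ' := fun a => q (rigmK R a))
      (fun a => rigmT_hasDerivAt hs R a) hσ U x i s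
    have d3 : HasLineDerivAt ℝ (fun y => T y i - rig_S0 θ σ U y i) (J x i s - MR x i s) x
        (Pi.single s 1) := HasDerivAt.fun_sub d1 d2
    rw [d3.lineDeriv]
  have hA : ∑ i, ∫ x, (rig_ctr T x i - rig_ctr (rig_S0 θ σ U) x i) ^ 2 ∂(rig_gam m)
      ≤ 2 * ∫ x, rig_fsq (J x - M x) ∂(rig_gam m)
        + 2 * (m * ∫ a, (q a - q (rigmK R a)) ^ 2 ∂(gaussianReal 0 1)) := by
    calc ∑ i, ∫ x, (rig_ctr T x i - rig_ctr (rig_S0 θ σ U) x i) ^ 2 ∂(rig_gam m)
        ≤ ∑ i, ∫ x, ∑ s, (J x i s - MR x i s) ^ 2 ∂(rig_gam m) :=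
          Finset.sum_le_sum fun i _ => hpo i
      _ = ∫ x, rig_fsq (J x - MR x) ∂(rig_gam m) := by
          rw [← integral_finsetSum _ fun i _ => integrable_finsetSum _ fun s _ => hent i s]
          rfl
      _ ≤ ∫ x, (2 * rig_fsq (J x - M x) + 2 * rig_fsq (M x - MR x)) ∂(rig_gam m) :=
          integral_mono hJMRi ((hint.const_mul 2).add (hMMRi.const_mul 2)) hJMRle
      _ = _ := by
          rw [integral_add (hint.const_mul 2) (hMMRi.const_mul 2), integral_const_mul,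
            integral_const_mul, hMMRv]
  -- the truncation error of the product map
  have hti : Integrable (fun a => (θ a - t a) ^ 2) (gaussianReal 0 1) := by
    refine (rig_integrable_pow_gaussianReal 4).mono' (Continuous.aestronglyMeasurable (by fun_prop))
      (Eventually.of_forall fun a => ?_)
    rw [Real.norm_eq_abs, abs_of_nonneg (sq_nonneg _), ← sq_abs]
    have h1 := rigmT_sub_abs_le hs hR a
    calc |θ a - t a| ^ 2 ≤ (a ^ 2) ^ 2 := pow_le_pow_left₀ (abs_nonneg _) h1 2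
      _ = a ^ 4 := by ring
  have hB : ∑ i, ∫ x, (rig_ctr (rig_S0 θ σ U) x i - rig_ctr (rig_S0 t σ U) x i) ^ 2 ∂(rig_gam m)
      ≤ m * ∫ a, (θ a - t a) ^ 2 ∂(gaussianReal 0 1) := by
    have hv : ∀ i, ∫ x, (rig_ctr (rig_S0 θ σ U) x i - rig_ctr (rig_S0 t σ U) x i) ^ 2 ∂(rig_gam m)
        ≤ ∫ x, (rig_S0 θ σ U x i - rig_S0 t σ U x i) ^ 2 ∂(rig_gam m) := by
      intro i
      have h1 := rigm_var_le (g := fun x => rig_S0 θ σ U x i - rig_S0 t σ U x i)
        ((hSRm i).sub (hS0m i)).aestronglyMeasurable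
      have e1 : ∫ y, (rig_S0 θ σ U y i - rig_S0 t σ U y i) ∂(rig_gam m)
          = ∫ y, rig_S0 θ σ U y i ∂(rig_gam m) - ∫ y, rig_S0 t σ U y i ∂(rig_gam m) :=
        integral_sub ((hSR2 i).integrable one_le_two) ((hS02 i).integrable one_le_two)
      have e2 : ∀ x, (rig_S0 θ σ U x i - rig_S0 t σ U x i
          - ∫ y, (rig_S0 θ σ U y i - rig_S0 t σ U y i) ∂(rig_gam m))
          = rig_ctr (rig_S0 θ σ U) x i - rig_ctr (rig_S0 t σ U) x i := by
        intro x
        rw [e1]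
        unfold rig_ctr
        ring
      simp only [e2] at h1
      exact h1
    calc _ ≤ ∑ i, ∫ x, (rig_S0 θ σ U x i - rig_S0 t σ U x i) ^ 2 ∂(rig_gam m) :=
          Finset.sum_le_sum fun i _ => hv i
      _ = ∫ x, ∑ i, (rig_S0 θ σ U x i - rig_S0 t σ U x i) ^ 2 ∂(rig_gam m) := by
          have iS : ∀ i, Integrable (fun x => (rig_S0 θ σ U x i - rig_S0 t σ U x i) ^ 2)
              (rig_gam m) := fun i => ((hSR2 i).sub (hS02 i)).integrable_sq
          rw [integral_finsetSum _ fun i _ => iS i]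
      _ = ∫ x, ∑ k, (fun a => (θ a - t a) ^ 2) (σ k * (Uᵀ *ᵥ x) k) ∂(rig_gam m) := by
          simp only [rigm_S0_sub_sq hσ hU]
      _ = _ := rigm_integral_sum_coord (Continuous.measurable (by fun_prop)) hti hσ hU
  -- assembly
  have hC : ∀ i, ∫ x, (rig_ctr T x i - rig_ctr (rig_S0 t σ U) x i) ^ 2 ∂(rig_gam m)
      ≤ 2 * ∫ x, (rig_ctr T x i - rig_ctr (rig_S0 θ σ U) x i) ^ 2 ∂(rig_gam m)
        + 2 * ∫ x, (rig_ctr (rig_S0 θ σ U) x i - rig_ctr (rig_S0 t σ U) x i) ^ 2
          ∂(rig_gam m) := by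
    intro i
    have i1 : Integrable (fun x => (rig_ctr T x i - rig_ctr (rig_S0 θ σ U) x i) ^ 2)
        (rig_gam m) := ((hcT i).sub (hcSR i)).integrable_sq
    have i2 : Integrable (fun x => (rig_ctr (rig_S0 θ σ U) x i - rig_ctr (rig_S0 t σ U) x i) ^ 2)
        (rig_gam m) := ((hcSR i).sub (hcS0 i)).integrable_sq
    have i3 : Integrable (fun x => (rig_ctr T x i - rig_ctr (rig_S0 t σ U) x i) ^ 2)
        (rig_gam m) := ((hcT i).sub (hcS0 i)).integrable_sq
    rw [← integral_const_mul, ← integral_const_mul, ← integral_add (i1.const_mul 2) (i2.const_mul 2)]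
    refine integral_mono i3 ((i1.const_mul 2).add (i2.const_mul 2)) fun x => ?_
    nlinarith [sq_nonneg ((rig_ctr T x i - rig_ctr (rig_S0 θ σ U) x i)
      - (rig_ctr (rig_S0 θ σ U) x i - rig_ctr (rig_S0 t σ U) x i))]
  have i3 : ∀ i, Integrable (fun x => (rig_ctr T x i - rig_ctr (rig_S0 t σ U) x i) ^ 2)
      (rig_gam m) := fun i => ((hcT i).sub (hcS0 i)).integrable_sq
  rw [integral_finsetSum _ fun i _ => i3 i]
  calc ∑ i, ∫ x, (rig_ctr T x i - rig_ctr (rig_S0 t σ U) x i) ^ 2 ∂(rig_gam m)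
      ≤ ∑ i, (2 * ∫ x, (rig_ctr T x i - rig_ctr (rig_S0 θ σ U) x i) ^ 2 ∂(rig_gam m)
        + 2 * ∫ x, (rig_ctr (rig_S0 θ σ U) x i - rig_ctr (rig_S0 t σ U) x i) ^ 2
          ∂(rig_gam m)) := Finset.sum_le_sum fun i _ => hC i
    _ = 2 * ∑ i, ∫ x, (rig_ctr T x i - rig_ctr (rig_S0 θ σ U) x i) ^ 2 ∂(rig_gam m)
        + 2 * ∑ i, ∫ x, (rig_ctr (rig_S0 θ σ U) x i - rig_ctr (rig_S0 t σ U) x i) ^ 2
          ∂(rig_gam m) := by
        rw [Finset.sum_add_distrib, Finset.mul_sum, Finset.mul_sum]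
    _ ≤ _ := by linarith [hA, hB]


/-- Identification of the limit map ((6.12) of the paper + end of Lemma 6.1). -/
lemma rig_map_limit {q t : ℝ → ℝ} (hs : RigScalar q t) (hP : RigPoincare m)
    {σ : Fin m → ℝ} (hσ : ∀ i, σ i = 1 ∨ σ i = -1)
    {U : Matrix (Fin m) (Fin m) ℝ} (hU : U * Uᵀ = 1)
    {T : ℕ → (Fin m → ℝ) → (Fin m → ℝ)} (hT : ∀ j, ∃ K : ℝ≥0, LipschitzWith K (T j))
    {J : ℕ → (Fin m → ℝ) → Matrix (Fin m) (Fin m) ℝ}
    (hJm : ∀ j i k, Measurable (fun x => J j x i k))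
    (hder : ∀ j, ∀ᵐ x ∂(rig_gam m), ∀ i s,
      HasLineDerivAt ℝ (fun y => T j y i) (J j x i s) x (Pi.single s 1))
    (hint : ∀ j, Integrable (fun x => rig_fsq
      (J j x - U * diagonal (fun i => q (σ i * (Uᵀ *ᵥ x) i)) * Uᵀ)) (rig_gam m))
    (hlim : Tendsto (fun j => ∫ x, rig_fsq
      (J j x - U * diagonal (fun i => q (σ i * (Uᵀ *ᵥ x) i)) * Uᵀ) ∂(rig_gam m)) atTop (𝓝 0)) :
    Tendsto (fun j => ∫ x, ∑ i, (rig_ctr (T j) x i - rig_ctr (rig_S0 t σ U) x i) ^ 2
      ∂(rig_gam m)) atTop (𝓝 0) := by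
  have hlimit : Tendsto (fun j : ℕ =>
      4 * ∫ x, rig_fsq (J j x - U * diagonal (fun i => q (σ i * (Uᵀ *ᵥ x) i)) * Uᵀ) ∂(rig_gam m)
        + 4 * (m * ∫ a, (q a - q (rigmK j a)) ^ 2 ∂(gaussianReal 0 1))
        + 2 * (m * ∫ a, (rigmT q t j a - t a) ^ 2 ∂(gaussianReal 0 1))) atTop (𝓝 0) := by
    have h := ((hlim.const_mul 4).add (((rigm_delta_tendsto hs).const_mul (m : ℝ)).const_mul 4)).add
      (((rigm_eta_tendsto hs).const_mul (m : ℝ)).const_mul 2)
    simpa using h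
  refine squeeze_zero (fun j => integral_nonneg fun x => Finset.sum_nonneg fun i _ => sq_nonneg _)
    (fun j => ?_) hlimit
  exact rigm_map_estimate hs hP hσ hU (hT j) (hJm j) (hder j) (hint j) (Nat.cast_nonneg j)

end Claimed.Agent.R260
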