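/-
Row 260, package R6 (rigidity).  Return from the normalised laws to `f`:
moments through the push-forward identity, compactness of the normalising matrices, convergence of
laws, identification of the density.  (Last page of Sec. 6.)
Leaf file.  Owner: helper88 (R6-Law).
-/
import Claimed.Agent.R260.RigMap

set_option autoImplicit false

open MeasureTheory ProbabilityTheory Matrix Filter Topology
open scoped BigOperators ENNReal NNReal BoundedContinuousFunction

namespace Claimed.Agent.R260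

variable {m : ℕ}

lemma rig_integral_law {g : (Fin m → ℝ) → ℝ} (hg : RigDensity g) (F : (Fin m → ℝ) → ℝ) :
    ∫ x, F x ∂(rig_law g) = ∫ x, F x * g x := by
  unfold rig_law
  rw [integral_withDensity_eq_integral_toReal_smul (by exact hg.meas.ennreal_ofReal)
    (Eventually.of_forall fun x => ENNReal.ofReal_lt_top)]
  refine integral_congr_ae (Eventually.of_forall fun x => ?_)
  simp [ENNReal.toReal_ofReal (hg.nonneg x), mul_comm]

lemma rig_integrable_law_iff {g : (Fin m → ℝ) → ℝ} (hg : RigDensity g) (F : (Fin m → ℝ) → ℝ) :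
    Integrable F (rig_law g) ↔ Integrable (fun x => F x * g x) := by
  unfold rig_law
  rw [integrable_withDensity_iff_integrable_smul' (by exact hg.meas.ennreal_ofReal)
    (Eventually.of_forall fun x => ENNReal.ofReal_lt_top)]
  refine integrable_congr (Eventually.of_forall fun x => ?_)
  simp [ENNReal.toReal_ofReal (hg.nonneg x), mul_comm]

lemma rig_density_integrable {g : (Fin m → ℝ) → ℝ} (hg : RigDensity g) : Integrable g := by
  by_contra h
  have := hg.int_one
  rw [integral_undef h] at this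
  exact zero_ne_one this

instance rig_law_isProb {g : (Fin m → ℝ) → ℝ} [hg : Fact (RigDensity g)] :
    IsProbabilityMeasure (rig_law g) := by
  constructor
  unfold rig_law
  rw [withDensity_apply _ MeasurableSet.univ, Measure.restrict_univ,
    ← ofReal_integral_eq_lintegral_ofReal (rig_density_integrable hg.out)
      (Eventually.of_forall hg.out.nonneg), hg.out.int_one]
  simp

lemma rig_mulVec_measurable (P : Matrix (Fin m) (Fin m) ℝ) :
    Measurable (fun x : Fin m → ℝ => P *ᵥ x) :=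
  (Continuous.matrix_mulVec continuous_const continuous_id).measurable

/-- Transfer of integrals through `T # gamma = P # (g dx)`. -/
lemma rig_push_integral {q om : ℝ → ℝ} {g : (Fin m → ℝ) → ℝ} (hg : RigDensity g)
    (D : RigCoreData q om g) {F : (Fin m → ℝ) → ℝ} (hF : Measurable F) :
    ∫ x, F (D.T x) ∂(rig_gam m) = ∫ x, F (D.P *ᵥ x) * g x := by
  obtain ⟨K, hK⟩ := D.T_lip
  have hT : Measurable D.T := hK.continuous.measurable
  rw [← integral_map hT.aemeasurable hF.aestronglyMeasurable, D.push,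
    integral_map (rig_mulVec_measurable D.P).aemeasurable hF.aestronglyMeasurable,
    rig_integral_law hg]

lemma rig_push_integrable {q om : ℝ → ℝ} {g : (Fin m → ℝ) → ℝ} (hg : RigDensity g)
    (D : RigCoreData q om g) {F : (Fin m → ℝ) → ℝ} (hF : Measurable F) :
    Integrable (fun x => F (D.T x)) (rig_gam m) ↔ Integrable (fun x => F (D.P *ᵥ x) * g x) := by
  obtain ⟨K, hK⟩ := D.T_lip
  have hT : Measurable D.T := hK.continuous.measurable
  rw [← rig_integrable_law_iff hg (fun x => F (D.P *ᵥ x))]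
  have h1 := integrable_map_measure (μ := rig_gam m) (f := D.T) (g := F)
    hF.aestronglyMeasurable hT.aemeasurable
  have h2 := integrable_map_measure (μ := rig_law g) (f := fun x => D.P *ᵥ x) (g := F)
    hF.aestronglyMeasurable (rig_mulVec_measurable D.P).aemeasurable
  rw [D.push] at h1
  exact h1.symm.trans h2

/-- first moments are integrable -/
lemma rig_density_mom1 {g : (Fin m → ℝ) → ℝ} (hg : RigDensity g) (i : Fin m) :
    Integrable (fun x => x i * g x) := by
  refine Integrable.mono' ((rig_density_integrable hg).add (hg.mom2 i))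
    (((measurable_pi_apply i).mul hg.meas).aestronglyMeasurable)
    (Eventually.of_forall fun x => ?_)
  have h0 := hg.nonneg x
  rw [Real.norm_eq_abs, abs_mul, abs_of_nonneg h0]
  have : |x i| ≤ 1 + x i ^ 2 := by
    have := sq_abs (x i)
    nlinarith [sq_nonneg (|x i| - 1), abs_nonneg (x i)]
  calc |x i| * g x ≤ (1 + x i ^ 2) * g x := mul_le_mul_of_nonneg_right this h0
    _ = g x + x i ^ 2 * g x := by ring

/-- mixed second moments are integrable -/
lemma rig_density_mom11 {g : (Fin m → ℝ) → ℝ} (hg : RigDensity g) (i k : Fin m) :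
    Integrable (fun x => x i * x k * g x) := by
  refine Integrable.mono' ((hg.mom2 i).add (hg.mom2 k))
    ((((measurable_pi_apply i).mul (measurable_pi_apply k)).mul hg.meas).aestronglyMeasurable)
    (Eventually.of_forall fun x => ?_)
  have h0 := hg.nonneg x
  rw [Real.norm_eq_abs, abs_mul, abs_of_nonneg h0]
  have : |x i * x k| ≤ x i ^ 2 + x k ^ 2 := by
    rw [abs_le]; constructor <;> nlinarith [sq_nonneg (x i - x k), sq_nonneg (x i + x k)]
  calc |x i * x k| * g x ≤ (x i ^ 2 + x k ^ 2) * g x := mul_le_mul_of_nonneg_right this h0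
    _ = x i ^ 2 * g x + x k ^ 2 * g x := by ring

lemma rig_mean_T {q om : ℝ → ℝ} {g : (Fin m → ℝ) → ℝ} (hg : RigDensity g)
    (D : RigCoreData q om g) (i : Fin m) :
    ∫ x, D.T x i ∂(rig_gam m) = (D.P *ᵥ Claims.C0429.densityMean g) i := by
  rw [rig_push_integral hg D (F := fun y => y i) (measurable_pi_apply i)]
  simp only [Matrix.mulVec, dotProduct, Claims.C0429.densityMean]
  simp_rw [Finset.sum_mul]
  rw [integral_finsetSum _ (fun k _ => by
    have := (rig_density_mom1 hg k).const_mul (D.P i k)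
    refine this.congr (Eventually.of_forall fun x => ?_)
    show D.P i k * (x k * g x) = D.P i k * x k * g x
    ring)]
  refine Finset.sum_congr rfl fun k _ => ?_
  rw [← integral_const_mul]
  refine integral_congr_ae (Eventually.of_forall fun x => ?_)
  show D.P i k * x k * g x = D.P i k * (x k * g x)
  ring

lemma rig_density_cov_integrable {g : (Fin m → ℝ) → ℝ} (hg : RigDensity g) (c : Fin m → ℝ)
    (a b : Fin m) : Integrable (fun x => (x a - c a) * (x b - c b) * g x) := by
  have h := (((rig_density_mom11 hg a b).sub ((rig_density_mom1 hg a).const_mul (c b))).sub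
    ((rig_density_mom1 hg b).const_mul (c a))).add
    ((rig_density_integrable hg).const_mul (c a * c b))
  refine h.congr (Eventually.of_forall fun x => ?_)
  show x a * x b * g x - c b * (x a * g x) - c a * (x b * g x) + c a * c b * g x
    = (x a - c a) * (x b - c b) * g x
  ring

lemma rig_cov_T {q om : ℝ → ℝ} {g : (Fin m → ℝ) → ℝ} (hg : RigDensity g)
    (D : RigCoreData q om g) (i k : Fin m) :
    ∫ x, rig_ctr D.T x i * rig_ctr D.T x k ∂(rig_gam m)
      = (D.P * Claims.C0429.densityCov g * D.Pᵀ) i k := by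
  set μ := Claims.C0429.densityMean g with hμ
  have hF : Measurable (fun y : Fin m → ℝ => (y i - (D.P *ᵥ μ) i) * (y k - (D.P *ᵥ μ) k)) := by
    fun_prop
  have h1 : ∀ x, rig_ctr D.T x i * rig_ctr D.T x k
      = (fun y : Fin m → ℝ => (y i - (D.P *ᵥ μ) i) * (y k - (D.P *ᵥ μ) k)) (D.T x) := by
    intro x
    simp only [rig_ctr, rig_mean_T hg D, hμ]
  simp_rw [h1]
  rw [rig_push_integral hg D hF]
  have h2 : ∀ x : Fin m → ℝ, ((D.P *ᵥ x) i - (D.P *ᵥ μ) i) * ((D.P *ᵥ x) k - (D.P *ᵥ μ) k) * g x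
      = ∑ a, ∑ b, D.P i a * D.P k b * ((x a - μ a) * (x b - μ b) * g x) := by
    intro x
    have e : ∀ j, (D.P *ᵥ x) j - (D.P *ᵥ μ) j = ∑ a, D.P j a * (x a - μ a) := by
      intro j
      simp only [Matrix.mulVec, dotProduct, ← Finset.sum_sub_distrib, mul_sub]
    rw [e i, e k, Finset.sum_mul_sum, Finset.sum_mul]
    refine Finset.sum_congr rfl fun a _ => ?_
    rw [Finset.sum_mul]
    refine Finset.sum_congr rfl fun b _ => ?_
    ring
  simp_rw [h2]
  rw [integral_finsetSum _ (fun a _ => integrable_finsetSum _ (fun b _ =>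
    (rig_density_cov_integrable hg μ a b).const_mul _))]
  simp_rw [Matrix.mul_apply, Finset.sum_mul, Matrix.transpose_apply]
  rw [Finset.sum_comm]
  refine Finset.sum_congr rfl fun a _ => ?_
  rw [integral_finsetSum _ (fun b _ => (rig_density_cov_integrable hg μ a b).const_mul _)]
  refine Finset.sum_congr rfl fun b _ => ?_
  rw [integral_const_mul]
  simp only [Claims.C0429.densityCov, ← hμ]
  ring

lemma rig_sub_sq_integrable {u v : (Fin m → ℝ) → ℝ} (hu : Measurable u) (hv : Measurable v)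
    (hu2 : Integrable (fun x => u x ^ 2) (rig_gam m))
    (hv2 : Integrable (fun x => v x ^ 2) (rig_gam m)) :
    Integrable (fun x => (u x - v x) ^ 2) (rig_gam m) := by
  refine Integrable.mono' ((hu2.const_mul 2).add (hv2.const_mul 2))
    ((hu.sub hv).pow_const 2).aestronglyMeasurable (Eventually.of_forall fun x => ?_)
  rw [Real.norm_of_nonneg (sq_nonneg _)]
  show (u x - v x) ^ 2 ≤ 2 * u x ^ 2 + 2 * v x ^ 2
  nlinarith [sq_nonneg (u x + v x)]

lemma rig_coord_sq_le_sum {F G : (Fin m → ℝ) → (Fin m → ℝ)}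
    (hF : Measurable F) (hG : Measurable G)
    (hF2 : ∀ i, Integrable (fun x => F x i ^ 2) (rig_gam m))
    (hG2 : ∀ i, Integrable (fun x => G x i ^ 2) (rig_gam m)) (i : Fin m) :
    ∫ x, (F x i - G x i) ^ 2 ∂(rig_gam m) ≤ ∫ x, ∑ i, (F x i - G x i) ^ 2 ∂(rig_gam m) := by
  have hint : ∀ i, Integrable (fun x => (F x i - G x i) ^ 2) (rig_gam m) := fun i =>
    rig_sub_sq_integrable ((measurable_pi_apply i).comp hF) ((measurable_pi_apply i).comp hG)
      (hF2 i) (hG2 i)
  refine integral_mono (hint i) (integrable_finsetSum _ fun i _ => hint i) fun x => ?_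
  exact Finset.single_le_sum (f := fun i => (F x i - G x i) ^ 2) (fun i _ => sq_nonneg _)
    (Finset.mem_univ i)

/-- `L^2` convergence of maps implies convergence of the second moment matrices. -/
lemma rig_second_moment_tendsto {F : ℕ → (Fin m → ℝ) → (Fin m → ℝ)} {G : (Fin m → ℝ) → (Fin m → ℝ)}
    (hF : ∀ j, Measurable (F j)) (hG : Measurable G)
    (hF2 : ∀ j i, Integrable (fun x => F j x i ^ 2) (rig_gam m))
    (hG2 : ∀ i, Integrable (fun x => G x i ^ 2) (rig_gam m))
    (hlim : Tendsto (fun j => ∫ x, ∑ i, (F j x i - G x i) ^ 2 ∂(rig_gam m)) atTop (𝓝 0))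
    (i k : Fin m) :
    Tendsto (fun j => ∫ x, F j x i * F j x k ∂(rig_gam m)) atTop
      (𝓝 (∫ x, G x i * G x k ∂(rig_gam m))) := by
  set δ : ℕ → ℝ := fun j => ∫ x, ∑ i, (F j x i - G x i) ^ 2 ∂(rig_gam m) with hδ
  have hFm : ∀ j i, Measurable (fun x => F j x i) := fun j i => (measurable_pi_apply i).comp (hF j)
  have hGm : ∀ i, Measurable (fun x => G x i) := fun i => (measurable_pi_apply i).comp hG
  have hd2 : ∀ j i, Integrable (fun x => (F j x i - G x i) ^ 2) (rig_gam m) := fun j i =>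
    rig_sub_sq_integrable (hFm j i) (hGm i) (hF2 j i) (hG2 i)
  have hdle : ∀ j i, Real.sqrt (∫ x, (F j x i - G x i) ^ 2 ∂(rig_gam m)) ≤ Real.sqrt (δ j) :=
    fun j i => Real.sqrt_le_sqrt (rig_coord_sq_le_sum (hF j) hG (hF2 j) hG2 i)
  set A := Real.sqrt (∫ x, G x i ^ 2 ∂(rig_gam m)) with hA
  set B := Real.sqrt (∫ x, G x k ^ 2 ∂(rig_gam m)) with hB
  have hbound : ∀ j, ‖∫ x, F j x i * F j x k ∂(rig_gam m) - ∫ x, G x i * G x k ∂(rig_gam m)‖
      ≤ Real.sqrt (δ j) * Real.sqrt (δ j) + A * Real.sqrt (δ j) + Real.sqrt (δ j) * B := by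
    intro j
    obtain ⟨i1, b1⟩ := rig_abs_integral_mul_le (u := fun x => F j x i - G x i)
      (v := fun x => F j x k - G x k) ((hFm j i).sub (hGm i)).aestronglyMeasurable
      ((hFm j k).sub (hGm k)).aestronglyMeasurable (hd2 j i) (hd2 j k)
    obtain ⟨i2, b2⟩ := rig_abs_integral_mul_le (u := fun x => G x i)
      (v := fun x => F j x k - G x k) (hGm i).aestronglyMeasurable
      ((hFm j k).sub (hGm k)).aestronglyMeasurable (hG2 i) (hd2 j k)
    obtain ⟨i3, b3⟩ := rig_abs_integral_mul_le (u := fun x => F j x i - G x i)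
      (v := fun x => G x k) ((hFm j i).sub (hGm i)).aestronglyMeasurable
      (hGm k).aestronglyMeasurable (hd2 j i) (hG2 k)
    obtain ⟨i4, -⟩ := rig_abs_integral_mul_le (u := fun x => G x i)
      (v := fun x => G x k) (hGm i).aestronglyMeasurable
      (hGm k).aestronglyMeasurable (hG2 i) (hG2 k)
    have e : ∫ x, F j x i * F j x k ∂(rig_gam m) - ∫ x, G x i * G x k ∂(rig_gam m)
        = ∫ x, (F j x i - G x i) * (F j x k - G x k) ∂(rig_gam m)
          + ∫ x, G x i * (F j x k - G x k) ∂(rig_gam m)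
          + ∫ x, (F j x i - G x i) * G x k ∂(rig_gam m) := by
      have i12 : Integrable (fun x => (F j x i - G x i) * (F j x k - G x k)
          + G x i * (F j x k - G x k)) (rig_gam m) := i1.add i2
      have i123 : Integrable (fun x => (F j x i - G x i) * (F j x k - G x k)
          + G x i * (F j x k - G x k) + (F j x i - G x i) * G x k) (rig_gam m) := i12.add i3
      rw [← integral_add i1 i2, ← integral_add i12 i3, sub_eq_iff_eq_add,
        ← integral_add i123 i4]
      refine integral_congr_ae (Eventually.of_forall fun x => ?_)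
      show F j x i * F j x k = (F j x i - G x i) * (F j x k - G x k)
          + G x i * (F j x k - G x k) + (F j x i - G x i) * G x k + G x i * G x k
      ring
    rw [e, Real.norm_eq_abs]
    have hs := Real.sqrt_nonneg (δ j)
    have hA0 : 0 ≤ A := Real.sqrt_nonneg _
    have hB0 : 0 ≤ B := Real.sqrt_nonneg _
    calc |∫ x, (F j x i - G x i) * (F j x k - G x k) ∂(rig_gam m)
          + ∫ x, G x i * (F j x k - G x k) ∂(rig_gam m)
          + ∫ x, (F j x i - G x i) * G x k ∂(rig_gam m)|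
        ≤ |∫ x, (F j x i - G x i) * (F j x k - G x k) ∂(rig_gam m)|
          + |∫ x, G x i * (F j x k - G x k) ∂(rig_gam m)|
          + |∫ x, (F j x i - G x i) * G x k ∂(rig_gam m)| := abs_add_three _ _ _
      _ ≤ _ := by
        refine add_le_add (add_le_add (b1.trans ?_) (b2.trans ?_)) (b3.trans ?_)
        · exact mul_le_mul (hdle j i) (hdle j k) (Real.sqrt_nonneg _) hs
        · exact mul_le_mul_of_nonneg_left (hdle j k) hA0
        · exact mul_le_mul_of_nonneg_right (hdle j i) hB0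
  have hs : Tendsto (fun j => Real.sqrt (δ j)) atTop (𝓝 0) := by
    have := (Real.continuous_sqrt.tendsto 0).comp hlim
    simpa [Function.comp_def] using this
  have hb : Tendsto (fun j => Real.sqrt (δ j) * Real.sqrt (δ j) + A * Real.sqrt (δ j)
      + Real.sqrt (δ j) * B) atTop (𝓝 0) := by
    have := ((hs.mul hs).add (hs.const_mul A)).add (hs.mul_const B)
    simpa using this
  have := squeeze_zero_norm hbound hb
  have h2 := this.add_const (∫ x, G x i * G x k ∂(rig_gam m))
  simpa using h2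

/-- coercivity of a positive definite quadratic form -/
lemma rig_posDef_coercive {C : Matrix (Fin m) (Fin m) ℝ} (hC : C.PosDef) :
    ∃ c : ℝ, 0 < c ∧ ∀ v : Fin m → ℝ, c * ∑ i, v i ^ 2 ≤ v ⬝ᵥ (C *ᵥ v) := by
  set S : Set (Fin m → ℝ) := {v | ∑ i, v i ^ 2 = 1} with hS
  have hQc : Continuous (fun v : Fin m → ℝ => v ⬝ᵥ (C *ᵥ v)) :=
    Continuous.dotProduct continuous_id (Continuous.matrix_mulVec continuous_const continuous_id)
  have hScl : IsClosed S := isClosed_eq (by fun_prop) continuous_const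
  have hSbd : Bornology.IsBounded S := by
    refine (Metric.isBounded_closedBall (x := (0 : Fin m → ℝ)) (r := 1)).subset ?_
    intro v hv
    rw [mem_closedBall_zero_iff, pi_norm_le_iff_of_nonneg zero_le_one]
    intro i
    have h1 : v i ^ 2 ≤ 1 := by
      have hv' : ∑ i, v i ^ 2 = 1 := hv
      rw [← hv']
      exact Finset.single_le_sum (f := fun i => v i ^ 2) (fun i _ => sq_nonneg _)
        (Finset.mem_univ i)
    rw [Real.norm_eq_abs]
    exact abs_le_one_iff_mul_self_le_one.2 (by nlinarith)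
  have hScpt : IsCompact S := Metric.isCompact_of_isClosed_isBounded hScl hSbd
  have hscale : ∀ (c : ℝ), (∀ u ∈ S, c ≤ u ⬝ᵥ (C *ᵥ u)) →
      ∀ v : Fin m → ℝ, c * ∑ i, v i ^ 2 ≤ v ⬝ᵥ (C *ᵥ v) := by
    intro c hc v
    have h0 : 0 ≤ ∑ i, v i ^ 2 := Finset.sum_nonneg fun i _ => sq_nonneg _
    rcases h0.eq_or_lt with h0 | h0
    · have hv : v = 0 := by
        ext i
        have := (Finset.sum_eq_zero_iff_of_nonneg (fun i _ => sq_nonneg (v i))).1 h0.symm i
          (Finset.mem_univ i)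
        simpa using this
      subst hv; simp
    · set s := Real.sqrt (∑ i, v i ^ 2) with hs
      have hs0 : 0 < s := Real.sqrt_pos.2 h0
      have hs2 : s ^ 2 = ∑ i, v i ^ 2 := Real.sq_sqrt h0.le
      have hu : (s⁻¹ • v) ∈ S := by
        show ∑ i, (s⁻¹ • v) i ^ 2 = 1
        simp only [Pi.smul_apply, smul_eq_mul, mul_pow, ← Finset.mul_sum, ← hs2]
        field_simp
      have h1 := hc _ hu
      rw [Matrix.mulVec_smul, dotProduct_smul, smul_dotProduct, smul_eq_mul, smul_eq_mul] at h1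
      rw [← hs2]
      have h2 : c * s ^ 2 ≤ (s⁻¹ * (s⁻¹ * v ⬝ᵥ (C *ᵥ v))) * s ^ 2 :=
        mul_le_mul_of_nonneg_right h1 (by positivity)
      have h3 : (s⁻¹ * (s⁻¹ * v ⬝ᵥ (C *ᵥ v))) * s ^ 2 = v ⬝ᵥ (C *ᵥ v) := by
        field_simp
      linarith
  rcases S.eq_empty_or_nonempty with hE | hE
  · exact ⟨1, one_pos, hscale 1 (by simp [hE])⟩
  · obtain ⟨v₀, hv₀, hmin⟩ := hScpt.exists_isMinOn hE hQc.continuousOn
    refine ⟨v₀ ⬝ᵥ (C *ᵥ v₀), ?_, hscale _ fun u hu => hmin hu⟩
    have hne : v₀ ≠ 0 := by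
      rintro rfl
      have : ∑ i : Fin m, ((0 : Fin m → ℝ) i) ^ 2 = 1 := hv₀
      simp at this
    simpa using hC.dotProduct_mulVec_pos hne

/-- a matrix with small entries has a small quadratic form -/
lemma rig_quad_small {D : Matrix (Fin m) (Fin m) ℝ} {η : ℝ} (hD : ∀ a b, |D a b| ≤ η)
    (v : Fin m → ℝ) : |v ⬝ᵥ (D *ᵥ v)| ≤ η * (m : ℝ) * ∑ i, v i ^ 2 := by
  have h1 : |v ⬝ᵥ (D *ᵥ v)| ≤ ∑ a, ∑ b, η * ((v a ^ 2 + v b ^ 2) / 2) := by
    simp only [dotProduct, Matrix.mulVec, Finset.mul_sum]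
    refine (Finset.abs_sum_le_sum_abs _ _).trans (Finset.sum_le_sum fun a _ => ?_)
    refine (Finset.abs_sum_le_sum_abs _ _).trans (Finset.sum_le_sum fun b _ => ?_)
    have h2 : |v a * v b| ≤ (v a ^ 2 + v b ^ 2) / 2 := by
      rw [abs_le]; constructor <;> nlinarith [sq_nonneg (v a - v b), sq_nonneg (v a + v b)]
    calc |v a * (D a b * v b)| = |D a b| * |v a * v b| := by
          rw [← abs_mul]; congr 1; ring
      _ ≤ η * ((v a ^ 2 + v b ^ 2) / 2) :=
          mul_le_mul (hD a b) h2 (abs_nonneg _) ((abs_nonneg _).trans (hD a b))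
  refine h1.trans (le_of_eq ?_)
  simp only [← Finset.mul_sum, add_div, Finset.sum_add_distrib, Finset.sum_const, Finset.card_univ,
    Fintype.card_fin, nsmul_eq_mul, ← Finset.sum_div]
  ring

lemma rig_conj_diag (P C : Matrix (Fin m) (Fin m) ℝ) (i : Fin m) :
    (P * C * Pᵀ) i i = (P i) ⬝ᵥ (C *ᵥ (P i)) := by
  simp only [Matrix.mul_apply, Matrix.transpose_apply, dotProduct, Matrix.mulVec, Finset.sum_mul,
    Finset.mul_sum]
  rw [Finset.sum_comm]
  refine Finset.sum_congr rfl fun a _ => Finset.sum_congr rfl fun b _ => ?_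
  ring

/-- Compactness of the normalising matrices, (6.14). -/
lemma rig_P_compact {C : Matrix (Fin m) (Fin m) ℝ} (hC : C.PosDef)
    {Cj Pj : ℕ → Matrix (Fin m) (Fin m) ℝ} (hCj : Tendsto Cj atTop (𝓝 C))
    (h : Tendsto (fun j => Pj j * Cj j * (Pj j)ᵀ) atTop (𝓝 1)) :
    ∃ φ : ℕ → ℕ, StrictMono φ ∧ ∃ P : Matrix (Fin m) (Fin m) ℝ, P.det ≠ 0 ∧
      Tendsto (fun j => Pj (φ j)) atTop (𝓝 P) := by
  obtain ⟨c, hc, hcoer⟩ := rig_posDef_coercive hC
  set η : ℝ := c / (2 * ((m : ℝ) + 1)) with hη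
  have hη0 : 0 < η := by positivity
  have hηm : η * (m : ℝ) ≤ c / 2 := by
    rw [hη, div_mul_eq_mul_div, div_le_div_iff₀ (by positivity) (by norm_num)]
    nlinarith
  -- entries of `Cj` are eventually close to those of `C`
  have hev1 : ∀ᶠ j in atTop, ∀ a b, |(Cj j - C) a b| ≤ η := by
    rw [eventually_all]; intro a
    rw [eventually_all]; intro b
    have h1 : Tendsto (fun j => Cj j a b) atTop (𝓝 (C a b)) :=
      ((continuous_apply b).tendsto _).comp (((continuous_apply a).tendsto _).comp hCj)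
    have h2 := (Metric.tendsto_nhds.1 h1) η hη0
    filter_upwards [h2] with j hj
    rw [Real.dist_eq] at hj
    exact hj.le
  -- diagonal entries of `Pj Cj Pjᵀ` are eventually at most `2`
  have hev2 : ∀ᶠ j in atTop, ∀ i, (Pj j * Cj j * (Pj j)ᵀ) i i ≤ 2 := by
    rw [eventually_all]; intro i
    have h1 : Tendsto (fun j => (Pj j * Cj j * (Pj j)ᵀ) i i) atTop
        (𝓝 ((1 : Matrix (Fin m) (Fin m) ℝ) i i)) :=
      ((continuous_apply i).tendsto _).comp (((continuous_apply i).tendsto _).comp h)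
    rw [Matrix.one_apply_eq] at h1
    exact (h1.eventually_lt_const (by norm_num : (1:ℝ) < 2)).mono fun j hj => hj.le
  -- boundedness
  set R : ℝ := 4 / c + 1 with hR
  have hbd : ∀ᶠ j in atTop, (show Fin m → Fin m → ℝ from Pj j) ∈
      Metric.closedBall (0 : Fin m → Fin m → ℝ) R := by
    filter_upwards [hev1, hev2] with j h1 h2
    have hR0 : 0 ≤ R := by positivity
    rw [mem_closedBall_zero_iff, pi_norm_le_iff_of_nonneg hR0]
    intro i
    rw [pi_norm_le_iff_of_nonneg hR0]
    intro k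
    have h3 := h2 i
    rw [rig_conj_diag] at h3
    have h4 : Cj j = C + (Cj j - C) := by abel
    rw [h4, Matrix.add_mulVec, dotProduct_add] at h3
    have h5 := hcoer (Pj j i)
    have h6 := (abs_le.1 (rig_quad_small h1 (Pj j i))).1
    have hsum0 : 0 ≤ ∑ k, Pj j i k ^ 2 := Finset.sum_nonneg fun k _ => sq_nonneg _
    have h7 : c / 2 * ∑ k, Pj j i k ^ 2 ≤ 2 := by
      have := mul_le_mul_of_nonneg_right hηm hsum0
      nlinarith
    have h8 : Pj j i k ^ 2 ≤ ∑ k, Pj j i k ^ 2 :=
      Finset.single_le_sum (f := fun k => Pj j i k ^ 2) (fun k _ => sq_nonneg _)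
        (Finset.mem_univ k)
    have h9 : Pj j i k ^ 2 ≤ 4 / c := by
      rw [le_div_iff₀ hc]
      nlinarith
    rw [Real.norm_eq_abs]
    have h10 : |Pj j i k| ≤ 1 + Pj j i k ^ 2 := by
      have := sq_abs (Pj j i k)
      nlinarith [sq_nonneg (|Pj j i k| - 1), abs_nonneg (Pj j i k)]
    show |Pj j i k| ≤ R
    rw [hR]; linarith
  obtain ⟨P, -, φ, hφ, hlim⟩ := tendsto_subseq_of_frequently_bounded
    (Metric.isBounded_closedBall (x := (0 : Fin m → Fin m → ℝ)) (r := R)) hbd.frequently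
  have hlim' : Tendsto (fun j => Pj (φ j)) atTop (𝓝 (show Matrix (Fin m) (Fin m) ℝ from P)) := hlim
  refine ⟨φ, hφ, P, ?_, hlim'⟩
  -- the limit satisfies `P C Pᵀ = 1`
  have h1 : Tendsto (fun j => Pj (φ j) * Cj (φ j) * (Pj (φ j))ᵀ) atTop
      (𝓝 ((show Matrix (Fin m) (Fin m) ℝ from P) * C * (show Matrix (Fin m) (Fin m) ℝ from P)ᵀ)) :=
    (hlim'.mul (hCj.comp hφ.tendsto_atTop)).mul
      (((continuous_id.matrix_transpose).tendsto _).comp hlim')
  have h2 : Tendsto (fun j => Pj (φ j) * Cj (φ j) * (Pj (φ j))ᵀ) atTop (𝓝 1) :=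
    h.comp hφ.tendsto_atTop
  have h3 := tendsto_nhds_unique h1 h2
  intro hdet
  have h4 := congrArg Matrix.det h3
  rw [Matrix.det_mul, Matrix.det_mul, Matrix.det_one] at h4
  rw [show (show Matrix (Fin m) (Fin m) ℝ from P).det = 0 from hdet] at h4
  simp at h4

lemma rig_norm_sq_le_sum (v : Fin m → ℝ) : ‖v‖ ^ 2 ≤ ∑ i, v i ^ 2 := by
  have h0 : 0 ≤ ∑ i, v i ^ 2 := Finset.sum_nonneg fun i _ => sq_nonneg _
  have h1 : ‖v‖ ≤ Real.sqrt (∑ i, v i ^ 2) := by
    rw [pi_norm_le_iff_of_nonneg (Real.sqrt_nonneg _)]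
    intro i
    rw [Real.norm_eq_abs, ← Real.sqrt_sq_eq_abs]
    exact Real.sqrt_le_sqrt (Finset.single_le_sum (f := fun i => v i ^ 2)
      (fun i _ => sq_nonneg _) (Finset.mem_univ i))
  calc ‖v‖ ^ 2 ≤ Real.sqrt (∑ i, v i ^ 2) ^ 2 := by gcongr
    _ = _ := Real.sq_sqrt h0

lemma rig_tendstoInMeasure_of_L2 {F : ℕ → (Fin m → ℝ) → (Fin m → ℝ)}
    {G : (Fin m → ℝ) → (Fin m → ℝ)}
    (hF : ∀ j, Measurable (F j)) (hG : Measurable G)
    (hF2 : ∀ j i, Integrable (fun x => F j x i ^ 2) (rig_gam m))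
    (hG2 : ∀ i, Integrable (fun x => G x i ^ 2) (rig_gam m))
    (hlim : Tendsto (fun j => ∫ x, ∑ i, (F j x i - G x i) ^ 2 ∂(rig_gam m)) atTop (𝓝 0)) :
    TendstoInMeasure (rig_gam m) F atTop G := by
  rw [tendstoInMeasure_iff_norm]
  intro ε hε
  have hint : ∀ j, Integrable (fun x => ∑ i, (F j x i - G x i) ^ 2) (rig_gam m) := fun j =>
    integrable_finsetSum _ fun i _ =>
      rig_sub_sq_integrable ((measurable_pi_apply i).comp (hF j)) ((measurable_pi_apply i).comp hG)
        (hF2 j i) (hG2 i)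
  have hle : ∀ j, (rig_gam m) {x | ε ≤ ‖F j x - G x‖}
      ≤ ENNReal.ofReal ((∫ x, ∑ i, (F j x i - G x i) ^ 2 ∂(rig_gam m)) / ε ^ 2) := by
    intro j
    have h1 : {x | ε ≤ ‖F j x - G x‖} ⊆ {x | ε ^ 2 ≤ ∑ i, (F j x i - G x i) ^ 2} := by
      intro x hx
      have hx' : ε ≤ ‖F j x - G x‖ := hx
      have h2 := rig_norm_sq_le_sum (F j x - G x)
      simp only [Pi.sub_apply] at h2
      show ε ^ 2 ≤ ∑ i, (F j x i - G x i) ^ 2
      calc ε ^ 2 ≤ ‖F j x - G x‖ ^ 2 := by gcongr
        _ ≤ _ := h2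
    have h3 := mul_meas_ge_le_integral_of_nonneg (μ := rig_gam m)
      (f := fun x => ∑ i, (F j x i - G x i) ^ 2)
      (Eventually.of_forall fun x => Finset.sum_nonneg fun i _ => sq_nonneg _) (hint j) (ε ^ 2)
    refine (measure_mono h1).trans ?_
    rw [← ofReal_measureReal (μ := rig_gam m)]
    apply ENNReal.ofReal_le_ofReal
    rw [le_div_iff₀ (by positivity)]
    linarith
  have hlim2 : Tendsto (fun j => ENNReal.ofReal
      ((∫ x, ∑ i, (F j x i - G x i) ^ 2 ∂(rig_gam m)) / ε ^ 2)) atTop (𝓝 0) := by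
    have := ENNReal.tendsto_ofReal (hlim.div_const (ε ^ 2))
    simpa using this
  exact tendsto_of_tendsto_of_tendsto_of_le_of_le tendsto_const_nhds hlim2
    (fun j => bot_le) hle

/-- `L^2` convergence of maps implies convergence in law. -/
lemma rig_tendsto_integral_bcf_of_L2 {F : ℕ → (Fin m → ℝ) → (Fin m → ℝ)}
    {G : (Fin m → ℝ) → (Fin m → ℝ)}
    (hF : ∀ j, Measurable (F j)) (hG : Measurable G)
    (hF2 : ∀ j i, Integrable (fun x => F j x i ^ 2) (rig_gam m))
    (hG2 : ∀ i, Integrable (fun x => G x i ^ 2) (rig_gam m))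
    (hlim : Tendsto (fun j => ∫ x, ∑ i, (F j x i - G x i) ^ 2 ∂(rig_gam m)) atTop (𝓝 0))
    (ψ : (Fin m → ℝ) →ᵇ ℝ) :
    Tendsto (fun j => ∫ x, ψ (F j x) ∂(rig_gam m)) atTop (𝓝 (∫ x, ψ (G x) ∂(rig_gam m))) := by
  have h1 := (rig_tendstoInMeasure_of_L2 hF hG hF2 hG2 hlim).tendstoInDistribution
    (fun j => (hF j).aemeasurable)
  have h2 := h1.tendsto
  have h3 := (ProbabilityMeasure.tendsto_iff_forall_integral_tendsto.1 h2) ψ
  simp only [ProbabilityMeasure.coe_mk] at h3
  rw [integral_map hG.aemeasurable ψ.continuous.aestronglyMeasurable] at h3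
  refine h3.congr fun j => ?_
  rw [integral_map (hF j).aemeasurable ψ.continuous.aestronglyMeasurable]

lemma rig_bcf_affine_continuous (ψ : (Fin m → ℝ) →ᵇ ℝ) (P : Matrix (Fin m) (Fin m) ℝ)
    (a : Fin m → ℝ) : Continuous (fun x : Fin m → ℝ => ψ (P *ᵥ (x - a))) :=
  ψ.continuous.comp (Continuous.matrix_mulVec continuous_const (continuous_id.sub continuous_const))

lemma rig_bcf_affine_mul_integrable (ψ : (Fin m → ℝ) →ᵇ ℝ) (P : Matrix (Fin m) (Fin m) ℝ)
    (a : Fin m → ℝ) {h : (Fin m → ℝ) → ℝ} (hh : Integrable h) :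
    Integrable (fun x => ψ (P *ᵥ (x - a)) * h x) :=
  hh.bdd_mul (c := ‖ψ‖) (rig_bcf_affine_continuous ψ P a).aestronglyMeasurable
    (Eventually.of_forall fun _ => ψ.norm_coe_le_norm _)

/-- Convergence of the laws of `P_j (x - a_j)` under `g_j dx`. -/
lemma rig_tendsto_integral_affine {f : (Fin m → ℝ) → ℝ} {g : ℕ → (Fin m → ℝ) → ℝ}
    (hf : RigDensity f) (hg : ∀ j, RigDensity (g j))
    (hL1 : Tendsto (fun j => ∫ x, |g j x - f x|) atTop (𝓝 0))
    {Pj : ℕ → Matrix (Fin m) (Fin m) ℝ} {P : Matrix (Fin m) (Fin m) ℝ}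
    (hP : Tendsto Pj atTop (𝓝 P))
    {aj : ℕ → Fin m → ℝ} {a : Fin m → ℝ} (ha : Tendsto aj atTop (𝓝 a))
    (ψ : (Fin m → ℝ) →ᵇ ℝ) :
    Tendsto (fun j => ∫ x, ψ (Pj j *ᵥ (x - aj j)) * g j x) atTop
      (𝓝 (∫ x, ψ (P *ᵥ (x - a)) * f x)) := by
  have hfi := rig_density_integrable hf
  have hgi := fun j => rig_density_integrable (hg j)
  -- first part: replace `g j` by `f`
  have h1 : Tendsto (fun j => ∫ x, ψ (Pj j *ᵥ (x - aj j)) * (g j x - f x)) atTop (𝓝 0) := by
    have hb : ∀ j, ‖∫ x, ψ (Pj j *ᵥ (x - aj j)) * (g j x - f x)‖ ≤ ‖ψ‖ * ∫ x, |g j x - f x| := by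
      intro j
      rw [← integral_const_mul]
      refine norm_integral_le_of_norm_le (((hgi j).sub hfi).abs.const_mul _)
        (Eventually.of_forall fun x => ?_)
      rw [norm_mul, Real.norm_eq_abs (g j x - f x)]
      exact mul_le_mul_of_nonneg_right (ψ.norm_coe_le_norm _) (abs_nonneg _)
    have := hL1.const_mul ‖ψ‖
    rw [mul_zero] at this
    exact squeeze_zero_norm hb this
  -- second part: dominated convergence
  have h2 : Tendsto (fun j => ∫ x, ψ (Pj j *ᵥ (x - aj j)) * f x) atTop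
      (𝓝 (∫ x, ψ (P *ᵥ (x - a)) * f x)) := by
    refine tendsto_integral_of_dominated_convergence (fun x => ‖ψ‖ * f x)
      (fun j => (rig_bcf_affine_mul_integrable ψ (Pj j) (aj j) hfi).aestronglyMeasurable)
      (hfi.const_mul _) (fun j => Eventually.of_forall fun x => ?_)
      (Eventually.of_forall fun x => ?_)
    · rw [norm_mul, Real.norm_of_nonneg (hf.nonneg x)]
      exact mul_le_mul_of_nonneg_right (ψ.norm_coe_le_norm _) (hf.nonneg x)
    · refine Tendsto.mul_const _ ?_
      have hc : Continuous (fun p : Matrix (Fin m) (Fin m) ℝ × (Fin m → ℝ) => p.1 *ᵥ p.2) :=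
        Continuous.matrix_mulVec continuous_fst continuous_snd
      have h3 : Tendsto (fun j => (Pj j, x - aj j)) atTop (𝓝 (P, x - a)) :=
        hP.prodMk_nhds (tendsto_const_nhds.sub ha)
      exact (ψ.continuous.tendsto _).comp ((hc.tendsto (P, x - a)).comp h3)
  have h3 := h1.add h2
  rw [zero_add] at h3
  refine h3.congr fun j => ?_
  have hsub : Integrable (fun x => g j x - f x) := (hgi j).sub hfi
  rw [← integral_add (rig_bcf_affine_mul_integrable ψ (Pj j) (aj j) hsub)
    (rig_bcf_affine_mul_integrable ψ (Pj j) (aj j) hfi)]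
  refine integral_congr_ae (Eventually.of_forall fun x => ?_)
  show ψ (Pj j *ᵥ (x - aj j)) * (g j x - f x) + ψ (Pj j *ᵥ (x - aj j)) * f x = _
  ring

/-- Densities of equal laws agree almost everywhere. -/
lemma rig_ae_eq_of_law_eq {f g : (Fin m → ℝ) → ℝ} (hf : Measurable f) (hg : Measurable g)
    (hf0 : ∀ x, 0 ≤ f x) (hg0 : ∀ x, 0 ≤ g x) (hfi : Integrable f)
    (h : rig_law f = rig_law g) : f =ᵐ[volume] g := by
  unfold rig_law at h
  have h1 := (withDensity_eq_iff hf.ennreal_ofReal.aemeasurable hg.ennreal_ofReal.aemeasurable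
    (by
      rw [← ofReal_integral_eq_lintegral_ofReal hfi (Eventually.of_forall hf0)]
      exact ENNReal.ofReal_ne_top)).1 h
  filter_upwards [h1] with x hx
  have := congrArg ENNReal.toReal hx
  rwa [ENNReal.toReal_ofReal (hf0 x), ENNReal.toReal_ofReal (hg0 x)] at this

lemma rig_oneSided_measurable : Measurable Claims.C0429.oneSidedExpDensity := by
  unfold Claims.C0429.oneSidedExpDensity
  exact Measurable.ite measurableSet_Ici (by fun_prop) measurable_const

lemma rig_pe_measurable : Measurable (rig_pe (m := m)) := by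
  unfold rig_pe
  exact Finset.measurable_prod _ fun i _ => rig_oneSided_measurable.comp (measurable_pi_apply i)

lemma rig_oneSided_nonneg (u : ℝ) : 0 ≤ Claims.C0429.oneSidedExpDensity u := by
  unfold Claims.C0429.oneSidedExpDensity
  split_ifs
  · exact (Real.exp_pos _).le
  · exact le_rfl

lemma rig_pe_nonneg (u : Fin m → ℝ) : 0 ≤ rig_pe u :=
  Finset.prod_nonneg fun _ _ => rig_oneSided_nonneg _

lemma rig_map_affine_volume {M : Matrix (Fin m) (Fin m) ℝ} (hM : M.det ≠ 0) (b : Fin m → ℝ) :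
    (volume : Measure (Fin m → ℝ)).map (fun u => M *ᵥ u + b)
      = ENNReal.ofReal (|M.det|⁻¹) • volume := by
  have h1 : (fun u : Fin m → ℝ => M *ᵥ u + b) = (fun y => y + b) ∘ (Matrix.toLin' M) := by
    ext u; simp
  have hm1 : Measurable (Matrix.toLin' M : (Fin m → ℝ) → (Fin m → ℝ)) :=
    (LinearMap.continuous_of_finiteDimensional _).measurable
  rw [h1, ← Measure.map_map (measurable_add_const b) hm1,
    Real.map_matrix_volume_pi_eq_smul_volume_pi hM, Measure.map_smul, map_add_right_eq_self,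
    abs_inv]

/-- The affine image of the product exponential law has density `affineExpProductDensity`. -/
lemma rig_affineExp_map {M : Matrix (Fin m) (Fin m) ℝ} (hM : M.det ≠ 0) (b : Fin m → ℝ) :
    (rig_law rig_pe).map (fun u => M *ᵥ u + b)
      = rig_law (Claims.C0429.affineExpProductDensity M b) := by
  have hφ : Measurable (fun u : Fin m → ℝ => M *ᵥ u + b) :=
    ((Continuous.matrix_mulVec continuous_const continuous_id).add continuous_const).measurable
  have hinv : ∀ u : Fin m → ℝ, M⁻¹ *ᵥ ((M *ᵥ u + b) - b) = u := by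
    intro u
    rw [add_sub_cancel_right, Matrix.mulVec_mulVec, Matrix.nonsing_inv_mul _ (isUnit_iff_ne_zero.2 hM),
      Matrix.one_mulVec]
  have hψ : Measurable (fun y : Fin m → ℝ => M⁻¹ *ᵥ (y - b)) :=
    (Continuous.matrix_mulVec continuous_const (continuous_id.sub continuous_const)).measurable
  have hc : 0 ≤ |M.det|⁻¹ := by positivity
  ext s hs
  rw [Measure.map_apply hφ hs]
  unfold rig_law
  rw [withDensity_apply _ (hφ hs), withDensity_apply _ hs]
  have e1 : ∀ y, ENNReal.ofReal (Claims.C0429.affineExpProductDensity M b y)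
      = ENNReal.ofReal (|M.det|⁻¹) * ENNReal.ofReal (rig_pe (M⁻¹ *ᵥ (y - b))) := by
    intro y
    rw [← ENNReal.ofReal_mul hc]
    rfl
  simp_rw [e1]
  rw [← lintegral_indicator hs, ← lintegral_indicator (hφ hs)]
  have e2 : ∀ y, s.indicator (fun y => ENNReal.ofReal (|M.det|⁻¹)
        * ENNReal.ofReal (rig_pe (M⁻¹ *ᵥ (y - b)))) y
      = ENNReal.ofReal (|M.det|⁻¹)
        * s.indicator (fun y => ENNReal.ofReal (rig_pe (M⁻¹ *ᵥ (y - b)))) y := by
    intro y
    by_cases hy : y ∈ s <;> simp [hy]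
  simp_rw [e2]
  have hmeas : Measurable (s.indicator (fun y => ENNReal.ofReal (rig_pe (M⁻¹ *ᵥ (y - b))))) :=
    ((rig_pe_measurable.comp hψ).ennreal_ofReal).indicator hs
  rw [lintegral_const_mul _ hmeas, ← smul_eq_mul, ← lintegral_smul_measure,
    ← rig_map_affine_volume hM b, lintegral_map hmeas hφ]
  refine lintegral_congr fun u => ?_
  by_cases hu : (M *ᵥ u + b) ∈ s
  · have hu' : u ∈ (fun u => M *ᵥ u + b) ⁻¹' s := hu
    rw [Set.indicator_of_mem hu', Set.indicator_of_mem hu, hinv]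
  · have hu' : u ∉ (fun u => M *ᵥ u + b) ⁻¹' s := hu
    rw [Set.indicator_of_notMem hu', Set.indicator_of_notMem hu]

lemma rig_affineExp_eq (M : Matrix (Fin m) (Fin m) ℝ) (b y : Fin m → ℝ) :
    Claims.C0429.affineExpProductDensity M b y = |M.det|⁻¹ * rig_pe (M⁻¹ *ᵥ (y - b)) := rfl

lemma rig_affineExp_measurable (M : Matrix (Fin m) (Fin m) ℝ) (b : Fin m → ℝ) :
    Measurable (Claims.C0429.affineExpProductDensity M b) := by
  have hψ : Measurable (fun y : Fin m → ℝ => M⁻¹ *ᵥ (y - b)) :=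
    (Continuous.matrix_mulVec continuous_const (continuous_id.sub continuous_const)).measurable
  have : Claims.C0429.affineExpProductDensity M b
      = fun y => |M.det|⁻¹ * rig_pe (M⁻¹ *ᵥ (y - b)) := by
    ext y; exact rig_affineExp_eq M b y
  rw [this]
  exact (rig_pe_measurable.comp hψ).const_mul _

lemma rig_affineExp_nonneg (M : Matrix (Fin m) (Fin m) ℝ) (b y : Fin m → ℝ) :
    0 ≤ Claims.C0429.affineExpProductDensity M b y := by
  rw [rig_affineExp_eq]
  exact mul_nonneg (by positivity) (rig_pe_nonneg _)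

/-- Final identification of the density. -/
lemma rig_identify {f : (Fin m → ℝ) → ℝ} (hf : RigDensity f)
    {P : Matrix (Fin m) (Fin m) ℝ} (hP : P.det ≠ 0) {a w : Fin m → ℝ}
    {σ : Fin m → ℝ} (hσ : ∀ i, σ i = 1 ∨ σ i = -1)
    {U : Matrix (Fin m) (Fin m) ℝ} (hU : U * Uᵀ = 1)
    (h : (rig_law f).map (fun x => P *ᵥ (x - a))
      = ((rig_law rig_pe).map (fun u => (U * diagonal σ) *ᵥ u)).map (fun y => y - w)) :
    ∃ (M : Matrix (Fin m) (Fin m) ℝ) (b : Fin m → ℝ), M.det ≠ 0 ∧
      f =ᵐ[volume] Claims.C0429.affineExpProductDensity M b := by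
  refine ⟨P⁻¹ * (U * diagonal σ), a - P⁻¹ *ᵥ w, ?_, ?_⟩
  · rw [Matrix.det_mul, Matrix.det_mul, Matrix.det_diagonal]
    have h1 : (P⁻¹).det ≠ 0 := by
      have : (P⁻¹).det * P.det = 1 := by
        rw [← Matrix.det_mul, Matrix.nonsing_inv_mul _ (isUnit_iff_ne_zero.2 hP), Matrix.det_one]
      exact left_ne_zero_of_mul_eq_one this
    have h2 : U.det ≠ 0 := by
      have : U.det * Uᵀ.det = 1 := by rw [← Matrix.det_mul, hU, Matrix.det_one]
      exact left_ne_zero_of_mul_eq_one this
    have h3 : ∏ i, σ i ≠ 0 := by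
      refine Finset.prod_ne_zero_iff.2 fun i _ => ?_
      rcases hσ i with h | h <;> rw [h] <;> norm_num
    exact mul_ne_zero h1 (mul_ne_zero h2 h3)
  · have hdet : (P⁻¹ * (U * diagonal σ)).det ≠ 0 := by
      rw [Matrix.det_mul, Matrix.det_mul, Matrix.det_diagonal]
      have h1 : (P⁻¹).det ≠ 0 := by
        have : (P⁻¹).det * P.det = 1 := by
          rw [← Matrix.det_mul, Matrix.nonsing_inv_mul _ (isUnit_iff_ne_zero.2 hP), Matrix.det_one]
        exact left_ne_zero_of_mul_eq_one this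
      have h2 : U.det ≠ 0 := by
        have : U.det * Uᵀ.det = 1 := by rw [← Matrix.det_mul, hU, Matrix.det_one]
        exact left_ne_zero_of_mul_eq_one this
      have h3 : ∏ i, σ i ≠ 0 := by
        refine Finset.prod_ne_zero_iff.2 fun i _ => ?_
        rcases hσ i with h | h <;> rw [h] <;> norm_num
      exact mul_ne_zero h1 (mul_ne_zero h2 h3)
    have hm1 : Measurable (fun x : Fin m → ℝ => P *ᵥ (x - a)) :=
      (Continuous.matrix_mulVec continuous_const (continuous_id.sub continuous_const)).measurable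
    have hm2 : Measurable (fun u : Fin m → ℝ => (U * diagonal σ) *ᵥ u) :=
      (Continuous.matrix_mulVec continuous_const continuous_id).measurable
    have hm3 : Measurable (fun y : Fin m → ℝ => y - w) := measurable_id.sub_const w
    have hm4 : Measurable (fun y : Fin m → ℝ => P⁻¹ *ᵥ y + a) :=
      ((Continuous.matrix_mulVec continuous_const continuous_id).add continuous_const).measurable
    have h2 := congrArg (Measure.map (fun y : Fin m → ℝ => P⁻¹ *ᵥ y + a)) h
    rw [Measure.map_map hm4 hm1, Measure.map_map hm3 hm2, Measure.map_map hm4 (hm3.comp hm2)] at h2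
    have e1 : ((fun y : Fin m → ℝ => P⁻¹ *ᵥ y + a) ∘ fun x => P *ᵥ (x - a)) = id := by
      ext x
      simp only [Function.comp_apply, id]
      rw [Matrix.mulVec_mulVec, Matrix.nonsing_inv_mul _ (isUnit_iff_ne_zero.2 hP),
        Matrix.one_mulVec]
      simp
    have e2 : ((fun y : Fin m → ℝ => P⁻¹ *ᵥ y + a) ∘ (fun y => y - w) ∘
        fun u => (U * diagonal σ) *ᵥ u)
        = fun u => (P⁻¹ * (U * diagonal σ)) *ᵥ u + (a - P⁻¹ *ᵥ w) := by
      ext u
      simp only [Function.comp_apply]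
      rw [Matrix.mulVec_sub, Matrix.mulVec_mulVec]
      simp only [Pi.add_apply, Pi.sub_apply]
      ring
    rw [e1, e2, Measure.map_id, rig_affineExp_map hdet] at h2
    exact rig_ae_eq_of_law_eq hf.meas (rig_affineExp_measurable _ _) hf.nonneg
      (rig_affineExp_nonneg _ _) (rig_density_integrable hf) h2

end Claimed.Agent.R260
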