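/-
Row 260, package R6 (rigidity).  From vanishing entropy gap to `A_j -> sum x_r X_r`, `J_j -> q(A)`
in `L^2(gamma)` (first half of the proof of the equality statement, (6.8)-(6.11) of the paper).
Leaf file.  Owner: see table subtask (R6-Slack).
-/
import Claimed.Agent.R260.RigMat
import Claimed.Agent.R260.RigGauss

set_option autoImplicit false

open MeasureTheory ProbabilityTheory Matrix Filter Topology
open scoped BigOperators ENNReal NNReal

namespace Claimed.Agent.R260

variable {m : ℕ}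

/-! ### Helpers -/

lemma rig_tendsto_zero_of_sq {α : Type*} {l : Filter α} {u : α → ℝ}
    (h : Tendsto (fun a => u a ^ 2) l (𝓝 0)) : Tendsto u l (𝓝 0) := by
  have h2 := h.sqrt
  simp only [Real.sqrt_sq_eq_abs, Real.sqrt_zero] at h2
  exact (tendsto_zero_iff_abs_tendsto_zero _).mpr h2

/-- Convergence in Frobenius norm implies convergence of matrices. -/
lemma rig_tendsto_of_fsq {α : Type*} {l : Filter α} {M : α → Matrix (Fin m) (Fin m) ℝ}
    {L : Matrix (Fin m) (Fin m) ℝ} (h : Tendsto (fun a => rig_fsq (M a - L)) l (𝓝 0)) :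
    Tendsto M l (𝓝 L) := by
  refine tendsto_pi_nhds.mpr fun i => tendsto_pi_nhds.mpr fun k => ?_
  have h1 : Tendsto (fun a => (M a i k - L i k) ^ 2) l (𝓝 0) :=
    squeeze_zero (fun a => sq_nonneg _) (fun a => rig_entry_sq_le_fsq (M a - L) i k) h
  have h2 := rig_tendsto_zero_of_sq h1
  have h3 := h2.add_const (L i k)
  simpa using h3

lemma rig_fsq_continuous : Continuous (rig_fsq (m := m)) := by
  unfold rig_fsq
  refine continuous_finsetSum _ fun i _ => continuous_finsetSum _ fun k _ => ?_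
  exact ((continuous_apply k).comp (continuous_apply i)).pow 2

/-- Convergence of matrices implies convergence in Frobenius norm. -/
lemma rig_fsq_tendsto_of_tendsto {α : Type*} {l : Filter α} {M : α → Matrix (Fin m) (Fin m) ℝ}
    {L : Matrix (Fin m) (Fin m) ℝ} (h : Tendsto M l (𝓝 L)) :
    Tendsto (fun a => rig_fsq (M a - L)) l (𝓝 0) := by
  have h1 : Tendsto (fun a => M a - L) l (𝓝 (L - L)) := h.sub tendsto_const_nhds
  have h2 := (rig_fsq_continuous (m := m)).tendsto (L - L) |>.comp h1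
  have h3 : rig_fsq (L - L) = 0 := by simp [rig_fsq]
  rw [h3] at h2
  exact h2

/-- The eigenvalues of `sum X_r^2` are nonnegative. -/
lemma rig_sumsq_eig_nonneg {X : Fin m → Matrix (Fin m) (Fin m) ℝ} (hX : ∀ r, (X r).IsSymm)
    {U : Matrix (Fin m) (Fin m) ℝ} {d : Fin m → ℝ} (hU : U * Uᵀ = 1)
    (hB : ∑ r, X r * X r = U * diagonal d * Uᵀ) (i : Fin m) : 0 ≤ d i := by
  have hU' : Uᵀ * U = 1 := mul_eq_one_comm.mp hU
  have h1 : diagonal d = Uᵀ * (∑ r, X r * X r) * U := by
    rw [hB]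
    calc diagonal d = (Uᵀ * U) * diagonal d * (Uᵀ * U) := by
          rw [hU', Matrix.one_mul, Matrix.mul_one]
      _ = _ := by simp only [Matrix.mul_assoc]
  have h2 : Uᵀ * (∑ r, X r * X r) * U = ∑ r, (X r * U)ᵀ * (X r * U) := by
    rw [Finset.mul_sum, Finset.sum_mul]
    refine Finset.sum_congr rfl fun r _ => ?_
    rw [Matrix.transpose_mul, (hX r).eq]
    simp only [Matrix.mul_assoc]
  have h3 : d i = ∑ r, ∑ k, (X r * U) k i * (X r * U) k i := by
    have := congrFun (congrFun (h1.trans h2) i) i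
    rw [Matrix.diagonal_apply_eq, Matrix.sum_apply] at this
    rw [this]
    refine Finset.sum_congr rfl fun r _ => ?_
    rw [Matrix.mul_apply]
    simp only [Matrix.transpose_apply]
  rw [h3]
  exact Finset.sum_nonneg fun r _ => Finset.sum_nonneg fun k _ => mul_self_nonneg _

lemma rig_lin_apply (X : Fin m → Matrix (Fin m) (Fin m) ℝ) (x : Fin m → ℝ) (i k : Fin m) :
    rig_lin X x i k = ∑ r, x r * X r i k := by
  simp [rig_lin, Matrix.sum_apply]

lemma rig_lin_sub (X X' : Fin m → Matrix (Fin m) (Fin m) ℝ) (x : Fin m → ℝ) :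
    rig_lin X x - rig_lin X' x = rig_lin (fun r => X r - X' r) x := by
  simp [rig_lin, smul_sub, Finset.sum_sub_distrib]

lemma rig_lin_sub_arg (X : Fin m → Matrix (Fin m) (Fin m) ℝ) (x y : Fin m → ℝ) :
    rig_lin X x - rig_lin X y = rig_lin X (x - y) := by
  simp [rig_lin, sub_smul, Finset.sum_sub_distrib]

lemma rig_lin_measurable (X : Fin m → Matrix (Fin m) (Fin m) ℝ) (i k : Fin m) :
    Measurable (fun x => rig_lin X x i k) := by
  simp only [rig_lin_apply]
  exact Finset.measurable_sum _ fun r _ => (measurable_pi_apply r).mul_const _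

lemma rig_fsq_measurable {F : (Fin m → ℝ) → Matrix (Fin m) (Fin m) ℝ}
    (hF : ∀ i k, Measurable (fun x => F x i k)) : Measurable (fun x => rig_fsq (F x)) := by
  unfold rig_fsq
  exact Finset.measurable_sum _ fun i _ => Finset.measurable_sum _ fun k _ => (hF i k).pow_const 2

/-- The entropy gaps converge. -/
lemma rig_gap_tendsto {f : (Fin m → ℝ) → ℝ} {g : ℕ → (Fin m → ℝ) → ℝ}
    (hC : (Claims.C0429.densityCov f).PosDef)
    (hcov : Tendsto (fun j => Claims.C0429.densityCov (g j)) atTop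
      (𝓝 (Claims.C0429.densityCov f)))
    (hent : Tendsto (fun j => Claims.C0429.diffEntropy (g j)) atTop
      (𝓝 (Claims.C0429.diffEntropy f))) :
    Tendsto (fun j => rig_gap (g j)) atTop (𝓝 (rig_gap f)) := by
  unfold rig_gap
  have hdet : Tendsto (fun j => (Claims.C0429.densityCov (g j)).det) atTop
      (𝓝 (Claims.C0429.densityCov f).det) :=
    ((Continuous.matrix_det continuous_id).tendsto _).comp hcov
  have hlog := (Real.continuousAt_log hC.det_pos.ne').tendsto.comp hdet
  exact (hent.sub tendsto_const_nhds).sub (hlog.const_mul (1 / 2))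

/-- The first-chaos coefficients are symmetric matrices. -/
lemma rig_X_symm {q om : ℝ → ℝ} {g : (Fin m → ℝ) → ℝ} (D : RigCoreData q om g) (r : Fin m) :
    (rig_X D.A r).IsSymm := by
  ext i k
  simp only [Matrix.transpose_apply, rig_X]
  refine integral_congr_ae ?_
  filter_upwards [D.matFun] with x hx
  have h := (rig_isMatFun_symm hx).1
  rw [← h.apply i k]

lemma rig_Y_integrable {q om : ℝ → ℝ} {g : (Fin m → ℝ) → ℝ} (D : RigCoreData q om g) :
    Integrable (fun x => rig_fsq (rig_Y D.A x)) (rig_gam m) := by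
  have hmeas : Measurable (fun x => rig_fsq (rig_Y D.A x)) := by
    refine rig_fsq_measurable fun i k => ?_
    simp only [rig_Y, Matrix.sub_apply]
    exact (D.A_meas i k).sub (rig_lin_measurable _ i k)
  have hdom : Integrable (fun x => 2 * rig_fsq (D.A x) +
      2 * ((∑ r, x r ^ 2) * ∑ r, rig_fsq (rig_X D.A r))) (rig_gam m) :=
    (D.A_sq.const_mul 2).add ((rig_integrable_sum_sq.mul_const _).const_mul 2)
  refine hdom.mono' hmeas.aestronglyMeasurable (Filter.Eventually.of_forall fun x => ?_)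
  rw [Real.norm_of_nonneg (rig_fsq_nonneg _)]
  have h1 : rig_Y D.A x = D.A x + -(rig_lin (rig_X D.A) x) := by
    rw [rig_Y, sub_eq_add_neg]
  rw [h1]
  refine (rig_fsq_add_le _ _).trans ?_
  rw [rig_fsq_neg]
  have := rig_fsq_lin_le (rig_X D.A) x
  linarith

/-- The remainder terms are nonnegative. -/
lemma rig_remainder_bounds {q om : ℝ → ℝ} (hom : RigOmega om) {g : (Fin m → ℝ) → ℝ}
    (D : RigCoreData q om g) :
    ∃ U : Matrix (Fin m) (Fin m) ℝ, U * Uᵀ = 1 ∧ ∃ d : Fin m → ℝ,
      rig_B D.A = U * diagonal d * Uᵀ ∧ (∀ i, 0 ≤ d i) ∧ (∀ i, 0 ≤ om (d i)) ∧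
      (∀ i, om (d i) ≤ 2000 * rig_gap g) ∧
      ∫ x, rig_fsq (rig_Y D.A x) ∂(rig_gam m) ≤ 1000 * rig_gap g := by
  obtain ⟨U, hU, d, hB, hrem⟩ := D.remainder
  have hd : ∀ i, 0 ≤ d i := fun i =>
    rig_sumsq_eig_nonneg (fun r => rig_X_symm D r) hU hB i
  have hod : ∀ i, 0 ≤ om (d i) := fun i => hom.nonneg _ (hd i)
  have hY : 0 ≤ ∫ x, rig_fsq (rig_Y D.A x) ∂(rig_gam m) :=
    integral_nonneg fun x => rig_fsq_nonneg _
  have hsum : 0 ≤ ∑ i, om (d i) := Finset.sum_nonneg fun i _ => hod i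
  refine ⟨U, hU, d, hB, hd, hod, fun i => ?_, by linarith⟩
  have h1 : om (d i) ≤ ∑ i, om (d i) :=
    Finset.single_le_sum (f := fun i => om (d i)) (fun i _ => hod i) (Finset.mem_univ i)
  linarith

/-- The entropy gap of a density with core data is nonnegative. -/
lemma rig_gap_nonneg {q om : ℝ → ℝ} (hom : RigOmega om) {g : (Fin m → ℝ) → ℝ}
    (D : RigCoreData q om g) : 0 ≤ rig_gap g := by
  obtain ⟨U, -, d, -, -, -, -, h⟩ := rig_remainder_bounds hom D
  have hY : 0 ≤ ∫ x, rig_fsq (rig_Y D.A x) ∂(rig_gam m) :=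
    integral_nonneg fun x => rig_fsq_nonneg _
  linarith

/-- (6.8), first half. -/
lemma rig_slackY_tendsto {q om : ℝ → ℝ} (hom : RigOmega om) {g : ℕ → (Fin m → ℝ) → ℝ}
    (D : ∀ j, RigCoreData q om (g j))
    (hgap : Tendsto (fun j => rig_gap (g j)) atTop (𝓝 0)) :
    Tendsto (fun j => ∫ x, rig_fsq (rig_Y (D j).A x) ∂(rig_gam m)) atTop (𝓝 0) := by
  have h0 : Tendsto (fun j => 1000 * rig_gap (g j)) atTop (𝓝 0) := by
    simpa using hgap.const_mul 1000
  refine squeeze_zero (fun j => integral_nonneg fun x => rig_fsq_nonneg _) (fun j => ?_) h0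
  obtain ⟨U, -, d, -, -, -, -, h⟩ := rig_remainder_bounds hom (D j)
  exact h

/-- (6.8), second half: `B_j -> I`. -/
lemma rig_B_tendsto {q om : ℝ → ℝ} (hom : RigOmega om) {g : ℕ → (Fin m → ℝ) → ℝ}
    (D : ∀ j, RigCoreData q om (g j))
    (hgap : Tendsto (fun j => rig_gap (g j)) atTop (𝓝 0)) :
    Tendsto (fun j => rig_B (D j).A) atTop (𝓝 1) := by
  apply rig_tendsto_of_fsq
  rw [Metric.tendsto_atTop]
  intro ε hε
  -- choose `η` with `m η^2 < ε`
  set η : ℝ := Real.sqrt (ε / (m + 1)) with hη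
  have hm1 : (0 : ℝ) < m + 1 := by positivity
  have hηpos : 0 < η := Real.sqrt_pos.mpr (div_pos hε hm1)
  have hηsq : η ^ 2 = ε / (m + 1) := Real.sq_sqrt (div_pos hε hm1).le
  obtain ⟨δ, hδ, hco⟩ := hom.coercive η hηpos
  have hev : ∀ᶠ j in atTop, 2000 * rig_gap (g j) < δ := by
    have h0 : Tendsto (fun j => 2000 * rig_gap (g j)) atTop (𝓝 0) := by
      simpa using hgap.const_mul 2000
    exact h0.eventually (gt_mem_nhds hδ)
  obtain ⟨N, hN⟩ := eventually_atTop.mp hev
  refine ⟨N, fun j hj => ?_⟩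
  obtain ⟨U, hU, d, hB, hd, -, hle, -⟩ := rig_remainder_bounds hom (D j)
  have hclose : ∀ i, |d i - 1| < η := by
    intro i
    by_contra hcon
    have := hco (d i) (hd i) (not_lt.mp hcon)
    have h2 := hle i
    have h3 := hN j hj
    linarith
  have hfs : rig_fsq (rig_B (D j).A - 1) = ∑ i, (d i - 1) ^ 2 := by
    have h1 : rig_B (D j).A - 1 = U * diagonal (fun i => d i - 1) * Uᵀ := by
      have hdd : diagonal (fun i => d i - 1) = diagonal d - (1 : Matrix (Fin m) (Fin m) ℝ) := by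
        rw [← Matrix.diagonal_one, Matrix.diagonal_sub]
      rw [hdd, Matrix.mul_sub, Matrix.sub_mul, Matrix.mul_one, hU, hB]
    rw [h1, rig_fsq_conj hU, rig_fsq_diagonal]
  rw [Real.dist_eq, sub_zero, abs_of_nonneg (rig_fsq_nonneg _), hfs]
  calc ∑ i, (d i - 1) ^ 2 ≤ ∑ _i : Fin m, η ^ 2 := by
        refine Finset.sum_le_sum fun i _ => ?_
        rw [← sq_abs (d i - 1)]
        exact pow_le_pow_left₀ (abs_nonneg _) (hclose i).le 2
    _ = m * (ε / (m + 1)) := by simp [hηsq]
    _ < ε := by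
        rw [mul_div_assoc', div_lt_iff₀ hm1]
        nlinarith

/-- Extraction of a convergent subsequence of the coefficients. -/
lemma rig_extract_X {X : ℕ → Fin m → Matrix (Fin m) (Fin m) ℝ}
    (hsymm : ∀ j r, (X j r).IsSymm)
    (hB : Tendsto (fun j => ∑ r, X j r * X j r) atTop (𝓝 1)) :
    ∃ φ : ℕ → ℕ, StrictMono φ ∧ ∃ Xl : Fin m → Matrix (Fin m) (Fin m) ℝ,
      Tendsto (fun j => X (φ j)) atTop (𝓝 Xl) ∧ (∀ r, (Xl r).IsSymm) ∧
      ∑ r, Xl r * Xl r = 1 := by
  -- boundedness
  have htr : Tendsto (fun j => (∑ r, X j r * X j r).trace) atTop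
      (𝓝 (1 : Matrix (Fin m) (Fin m) ℝ).trace) :=
    ((Continuous.matrix_trace continuous_id).tendsto _).comp hB
  obtain ⟨C, hC⟩ := htr.bddAbove_range
  have hbd : ∀ j r i k, X j r i k ^ 2 ≤ C := by
    intro j r i k
    have h1 : rig_fsq (X j r) = (X j r * X j r).trace := by
      rw [rig_fsq_eq_trace, (hsymm j r).eq]
    have h2 : (X j r * X j r).trace ≤ ∑ r, (X j r * X j r).trace := by
      refine Finset.single_le_sum (f := fun r => (X j r * X j r).trace) (fun r _ => ?_)
        (Finset.mem_univ r)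
      have : rig_fsq (X j r) = (X j r * X j r).trace := by
        rw [rig_fsq_eq_trace, (hsymm j r).eq]
      rw [← this]; exact rig_fsq_nonneg _
    have h3 : ∑ r, (X j r * X j r).trace ≤ C := by
      rw [← Matrix.trace_sum]
      exact hC ⟨j, rfl⟩
    calc X j r i k ^ 2 ≤ rig_fsq (X j r) := rig_entry_sq_le_fsq _ i k
      _ ≤ C := by rw [h1]; exact h2.trans h3
  set R : ℝ := Real.sqrt C with hR
  set K : Set (Fin m → Fin m → Fin m → ℝ) :=
    Set.pi Set.univ fun _ => Set.pi Set.univ fun _ => Set.pi Set.univ fun _ => Set.Icc (-R) R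
    with hK
  have hKc : IsCompact K :=
    isCompact_univ_pi fun _ => isCompact_univ_pi fun _ => isCompact_univ_pi fun _ => isCompact_Icc
  have hmem : ∀ j, (X j : Fin m → Fin m → Fin m → ℝ) ∈ K := by
    intro j r _ i _ k _
    exact abs_le.mp (Real.abs_le_sqrt (hbd j r i k))
  obtain ⟨a, -, φ, hφ, hlim⟩ := hKc.tendsto_subseq hmem
  have hlim' : Tendsto (fun j => X (φ j)) atTop (𝓝 (a : Fin m → Matrix (Fin m) (Fin m) ℝ)) := hlim
  have hent : ∀ r i k, Tendsto (fun j => X (φ j) r i k) atTop (𝓝 (a r i k)) := by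
    intro r i k
    exact tendsto_pi_nhds.mp (tendsto_pi_nhds.mp (tendsto_pi_nhds.mp hlim r) i) k
  refine ⟨φ, hφ, a, hlim', fun r => ?_, ?_⟩
  · ext i k
    show a r k i = a r i k
    refine tendsto_nhds_unique (hent r k i) ?_
    have h := hent r i k
    refine h.congr fun j => ?_
    exact ((hsymm (φ j) r).apply k i)
  · have hcont : Continuous (fun Z : Fin m → Matrix (Fin m) (Fin m) ℝ => ∑ r, Z r * Z r) :=
      continuous_finsetSum _ fun r _ => (continuous_apply r).matrix_mul (continuous_apply r)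
    have h1 := (hcont.tendsto (a : Fin m → Matrix (Fin m) (Fin m) ℝ)).comp hlim'
    have h2 := hB.comp hφ.tendsto_atTop
    exact tendsto_nhds_unique h1 h2

/-- (6.9): `A_j -> A` in `L^2(gamma)`. -/
lemma rig_A_tendsto {q om : ℝ → ℝ} {g : ℕ → (Fin m → ℝ) → ℝ}
    (D : ∀ j, RigCoreData q om (g j))
    (hY : Tendsto (fun j => ∫ x, rig_fsq (rig_Y (D j).A x) ∂(rig_gam m)) atTop (𝓝 0))
    {Xl : Fin m → Matrix (Fin m) (Fin m) ℝ}
    (hX : Tendsto (fun j => rig_X (D j).A) atTop (𝓝 Xl)) :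
    (∀ j, Integrable (fun x => rig_fsq ((D j).A x - rig_lin Xl x)) (rig_gam m)) ∧
    Tendsto (fun j => ∫ x, rig_fsq ((D j).A x - rig_lin Xl x) ∂(rig_gam m)) atTop (𝓝 0) := by
  set c : ℕ → ℝ := fun j => ∑ r, rig_fsq (rig_X (D j).A r - Xl r) with hc
  have hbound : ∀ j x, rig_fsq ((D j).A x - rig_lin Xl x) ≤
      2 * rig_fsq (rig_Y (D j).A x) + 2 * ((∑ r, x r ^ 2) * c j) := by
    intro j x
    have h1 : (D j).A x - rig_lin Xl x =
        rig_Y (D j).A x + rig_lin (fun r => rig_X (D j).A r - Xl r) x := by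
      rw [← rig_lin_sub, rig_Y]; abel
    rw [h1]
    refine (rig_fsq_add_le _ _).trans ?_
    have := rig_fsq_lin_le (fun r => rig_X (D j).A r - Xl r) x
    linarith
  have hdom : ∀ j, Integrable (fun x => 2 * rig_fsq (rig_Y (D j).A x) +
      2 * ((∑ r, x r ^ 2) * c j)) (rig_gam m) := fun j =>
    ((rig_Y_integrable (D j)).const_mul 2).add ((rig_integrable_sum_sq.mul_const _).const_mul 2)
  have hint : ∀ j, Integrable (fun x => rig_fsq ((D j).A x - rig_lin Xl x)) (rig_gam m) := by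
    intro j
    have hmeas : Measurable (fun x => rig_fsq ((D j).A x - rig_lin Xl x)) := by
      refine rig_fsq_measurable fun i k => ?_
      simp only [Matrix.sub_apply]
      exact ((D j).A_meas i k).sub (rig_lin_measurable _ i k)
    refine (hdom j).mono' hmeas.aestronglyMeasurable (Filter.Eventually.of_forall fun x => ?_)
    rw [Real.norm_of_nonneg (rig_fsq_nonneg _)]
    exact hbound j x
  refine ⟨hint, ?_⟩
  have hc0 : Tendsto c atTop (𝓝 0) := by
    have h1 : ∀ r, Tendsto (fun j => rig_fsq (rig_X (D j).A r - Xl r)) atTop (𝓝 0) := fun r =>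
      rig_fsq_tendsto_of_tendsto (tendsto_pi_nhds.mp hX r)
    have h2 := tendsto_finsetSum (Finset.univ : Finset (Fin m)) fun r _ => h1 r
    simpa using h2
  have hup : Tendsto (fun j => 2 * ∫ x, rig_fsq (rig_Y (D j).A x) ∂(rig_gam m) +
      2 * ((m : ℝ) * c j)) atTop (𝓝 0) := by
    have := (hY.const_mul 2).add ((hc0.const_mul (m : ℝ)).const_mul 2)
    simpa using this
  refine squeeze_zero (fun j => integral_nonneg fun x => rig_fsq_nonneg _) (fun j => ?_) hup
  calc ∫ x, rig_fsq ((D j).A x - rig_lin Xl x) ∂(rig_gam m)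
      ≤ ∫ x, (2 * rig_fsq (rig_Y (D j).A x) + 2 * ((∑ r, x r ^ 2) * c j)) ∂(rig_gam m) :=
        integral_mono (hint j) (hdom j) (hbound j)
    _ = 2 * ∫ x, rig_fsq (rig_Y (D j).A x) ∂(rig_gam m) + 2 * ((m : ℝ) * c j) := by
        rw [integral_add ((rig_Y_integrable (D j)).const_mul 2)
          ((rig_integrable_sum_sq.mul_const _).const_mul 2), integral_const_mul,
          integral_const_mul, integral_mul_const, rig_integral_sum_sq]

lemma rig_lin_symm {X : Fin m → Matrix (Fin m) (Fin m) ℝ} (hX : ∀ r, (X r).IsSymm)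
    (x : Fin m → ℝ) : (rig_lin X x).IsSymm := by
  ext i k
  simp only [Matrix.transpose_apply, rig_lin_apply]
  exact Finset.sum_congr rfl fun r _ => by rw [(hX r).apply i k]

/-- The limit Jacobian field `q(A(x))` is continuous. -/
lemma rig_mf_lin_continuous {q : ℝ → ℝ} (hq : LipschitzWith 1 q)
    {X : Fin m → Matrix (Fin m) (Fin m) ℝ} (hX : ∀ r, (X r).IsSymm) :
    Continuous (fun x => rig_mf q (rig_lin X x)) := by
  have hq' : ∀ a b, |q a - q b| ≤ 1 * |a - b| := by
    intro a b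
    have := hq.dist_le_mul a b
    simpa [Real.dist_eq] using this
  have hlin : Continuous (rig_lin X) := by
    unfold rig_lin
    exact continuous_finsetSum _ fun r _ => (continuous_apply r).smul continuous_const
  rw [continuous_iff_continuousAt]
  intro x
  apply rig_tendsto_of_fsq
  refine squeeze_zero (fun y => rig_fsq_nonneg _) (fun y => ?_)
    (rig_fsq_tendsto_of_tendsto (hlin.tendsto x))
  have := rig_isMatFun_lipschitz hq' (rig_mf_spec q (rig_lin_symm hX y))
    (rig_mf_spec q (rig_lin_symm hX x))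
  simpa using this

/-- (6.10): `J_j -> q(A)` in `L^2(gamma)`. -/
lemma rig_J_tendsto {q om : ℝ → ℝ} (hq : LipschitzWith 1 q) {g : ℕ → (Fin m → ℝ) → ℝ}
    (D : ∀ j, RigCoreData q om (g j))
    {Xl : Fin m → Matrix (Fin m) (Fin m) ℝ} (hsymm : ∀ r, (Xl r).IsSymm)
    (hAi : ∀ j, Integrable (fun x => rig_fsq ((D j).A x - rig_lin Xl x)) (rig_gam m))
    (hA : Tendsto (fun j => ∫ x, rig_fsq ((D j).A x - rig_lin Xl x) ∂(rig_gam m)) atTop (𝓝 0)) :
    (∀ j, Integrable (fun x => rig_fsq ((D j).J x - rig_mf q (rig_lin Xl x))) (rig_gam m)) ∧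
    Tendsto (fun j => ∫ x, rig_fsq ((D j).J x - rig_mf q (rig_lin Xl x)) ∂(rig_gam m))
      atTop (𝓝 0) := by
  have hq' : ∀ a b, |q a - q b| ≤ 1 * |a - b| := by
    intro a b
    have := hq.dist_le_mul a b
    simpa [Real.dist_eq] using this
  have hbound : ∀ j, ∀ᵐ x ∂(rig_gam m), rig_fsq ((D j).J x - rig_mf q (rig_lin Xl x)) ≤
      rig_fsq ((D j).A x - rig_lin Xl x) := by
    intro j
    filter_upwards [(D j).matFun] with x hx
    have := rig_isMatFun_lipschitz hq' hx (rig_mf_spec q (rig_lin_symm hsymm x))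
    simpa using this
  have hint : ∀ j, Integrable (fun x => rig_fsq ((D j).J x - rig_mf q (rig_lin Xl x)))
      (rig_gam m) := by
    intro j
    have hmeas : Measurable (fun x => rig_fsq ((D j).J x - rig_mf q (rig_lin Xl x))) := by
      refine rig_fsq_measurable fun i k => ?_
      simp only [Matrix.sub_apply]
      refine ((D j).J_meas i k).sub ?_
      exact (((continuous_apply k).comp (continuous_apply i)).comp
        (rig_mf_lin_continuous hq hsymm)).measurable
    refine (hAi j).mono' hmeas.aestronglyMeasurable ?_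
    filter_upwards [hbound j] with x hx
    rw [Real.norm_of_nonneg (rig_fsq_nonneg _)]
    exact hx
  refine ⟨hint, ?_⟩
  refine squeeze_zero (fun j => integral_nonneg fun x => rig_fsq_nonneg _) (fun j => ?_) hA
  exact integral_mono_ae (hint j) (hAi j) (hbound j)

end Claimed.Agent.R260
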