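/-
Row 260, package R6 (rigidity).  The weak curl-free identity for Jacobians of Lipschitz maps and its
passage to the `L^2(gamma)` limit.  (Replaces `W^{1,2}_loc` + distributions in Lemma 6.1.)
Owner: helper30.  (Helper lemmas of this file have the prefix `rig_wk_`.)
-/
import Claimed.Agent.R260.RigMat
import Claimed.Agent.R260.RigGauss

set_option autoImplicit false

open MeasureTheory ProbabilityTheory Matrix Filter Topology
open scoped BigOperators ENNReal NNReal ContDiff

namespace Claimed.Agent.R260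

variable {m : ℕ}

/-- One half of the computation: `int d_v f d_w psi = - int D^2 psi (v, w) f`. -/
lemma rig_wk_half {f : (Fin m → ℝ) → ℝ} (hf : ∃ K : ℝ≥0, LipschitzWith K f)
    {ψ : (Fin m → ℝ) → ℝ} (hψ : ContDiff ℝ ∞ ψ) (hc : HasCompactSupport ψ) (v w : Fin m → ℝ) :
    ∫ x, lineDeriv ℝ f x v * lineDeriv ℝ ψ x w
      = ∫ x, -(fderiv ℝ (fderiv ℝ ψ) x v w) * f x := by
  obtain ⟨K, hK⟩ := hf
  have hd : Differentiable ℝ ψ := hψ.differentiable (by simp)
  have hl : (fun y => lineDeriv ℝ ψ y w) = fun y => fderiv ℝ ψ y w := by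
    ext y; exact (hd y).lineDeriv_eq_fderiv
  have hg : ContDiff ℝ ∞ (fun y => fderiv ℝ ψ y w) :=
    (hψ.fderiv_right (m := ∞) (by simp)).clm_apply contDiff_const
  have hgc : HasCompactSupport (fun y => fderiv ℝ ψ y w) := hc.fderiv_apply (𝕜 := ℝ) w
  obtain ⟨D, hD⟩ := hg.lipschitzWith_of_hasCompactSupport hgc (by simp)
  have h := hK.integral_lineDeriv_mul_eq (μ := (volume : Measure (Fin m → ℝ))) hD hgc v
  have hl' : ∀ y, lineDeriv ℝ ψ y w = fderiv ℝ ψ y w := fun y => congrFun hl y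
  simp only [hl']
  rw [h]
  congr 1
  ext x
  congr 1
  have hdd : DifferentiableAt ℝ (fderiv ℝ ψ) x :=
    ((hψ.fderiv_right (m := ∞) (by simp)).differentiable (by simp)) x
  have h2 : HasFDerivAt (fun y => fderiv ℝ ψ y w)
      ((ContinuousLinearMap.apply ℝ ℝ w).comp (fderiv ℝ (fderiv ℝ ψ) x)) x :=
    (ContinuousLinearMap.apply ℝ ℝ w).hasFDerivAt.comp x hdd.hasFDerivAt
  rw [(h2.hasLineDerivAt (-v)).lineDeriv]
  simp

/-- For Lipschitz `f` and a test function `psi`:
`int d_s f d_r psi = int d_r f d_s psi` (both are `- int f d_r d_s psi`). -/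
lemma rig_weak_symm_lip {f : (Fin m → ℝ) → ℝ} (hf : ∃ K : ℝ≥0, LipschitzWith K f)
    {ψ : (Fin m → ℝ) → ℝ} (hψ : ContDiff ℝ ∞ ψ) (hc : HasCompactSupport ψ) (r s : Fin m) :
    ∫ x, lineDeriv ℝ f x (Pi.single s 1) * lineDeriv ℝ ψ x (Pi.single r 1)
      = ∫ x, lineDeriv ℝ f x (Pi.single r 1) * lineDeriv ℝ ψ x (Pi.single s 1) := by
  rw [rig_wk_half hf hψ hc, rig_wk_half hf hψ hc]
  congr 1
  ext x
  have hs : IsSymmSndFDerivAt ℝ ψ x :=
    hψ.contDiffAt.isSymmSndFDerivAt (by
      rw [minSmoothness_of_isRCLikeNormedField]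
      exact WithTop.coe_le_coe.2 (le_top : (2 : ℕ∞) ≤ ⊤))
  rw [hs (Pi.single s 1) (Pi.single r 1)]

/-- `L^2(gamma)` convergence implies convergence of Lebesgue integrals against continuous
compactly supported functions. -/
lemma rig_tendsto_integral_mul_of_L2 {u : ℕ → (Fin m → ℝ) → ℝ} {ul : (Fin m → ℝ) → ℝ}
    (hu : ∀ j, Measurable (u j)) (hul : Measurable ul)
    (hint : ∀ j, Integrable (fun x => (u j x - ul x) ^ 2) (rig_gam m))
    (hlim : Tendsto (fun j => ∫ x, (u j x - ul x) ^ 2 ∂(rig_gam m)) atTop (𝓝 0))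
    (hloc : LocallyIntegrable ul)
    {φ : (Fin m → ℝ) → ℝ} (hφ : Continuous φ) (hc : HasCompactSupport φ) :
    Tendsto (fun j => ∫ x, u j x * φ x) atTop (𝓝 (∫ x, ul x * φ x)) := by
  -- the weight `φ / ρ`
  set χ : (Fin m → ℝ) → ℝ := fun x => φ x / rig_rho x with hχ
  have hχc : Continuous χ := hφ.div rig_rho_continuous (fun x => (rig_rho_pos x).ne')
  have hχs : HasCompactSupport χ := by
    have : χ = fun x => φ x * (rig_rho x)⁻¹ := by ext x; simp [hχ, div_eq_mul_inv]
    rw [this]; exact hc.mul_right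
  obtain ⟨B, hB⟩ := hχs.exists_bound_of_continuous hχc
  have hχ2 : Integrable (fun x => χ x ^ 2) (rig_gam m) := by
    refine Integrable.of_bound (hχc.pow 2).aestronglyMeasurable (B ^ 2) (Eventually.of_forall ?_)
    intro x
    have h1 := hB x
    rw [Real.norm_eq_abs] at h1 ⊢
    rw [abs_pow]
    gcongr
  have hCS := fun j => rig_abs_integral_mul_le (u := fun x => u j x - ul x) (v := χ)
    ((hu j).sub hul).aestronglyMeasurable hχc.aestronglyMeasurable (hint j) hχ2
  have hmul : ∀ j x, (u j x - ul x) * χ x * rig_rho x = (u j x - ul x) * φ x := by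
    intro j x
    have := (rig_rho_pos x).ne'
    simp only [hχ]
    field_simp
  have hI1 : ∀ j, Integrable (fun x => (u j x - ul x) * φ x) := by
    intro j
    have := rig_integrable_gam_iff.1 (hCS j).1
    simpa only [hmul] using this
  have hI2 : Integrable (fun x => ul x * φ x) := by
    have := hloc.integrable_smul_left_of_hasCompactSupport hφ hc
    simpa [mul_comm] using this
  have he : ∀ j, ∫ x, u j x * φ x
      = (∫ x, (u j x - ul x) * χ x ∂(rig_gam m)) + ∫ x, ul x * φ x := by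
    intro j
    rw [rig_integral_gam]
    simp only [hmul]
    rw [← integral_add (hI1 j) hI2]
    congr 1
    ext x
    ring
  simp only [he]
  have h0 : Tendsto (fun j => ∫ x, (u j x - ul x) * χ x ∂(rig_gam m)) atTop (𝓝 0) := by
    rw [tendsto_zero_iff_abs_tendsto_zero]
    have hs : Tendsto (fun j => Real.sqrt (∫ x, (u j x - ul x) ^ 2 ∂(rig_gam m))
        * Real.sqrt (∫ x, χ x ^ 2 ∂(rig_gam m))) atTop (𝓝 0) := by
      have := (Real.continuous_sqrt.tendsto 0).comp hlim
      simp only [Real.sqrt_zero] at this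
      simpa using this.mul_const (Real.sqrt (∫ x, χ x ^ 2 ∂(rig_gam m)))
    exact squeeze_zero (fun j => abs_nonneg _) (fun j => (hCS j).2) hs
  simpa using h0.add_const (∫ x, ul x * φ x)

/-- The weak curl-free identity passes to the limit. -/
lemma rig_weak_symm_limit {T : ℕ → (Fin m → ℝ) → (Fin m → ℝ)}
    (hT : ∀ j, ∃ K : ℝ≥0, LipschitzWith K (T j))
    {J : ℕ → (Fin m → ℝ) → Matrix (Fin m) (Fin m) ℝ}
    (hJm : ∀ j i k, Measurable (fun x => J j x i k))
    (hder : ∀ j, ∀ᵐ x ∂(rig_gam m), ∀ i s,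
      HasLineDerivAt ℝ (fun y => T j y i) (J j x i s) x (Pi.single s 1))
    {Jl : (Fin m → ℝ) → Matrix (Fin m) (Fin m) ℝ} (hJl : Continuous Jl)
    (hint : ∀ j, Integrable (fun x => rig_fsq (J j x - Jl x)) (rig_gam m))
    (hlim : Tendsto (fun j => ∫ x, rig_fsq (J j x - Jl x) ∂(rig_gam m)) atTop (𝓝 0))
    {ψ : (Fin m → ℝ) → ℝ} (hψ : ContDiff ℝ ∞ ψ) (hc : HasCompactSupport ψ) (i r s : Fin m) :
    ∫ x, Jl x i s * lineDeriv ℝ ψ x (Pi.single r 1)
      = ∫ x, Jl x i r * lineDeriv ℝ ψ x (Pi.single s 1) := by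
  have hd : Differentiable ℝ ψ := hψ.differentiable (by simp)
  have hl : ∀ v : Fin m → ℝ, (fun y => lineDeriv ℝ ψ y v) = fun y => fderiv ℝ ψ y v := fun v => by
    ext y; exact (hd y).lineDeriv_eq_fderiv
  have hcont : ∀ v : Fin m → ℝ, Continuous (fun y => lineDeriv ℝ ψ y v) := fun v => by
    rw [hl v]; exact (hψ.continuous_fderiv (by simp)).clm_apply continuous_const
  have hcs : ∀ v : Fin m → ℝ, HasCompactSupport (fun y => lineDeriv ℝ ψ y v) := fun v => by
    rw [hl v]; exact hc.fderiv_apply (𝕜 := ℝ) v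
  -- the identity for each `j`
  have hj : ∀ j, ∫ x, J j x i s * lineDeriv ℝ ψ x (Pi.single r 1)
      = ∫ x, J j x i r * lineDeriv ℝ ψ x (Pi.single s 1) := by
    intro j
    obtain ⟨K, hK⟩ := hT j
    have hfi : ∃ K : ℝ≥0, LipschitzWith K (fun y => T j y i) :=
      ⟨1 * K, (LipschitzWith.eval i).comp hK⟩
    have h := rig_weak_symm_lip hfi hψ hc r s
    have hae := rig_ae_gam_iff.1 (hder j)
    have e1 : ∫ x, lineDeriv ℝ (fun y => T j y i) x (Pi.single s 1)
          * lineDeriv ℝ ψ x (Pi.single r 1)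
        = ∫ x, J j x i s * lineDeriv ℝ ψ x (Pi.single r 1) := by
      apply integral_congr_ae
      filter_upwards [hae] with x hx
      rw [(hx i s).lineDeriv]
    have e2 : ∫ x, lineDeriv ℝ (fun y => T j y i) x (Pi.single r 1)
          * lineDeriv ℝ ψ x (Pi.single s 1)
        = ∫ x, J j x i r * lineDeriv ℝ ψ x (Pi.single s 1) := by
      apply integral_congr_ae
      filter_upwards [hae] with x hx
      rw [(hx i r).lineDeriv]
    rw [← e1, ← e2]
    exact h
  -- convergence of both sides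
  have hconv : ∀ (k : Fin m) (v : Fin m → ℝ),
      Tendsto (fun j => ∫ x, J j x i k * lineDeriv ℝ ψ x v) atTop
        (𝓝 (∫ x, Jl x i k * lineDeriv ℝ ψ x v)) := by
    intro k v
    have hJlk : Continuous (fun x => Jl x i k) := hJl.matrix_elem i k
    have hle : ∀ j x, (J j x i k - Jl x i k) ^ 2 ≤ rig_fsq (J j x - Jl x) := fun j x => by
      have := rig_entry_sq_le_fsq (J j x - Jl x) i k
      simpa using this
    have hint' : ∀ j, Integrable (fun x => (J j x i k - Jl x i k) ^ 2) (rig_gam m) := by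
      intro j
      refine (hint j).mono' (((hJm j i k).sub hJlk.measurable).pow_const 2).aestronglyMeasurable
        (Eventually.of_forall fun x => ?_)
      rw [Real.norm_eq_abs, abs_of_nonneg (sq_nonneg _)]
      exact hle j x
    refine rig_tendsto_integral_mul_of_L2 (fun j => hJm j i k) hJlk.measurable hint' ?_
      hJlk.locallyIntegrable (hcont v) (hcs v)
    exact squeeze_zero (fun j => integral_nonneg fun x => sq_nonneg _)
      (fun j => integral_mono (hint' j) (hint j) (hle j)) hlim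
  have h1 := hconv s (Pi.single r 1)
  have h2 := hconv r (Pi.single s 1)
  simp only [hj] at h1
  exact tendsto_nhds_unique h1 h2

end Claimed.Agent.R260
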