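/-
Row 260, SC, "Absorb" part 1 (subtask SC-ABS1, owner helper27): proofs of the statements
`sc_ycost`, `sc_p_minorant` and of the small facts on `scEU, scDU, scES, scEH, scERho, scOmega`
of `ScAbsorb.lean`, under the names `scAbs1_*`.   Paper: scalar.tex (sc:y-cost), (sc:p-minorant).
-/
import Claimed.Agent.R260.ScBounds

set_option autoImplicit false

namespace Claimed.Agent.R260

/-- (sc:y-cost). -/
theorem scAbs1_ycost (a : ℝ) :
    scs * ((scB a - scβ) ^ 2 + scα * scH0 a ^ 2 / (4 * (1 - scε - scκ) * scP a)) ≤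
      111 / 1000 := by
  have hb0 := scB_pos a
  have hb1 := scB_lt_half a
  have hp := scP_pos a
  have hh := scH0_sq_le a
  have h1 : (scB a - scβ) ^ 2 ≤ (7 / 25 : ℝ) ^ 2 := by
    unfold scβ
    nlinarith
  have h2 : scα * scH0 a ^ 2 / (4 * (1 - scε - scκ) * scP a) ≤
      (3 / 40) * (67 / 100) ^ 2 / (4 * (36 / 100)) := by
    unfold scα scε scκ
    rw [div_le_div_iff₀ (by positivity) (by norm_num)]
    nlinarith
  unfold scs
  nlinarith

/-- (sc:p-minorant). -/
theorem scAbs1_p_minorant {u : ℝ} (hu0 : 0 < u) (hu : u ≤ 13 / 100) (a : ℝ) :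
    u + scNU u * a - scDU u * a ^ 2 ≤ scP a := by
  set w := Real.sqrt u with hw
  have hw0 : 0 < w := Real.sqrt_pos.mpr hu0
  have hww : w * w = u := Real.mul_self_sqrt hu0.le
  have hD : 0 < 46 / 100 - u := by linarith
  have hd0 : 0 ≤ scDU u := by
    unfold scDU
    positivity
  have hda : 0 ≤ scDU u * a ^ 2 := mul_nonneg hd0 (sq_nonneg a)
  have hN : scNU u = u * w / 2 := rfl
  rcases le_total a 0 with ha | ha
  · -- `a ≤ 0`
    have hp := scP_ge_of_nonpos ha
    have hp0 := scP_pos a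
    set x := -(w * a) with hx
    have hx0 : 0 ≤ x := by
      rw [hx]; nlinarith
    have hxx : x * x = u * a ^ 2 := by
      rw [hx, ← hww]; ring
    have h1 : u + scNU u * a - scDU u * a ^ 2 ≤ u * (1 - x / 2) := by
      rw [hN, hx]; nlinarith
    refine h1.trans ?_
    rcases le_total 2 x with h2 | h2
    · have : u * (1 - x / 2) ≤ 0 := by nlinarith
      linarith
    · -- `(1 - x/2)(x² + 7u) ≤ 1`
      have hkey : (1 - x / 2) * (x * x + 7 * u) ≤ 1 := by
        have h3 : (1 - x / 2) * (x * x + 7 * u) ≤ (1 - x / 2) * (x * x + 91 / 100) := by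
          apply mul_le_mul_of_nonneg_left <;> linarith
        have h4 : 0 ≤ x * (x - 1) ^ 2 := mul_nonneg hx0 (sq_nonneg _)
        nlinarith
      -- `u (1 - x/2) ≤ u (1-x/2) * (P (7 + a²)) = (1-x/2)(7u + x²) P ≤ P`
      have h5 : 0 ≤ u * (1 - x / 2) := by
        apply mul_nonneg hu0.le; linarith
      calc u * (1 - x / 2) ≤ u * (1 - x / 2) * (scP a * (7 + a ^ 2)) := by
            nlinarith
        _ = ((1 - x / 2) * (x * x + 7 * u)) * scP a := by rw [hxx]; ring
        _ ≤ 1 * scP a := by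
            apply mul_le_mul_of_nonneg_right hkey hp0.le
        _ = scP a := one_mul _
  · rcases le_total a 4 with h4 | h4
    · -- `0 ≤ a ≤ 4`
      have hp := scP_ge_of_nonneg ha
      have hw1 : w ≤ 361 / 1000 := by
        rw [hw]
        apply Real.sqrt_le_iff.mpr
        constructor <;> norm_num
        linarith
      have h1 : scNU u * a ≤ (13 / 100) * (361 / 1000) / 2 * 4 := by
        rw [hN]
        have : u * w ≤ (13 / 100) * (361 / 1000) := by
          apply mul_le_mul hu hw1 hw0.le (by norm_num)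
        have h0 : 0 ≤ u * w := by positivity
        nlinarith
      nlinarith
    · -- `4 ≤ a`
      have hp := scP_ge_of_four_le h4
      have h1 : u + scNU u * a - scDU u * a ^ 2 ≤ 46 / 100 := by
        have hsq : 0 ≤ (4 * (46 / 100 - u) - u * w * a) ^ 2 := sq_nonneg _
        have hDU : scDU u * (16 * (46 / 100 - u)) = u ^ 3 := by
          unfold scDU
          rw [div_mul_cancel₀]
          positivity
        have huw : (u * w * a) ^ 2 = u ^ 3 * a ^ 2 := by
          have : (u * w * a) ^ 2 = u ^ 2 * (w * w) * a ^ 2 := by ring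
          rw [this, hww]; ring
        -- multiply by `16 D`
        have : (u + scNU u * a - scDU u * a ^ 2 - 46 / 100) * (16 * (46 / 100 - u)) ≤ 0 := by
          have e : (u + scNU u * a - scDU u * a ^ 2 - 46 / 100) * (16 * (46 / 100 - u))
              = -(4 * (46 / 100 - u) - u * w * a) ^ 2 := by
            have : scDU u * a ^ 2 * (16 * (46 / 100 - u)) = u ^ 3 * a ^ 2 := by
              rw [← hDU]; ring
            rw [hN]
            have e2 : (4 * (46 / 100 - u) - u * w * a) ^ 2
                = 16 * (46 / 100 - u) ^ 2 - 8 * (46 / 100 - u) * (u * w * a) + (u * w * a) ^ 2 := by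
              ring
            rw [e2, huw]
            linear_combination -this
          rw [e]; linarith
        by_contra hcon
        push Not at hcon
        have : 0 < (u + scNU u * a - scDU u * a ^ 2 - 46 / 100) * (16 * (46 / 100 - u)) := by
          apply mul_pos <;> linarith
        linarith
      linarith

/-- NOTE: the hypothesis `0 ≤ lam` is needed (`scEU lam = 0` for `lam < 0`, as `√lam = 0`). -/
theorem scAbs1_EU_pos {lam : ℝ} (hl : 0 ≤ lam) : 0 < scEU lam := by
  unfold scEU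
  split_ifs with h
  · norm_num
  · have hl' : 0 < lam := lt_of_le_of_ne hl (Ne.symm h)
    have : 0 < Real.sqrt lam := Real.sqrt_pos.mpr hl'
    apply lt_min (by norm_num)
    positivity

theorem scAbs1_EU_nonneg (lam : ℝ) : 0 ≤ scEU lam := by
  unfold scEU
  split_ifs with h
  · norm_num
  · apply le_min (by norm_num)
    positivity

theorem scAbs1_EU_le (lam : ℝ) : scEU lam ≤ 13 / 100 := by
  unfold scEU
  split_ifs with h
  · exact le_rfl
  · exact min_le_left _ _

theorem scAbs1_DU_EU_nonneg (lam : ℝ) : 0 ≤ scDU (scEU lam) := by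
  have h0 := scAbs1_EU_nonneg lam
  have h1 := scAbs1_EU_le lam
  unfold scDU
  apply div_nonneg (by positivity)
  linarith

/-- closed form of `S`. -/
theorem scAbs1_ES_eq {lam : ℝ} (h : 0 ≤ lam) : scES lam = 40 / (37 + 3 * lam) := by
  unfold scES scs scα
  have : (37 + 3 * lam) ≠ 0 := by positivity
  field_simp

theorem scAbs1_ES_pos {lam : ℝ} (h : 0 ≤ lam) : 0 < scES lam := by
  rw [scAbs1_ES_eq h]; positivity

theorem scAbs1_ES_le {lam : ℝ} (h : 0 ≤ lam) : scES lam ≤ scs := by
  rw [scAbs1_ES_eq h]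
  unfold scs
  rw [div_le_div_iff₀ (by positivity) (by norm_num)]
  linarith

theorem scAbs1_EH_nonneg {lam : ℝ} (h : 0 ≤ lam) : 0 ≤ scEH lam := by
  have := scAbs1_ES_pos h
  unfold scEH scα
  positivity

theorem scAbs1_ERho_pos {lam : ℝ} (h : 0 ≤ lam) : 0 < scERho lam := by
  have := scAbs1_ES_pos h
  unfold scERho scε scκ scs
  positivity

theorem scAbs1_EH_eq {lam : ℝ} (h : 0 ≤ lam) :
    scEH lam = 3 * (lam - 1) ^ 2 / (37 + 3 * lam) := by
  unfold scEH scα
  rw [scAbs1_ES_eq h]
  have : (37 + 3 * lam) ≠ 0 := by positivity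
  field_simp

theorem scAbs1_ERho_eq {lam : ℝ} (h : 0 ≤ lam) :
    scERho lam = 3 / 20 + 49 / 100 * (37 / (37 + 3 * lam)) := by
  unfold scERho scε scκ scs
  rw [scAbs1_ES_eq h]
  have : (37 + 3 * lam) ≠ 0 := by positivity
  field_simp

/-- `ω = H ρ u`. -/
theorem scAbs1_Omega_eq {lam : ℝ} (h : 0 ≤ lam) :
    scOmega lam = scEH lam * scERho lam * scEU lam := by
  rw [scAbs1_EH_eq h, scAbs1_ERho_eq h]
  rfl

theorem scAbs1_Omega_nonneg {lam : ℝ} (h : 0 ≤ lam) : 0 ≤ scOmega lam := by
  rw [scAbs1_Omega_eq h]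
  exact mul_nonneg (mul_nonneg (scAbs1_EH_nonneg h) (scAbs1_ERho_pos h).le) (scAbs1_EU_nonneg lam)

theorem scAbs1_Omega_eq_zero_iff {lam : ℝ} (h : 0 ≤ lam) : scOmega lam = 0 ↔ lam = 1 := by
  rw [scAbs1_Omega_eq h]
  have h1 := (scAbs1_ERho_pos h).ne'
  have h2 := (scAbs1_EU_pos h).ne'
  have h3 := (scAbs1_ES_pos h).ne'
  constructor
  · intro h0
    have h4 : scEH lam = 0 := by
      rcases mul_eq_zero.mp h0 with h5 | h5
      · rcases mul_eq_zero.mp h5 with h6 | h6
        · exact h6
        · exact absurd h6 h1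
      · exact absurd h5 h2
    unfold scEH scα at h4
    have h5 : (lam - 1) ^ 2 = 0 := by
      rcases mul_eq_zero.mp h4 with h6 | h6
      · rcases mul_eq_zero.mp h6 with h7 | h7
        · norm_num at h7
        · exact absurd h7 h3
      · exact h6
    have := pow_eq_zero_iff (two_ne_zero) |>.mp h5
    linarith
  · rintro rfl
    simp [scEH]

/-- `u ≥ .13/(1+λ)`. -/
theorem scAbs1_EU_lower {lam : ℝ} (h : 0 ≤ lam) : 13 / 100 / (1 + lam) ≤ scEU lam := by
  have h1 : (13 / 100 : ℝ) / (1 + lam) ≤ 13 / 100 := by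
    rw [div_le_iff₀ (by positivity)]
    nlinarith
  unfold scEU
  split_ifs with h0
  · exact h1
  · have hl' : 0 < lam := lt_of_le_of_ne h (Ne.symm h0)
    have hs : 0 < Real.sqrt lam := Real.sqrt_pos.mpr hl'
    have hss : Real.sqrt lam * Real.sqrt lam = lam := Real.mul_self_sqrt h
    apply le_min h1
    rw [div_le_div_iff₀ (by positivity) (by positivity)]
    nlinarith [sq_nonneg (Real.sqrt lam - 1)]

/-- `ω` is bounded below away from `1` (what Section 6 uses). -/
theorem scAbs1_Omega_lower {η : ℝ} (hη : 0 < η) :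
    ∃ c : ℝ, 0 < c ∧ ∀ lam : ℝ, 0 ≤ lam → η ≤ |lam - 1| → c ≤ scOmega lam := by
  refine ⟨3 * (η ^ 2 / ((40 + 3 * η) * (2 + η))) * (3 / 20) * (13 / 100), by positivity, ?_⟩
  intro lam hl hlam
  rw [scAbs1_Omega_eq hl, scAbs1_EH_eq hl]
  set t := |lam - 1| with ht
  have ht0 : 0 < t := lt_of_lt_of_le hη hlam
  have htt : (lam - 1) ^ 2 = t ^ 2 := (sq_abs _).symm
  have hlt : lam ≤ 1 + t := by
    have := le_abs_self (lam - 1)
    linarith
  have hrho : 3 / 20 ≤ scERho lam := by
    rw [scAbs1_ERho_eq hl]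
    have : 0 ≤ 49 / 100 * (37 / (37 + 3 * lam)) := by positivity
    linarith
  have hu := scAbs1_EU_lower hl
  -- the main rational inequality
  have hmain : η ^ 2 / ((40 + 3 * η) * (2 + η)) ≤ t ^ 2 / ((37 + 3 * lam) * (1 + lam)) := by
    have hA : t ^ 2 / ((40 + 3 * t) * (2 + t)) ≤ t ^ 2 / ((37 + 3 * lam) * (1 + lam)) := by
      apply div_le_div_of_nonneg_left (by positivity) (by positivity)
      apply mul_le_mul <;> linarith
    refine le_trans ?_ hA
    rw [div_le_div_iff₀ (by positivity) (by positivity)]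
    have e1 : η * (40 + 3 * t) ≤ t * (40 + 3 * η) := by nlinarith
    have e2 : η * (2 + t) ≤ t * (2 + η) := by nlinarith
    calc η ^ 2 * ((40 + 3 * t) * (2 + t)) = (η * (40 + 3 * t)) * (η * (2 + t)) := by ring
      _ ≤ (t * (40 + 3 * η)) * (t * (2 + η)) := by
          apply mul_le_mul e1 e2 (by positivity) (by positivity)
      _ = t ^ 2 * ((40 + 3 * η) * (2 + η)) := by ring
  rw [htt]
  calc 3 * (η ^ 2 / ((40 + 3 * η) * (2 + η))) * (3 / 20) * (13 / 100)
      ≤ 3 * (t ^ 2 / ((37 + 3 * lam) * (1 + lam))) * (3 / 20) * (13 / 100) := by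
        gcongr
    _ = 3 * t ^ 2 / (37 + 3 * lam) * (3 / 20) * (13 / 100 / (1 + lam)) := by
        field_simp
    _ ≤ 3 * t ^ 2 / (37 + 3 * lam) * scERho lam * scEU lam := by
        gcongr

end Claimed.Agent.R260
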