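/-
Row 260, SC-CENTRAL, file 8: assembly of the central certificate:
all bounds of Lemma 2.2 / Lemma 4.1 on `[-6,10]`, from the analytic input `ScCenHyp`.
Owner: helper213.
-/
import Claimed.Agent.R260.ScCenCert

set_option autoImplicit false
set_option maxRecDepth 100000

namespace Claimed.Agent.R260

theorem ScCenCell.allBd (H : ScCenHyp) (c : ScCenCell) (hr : 0 < c.r) (hq : c.QBd scCenEQ)
    (hk : c.KBd scCenEK) {bmin bmax Lmax Kmin Kmax Jmax l1 m zmin zmax chimax : ℚ}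
    (hc : c.base.chk bmin bmax Lmax Kmin Kmax Jmax l1 m zmin zmax chimax = true)
    (hp : 0 < (c.base.e5c 0).lower) (hbmin : 0 ≤ bmin) (hbmax : bmax ≤ 1 / 2) (lo hi : ℚ)
    (hlo : c.w - c.r = lo) (hhi : c.w + c.r = hi)
    {a : ℝ} (h1 : (lo : ℝ) ≤ a) (h2 : a ≤ (hi : ℝ)) :
    ScAllBd (bmin : ℝ) (bmax : ℝ) (Lmax : ℝ) (Kmin : ℝ) (Kmax : ℝ) (Jmax : ℝ) (l1 : ℝ) (m : ℝ)
      (zmin : ℝ) (zmax : ℝ) (chimax : ℝ) a := by
  have h1' : (c.w : ℝ) - (c.r : ℝ) ≤ a := by
    have : ((c.w - c.r : ℚ) : ℝ) = (lo : ℝ) := by rw [hlo]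
    push_cast at this; linarith
  have h2' : a ≤ (c.w : ℝ) + (c.r : ℝ) := by
    have : ((c.w + c.r : ℚ) : ℝ) = (hi : ℝ) := by rw [hhi]
    push_cast at this; linarith
  have hp' : 0 < scP a := by
    have := c.pc hr hq hk 0 hp h1' h2'
    simpa using this
  refine (c.ineq hr hq hk hc h1' h2').allBd (H.dpos a) hp' (by exact_mod_cast hbmin) ?_
  have : ((bmax : ℚ) : ℝ) ≤ ((1 / 2 : ℚ) : ℝ) := by exact_mod_cast hbmax
  simpa using this

theorem ScCenCell.p7' (c : ScCenCell) (hr : 0 < c.r) (hq : c.QBd scCenEQ) (hk : c.KBd scCenEK)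
    (hc : 0 < c.base.e5.lower) (lo hi : ℚ) (hlo : c.w - c.r = lo) (hhi : c.w + c.r = hi)
    {a : ℝ} (h1 : (lo : ℝ) ≤ a) (h2 : a ≤ (hi : ℝ)) : 1 ≤ scP a * (7 + a ^ 2) := by
  have h1' : (c.w : ℝ) - (c.r : ℝ) ≤ a := by
    have : ((c.w - c.r : ℚ) : ℝ) = (lo : ℝ) := by rw [hlo]
    push_cast at this; linarith
  have h2' : a ≤ (c.w : ℝ) + (c.r : ℝ) := by
    have : ((c.w + c.r : ℚ) : ℝ) = (hi : ℝ) := by rw [hhi]
    push_cast at this; linarith
  exact (c.p7 hr hq hk hc h1' h2').le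

theorem ScCenCell.pc' (c : ScCenCell) (hr : 0 < c.r) (hq : c.QBd scCenEQ) (hk : c.KBd scCenEK) (t : ℚ)
    (hc : 0 < (c.base.e5c t).lower) (lo hi : ℚ) (hlo : c.w - c.r = lo) (hhi : c.w + c.r = hi)
    {a : ℝ} (h1 : (lo : ℝ) ≤ a) (h2 : a ≤ (hi : ℝ)) : (t : ℝ) < scP a := by
  have h1' : (c.w : ℝ) - (c.r : ℝ) ≤ a := by
    have : ((c.w - c.r : ℚ) : ℝ) = (lo : ℝ) := by rw [hlo]
    push_cast at this; linarith
  have h2' : a ≤ (c.w : ℝ) + (c.r : ℝ) := by
    have : ((c.w + c.r : ℚ) : ℝ) = (hi : ℝ) := by rw [hhi]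
    push_cast at this; linarith
  exact c.pc hr hq hk t hc h1' h2'

theorem scCen_sD_le {a t Dmax : ℝ} (hD : 0 < Dmax) (ht : 5 / 17 = Dmax * t) (h : t < scP a) :
    scDD a ≤ Dmax := by
  have ht0 : 0 < t := by
    by_contra hcon
    have : Dmax * t ≤ 0 := mul_nonpos_of_nonneg_of_nonpos hD.le (not_lt.mp hcon)
    linarith
  have hp : 0 < scP a := ht0.trans h
  unfold scDD
  rw [scCen_Dstar, div_le_iff₀ hp, ht]
  exact (mul_lt_mul_of_pos_left h hD).le

theorem ScCenCell.q_gt (c : ScCenCell) (hq : c.QBd scCenEQ) (x t : ℚ) (hx : scCenAbs x ≤ 1)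
    (hc : t < scCenEvalQ c.P x - scCenEQ) : (t : ℝ) < scQ ((c.w : ℝ) + (c.r : ℝ) * (x : ℝ)) := by
  have hx' : |(x : ℝ)| ≤ 1 := by
    rw [← scCenAbs_cast]; exact_mod_cast hx
  have h := abs_le.mp (hq (x : ℝ) hx')
  have hc' : (t : ℝ) < scCenEval c.P (x : ℝ) - (scCenEQ : ℝ) := by
    rw [← scCenEvalQ_cast]; exact_mod_cast hc
  linarith [h.1]

theorem ScCenCell.q_lt (c : ScCenCell) (hq : c.QBd scCenEQ) (x t : ℚ) (hx : scCenAbs x ≤ 1)
    (hc : scCenEvalQ c.P x + scCenEQ < t) : scQ ((c.w : ℝ) + (c.r : ℝ) * (x : ℝ)) < (t : ℝ) := by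
  have hx' : |(x : ℝ)| ≤ 1 := by
    rw [← scCenAbs_cast]; exact_mod_cast hx
  have h := abs_le.mp (hq (x : ℝ) hx')
  have hc' : scCenEval c.P (x : ℝ) + (scCenEQ : ℝ) < (t : ℝ) := by
    rw [← scCenEvalQ_cast]; exact_mod_cast hc
  linarith [h.2]

/-! ### the cells (generated) -/

theorem scCenAll0 (H : ScCenHyp) {a : ℝ} (h1 : (-6) ≤ a) (h2 : a ≤ (-9 / 2)) :
    ScAllBd 0 (9 / 100) (60 / 100) (37 / 100) (56 / 100) (72 / 100) (13 / 100) 0
    (-8 / 100) (70 / 100) (7 / 100) a := by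
  have A := ScCenCell.allBd H scCenCell0 (by decide +kernel) (scCenQE0 H) (scCenKE0 H) scCenChk0
    (by decide +kernel) (by decide +kernel) (by decide +kernel) (-6) (-9 / 2)
    (by decide +kernel) (by decide +kernel) (a := a) (by push_cast; linarith) (by push_cast; linarith)
  convert A using 1 <;> norm_num

theorem scCenP7_0 (H : ScCenHyp) {a : ℝ} (h1 : (-6) ≤ a) (h2 : a ≤ (-9 / 2)) :
    1 ≤ scP a * (7 + a ^ 2) :=
  ScCenCell.p7' scCenCell0 (by decide +kernel) (scCenQE0 H) (scCenKE0 H) (by decide +kernel) (-6) (-9 / 2)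
    (by decide +kernel) (by decide +kernel) (a := a) (by push_cast; linarith) (by push_cast; linarith)

theorem scCenAll1 (H : ScCenHyp) {a : ℝ} (h1 : (-9 / 2) ≤ a) (h2 : a ≤ (-3)) :
    ScAllBd 0 (9 / 100) (60 / 100) (37 / 100) (56 / 100) (72 / 100) (13 / 100) 0
    (-8 / 100) (70 / 100) (7 / 100) a := by
  have A := ScCenCell.allBd H scCenCell1 (by decide +kernel) (scCenQE1 H) (scCenKE1 H) scCenChk1
    (by decide +kernel) (by decide +kernel) (by decide +kernel) (-9 / 2) (-3)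
    (by decide +kernel) (by decide +kernel) (a := a) (by push_cast; linarith) (by push_cast; linarith)
  convert A using 1 <;> norm_num

theorem scCenP7_1 (H : ScCenHyp) {a : ℝ} (h1 : (-9 / 2) ≤ a) (h2 : a ≤ (-3)) :
    1 ≤ scP a * (7 + a ^ 2) :=
  ScCenCell.p7' scCenCell1 (by decide +kernel) (scCenQE1 H) (scCenKE1 H) (by decide +kernel) (-9 / 2) (-3)
    (by decide +kernel) (by decide +kernel) (a := a) (by push_cast; linarith) (by push_cast; linarith)

theorem scCenAll2 (H : ScCenHyp) {a : ℝ} (h1 : (-3) ≤ a) (h2 : a ≤ (-2)) :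
    ScAllBd (83 / 1000) (15 / 100) (101 / 100) (29 / 100) (46 / 100) (72 / 100) (13 / 100) (19 / 100)
    (-8 / 100) (70 / 100) (7 / 100) a := by
  have A := ScCenCell.allBd H scCenCell2 (by decide +kernel) (scCenQE2 H) (scCenKE2 H) scCenChk2
    (by decide +kernel) (by decide +kernel) (by decide +kernel) (-3) (-2)
    (by decide +kernel) (by decide +kernel) (a := a) (by push_cast; linarith) (by push_cast; linarith)
  convert A using 1 <;> norm_num

theorem scCenP7_2 (H : ScCenHyp) {a : ℝ} (h1 : (-3) ≤ a) (h2 : a ≤ (-2)) :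
    1 ≤ scP a * (7 + a ^ 2) :=
  ScCenCell.p7' scCenCell2 (by decide +kernel) (scCenQE2 H) (scCenKE2 H) (by decide +kernel) (-3) (-2)
    (by decide +kernel) (by decide +kernel) (a := a) (by push_cast; linarith) (by push_cast; linarith)

theorem scCenSD_2 (H : ScCenHyp) {a : ℝ} (h1 : (-3) ≤ a) (h2 : a ≤ (-2)) :
    scDD a ≤ 43 / 10 := by
  have A := ScCenCell.pc' scCenCell2 (by decide +kernel) (scCenQE2 H) (scCenKE2 H) ((5 / 17) / (43 / 10)) (by decide +kernel) (-3) (-2)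
    (by decide +kernel) (by decide +kernel) (a := a) (by push_cast; linarith) (by push_cast; linarith)
  exact scCen_sD_le (by norm_num) (by push_cast; norm_num) A

theorem scCenAll3 (H : ScCenHyp) {a : ℝ} (h1 : (-2) ≤ a) (h2 : a ≤ (-1)) :
    ScAllBd (14 / 100) (23 / 100) (119 / 100) (29 / 100) (371 / 1000) (68 / 100) (13 / 100) (38 / 100)
    (-8 / 100) (70 / 100) (7 / 100) a := by
  have A := ScCenCell.allBd H scCenCell3 (by decide +kernel) (scCenQE3 H) (scCenKE3 H) scCenChk3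
    (by decide +kernel) (by decide +kernel) (by decide +kernel) (-2) (-1)
    (by decide +kernel) (by decide +kernel) (a := a) (by push_cast; linarith) (by push_cast; linarith)
  convert A using 1 <;> norm_num

theorem scCenP7_3 (H : ScCenHyp) {a : ℝ} (h1 : (-2) ≤ a) (h2 : a ≤ (-1)) :
    1 ≤ scP a * (7 + a ^ 2) :=
  ScCenCell.p7' scCenCell3 (by decide +kernel) (scCenQE3 H) (scCenKE3 H) (by decide +kernel) (-2) (-1)
    (by decide +kernel) (by decide +kernel) (a := a) (by push_cast; linarith) (by push_cast; linarith)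

theorem scCenSD_3 (H : ScCenHyp) {a : ℝ} (h1 : (-2) ≤ a) (h2 : a ≤ (-1)) :
    scDD a ≤ 3 := by
  have A := ScCenCell.pc' scCenCell3 (by decide +kernel) (scCenQE3 H) (scCenKE3 H) ((5 / 17) / (3)) (by decide +kernel) (-2) (-1)
    (by decide +kernel) (by decide +kernel) (a := a) (by push_cast; linarith) (by push_cast; linarith)
  exact scCen_sD_le (by norm_num) (by push_cast; norm_num) A

theorem scCenAll4 (H : ScCenHyp) {a : ℝ} (h1 : (-1) ≤ a) (h2 : a ≤ 0) :
    ScAllBd (22 / 100) (342 / 1000) (119 / 100) (29 / 100) (398 / 1000) (61 / 100) (123 / 1000)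
    (68 / 100) (-475 / 1000) 0 (97 / 1000) a := by
  have A := ScCenCell.allBd H scCenCell4 (by decide +kernel) (scCenQE4 H) (scCenKE4 H) scCenChk4
    (by decide +kernel) (by decide +kernel) (by decide +kernel) (-1) 0
    (by decide +kernel) (by decide +kernel) (a := a) (by push_cast; linarith) (by push_cast; linarith)
  convert A using 1 <;> norm_num

theorem scCenP7_4 (H : ScCenHyp) {a : ℝ} (h1 : (-1) ≤ a) (h2 : a ≤ 0) :
    1 ≤ scP a * (7 + a ^ 2) :=
  ScCenCell.p7' scCenCell4 (by decide +kernel) (scCenQE4 H) (scCenKE4 H) (by decide +kernel) (-1) 0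
    (by decide +kernel) (by decide +kernel) (a := a) (by push_cast; linarith) (by push_cast; linarith)

theorem scCenSD_4 (H : ScCenHyp) {a : ℝ} (h1 : (-1) ≤ a) (h2 : a ≤ 0) :
    scDD a ≤ 172 / 100 := by
  have A := ScCenCell.pc' scCenCell4 (by decide +kernel) (scCenQE4 H) (scCenKE4 H) ((5 / 17) / (172 / 100)) (by decide +kernel) (-1) 0
    (by decide +kernel) (by decide +kernel) (a := a) (by push_cast; linarith) (by push_cast; linarith)
  exact scCen_sD_le (by norm_num) (by push_cast; norm_num) A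

theorem scCenAll5 (H : ScCenHyp) {a : ℝ} (h1 : 0 ≤ a) (h2 : a ≤ (1 / 2)) :
    ScAllBd (22 / 100) (342 / 1000) (119 / 100) (29 / 100) (398 / 1000) (61 / 100) (123 / 1000)
    (68 / 100) (-475 / 1000) 0 (97 / 1000) a := by
  have A := ScCenCell.allBd H scCenCell5 (by decide +kernel) (scCenQE5 H) (scCenKE5 H) scCenChk5
    (by decide +kernel) (by decide +kernel) (by decide +kernel) 0 (1 / 2)
    (by decide +kernel) (by decide +kernel) (a := a) (by push_cast; linarith) (by push_cast; linarith)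
  convert A using 1 <;> norm_num

theorem scCenPc_5 (H : ScCenHyp) {a : ℝ} (h1 : 0 ≤ a) (h2 : a ≤ (1 / 2)) :
    1 / 4 ≤ scP a := by
  have A := ScCenCell.pc' scCenCell5 (by decide +kernel) (scCenQE5 H) (scCenKE5 H) (1 / 4) (by decide +kernel) 0 (1 / 2)
    (by decide +kernel) (by decide +kernel) (a := a) (by push_cast; linarith) (by push_cast; linarith)
  push_cast at A
  exact A.le

theorem scCenSD_5 (H : ScCenHyp) {a : ℝ} (h1 : 0 ≤ a) (h2 : a ≤ (1 / 2)) :
    scDD a ≤ 172 / 100 := by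
  have A := ScCenCell.pc' scCenCell5 (by decide +kernel) (scCenQE5 H) (scCenKE5 H) ((5 / 17) / (172 / 100)) (by decide +kernel) 0 (1 / 2)
    (by decide +kernel) (by decide +kernel) (a := a) (by push_cast; linarith) (by push_cast; linarith)
  exact scCen_sD_le (by norm_num) (by push_cast; norm_num) A

theorem scCenAll6 (H : ScCenHyp) {a : ℝ} (h1 : (1 / 2) ≤ a) (h2 : a ≤ 2) :
    ScAllBd (337 / 1000) (45 / 100) (83 / 100) (31 / 100) (4 / 10) (50 / 100) (60 / 1000)
    (68 / 100) (-475 / 1000) 0 (97 / 1000) a := by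
  have A := ScCenCell.allBd H scCenCell6 (by decide +kernel) (scCenQE6 H) (scCenKE6 H) scCenChk6
    (by decide +kernel) (by decide +kernel) (by decide +kernel) (1 / 2) 2
    (by decide +kernel) (by decide +kernel) (a := a) (by push_cast; linarith) (by push_cast; linarith)
  convert A using 1 <;> norm_num

theorem scCenPc_6 (H : ScCenHyp) {a : ℝ} (h1 : (1 / 2) ≤ a) (h2 : a ≤ 2) :
    1 / 4 ≤ scP a := by
  have A := ScCenCell.pc' scCenCell6 (by decide +kernel) (scCenQE6 H) (scCenKE6 H) (1 / 4) (by decide +kernel) (1 / 2) 2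
    (by decide +kernel) (by decide +kernel) (a := a) (by push_cast; linarith) (by push_cast; linarith)
  push_cast at A
  exact A.le

theorem scCenSD_6 (H : ScCenHyp) {a : ℝ} (h1 : (1 / 2) ≤ a) (h2 : a ≤ 2) :
    scDD a ≤ 87 / 100 := by
  have A := ScCenCell.pc' scCenCell6 (by decide +kernel) (scCenQE6 H) (scCenKE6 H) ((5 / 17) / (87 / 100)) (by decide +kernel) (1 / 2) 2
    (by decide +kernel) (by decide +kernel) (a := a) (by push_cast; linarith) (by push_cast; linarith)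
  exact scCen_sD_le (by norm_num) (by push_cast; norm_num) A

theorem scCenAll7 (H : ScCenHyp) {a : ℝ} (h1 : 2 ≤ a) (h2 : a ≤ 4) :
    ScAllBd (337 / 1000) (45 / 100) (83 / 100) (31 / 100) (4 / 10) (50 / 100) (60 / 1000)
    (68 / 100) (-475 / 1000) 0 (97 / 1000) a := by
  have A := ScCenCell.allBd H scCenCell7 (by decide +kernel) (scCenQE7 H) (scCenKE7 H) scCenChk7
    (by decide +kernel) (by decide +kernel) (by decide +kernel) 2 4
    (by decide +kernel) (by decide +kernel) (a := a) (by push_cast; linarith) (by push_cast; linarith)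
  convert A using 1 <;> norm_num

theorem scCenPc_7 (H : ScCenHyp) {a : ℝ} (h1 : 2 ≤ a) (h2 : a ≤ 4) :
    1 / 4 ≤ scP a := by
  have A := ScCenCell.pc' scCenCell7 (by decide +kernel) (scCenQE7 H) (scCenKE7 H) (1 / 4) (by decide +kernel) 2 4
    (by decide +kernel) (by decide +kernel) (a := a) (by push_cast; linarith) (by push_cast; linarith)
  push_cast at A
  exact A.le

theorem scCenSD_7 (H : ScCenHyp) {a : ℝ} (h1 : 2 ≤ a) (h2 : a ≤ 4) :
    scDD a ≤ 87 / 100 := by
  have A := ScCenCell.pc' scCenCell7 (by decide +kernel) (scCenQE7 H) (scCenKE7 H) ((5 / 17) / (87 / 100)) (by decide +kernel) 2 4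
    (by decide +kernel) (by decide +kernel) (a := a) (by push_cast; linarith) (by push_cast; linarith)
  exact scCen_sD_le (by norm_num) (by push_cast; norm_num) A

theorem scCenAll8 (H : ScCenHyp) {a : ℝ} (h1 : 4 ≤ a) (h2 : a ≤ 6) :
    ScAllBd (445 / 1000) (1 / 2) (20 / 100) (32 / 100) (4 / 10) (48 / 100) (22 / 1000)
    (68 / 100) (-475 / 1000) 0 (97 / 1000) a := by
  have A := ScCenCell.allBd H scCenCell8 (by decide +kernel) (scCenQE8 H) (scCenKE8 H) scCenChk8
    (by decide +kernel) (by decide +kernel) (by decide +kernel) 4 6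
    (by decide +kernel) (by decide +kernel) (a := a) (by push_cast; linarith) (by push_cast; linarith)
  convert A using 1 <;> norm_num

theorem scCenPc_8 (H : ScCenHyp) {a : ℝ} (h1 : 4 ≤ a) (h2 : a ≤ 6) :
    46 / 100 ≤ scP a := by
  have A := ScCenCell.pc' scCenCell8 (by decide +kernel) (scCenQE8 H) (scCenKE8 H) (46 / 100) (by decide +kernel) 4 6
    (by decide +kernel) (by decide +kernel) (a := a) (by push_cast; linarith) (by push_cast; linarith)
  push_cast at A
  exact A.le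

theorem scCenSD_8 (H : ScCenHyp) {a : ℝ} (h1 : 4 ≤ a) (h2 : a ≤ 6) :
    scDD a ≤ 64 / 100 := by
  have A := ScCenCell.pc' scCenCell8 (by decide +kernel) (scCenQE8 H) (scCenKE8 H) ((5 / 17) / (64 / 100)) (by decide +kernel) 4 6
    (by decide +kernel) (by decide +kernel) (a := a) (by push_cast; linarith) (by push_cast; linarith)
  exact scCen_sD_le (by norm_num) (by push_cast; norm_num) A

theorem scCenAll9 (H : ScCenHyp) {a : ℝ} (h1 : 6 ≤ a) (h2 : a ≤ 8) :
    ScAllBd (445 / 1000) (1 / 2) (20 / 100) (32 / 100) (4 / 10) (48 / 100) (22 / 1000)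
    (68 / 100) (-475 / 1000) 0 (97 / 1000) a := by
  have A := ScCenCell.allBd H scCenCell9 (by decide +kernel) (scCenQE9 H) (scCenKE9 H) scCenChk9
    (by decide +kernel) (by decide +kernel) (by decide +kernel) 6 8
    (by decide +kernel) (by decide +kernel) (a := a) (by push_cast; linarith) (by push_cast; linarith)
  convert A using 1 <;> norm_num

theorem scCenPc_9 (H : ScCenHyp) {a : ℝ} (h1 : 6 ≤ a) (h2 : a ≤ 8) :
    46 / 100 ≤ scP a := by
  have A := ScCenCell.pc' scCenCell9 (by decide +kernel) (scCenQE9 H) (scCenKE9 H) (46 / 100) (by decide +kernel) 6 8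
    (by decide +kernel) (by decide +kernel) (a := a) (by push_cast; linarith) (by push_cast; linarith)
  push_cast at A
  exact A.le

theorem scCenSD_9 (H : ScCenHyp) {a : ℝ} (h1 : 6 ≤ a) (h2 : a ≤ 8) :
    scDD a ≤ 64 / 100 := by
  have A := ScCenCell.pc' scCenCell9 (by decide +kernel) (scCenQE9 H) (scCenKE9 H) ((5 / 17) / (64 / 100)) (by decide +kernel) 6 8
    (by decide +kernel) (by decide +kernel) (a := a) (by push_cast; linarith) (by push_cast; linarith)
  exact scCen_sD_le (by norm_num) (by push_cast; norm_num) A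

theorem scCenAll10 (H : ScCenHyp) {a : ℝ} (h1 : 8 ≤ a) (h2 : a ≤ 10) :
    ScAllBd (445 / 1000) (1 / 2) (20 / 100) (32 / 100) (4 / 10) (48 / 100) (22 / 1000)
    (68 / 100) (-475 / 1000) 0 (97 / 1000) a := by
  have A := ScCenCell.allBd H scCenCell10 (by decide +kernel) (scCenQE10 H) (scCenKE10 H) scCenChk10
    (by decide +kernel) (by decide +kernel) (by decide +kernel) 8 10
    (by decide +kernel) (by decide +kernel) (a := a) (by push_cast; linarith) (by push_cast; linarith)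
  convert A using 1 <;> norm_num

theorem scCenPc_10 (H : ScCenHyp) {a : ℝ} (h1 : 8 ≤ a) (h2 : a ≤ 10) :
    46 / 100 ≤ scP a := by
  have A := ScCenCell.pc' scCenCell10 (by decide +kernel) (scCenQE10 H) (scCenKE10 H) (46 / 100) (by decide +kernel) 8 10
    (by decide +kernel) (by decide +kernel) (a := a) (by push_cast; linarith) (by push_cast; linarith)
  push_cast at A
  exact A.le

theorem scCenSD_10 (H : ScCenHyp) {a : ℝ} (h1 : 8 ≤ a) (h2 : a ≤ 10) :
    scDD a ≤ 64 / 100 := by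
  have A := ScCenCell.pc' scCenCell10 (by decide +kernel) (scCenQE10 H) (scCenKE10 H) ((5 / 17) / (64 / 100)) (by decide +kernel) 8 10
    (by decide +kernel) (by decide +kernel) (a := a) (by push_cast; linarith) (by push_cast; linarith)
  exact scCen_sD_le (by norm_num) (by push_cast; norm_num) A

/-! ### the six rows -/

theorem scCenH_O (H : ScCenHyp) {a : ℝ} (h1 : -6 ≤ a) (h2 : a ≤ -3) : ScBdO a := by
  rcases le_total a (-9 / 2) with h | h
  · exact ⟨scCenAll0 H h1 h, scCenP7_0 H h1 h⟩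
  · exact ⟨scCenAll1 H h h2, scCenP7_1 H h h2⟩

theorem scCenH_P1 (H : ScCenHyp) {a : ℝ} (h1 : -3 ≤ a) (h2 : a ≤ -2) : ScBdP1 a :=
  ⟨scCenAll2 H h1 h2, scCenP7_2 H h1 h2, scCenSD_2 H h1 h2⟩

theorem scCenH_R1 (H : ScCenHyp) {a : ℝ} (h1 : -2 ≤ a) (h2 : a ≤ -1) : ScBdR1 a :=
  ⟨scCenAll3 H h1 h2, scCenP7_3 H h1 h2, scCenSD_3 H h1 h2⟩

theorem scCenH_U1 (H : ScCenHyp) {a : ℝ} (h1 : -1 ≤ a) (h2 : a ≤ 1 / 2) : ScBdU1 a := by
  refine ⟨?_, fun h => scCenP7_4 H h1 h, fun h => scCenPc_5 H h h2, ?_⟩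
  · rcases le_total a 0 with h | h
    · exact scCenAll4 H h1 h
    · exact scCenAll5 H h h2
  · rcases le_total a 0 with h | h
    · exact scCenSD_4 H h1 h
    · exact scCenSD_5 H h h2

theorem scCenH_V1 (H : ScCenHyp) {a : ℝ} (h1 : 1 / 2 ≤ a) (h2 : a ≤ 4) : ScBdV1 a := by
  rcases le_total a 2 with h | h
  · exact ⟨scCenAll6 H h1 h, scCenPc_6 H h1 h, scCenSD_6 H h1 h⟩
  · exact ⟨scCenAll7 H h h2, scCenPc_7 H h h2, scCenSD_7 H h h2⟩

theorem scCenH_T1 (H : ScCenHyp) {a : ℝ} (h1 : 4 ≤ a) (h2 : a ≤ 10) : ScBdT1 a := by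
  rcases le_total a 6 with h | h
  · exact ⟨scCenAll8 H h1 h, scCenPc_8 H h1 h, scCenSD_8 H h1 h⟩
  · rcases le_total a 8 with h' | h'
    · exact ⟨scCenAll9 H h h', scCenPc_9 H h h', scCenSD_9 H h h'⟩
    · exact ⟨scCenAll10 H h' h2, scCenPc_10 H h' h2, scCenSD_10 H h' h2⟩

/-! ### the four endpoint values of `q` -/

theorem scCenH_q_neg1 (H : ScCenHyp) : 287 / 1000 < scQ (-1) := by
  have A := ScCenCell.q_gt scCenCell4 (scCenQE4 H) (-1) (287 / 1000) (by decide +kernel)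
    (by decide +kernel)
  have e : ((scCenCell4.w : ℚ) : ℝ) + ((scCenCell4.r : ℚ) : ℝ) * (((-1 : ℚ)) : ℝ) = -1 := by
    norm_num [scCenCell4]
  rw [e] at A
  push_cast at A
  exact A

theorem scCenH_q_neg2 (H : ScCenHyp) : scQ (-2) < 56 / 1000 := by
  have A := ScCenCell.q_lt scCenCell3 (scCenQE3 H) (-1) (56 / 1000) (by decide +kernel)
    (by decide +kernel)
  have e : ((scCenCell3.w : ℚ) : ℝ) + ((scCenCell3.r : ℚ) : ℝ) * (((-1 : ℚ)) : ℝ) = -2 := by
    norm_num [scCenCell3]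
  rw [e] at A
  push_cast at A
  exact A

theorem scCenH_q_neg3 (H : ScCenHyp) : scQ (-3) < 5 / 1000 := by
  have A := ScCenCell.q_lt scCenCell2 (scCenQE2 H) (-1) (5 / 1000) (by decide +kernel)
    (by decide +kernel)
  have e : ((scCenCell2.w : ℚ) : ℝ) + ((scCenCell2.r : ℚ) : ℝ) * (((-1 : ℚ)) : ℝ) = -3 := by
    norm_num [scCenCell2]
  rw [e] at A
  push_cast at A
  exact A

theorem scCenH_q_four (H : ScCenHyp) : 4 < scQ 4 := by
  have A := ScCenCell.q_gt scCenCell8 (scCenQE8 H) (-1) 4 (by decide +kernel)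
    (by decide +kernel)
  have e : ((scCenCell8.w : ℚ) : ℝ) + ((scCenCell8.r : ℚ) : ℝ) * (((-1 : ℚ)) : ℝ) = 4 := by
    norm_num [scCenCell8]
  rw [e] at A
  push_cast at A
  exact A

end Claimed.Agent.R260
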