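/-
Row 260, leaves TOP-d and TOP-f of `Top.lean`.  Owner: helper235.
-/
import Claimed.Agent.R260.RigDefs
import Claimed.Agent.R260.LcMain

set_option autoImplicit false

namespace Claimed.Agent.R260

open MeasureTheory Set Filter Topology
open Claims.C0429

variable {m : ℕ}

/-- TOP-d: a log-concave density is a density with second moments. -/
theorem topD_rigDensity {f : (Fin m → ℝ) → ℝ} (hf : IsLogConcaveDensityOn f) : RigDensity f := by
  refine ⟨hf.1, hf.2.1, hf.2.2.1, fun i => ?_⟩
  refine ((lc_mom hf).int2 i i).congr (Eventually.of_forall fun x => ?_)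
  simp only [sq]

/-- TOP-f: affine images of the product exponential density have gap zero. -/
theorem topD_aff {f : (Fin m → ℝ) → ℝ}
    {M : Matrix (Fin m) (Fin m) ℝ} {b : Fin m → ℝ} (hM : M.det ≠ 0)
    (h : f =ᵐ[volume] affineExpProductDensity M b) :
    diffEntropy f = (m : ℝ) + (1 / 2) * Real.log (densityCov f).det :=
  lc_gap_zero hM h

theorem lcGap_eq_rig_gap (f : (Fin m → ℝ) → ℝ) : lcGap f = rig_gap f := rfl

end Claimed.Agent.R260
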