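/-
Row 260, leaf TOP-e (owner helper267): the entropy gap of a density with core data is nonnegative.
Stated for an arbitrary weight `om` with `RigOmega om`; in `Top.lean`:
`top_gap_nonneg D := topG_gap_nonneg top_rigOmega D`.
-/
import Claimed.Agent.R260.RigSlack

set_option autoImplicit false

namespace Claimed.Agent.R260

theorem topG_gap_nonneg {m : ℕ} {q om : ℝ → ℝ} (hom : RigOmega om) {g : (Fin m → ℝ) → ℝ}
    (D : RigCoreData q om g) : 0 ≤ rig_gap g :=
  rig_gap_nonneg hom D

end Claimed.Agent.R260
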