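/-
Row 260, leaf TOP-b: the two facts on the rigidity weight `ω` (`RigOmega scOmega`).
Owner: helper117.
-/
import Claimed.Agent.R260.ScDefs
import Claimed.Agent.R260.RigDefs

set_option autoImplicit false

namespace Claimed.Agent.R260

/-- the third factor of `ω` -/
noncomputable def topO_u (lam : ℝ) : ℝ :=
  if lam = 0 then 13 / 100 else min (13 / 100) (32 / (25 * Real.sqrt lam))

theorem topO_scOmega_eq (lam : ℝ) :
    scOmega lam = 3 * (lam - 1) ^ 2 / (37 + 3 * lam) *
      (3 / 20 + 49 / 100 * (37 / (37 + 3 * lam))) * topO_u lam := rfl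

theorem topO_u_nonneg (lam : ℝ) : 0 ≤ topO_u lam := by
  unfold topO_u
  split_ifs
  · norm_num
  · exact le_min (by norm_num) (by positivity)

theorem topO_f2_ge {lam : ℝ} (h : 0 ≤ lam) :
    3 / 20 ≤ 3 / 20 + 49 / 100 * (37 / (37 + 3 * lam)) := by
  have : 0 ≤ 49 / 100 * (37 / (37 + 3 * lam)) := by positivity
  linarith

theorem topO_f1_nonneg {lam : ℝ} (h : 0 ≤ lam) : 0 ≤ 3 * (lam - 1) ^ 2 / (37 + 3 * lam) := by
  positivity

theorem topO_nonneg {lam : ℝ} (h : 0 ≤ lam) : 0 ≤ scOmega lam := by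
  rw [topO_scOmega_eq]
  exact mul_nonneg (mul_nonneg (topO_f1_nonneg h) (by linarith [topO_f2_ge h]))
    (topO_u_nonneg lam)

/-- small `λ` -/
theorem topO_u_small {lam : ℝ} (h : 0 ≤ lam) (h2 : lam ≤ 2) : 13 / 100 ≤ topO_u lam := by
  unfold topO_u
  split_ifs with h0
  · exact le_rfl
  · have hpos : 0 < lam := lt_of_le_of_ne h (Ne.symm h0)
    have hs : 0 < Real.sqrt lam := Real.sqrt_pos.2 hpos
    have hs2 : Real.sqrt lam ≤ 2 := by
      rw [show (2 : ℝ) = Real.sqrt (2 ^ 2) by rw [Real.sqrt_sq (by norm_num)]]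
      exact Real.sqrt_le_sqrt (by linarith)
    refine le_min le_rfl ?_
    rw [le_div_iff₀ (by positivity)]
    linarith

/-- large `λ` -/
theorem topO_u_large {lam : ℝ} (h1 : 1 ≤ lam) : 13 / (100 * Real.sqrt lam) ≤ topO_u lam := by
  have hs : 1 ≤ Real.sqrt lam := by
    rw [show (1 : ℝ) = Real.sqrt 1 by rw [Real.sqrt_one]]
    exact Real.sqrt_le_sqrt h1
  have hs0 : 0 < Real.sqrt lam := by linarith
  unfold topO_u
  rw [if_neg (by linarith)]
  refine le_min ?_ ?_
  · rw [div_le_div_iff₀ (by positivity) (by norm_num)]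
    nlinarith
  · rw [div_le_div_iff₀ (by positivity) (by positivity)]
    nlinarith

theorem topO_lower_small {ε lam : ℝ} (hε : 0 < ε) (h : 0 ≤ lam) (h2 : lam ≤ 2)
    (hl : ε ≤ |lam - 1|) : 3 * ε ^ 2 / 43 * (3 / 20) * (13 / 100) ≤ scOmega lam := by
  rw [topO_scOmega_eq]
  have hsq : ε ^ 2 ≤ (lam - 1) ^ 2 := by
    rw [← sq_abs (lam - 1)]
    exact pow_le_pow_left₀ hε.le hl 2
  have hf1 : 3 * ε ^ 2 / 43 ≤ 3 * (lam - 1) ^ 2 / (37 + 3 * lam) :=
    div_le_div₀ (by positivity) (by linarith) (by positivity) (by linarith)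
  exact mul_le_mul (mul_le_mul hf1 (topO_f2_ge h) (by norm_num) (topO_f1_nonneg h))
    (topO_u_small h h2) (by norm_num)
    (mul_nonneg (topO_f1_nonneg h) (by linarith [topO_f2_ge h]))

theorem topO_lower_large {lam : ℝ} (h2 : 2 ≤ lam) : 1 / 2000 ≤ scOmega lam := by
  rw [topO_scOmega_eq]
  have h : 0 ≤ lam := by linarith
  have hs : 1 ≤ Real.sqrt lam := by
    rw [show (1 : ℝ) = Real.sqrt 1 by rw [Real.sqrt_one]]
    exact Real.sqrt_le_sqrt (by linarith)
  have hs0 : 0 < Real.sqrt lam := by linarith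
  have hsq : Real.sqrt lam ^ 2 = lam := Real.sq_sqrt h
  have hf1 : 3 * lam / 86 ≤ 3 * (lam - 1) ^ 2 / (37 + 3 * lam) := by
    rw [div_le_div_iff₀ (by norm_num) (by positivity)]
    nlinarith
  have h3 : 3 * lam / 86 * (3 / 20) * (13 / (100 * Real.sqrt lam)) ≤
      3 * (lam - 1) ^ 2 / (37 + 3 * lam) * (3 / 20 + 49 / 100 * (37 / (37 + 3 * lam))) *
        topO_u lam :=
    mul_le_mul (mul_le_mul hf1 (topO_f2_ge h) (by norm_num) (topO_f1_nonneg h))
      (topO_u_large (by linarith)) (by positivity)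
      (mul_nonneg (topO_f1_nonneg h) (by linarith [topO_f2_ge h]))
  refine le_trans ?_ h3
  have e : 3 * lam / 86 * (3 / 20) * (13 / (100 * Real.sqrt lam)) =
      117 / 172000 * Real.sqrt lam := by
    rw [← hsq]
    rw [Real.sqrt_sq hs0.le]
    field_simp
    ring
  rw [e]
  nlinarith

theorem topO_rigOmega : RigOmega scOmega where
  nonneg _ h := topO_nonneg h
  coercive ε hε := by
    refine ⟨min (3 * ε ^ 2 / 43 * (3 / 20) * (13 / 100)) (1 / 2000),
      lt_min (by positivity) (by norm_num), fun l hl0 hl => ?_⟩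
    rcases le_total l 2 with h2 | h2
    · exact (min_le_left _ _).trans (topO_lower_small hε hl0 h2 hl)
    · exact (min_le_right _ _).trans (topO_lower_large h2)

end Claimed.Agent.R260
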