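/-
Row 260.  TOP-c: the Gaussian Poincare inequality for Lipschitz functions on `Fin m → ℝ`
(`RigPoincare m`) from the Gaussian kit on `EE m`.  Owner: helper30.
-/
import Claimed.Agent.R260.GKClosD
import Claimed.Agent.R260.RigGauss

set_option autoImplicit false

open MeasureTheory ProbabilityTheory Filter Topology
open scoped BigOperators ENNReal NNReal

namespace Claimed.Agent.R260

variable {m : ℕ}

/-- Integrals against `gam m` as integrals against `rig_gam m`. -/
lemma topP_integral_gam (F : EE m → ℝ) :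
    ∫ x, F x ∂(gam m) = ∫ y, F (WithLp.toLp 2 y) ∂(rig_gam m) := by
  have h : gam m = (rig_gam m).map (MeasurableEquiv.toLp 2 (Fin m → ℝ)) := by
    unfold rig_gam
    exact (map_pi_eq_stdGaussian (ι := Fin m)).symm
  rw [h, integral_map_equiv]
  rfl

theorem topP_rigPoincare (m : ℕ) : RigPoincare m := by
  intro f hf
  obtain ⟨K, hK⟩ := hf
  set u : EE m → ℝ := fun x => f (WithLp.ofLp x) with hu
  have huL : LipschitzWith (K * 1) u := hK.comp (PiLp.lipschitzWith_ofLp 2 (fun _ : Fin m => ℝ))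
  have hP := (gk_gh1_of_lipschitz huL).poincare
  rw [topP_integral_gam, topP_integral_gam, topP_integral_gam] at hP
  have hfi : Integrable f (rig_gam m) := rig_integrable_of_lipschitz ⟨K, hK⟩
  have hf2 : Integrable (fun x => f x ^ 2) (rig_gam m) := rig_integrable_sq_of_lipschitz ⟨K, hK⟩
  -- the variance
  have hvar : ∫ x, (f x - ∫ y, f y ∂(rig_gam m)) ^ 2 ∂(rig_gam m)
      = ∫ x, f x ^ 2 ∂(rig_gam m) - (∫ x, f x ∂(rig_gam m)) ^ 2 := by
    set c := ∫ y, f y ∂(rig_gam m) with hc
    have e : ∀ x, (f x - c) ^ 2 = f x ^ 2 - 2 * c * f x + c ^ 2 := fun x => by ring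
    simp only [e]
    have h1 : Integrable (fun x => 2 * c * f x) (rig_gam m) := hfi.const_mul _
    have h2 : Integrable (fun x => f x ^ 2 - 2 * c * f x) (rig_gam m) := hf2.sub h1
    rw [integral_add h2 (integrable_const _), integral_sub hf2 h1, integral_const_mul,
      integral_const]
    simp only [probReal_univ, smul_eq_mul, one_mul]
    rw [← hc]
    ring
  rw [hvar]
  refine hP.trans (le_of_eq ?_)
  apply integral_congr_ae
  have hae : ∀ᵐ y ∂(rig_gam m), DifferentiableAt ℝ f y :=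
    rig_ae_gam_iff.2 hK.ae_differentiableAt
  filter_upwards [hae] with y hy
  refine Finset.sum_congr rfl fun r _ => ?_
  congr 1
  -- `pd r u (toLp y) = lineDeriv f y e_r`
  have hL : HasFDerivAt (fun x : EE m => WithLp.ofLp x)
      ((PiLp.continuousLinearEquiv 2 ℝ (fun _ : Fin m => ℝ)) : EE m →L[ℝ] (Fin m → ℝ))
      (WithLp.toLp 2 y) :=
    ((PiLp.continuousLinearEquiv 2 ℝ (fun _ : Fin m => ℝ)) : EE m →L[ℝ] (Fin m → ℝ)).hasFDerivAt
  have hcomp : HasFDerivAt u ((fderiv ℝ f y).comp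
      ((PiLp.continuousLinearEquiv 2 ℝ (fun _ : Fin m => ℝ)) : EE m →L[ℝ] (Fin m → ℝ)))
      (WithLp.toLp 2 y) := by
    have h1 : HasFDerivAt f (fderiv ℝ f y) (WithLp.ofLp (WithLp.toLp 2 y)) := by
      simpa using hy.hasFDerivAt
    exact h1.comp (WithLp.toLp 2 y) hL
  unfold pd
  rw [hcomp.fderiv, hy.lineDeriv_eq_fderiv]
  simp only [ContinuousLinearMap.comp_apply]
  congr 1

end Claimed.Agent.R260
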