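/-
Row 260, leaf TOP-a of `Top.lean`: the scalar facts used by Sec. 6.  Owner: helper235.
-/
import Claimed.Agent.R260.RigDefs
import Claimed.Agent.R260.ScLemma21
import Claimed.Agent.R260.LcExp

set_option autoImplicit false

namespace Claimed.Agent.R260

open MeasureTheory ProbabilityTheory Set Filter Topology
open Claims.C0429

/-! ### `q` is 1-Lipschitz -/

theorem topS_q_lip : LipschitzWith 1 scQ := by
  refine lipschitzWith_of_nnnorm_deriv_le (fun a => (hasDerivAt_scQ a).differentiableAt) fun a => ?_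
  rw [(hasDerivAt_scQ a).deriv, ← NNReal.coe_le_coe, coe_nnnorm, Real.norm_eq_abs,
    abs_of_pos (scQ_mul_scD_pos a)]
  exact (scQ_mul_scD_lt_one a).le

/-! ### second order Taylor bound from three derivatives -/

theorem topS_mvt {f f' : ℝ → ℝ} (h : ∀ a, HasDerivAt f (f' a) a) {r C : ℝ}
    (hC : ∀ s, |s| ≤ r → |f' s| ≤ C) {s : ℝ} (hs : |s| ≤ r) : |f s - f 0| ≤ C * |s| := by
  have hr : 0 ≤ r := (abs_nonneg s).trans hs
  have := Convex.norm_image_sub_le_of_norm_hasDerivWithin_le (f := f) (f' := f') (C := C)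
    (s := Icc (-r) r) (x := 0) (y := s) (fun x _ => (h x).hasDerivWithinAt)
    (fun x hx => by rw [Real.norm_eq_abs]; exact hC x (abs_le.2 hx)) (convex_Icc _ _)
    ⟨by linarith, hr⟩ (abs_le.1 hs)
  simpa [Real.norm_eq_abs] using this

theorem topS_taylor2 {f f1 f2 f3 : ℝ → ℝ} (h0 : ∀ a, HasDerivAt f (f1 a) a)
    (h1 : ∀ a, HasDerivAt f1 (f2 a) a) (h2 : ∀ a, HasDerivAt f2 (f3 a) a) {L : ℝ}
    (hL : ∀ a, |a| ≤ 1 → |f3 a| ≤ L) (a : ℝ) (ha : |a| ≤ 1) :
    |f a - (f 0 + f1 0 * a + f2 0 / 2 * a ^ 2)| ≤ L * |a| ^ 3 := by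
  set r := |a| with hr
  have hr0 : 0 ≤ r := abs_nonneg a
  have hL0 : 0 ≤ L := (abs_nonneg _).trans (hL 0 (by simp))
  -- second derivative of the remainder
  have b2 : ∀ s, |s| ≤ r → |f2 s - f2 0| ≤ L * r := by
    intro s hs
    have := topS_mvt h2 (r := r) (C := L) (fun u hu => hL u (hu.trans ha)) hs
    exact this.trans (mul_le_mul_of_nonneg_left hs hL0)
  -- first derivative of the remainder
  have d1 : ∀ s, HasDerivAt (fun s => f1 s - f1 0 - f2 0 * s) (f2 s - f2 0) s := by
    intro s
    have := ((h1 s).sub_const (f1 0)).fun_sub ((hasDerivAt_id' s).const_mul (f2 0))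
    refine this.congr_deriv ?_
    simp
  have b1 : ∀ s, |s| ≤ r → |f1 s - f1 0 - f2 0 * s| ≤ L * r * r := by
    intro s hs
    have := topS_mvt d1 (r := r) (C := L * r) b2 hs
    simp only [mul_zero, sub_zero, sub_self] at this
    exact this.trans (mul_le_mul_of_nonneg_left hs (mul_nonneg hL0 hr0))
  have d0 : ∀ s, HasDerivAt (fun s => f s - (f 0 + f1 0 * s + f2 0 / 2 * s ^ 2))
      (f1 s - f1 0 - f2 0 * s) s := by
    intro s
    have := (h0 s).fun_sub ((((hasDerivAt_id' s).const_mul (f1 0)).const_add (f 0)).fun_add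
      (((hasDerivAt_id' s).fun_pow 2).const_mul (f2 0 / 2)))
    refine this.congr_deriv ?_
    simp
    ring
  have := topS_mvt d0 (r := r) (C := L * r * r) b1 (s := a) le_rfl
  simp only [mul_zero, add_zero, sub_self, sub_zero, ne_eq, OfNat.ofNat_ne_zero, not_false_eq_true,
    zero_pow] at this
  calc |f a - (f 0 + f1 0 * a + f2 0 / 2 * a ^ 2)| ≤ L * r * r * |a| := this
    _ = L * r ^ 3 := by rw [← hr]; ring

/-- the third derivative of `q`. -/
noncomputable def topS_q3 (a : ℝ) : ℝ :=
  scQ a * scD a * (scD a ^ 2 + scQ a * scD a - 1) +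
    scQ a * (2 * scD a * (scQ a * scD a - 1) + scQ a * (scD a ^ 2 + scQ a * scD a - 1))

theorem topS_hasDerivAt_q2 (a : ℝ) :
    HasDerivAt (fun x => scQ x * (scD x ^ 2 + scQ x * scD x - 1)) (topS_q3 a) a := by
  have h := (hasDerivAt_scQ a).fun_mul
    ((((hasDerivAt_scD a).fun_pow 2).fun_add (hasDerivAt_scQ_mul_scD a)).sub_const 1)
  refine h.congr_deriv ?_
  unfold topS_q3
  simp

theorem topS_scD_continuous : Continuous scD :=
  continuous_iff_continuousAt.mpr fun a => (hasDerivAt_scD a).continuousAt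

theorem topS_q3_continuous : Continuous topS_q3 := by
  unfold topS_q3
  have h1 := scQ_continuous
  have h2 := topS_scD_continuous
  fun_prop

theorem topS_taylor : ∃ q0 q1 q2 C δ : ℝ, q1 ≠ 0 ∧ q2 ≠ 0 ∧ 0 < δ ∧
    ∀ a, |a| ≤ δ → |scQ a - (q0 + q1 * a + q2 * a ^ 2)| ≤ C * |a| ^ 3 := by
  obtain ⟨L, hL⟩ := (isCompact_Icc (a := (-1 : ℝ)) (b := 1)).exists_bound_of_continuousOn
    topS_q3_continuous.continuousOn
  refine ⟨scQ 0, scQ 0 * scD 0, scQ 0 * (scD 0 ^ 2 + scQ 0 * scD 0 - 1) / 2, L, 1,
    (scQ_mul_scD_pos 0).ne', (half_pos (scQ_second_deriv_pos 0)).ne', one_pos, ?_⟩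
  intro a ha
  exact topS_taylor2 hasDerivAt_scQ hasDerivAt_scQ_mul_scD topS_hasDerivAt_q2
    (fun s hs => by simpa [Real.norm_eq_abs] using hL s (abs_le.1 hs)) a ha

/-! ### the law of `t` under the standard Gaussian -/

theorem topS_exp_neg_scT (a : ℝ) : Real.exp (-scT a) = scTail a / Real.sqrt (2 * Real.pi) := by
  have hs : (0:ℝ) < Real.sqrt (2 * Real.pi) := Real.sqrt_pos.mpr (by positivity)
  unfold scT
  rw [neg_neg, Real.exp_log (div_pos (scTail_pos a) hs)]

theorem topS_gauss_Ici (a : ℝ) :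
    gaussianReal 0 1 (Ici a) = ENNReal.ofReal (Real.exp (-scT a)) := by
  rw [gaussianReal_apply_eq_integral 0 one_ne_zero, integral_Ici_eq_integral_Ioi,
    topS_exp_neg_scT]
  congr 1
  have : ∀ x, gaussianPDFReal 0 1 x = (Real.sqrt (2 * Real.pi))⁻¹ * scW x := by
    intro x
    simp [gaussianPDFReal, scW]
  simp only [this]
  rw [integral_const_mul, scTail]
  ring

theorem topS_scT_strictMono : StrictMono scT :=
  strictMono_of_hasDerivAt_pos hasDerivAt_scT scQ_pos

theorem topS_scT_continuous : Continuous scT :=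
  continuous_iff_continuousAt.mpr fun a => (hasDerivAt_scT a).continuousAt

theorem topS_scTail_continuous : Continuous scTail :=
  continuous_iff_continuousAt.mpr fun a => (hasDerivAt_scTail a).continuousAt

/-- `t` takes every positive value. -/
theorem topS_scT_surj {u : ℝ} (hu : 0 < u) : ∃ a, scT a = u := by
  have hs : (0:ℝ) < Real.sqrt (2 * Real.pi) := Real.sqrt_pos.mpr (by positivity)
  set c := Real.exp (-u) * Real.sqrt (2 * Real.pi) with hc
  have hc0 : 0 < c := mul_pos (Real.exp_pos _) hs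
  have hc1 : c < Real.sqrt (2 * Real.pi) := by
    have : Real.exp (-u) < 1 := by rw [Real.exp_lt_one_iff]; linarith
    nlinarith
  -- small values of the tail
  have h1 : ∃ a, scTail a ≤ c :=
    ((scTail_tendsto_atTop.eventually (gt_mem_nhds hc0)).exists).imp fun a ha => le_of_lt ha
  -- large values of the tail
  have h2 : ∃ a, c ≤ scTail a := by
    have hpos : 0 < Real.sqrt (2 * Real.pi) - c := by linarith
    obtain ⟨a, ha⟩ := (scTail_tendsto_atTop.eventually (gt_mem_nhds hpos)).exists
    refine ⟨-a, ?_⟩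
    have := scTail_add_neg a
    linarith
  obtain ⟨a, ha⟩ := mem_range_of_exists_le_of_exists_ge topS_scTail_continuous h1 h2
  refine ⟨a, ?_⟩
  unfold scT
  rw [ha, hc, mul_div_assoc, div_self hs.ne', mul_one, Real.log_exp, neg_neg]

theorem topS_oneSided_integrable : Integrable oneSidedExpDensity := by
  have h0 := lc_oneSided_moment 0
  simp only [pow_zero, one_mul, Nat.factorial_zero, Nat.cast_one] at h0
  exact integrable_of_integral_eq_one h0

theorem topS_expLaw_apply (s : Set ℝ) (hs : MeasurableSet s) :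
    (volume.withDensity (fun u => ENNReal.ofReal (oneSidedExpDensity u))) s
      = ENNReal.ofReal (∫ u in s, oneSidedExpDensity u) := by
  rw [withDensity_apply _ hs, ofReal_integral_eq_lintegral_ofReal
    topS_oneSided_integrable.restrict (ae_of_all _ lc_oneSided_nonneg)]

theorem topS_expLaw_Ici {u : ℝ} (hu : 0 ≤ u) :
    (volume.withDensity (fun u => ENNReal.ofReal (oneSidedExpDensity u))) (Ici u)
      = ENNReal.ofReal (Real.exp (-u)) := by
  rw [topS_expLaw_apply _ measurableSet_Ici]
  congr 1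
  rw [← integral_exp_neg_Ioi u, ← integral_Ici_eq_integral_Ioi]
  refine setIntegral_congr_fun measurableSet_Ici fun x hx => ?_
  have : 0 ≤ x := hu.trans hx
  simp [oneSidedExpDensity, this]

theorem topS_expLaw_univ :
    (volume.withDensity (fun u => ENNReal.ofReal (oneSidedExpDensity u))) univ = 1 := by
  rw [topS_expLaw_apply _ MeasurableSet.univ]
  have h0 := lc_oneSided_moment 0
  simp only [pow_zero, one_mul, Nat.factorial_zero, Nat.cast_one] at h0
  simp [h0]

theorem topS_t_law : (gaussianReal 0 1).map scT =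
    volume.withDensity (fun u => ENNReal.ofReal (oneSidedExpDensity u)) := by
  have hmeas : Measurable scT := topS_scT_continuous.measurable
  have : IsProbabilityMeasure ((gaussianReal 0 1).map scT) :=
    Measure.isProbabilityMeasure_map hmeas.aemeasurable
  refine Measure.ext_of_Ici _ _ fun u => ?_
  rw [Measure.map_apply hmeas measurableSet_Ici]
  rcases le_or_gt u 0 with hu | hu
  · -- everything
    have h1 : scT ⁻¹' Ici u = univ := by
      ext a
      simp only [mem_preimage, mem_Ici, mem_univ, iff_true]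
      exact hu.trans (scT_pos a).le
    rw [h1, measure_univ]
    refine le_antisymm ?_ ?_
    · have h2 := topS_expLaw_Ici (le_refl (0 : ℝ))
      simp only [neg_zero, Real.exp_zero, ENNReal.ofReal_one] at h2
      rw [← h2]
      exact measure_mono (Ici_subset_Ici.2 hu)
    · rw [← topS_expLaw_univ]
      exact measure_mono (subset_univ _)
  · obtain ⟨a, rfl⟩ := topS_scT_surj hu
    have h1 : scT ⁻¹' Ici (scT a) = Ici a := by
      ext x
      simp only [mem_preimage, mem_Ici]
      exact topS_scT_strictMono.le_iff_le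
    rw [h1, topS_gauss_Ici, topS_expLaw_Ici hu.le]

/-- TOP-a: the scalar facts used by Sec. 6. -/
theorem topS_rigScalar : RigScalar scQ scT :=
  ⟨topS_q_lip, hasDerivAt_scT, topS_t_law, topS_taylor⟩

end Claimed.Agent.R260
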