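import Mathlib

/-! Row 260, package WI/P25 (owner helper12), part 1: scalar analysis of Prop 2.5
(consolidation of WiCheb, WiHyp, WiPair, WiTriple, WiSum). -/

/-!
# Row 260, package WI: weighted Chebyshev integral inequality

`wi_chebyshev`: for a nonnegative continuous weight `w` and two continuous functions `f`, `g`
that are monotone on `[a,b]`,
`(∫ f w) (∫ g w) ≤ (∫ w) (∫ f g w)`.
Proof without Fubini: for fixed `y`, `H y = ∫ (f x - f y) (g x - g y) w x dx ≥ 0`, and
`∫ H y w y dy = 2 [(∫ w)(∫ f g w) - (∫ f w)(∫ g w)]`.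
-/

namespace Claimed.Agent.R260

open MeasureTheory intervalIntegral Set

theorem wi_chebyshev {a b : ℝ} (hab : a ≤ b) {w f g : ℝ → ℝ}
    (hw : ContinuousOn w (Icc a b)) (hf : ContinuousOn f (Icc a b))
    (hg : ContinuousOn g (Icc a b)) (hw0 : ∀ x ∈ Icc a b, 0 ≤ w x)
    (hfm : MonotoneOn f (Icc a b)) (hgm : MonotoneOn g (Icc a b)) :
    (∫ x in a..b, f x * w x) * (∫ x in a..b, g x * w x)
      ≤ (∫ x in a..b, w x) * (∫ x in a..b, f x * g x * w x) := by
  have huI : uIcc a b = Icc a b := uIcc_of_le hab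
  have iw : IntervalIntegrable w volume a b :=
    ContinuousOn.intervalIntegrable (by rwa [huI])
  have ifw : IntervalIntegrable (fun x => f x * w x) volume a b :=
    ContinuousOn.intervalIntegrable (by rw [huI]; exact hf.mul hw)
  have igw : IntervalIntegrable (fun x => g x * w x) volume a b :=
    ContinuousOn.intervalIntegrable (by rw [huI]; exact hg.mul hw)
  have ifgw : IntervalIntegrable (fun x => f x * g x * w x) volume a b :=
    ContinuousOn.intervalIntegrable (by rw [huI]; exact (hf.mul hg).mul hw)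
  set W := ∫ x in a..b, w x with hW
  set Fw := ∫ x in a..b, f x * w x with hFw
  set Gw := ∫ x in a..b, g x * w x with hGw
  set FG := ∫ x in a..b, f x * g x * w x with hFG
  -- inner integral
  have hH : ∀ y ∈ Icc a b, 0 ≤ FG - f y * Gw - g y * Fw + f y * g y * W := by
    intro y hy
    have h1 : (∫ x in a..b, (f x - f y) * (g x - g y) * w x)
        = FG - f y * Gw - g y * Fw + f y * g y * W := by
      have e : ∀ x, (f x - f y) * (g x - g y) * w x
          = f x * g x * w x - f y * (g x * w x) - g y * (f x * w x) + f y * g y * w x := by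
        intro x; ring
      simp_rw [e]
      rw [intervalIntegral.integral_add, intervalIntegral.integral_sub,
        intervalIntegral.integral_sub, intervalIntegral.integral_const_mul,
        intervalIntegral.integral_const_mul, intervalIntegral.integral_const_mul]
      · exact ifgw
      · exact igw.const_mul _
      · exact ifgw.sub (igw.const_mul _)
      · exact ifw.const_mul _
      · exact (ifgw.sub (igw.const_mul _)).sub (ifw.const_mul _)
      · exact iw.const_mul _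
    rw [← h1]
    apply intervalIntegral.integral_nonneg hab
    intro x hx
    apply mul_nonneg _ (hw0 x hx)
    rcases le_total x y with hxy | hxy
    · exact mul_nonneg_of_nonpos_of_nonpos (sub_nonpos.2 (hfm hx hy hxy))
        (sub_nonpos.2 (hgm hx hy hxy))
    · exact mul_nonneg (sub_nonneg.2 (hfm hy hx hxy)) (sub_nonneg.2 (hgm hy hx hxy))
  -- outer integral
  have h2 : 0 ≤ ∫ y in a..b, (FG - f y * Gw - g y * Fw + f y * g y * W) * w y := by
    apply intervalIntegral.integral_nonneg hab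
    intro y hy
    exact mul_nonneg (hH y hy) (hw0 y hy)
  have h3 : (∫ y in a..b, (FG - f y * Gw - g y * Fw + f y * g y * W) * w y)
      = FG * W - Gw * Fw - Fw * Gw + W * FG := by
    have e : ∀ y, (FG - f y * Gw - g y * Fw + f y * g y * W) * w y
        = FG * w y - Gw * (f y * w y) - Fw * (g y * w y) + W * (f y * g y * w y) := by
      intro y; ring
    simp_rw [e]
    rw [intervalIntegral.integral_add, intervalIntegral.integral_sub,
      intervalIntegral.integral_sub, intervalIntegral.integral_const_mul,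
      intervalIntegral.integral_const_mul, intervalIntegral.integral_const_mul,
      intervalIntegral.integral_const_mul]
    · exact iw.const_mul _
    · exact ifw.const_mul _
    · exact (iw.const_mul _).sub (ifw.const_mul _)
    · exact igw.const_mul _
    · exact ((iw.const_mul _).sub (ifw.const_mul _)).sub (igw.const_mul _)
    · exact ifgw.const_mul _
  rw [h3] at h2
  nlinarith [h2]

end Claimed.Agent.R260

/-!
# Row 260, package WI: hyperbolic inequalities of Proposition 2.5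

* `wi_hyp_key`   : `2 sinh² x ≤ x sinh x cosh x + x²`  (`x coth x + x²/sinh² x ≥ 2`)
* `wi_hyp_scale` : `A₀(y)/y² ≥ A₀(x)/x²` for `0 < y ≤ x`, cleared of denominators
* `wi_sinh_sq_taylor` : `x² + x⁴/3 + 2x⁶/45 + x⁸/315 ≤ sinh² x`
* `wi_hyp_main`  : the comparison of `shc((1+μ)x)` with `shc x · shc (μ x)`
-/

namespace Claimed.Agent.R260

open Real Set

/-- a function vanishing (or nonnegative) at `0` with nonnegative derivative on `[0,∞)` is
nonnegative on `[0,∞)` -/
theorem wi_nonneg_of_hasDerivAt {f f' : ℝ → ℝ} (h0 : 0 ≤ f 0)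
    (hd : ∀ x, HasDerivAt f (f' x) x) (hpos : ∀ x, 0 ≤ x → 0 ≤ f' x) :
    ∀ x, 0 ≤ x → 0 ≤ f x := by
  intro x hx
  have hmono : MonotoneOn f (Ici 0) := by
    apply monotoneOn_of_deriv_nonneg (convex_Ici 0)
    · exact fun y _ => (hd y).continuousAt.continuousWithinAt
    · exact fun y _ => (hd y).differentiableAt.differentiableWithinAt
    · intro y hy
      rw [interior_Ici] at hy
      rw [(hd y).deriv]
      exact hpos y (le_of_lt hy)
  exact le_trans h0 (hmono (mem_Ici.2 le_rfl) (mem_Ici.2 hx) hx)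

theorem wi_hyp_aux3 : ∀ x : ℝ, 0 ≤ x → 0 ≤ 4 * x * cosh (2 * x) - 2 * sinh (2 * x) := by
  apply wi_nonneg_of_hasDerivAt (f' := fun x => 8 * x * sinh (2 * x))
  · simp
  · intro x
    have h1 : HasDerivAt (fun y : ℝ => 2 * y) 2 x := by
      simpa using (hasDerivAt_id x).const_mul (2 : ℝ)
    have hc : HasDerivAt (fun y : ℝ => cosh (2 * y)) (sinh (2 * x) * 2) x := h1.cosh
    have hs : HasDerivAt (fun y : ℝ => sinh (2 * y)) (cosh (2 * x) * 2) x := h1.sinh
    have h4 : HasDerivAt (fun y : ℝ => 4 * y) 4 x := by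
      simpa using (hasDerivAt_id x).const_mul (4 : ℝ)
    exact ((h4.fun_mul hc).fun_sub (hs.const_mul 2)).congr_deriv (by ring)
  · intro x hx
    have : 0 ≤ sinh (2 * x) := sinh_nonneg_iff.2 (by linarith)
    positivity

theorem wi_hyp_aux2 : ∀ x : ℝ, 0 ≤ x → 0 ≤ 2 * x * sinh (2 * x) + 2 - 2 * cosh (2 * x) := by
  apply wi_nonneg_of_hasDerivAt (f' := fun x => 4 * x * cosh (2 * x) - 2 * sinh (2 * x))
  · simp
  · intro x
    have h1 : HasDerivAt (fun y : ℝ => 2 * y) 2 x := by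
      simpa using (hasDerivAt_id x).const_mul (2 : ℝ)
    have hc : HasDerivAt (fun y : ℝ => cosh (2 * y)) (sinh (2 * x) * 2) x := h1.cosh
    have hs : HasDerivAt (fun y : ℝ => sinh (2 * y)) (cosh (2 * x) * 2) x := h1.sinh
    exact (((h1.fun_mul hs).add_const 2).fun_sub (hc.const_mul 2)).congr_deriv (by ring)
  · exact wi_hyp_aux3

theorem wi_hyp_aux1 :
    ∀ x : ℝ, 0 ≤ x → 0 ≤ x * cosh (2 * x) + 2 * x - 3 / 2 * sinh (2 * x) := by
  apply wi_nonneg_of_hasDerivAt (f' := fun x => 2 * x * sinh (2 * x) + 2 - 2 * cosh (2 * x))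
  · simp
  · intro x
    have h1 : HasDerivAt (fun y : ℝ => 2 * y) 2 x := by
      simpa using (hasDerivAt_id x).const_mul (2 : ℝ)
    have hc : HasDerivAt (fun y : ℝ => cosh (2 * y)) (sinh (2 * x) * 2) x := h1.cosh
    have hs : HasDerivAt (fun y : ℝ => sinh (2 * y)) (cosh (2 * x) * 2) x := h1.sinh
    exact ((((hasDerivAt_id' x).fun_mul hc).fun_add h1).fun_sub
      (hs.const_mul (3 / 2))).congr_deriv (by ring)
  · exact wi_hyp_aux2

theorem wi_hyp_aux0 :
    ∀ x : ℝ, 0 ≤ x → 0 ≤ x / 2 * sinh (2 * x) + x ^ 2 - cosh (2 * x) + 1 := by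
  apply wi_nonneg_of_hasDerivAt
    (f' := fun x => x * cosh (2 * x) + 2 * x - 3 / 2 * sinh (2 * x))
  · simp
  · intro x
    have h1 : HasDerivAt (fun y : ℝ => 2 * y) 2 x := by
      simpa using (hasDerivAt_id x).const_mul (2 : ℝ)
    have hc : HasDerivAt (fun y : ℝ => cosh (2 * y)) (sinh (2 * x) * 2) x := h1.cosh
    have hs : HasDerivAt (fun y : ℝ => sinh (2 * y)) (cosh (2 * x) * 2) x := h1.sinh
    have hh : HasDerivAt (fun y : ℝ => y / 2) (1 / 2) x := by
      simpa using (hasDerivAt_id x).div_const (2 : ℝ)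
    have hsq : HasDerivAt (fun y : ℝ => y ^ 2) (2 * x) x := by
      simpa using hasDerivAt_pow 2 x
    exact ((((hh.fun_mul hs).fun_add hsq).fun_sub hc).add_const 1).congr_deriv (by ring)
  · exact wi_hyp_aux1

/-- `x coth x + x² / sinh² x ≥ 2`, cleared of denominators -/
theorem wi_hyp_key (x : ℝ) (hx : 0 ≤ x) :
    2 * sinh x ^ 2 ≤ x * sinh x * cosh x + x ^ 2 := by
  have h := wi_hyp_aux0 x hx
  rw [sinh_two_mul, cosh_two_mul, cosh_sq] at h
  nlinarith [h]

/-- Taylor minorant of `sinh²` -/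
theorem wi_sinh_sq_taylor (x : ℝ) :
    x ^ 2 + x ^ 4 / 3 + 2 * x ^ 6 / 45 + x ^ 8 / 315 ≤ sinh x ^ 2 := by
  have h := sum_le_hasSum (Finset.range 5)
    (fun n _ => by
      have : (0:ℝ) ≤ (2 * x) ^ (2 * n) := by
        rw [pow_mul]; positivity
      positivity) (hasSum_cosh (2 * x))
  rw [cosh_two_mul, cosh_sq] at h
  simp only [Finset.sum_range_succ, Finset.sum_range_zero, Nat.factorial] at h
  norm_num at h
  nlinarith [h]

/-- `A₀(z)/z²` is nonincreasing on `(0,∞)`, where `A₀(z) = z coth z - 1` -/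
theorem wi_hyp_antitone :
    AntitoneOn (fun z : ℝ => (z * cosh z - sinh z) / (z ^ 2 * sinh z)) (Ioi 0) := by
  have hD : ∀ z : ℝ, 0 < z → z ^ 2 * sinh z ≠ 0 := by
    intro z hz
    have : 0 < sinh z := sinh_pos_iff.2 hz
    positivity
  have hder : ∀ z : ℝ, 0 < z →
      HasDerivAt (fun z : ℝ => (z * cosh z - sinh z) / (z ^ 2 * sinh z))
        ((z * sinh z * (z ^ 2 * sinh z)
          - (z * cosh z - sinh z) * (2 * z * sinh z + z ^ 2 * cosh z)) / (z ^ 2 * sinh z) ^ 2)
        z := by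
    intro z hz
    have hn : HasDerivAt (fun z : ℝ => z * cosh z - sinh z) (z * sinh z) z :=
      (((hasDerivAt_id' z).fun_mul (hasDerivAt_cosh z)).fun_sub
        (hasDerivAt_sinh z)).congr_deriv (by ring)
    have hsq : HasDerivAt (fun y : ℝ => y ^ 2) (2 * z) z := by
      simpa using hasDerivAt_pow 2 z
    have hd : HasDerivAt (fun z : ℝ => z ^ 2 * sinh z) (2 * z * sinh z + z ^ 2 * cosh z) z :=
      hsq.fun_mul (hasDerivAt_sinh z)
    exact hn.fun_div hd (hD z hz)
  apply antitoneOn_of_deriv_nonpos (convex_Ioi 0)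
  · exact fun z hz => (hder z hz).continuousAt.continuousWithinAt
  · intro z hz
    rw [interior_Ioi] at hz
    exact (hder z hz).differentiableAt.differentiableWithinAt
  · intro z hz
    rw [interior_Ioi] at hz
    have hz' : 0 < z := hz
    rw [(hder z hz').deriv]
    apply div_nonpos_of_nonpos_of_nonneg _ (sq_nonneg _)
    have hk := wi_hyp_key z hz'.le
    have hc := cosh_sq z
    have e : z * sinh z * (z ^ 2 * sinh z)
          - (z * cosh z - sinh z) * (2 * z * sinh z + z ^ 2 * cosh z)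
        = - (z * (z * sinh z * cosh z + z ^ 2 - 2 * sinh z ^ 2))
          - z ^ 3 * (cosh z ^ 2 - sinh z ^ 2 - 1) := by ring
    rw [e, hc]
    have : 0 ≤ z * (z * sinh z * cosh z + z ^ 2 - 2 * sinh z ^ 2) :=
      mul_nonneg hz'.le (by linarith)
    nlinarith [this]

/-- `A₀(y)/y² ≥ A₀(x)/x²` for `0 < y ≤ x`, cleared of denominators -/
theorem wi_hyp_scale {x y : ℝ} (hy : 0 < y) (hyx : y ≤ x) :
    y ^ 2 * (x * cosh x - sinh x) * sinh y ≤ x ^ 2 * (y * cosh y - sinh y) * sinh x := by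
  have hx : 0 < x := lt_of_lt_of_le hy hyx
  have h := wi_hyp_antitone (mem_Ioi.2 hy) (mem_Ioi.2 hx) hyx
  have hsx : 0 < sinh x := sinh_pos_iff.2 hx
  have hsy : 0 < sinh y := sinh_pos_iff.2 hy
  simp only at h
  rw [div_le_div_iff₀ (by positivity) (by positivity)] at h
  nlinarith [h]

/-- The comparison (2.30)-(2.31) of the paper in the form used below. -/
theorem wi_hyp_main {x μ : ℝ} (hx : 0 < x) (hμ0 : 0 < μ) (hμ1 : μ ≤ 1) :
    x * (sinh (μ * x) / μ) * (1 + (1 + μ) * (sinh x ^ 2 / x ^ 2 - 1))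
      ≤ sinh ((1 + μ) * x) / (1 + μ) * sinh x := by
  have hy : 0 < μ * x := mul_pos hμ0 hx
  have hyx : μ * x ≤ x := by nlinarith
  have hsx : 0 < sinh x := sinh_pos_iff.2 hx
  have hsy : 0 < sinh (μ * x) := sinh_pos_iff.2 hy
  have hK := wi_hyp_key x hx.le
  have hS := wi_hyp_scale hy hyx
  have hadd : sinh ((1 + μ) * x) = sinh x * cosh (μ * x) + cosh x * sinh (μ * x) := by
    rw [← sinh_add]; ring_nf
  rw [hadd]
  set sx := sinh x
  set cx := cosh x
  set sy := sinh (μ * x)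
  set cy := cosh (μ * x)
  have hS' : μ ^ 2 * (x * cx - sx) * sy ≤ (μ * x * cy - sy) * sx := by
    have h2 : x ^ 2 * (μ ^ 2 * (x * cx - sx) * sy) ≤ x ^ 2 * ((μ * x * cy - sy) * sx) := by
      nlinarith [hS]
    exact le_of_mul_le_mul_left h2 (by positivity)
  have key : sy * (1 + μ) * ((1 + μ) * sx ^ 2 - μ * x ^ 2)
      ≤ sx * (μ * x * cy * sx + μ * x * cx * sy) := by
    have h1 := mul_le_mul_of_nonneg_left hS' hsx.le
    have h2 := mul_le_mul_of_nonneg_left hK (by positivity : 0 ≤ sy * (1 + μ) * μ)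
    nlinarith [h1, h2]
  have e1 : x * (sy / μ) * (1 + (1 + μ) * (sx ^ 2 / x ^ 2 - 1))
      = sy * (1 + μ) * ((1 + μ) * sx ^ 2 - μ * x ^ 2) / (μ * (1 + μ) * x) := by
    field_simp
    ring
  have e2 : (sx * cy + cx * sy) / (1 + μ) * sx
      = sx * (μ * x * cy * sx + μ * x * cx * sy) / (μ * (1 + μ) * x) := by
    field_simp
  rw [e1, e2]
  exact div_le_div_of_nonneg_right key (by positivity)

theorem wi_exp_sub (ν s₁ s₂ : ℝ) :
    exp (ν * s₂) - exp (ν * s₁)
      = 2 * exp (ν * ((s₁ + s₂) / 2)) * sinh (ν * ((s₂ - s₁) / 2)) := by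
  rw [sinh_eq]
  have e1 : exp (ν * s₂) = exp (ν * ((s₁ + s₂) / 2)) * exp (ν * ((s₂ - s₁) / 2)) := by
    rw [← exp_add]; ring_nf
  have e2 : exp (ν * s₁) = exp (ν * ((s₁ + s₂) / 2)) * exp (-(ν * ((s₂ - s₁) / 2))) := by
    rw [← exp_add]; ring_nf
  rw [e1, e2]; ring

/-- the polynomial `σ(δ) = δ²/12 + δ⁴/360 + δ⁶/20160` is below `shc(δ/2)² - 1` -/
theorem wi_sigma_le {x : ℝ} (hx : 0 < x) :
    (2 * x) ^ 2 / 12 + (2 * x) ^ 4 / 360 + (2 * x) ^ 6 / 20160 ≤ sinh x ^ 2 / x ^ 2 - 1 := by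
  have h := wi_sinh_sq_taylor x
  rw [le_sub_iff_add_le, le_div_iff₀ (by positivity)]
  nlinarith [h]

/-- The exponential form of the comparison of arithmetic and logarithmic averages.
`Eμ` stands for `∫_{s₁}^{s₂} e^{μ s} ds`. -/
theorem wi_hyp_E {s₁ s₂ μ Eμ : ℝ} (hs : s₁ < s₂) (hμ0 : 0 ≤ μ) (hμ1 : μ ≤ 1)
    (hE : μ * Eμ = exp (μ * s₂) - exp (μ * s₁)) (hE0 : μ = 0 → Eμ = s₂ - s₁) :
    (s₂ - s₁) * Eμ * exp (s₁ + s₂)
        * (1 + (1 + μ) * ((s₂ - s₁) ^ 2 / 12 + (s₂ - s₁) ^ 4 / 360 + (s₂ - s₁) ^ 6 / 20160))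
      ≤ (exp ((1 + μ) * s₂) - exp ((1 + μ) * s₁)) / (1 + μ) * (exp s₂ - exp s₁) := by
  obtain ⟨x, hxdef⟩ : ∃ x, x = (s₂ - s₁) / 2 := ⟨_, rfl⟩
  obtain ⟨c, hcdef⟩ : ∃ c, c = (s₁ + s₂) / 2 := ⟨_, rfl⟩
  have hx : 0 < x := by rw [hxdef]; linarith
  have hδ : s₂ - s₁ = 2 * x := by rw [hxdef]; ring
  have hsum : s₁ + s₂ = c + c := by rw [hcdef]; ring
  have h1 : exp s₂ - exp s₁ = 2 * exp c * sinh x := by
    have := wi_exp_sub 1 s₁ s₂
    simpa [← hxdef, ← hcdef] using this
  have h2 : exp ((1 + μ) * s₂) - exp ((1 + μ) * s₁)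
      = 2 * (exp c * exp (μ * c)) * sinh ((1 + μ) * x) := by
    have := wi_exp_sub (1 + μ) s₁ s₂
    rw [← hxdef, ← hcdef] at this
    rw [this, ← exp_add]; ring_nf
  have h3 : μ * Eμ = 2 * exp (μ * c) * sinh (μ * x) := by
    rw [hE, wi_exp_sub μ s₁ s₂, ← hxdef, ← hcdef]
  have hσ := wi_sigma_le hx
  have hsx : 0 < sinh x := sinh_pos_iff.2 hx
  rw [hδ, h1, h2, hsum, exp_add]
  set σ := (2 * x) ^ 2 / 12 + (2 * x) ^ 4 / 360 + (2 * x) ^ 6 / 20160 with hσdef
  have hσ0 : 0 ≤ σ := by positivity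
  rcases eq_or_lt_of_le hμ0 with h0 | hpos
  · -- μ = 0
    have hμ : μ = 0 := h0.symm
    have hEe : Eμ = 2 * x := by rw [hE0 hμ, hδ]
    subst hμ
    rw [hEe]
    simp only [zero_mul, exp_zero, add_zero, one_mul, mul_one, div_one]
    have h4 : x ^ 2 * (1 + σ) ≤ sinh x ^ 2 := by
      have : 1 + σ ≤ sinh x ^ 2 / x ^ 2 := by linarith
      rw [le_div_iff₀ (by positivity)] at this
      linarith
    have hec : 0 < exp c := exp_pos c
    nlinarith [mul_le_mul_of_nonneg_left h4 (by positivity : 0 ≤ 4 * (exp c * exp c))]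
  · have hEe : Eμ = 2 * exp (μ * c) * (sinh (μ * x) / μ) := by
      field_simp
      linarith [h3]
    have hm := wi_hyp_main hx hpos hμ1
    have hsy : 0 < sinh (μ * x) := sinh_pos_iff.2 (mul_pos hpos hx)
    have h5 : x * (sinh (μ * x) / μ) * (1 + (1 + μ) * σ)
        ≤ sinh ((1 + μ) * x) / (1 + μ) * sinh x := by
      refine le_trans ?_ hm
      apply mul_le_mul_of_nonneg_left _ (by positivity)
      have : (1 + μ) * σ ≤ (1 + μ) * (sinh x ^ 2 / x ^ 2 - 1) :=
        mul_le_mul_of_nonneg_left hσ (by linarith)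
      linarith
    rw [hEe]
    have hpos2 : 0 ≤ 4 * (exp c * exp c * exp (μ * c)) := by positivity
    have h6 := mul_le_mul_of_nonneg_left h5 hpos2
    calc 2 * x * (2 * exp (μ * c) * (sinh (μ * x) / μ)) * (exp c * exp c) * (1 + (1 + μ) * σ)
        = 4 * (exp c * exp c * exp (μ * c))
            * (x * (sinh (μ * x) / μ) * (1 + (1 + μ) * σ)) := by ring
      _ ≤ 4 * (exp c * exp c * exp (μ * c))
            * (sinh ((1 + μ) * x) / (1 + μ) * sinh x) := h6
      _ = 2 * (exp c * exp (μ * c)) * sinh ((1 + μ) * x) / (1 + μ) * (2 * exp c * sinh x) := by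
          ring

end Claimed.Agent.R260

/-!
# Row 260, package WI: the two-eigenvalue inequality behind Proposition 2.5

Abstract scalar system `WiSys s d k b` (to be instantiated with `s = log q`, `d = q - a`,
`k = t/q`, `b = k'`).  With `q = exp ∘ s`, `P = q k²`, `δ = s v - s u`,

`q(u) q(v) [ (v-u)² - (k v - k u)² + (1+μ)/16 (δ² + δ⁴/30 + δ⁶/1680) (v-u)² ]
    ≤ (P v - P u) (q v - q u)`      (`wi_pair`)

which is `M^{ar}_{λ_i λ_j}/(λ_i λ_j) ≥ (1 - k[a_i,a_j]² + r_{ij} δ_{ij}²)/q[a_i,a_j]²`.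
-/

namespace Claimed.Agent.R260

open Real Set MeasureTheory intervalIntegral

/-- abstract scalar system: `s = log q`, `d = s'`, `k`, `b = k'` with `b = 1 - k d` -/
structure WiSys (s d k b : ℝ → ℝ) : Prop where
  hs : ∀ x, HasDerivAt s (d x) x
  hk : ∀ x, HasDerivAt k (b x) x
  d_pos : ∀ x, 0 < d x
  b_pos : ∀ x, 0 < b x
  b_lt : ∀ x, b x < 1 / 2
  rel : ∀ x, b x = 1 - k x * d x
  d_cont : Continuous d
  b_cont : Continuous b
  mono : Monotone fun x => (1 + b x) / d x

namespace WiSys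

variable {s d k b : ℝ → ℝ}

theorem s_cont (S : WiSys s d k b) : Continuous s :=
  continuous_iff_continuousAt.2 fun x => (S.hs x).continuousAt

theorem k_cont (S : WiSys s d k b) : Continuous k :=
  continuous_iff_continuousAt.2 fun x => (S.hk x).continuousAt

theorem k_eq (S : WiSys s d k b) (x : ℝ) : k x = (1 - b x) / d x := by
  have := S.rel x
  have hd := (S.d_pos x).ne'
  field_simp
  linarith

theorem k_pos (S : WiSys s d k b) (x : ℝ) : 0 < k x := by
  rw [S.k_eq]
  have := S.b_lt x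
  exact div_pos (by linarith) (S.d_pos x)

theorem k_mono (S : WiSys s d k b) : Monotone k :=
  monotone_of_deriv_nonneg (fun x => (S.hk x).differentiableAt)
    (fun x => by rw [(S.hk x).deriv]; exact (S.b_pos x).le)

theorem s_strictMono (S : WiSys s d k b) : StrictMono s :=
  strictMono_of_deriv_pos (fun x => by rw [(S.hs x).deriv]; exact S.d_pos x)

/-- `(q k²)' = q d M` -/
theorem hasDerivAt_P (S : WiSys s d k b) (x : ℝ) :
    HasDerivAt (fun y => exp (s y) * k y ^ 2)
      ((1 - b x ^ 2) / d x ^ 2 * exp (s x) * d x) x := by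
  have h1 : HasDerivAt (fun y => exp (s y)) (exp (s x) * d x) x := (S.hs x).exp
  have h2 : HasDerivAt (fun y => k y ^ 2) (2 * k x * b x) x := by
    simpa using (S.hk x).fun_pow 2
  refine (h1.fun_mul h2).congr_deriv ?_
  rw [S.k_eq x]
  have hd := (S.d_pos x).ne'
  field_simp
  ring

theorem hasDerivAt_exp (S : WiSys s d k b) (ν x : ℝ) :
    HasDerivAt (fun y => exp (ν * s y)) (ν * (exp (ν * s x) * d x)) x := by
  have h1 : HasDerivAt (fun y => ν * s y) (ν * d x) x := (S.hs x).const_mul ν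
  exact h1.exp.congr_deriv (by ring)

theorem integral_d (S : WiSys s d k b) (u v : ℝ) : ∫ x in u..v, d x = s v - s u :=
  integral_eq_sub_of_hasDerivAt (fun x _ => S.hs x) (S.d_cont.intervalIntegrable _ _)

theorem integral_b (S : WiSys s d k b) (u v : ℝ) : ∫ x in u..v, b x = k v - k u :=
  integral_eq_sub_of_hasDerivAt (fun x _ => S.hk x) (S.b_cont.intervalIntegrable _ _)

theorem integral_exp (S : WiSys s d k b) (ν u v : ℝ) :
    ν * ∫ x in u..v, exp (ν * s x) * d x = exp (ν * s v) - exp (ν * s u) := by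
  rw [← intervalIntegral.integral_const_mul]
  apply integral_eq_sub_of_hasDerivAt (fun x _ => S.hasDerivAt_exp ν x)
  apply Continuous.intervalIntegrable
  have := S.s_cont
  have := S.d_cont
  fun_prop

theorem M_cont (S : WiSys s d k b) : Continuous fun x => (1 - b x ^ 2) / d x ^ 2 := by
  have h1 := S.b_cont
  have h2 := S.d_cont
  have h3 : ∀ x, d x ^ 2 ≠ 0 := fun x => pow_ne_zero 2 (S.d_pos x).ne'
  fun_prop (disch := assumption)

theorem integral_P (S : WiSys s d k b) (u v : ℝ) :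
    ∫ x in u..v, (1 - b x ^ 2) / d x ^ 2 * exp (s x) * d x
      = exp (s v) * k v ^ 2 - exp (s u) * k u ^ 2 := by
  apply integral_eq_sub_of_hasDerivAt (fun x _ => S.hasDerivAt_P x)
  apply Continuous.intervalIntegrable
  have := S.s_cont
  have := S.d_cont
  have := S.M_cont
  fun_prop

theorem k_sub_bounds (S : WiSys s d k b) {u v : ℝ} (huv : u < v) :
    0 < k v - k u ∧ k v - k u < (v - u) / 2 := by
  obtain ⟨c, _, hc⟩ := exists_hasDerivAt_eq_slope k b huv S.k_cont.continuousOn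
    (fun x _ => S.hk x)
  have h1 := S.b_pos c
  have h2 := S.b_lt c
  have hvu : 0 < v - u := by linarith
  rw [hc] at h1 h2
  constructor
  · exact (div_pos_iff_of_pos_right hvu).1 h1
  · rw [div_lt_iff₀ hvu] at h2
    linarith

end WiSys

/-- the purely algebraic end of the proof of `wi_pair` -/
theorem wi_pair_alg {Q Δa Δk δ μ Eμ E1 IM ΔP Δq : ℝ} (hQ0 : 0 < Q) (hΔa0 : 0 < Δa)
    (hk0 : 0 < Δk) (hk1 : Δk < Δa / 2) (hδ : 0 < δ) (hμ0 : 0 ≤ μ) (hEpos : 0 < Eμ)
    (hE1pos : 0 ≤ E1) (hΔq0 : 0 < Δq)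
    (C1 : (Δa + Δk) * (Δa - Δk) ≤ δ * IM) (C2 : IM * E1 ≤ Eμ * ΔP)
    (H : δ * Eμ * Q * (1 + (1 + μ) * (δ ^ 2 / 12 + δ ^ 4 / 360 + δ ^ 6 / 20160)) ≤ E1 * Δq) :
    Q * (Δa ^ 2 - Δk ^ 2 + (1 + μ) / 16 * (δ ^ 2 + δ ^ 4 / 30 + δ ^ 6 / 1680) * Δa ^ 2)
      ≤ ΔP * Δq := by
  obtain ⟨σ, hσ⟩ : ∃ σ, σ = δ ^ 2 / 12 + δ ^ 4 / 360 + δ ^ 6 / 20160 := ⟨_, rfl⟩
  rw [← hσ] at H
  have hσ0 : 0 ≤ σ := by rw [hσ]; positivity
  have hM1 : 3 / 4 * Δa ^ 2 ≤ Δa ^ 2 - Δk ^ 2 := by nlinarith
  have hM1' : 0 ≤ Δa ^ 2 - Δk ^ 2 := by nlinarith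
  have step1 : Q * (Δa ^ 2 - Δk ^ 2 + (1 + μ) / 16 * (δ ^ 2 + δ ^ 4 / 30 + δ ^ 6 / 1680) * Δa ^ 2)
      ≤ Q * ((Δa ^ 2 - Δk ^ 2) * (1 + (1 + μ) * σ)) := by
    apply mul_le_mul_of_nonneg_left _ hQ0.le
    have : (1 + μ) / 16 * (δ ^ 2 + δ ^ 4 / 30 + δ ^ 6 / 1680) * Δa ^ 2
        = (1 + μ) * σ * (3 / 4 * Δa ^ 2) := by rw [hσ]; ring
    rw [this]
    have h2 : (1 + μ) * σ * (3 / 4 * Δa ^ 2) ≤ (1 + μ) * σ * (Δa ^ 2 - Δk ^ 2) :=
      mul_le_mul_of_nonneg_left hM1 (by positivity)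
    linarith [h2]
  refine le_trans step1 ?_
  have hpos : 0 < δ * Eμ := mul_pos hδ hEpos
  apply le_of_mul_le_mul_left _ hpos
  calc δ * Eμ * (Q * ((Δa ^ 2 - Δk ^ 2) * (1 + (1 + μ) * σ)))
      = (Δa ^ 2 - Δk ^ 2) * (δ * Eμ * Q * (1 + (1 + μ) * σ)) := by ring
    _ ≤ (Δa ^ 2 - Δk ^ 2) * (E1 * Δq) := mul_le_mul_of_nonneg_left H hM1'
    _ = ((Δa + Δk) * (Δa - Δk)) * (E1 * Δq) := by ring
    _ ≤ (δ * IM) * (E1 * Δq) := mul_le_mul_of_nonneg_right C1 (by positivity)
    _ = δ * Δq * (IM * E1) := by ring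
    _ ≤ δ * Δq * (Eμ * ΔP) := mul_le_mul_of_nonneg_left C2 (by positivity)
    _ = δ * Eμ * (ΔP * Δq) := by ring

/-- The two-eigenvalue inequality behind Proposition 2.5. -/
theorem wi_pair {s d k b : ℝ → ℝ} (S : WiSys s d k b) {u v μ : ℝ} (huv : u < v)
    (hμ0 : 0 ≤ μ) (hμ1 : μ ≤ 1)
    (htilt : MonotoneOn (fun x => (1 - b x ^ 2) / d x ^ 2 * exp (-(μ * s x))) (Icc u v)) :
    exp (s u) * exp (s v) * ((v - u) ^ 2 - (k v - k u) ^ 2
        + (1 + μ) / 16 * ((s v - s u) ^ 2 + (s v - s u) ^ 4 / 30 + (s v - s u) ^ 6 / 1680)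
          * (v - u) ^ 2)
      ≤ (exp (s v) * k v ^ 2 - exp (s u) * k u ^ 2) * (exp (s v) - exp (s u)) := by
  have hsc := S.s_cont
  have hdc := S.d_cont
  have hbc := S.b_cont
  have hMc := S.M_cont
  have hdne : ∀ x, d x ≠ 0 := fun x => (S.d_pos x).ne'
  -- first Chebyshev inequality
  have C1 := wi_chebyshev huv.le (w := d) (f := fun x => (1 + b x) / d x)
    (g := fun x => (1 - b x) / d x) hdc.continuousOn
    (by apply Continuous.continuousOn; fun_prop (disch := assumption))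
    (by apply Continuous.continuousOn; fun_prop (disch := assumption))
    (fun x _ => (S.d_pos x).le) (S.mono.monotoneOn _)
    (by
      have : (fun x => (1 - b x) / d x) = k := by
        funext x; rw [S.k_eq]
      rw [this]; exact S.k_mono.monotoneOn _)
  have e1 : ∫ x in u..v, (1 + b x) / d x * d x = (v - u) + (k v - k u) := by
    have : ∀ x, (1 + b x) / d x * d x = 1 + b x := fun x => by
      field_simp [hdne x]
    simp_rw [this]
    rw [intervalIntegral.integral_add (by simp) (hbc.intervalIntegrable _ _), S.integral_b]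
    simp
  have e2 : ∫ x in u..v, (1 - b x) / d x * d x = (v - u) - (k v - k u) := by
    have : ∀ x, (1 - b x) / d x * d x = 1 - b x := fun x => by
      field_simp [hdne x]
    simp_rw [this]
    rw [intervalIntegral.integral_sub (by simp) (hbc.intervalIntegrable _ _), S.integral_b]
    simp
  have e3 : ∫ x in u..v, (1 + b x) / d x * ((1 - b x) / d x) * d x
      = ∫ x in u..v, (1 - b x ^ 2) / d x ^ 2 * d x := by
    apply intervalIntegral.integral_congr
    intro x _
    have := hdne x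
    simp only
    field_simp
    ring
  rw [e1, e2, e3, S.integral_d] at C1
  -- second Chebyshev inequality
  have C2 := wi_chebyshev huv.le (w := fun x => exp (μ * s x) * d x)
    (f := fun x => (1 - b x ^ 2) / d x ^ 2 * exp (-(μ * s x)))
    (g := fun x => exp (s x))
    (by apply Continuous.continuousOn; fun_prop)
    (by apply Continuous.continuousOn; fun_prop)
    (by apply Continuous.continuousOn; fun_prop)
    (fun x _ => mul_nonneg (exp_pos _).le (S.d_pos x).le) htilt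
    (fun x _ y _ hxy => exp_le_exp.2 (S.s_strictMono.monotone hxy))
  have f1 : ∫ x in u..v, (1 - b x ^ 2) / d x ^ 2 * exp (-(μ * s x)) * (exp (μ * s x) * d x)
      = ∫ x in u..v, (1 - b x ^ 2) / d x ^ 2 * d x := by
    apply intervalIntegral.integral_congr
    intro x _
    simp only
    have : exp (-(μ * s x)) * exp (μ * s x) = 1 := by rw [← exp_add]; simp
    calc (1 - b x ^ 2) / d x ^ 2 * exp (-(μ * s x)) * (exp (μ * s x) * d x)
        = (1 - b x ^ 2) / d x ^ 2 * (exp (-(μ * s x)) * exp (μ * s x)) * d x := by ring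
      _ = _ := by rw [this]; ring
  have f2 : ∫ x in u..v, exp (s x) * (exp (μ * s x) * d x)
      = ∫ x in u..v, exp ((1 + μ) * s x) * d x := by
    apply intervalIntegral.integral_congr
    intro x _
    simp only
    rw [← mul_assoc, ← exp_add]
    ring_nf
  have f3 : ∫ x in u..v,
      (1 - b x ^ 2) / d x ^ 2 * exp (-(μ * s x)) * exp (s x) * (exp (μ * s x) * d x)
      = exp (s v) * k v ^ 2 - exp (s u) * k u ^ 2 := by
    rw [← S.integral_P]
    apply intervalIntegral.integral_congr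
    intro x _
    simp only
    have : exp (-(μ * s x)) * exp (μ * s x) = 1 := by rw [← exp_add]; simp
    calc (1 - b x ^ 2) / d x ^ 2 * exp (-(μ * s x)) * exp (s x) * (exp (μ * s x) * d x)
        = (1 - b x ^ 2) / d x ^ 2 * (exp (-(μ * s x)) * exp (μ * s x)) * exp (s x) * d x := by
          ring
      _ = _ := by rw [this]; ring
  rw [f1, f2, f3] at C2
  have hδ : 0 < s v - s u := sub_pos.2 (S.s_strictMono huv)
  -- evaluation of the exponential integrals
  have g1 : μ * (∫ x in u..v, exp (μ * s x) * d x) = exp (μ * s v) - exp (μ * s u) :=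
    S.integral_exp μ u v
  have g0 : μ = 0 → (∫ x in u..v, exp (μ * s x) * d x) = s v - s u := by
    intro h
    rw [h, ← S.integral_d]
    simp
  have g2 : (∫ x in u..v, exp ((1 + μ) * s x) * d x)
      = (exp ((1 + μ) * s v) - exp ((1 + μ) * s u)) / (1 + μ) := by
    have h := S.integral_exp (1 + μ) u v
    rw [eq_div_iff (by linarith)]
    linarith [h]
  have H := wi_hyp_E (sub_pos.1 hδ) hμ0 hμ1 g1 g0
  rw [← g2, exp_add] at H
  have hEpos : 0 < ∫ x in u..v, exp (μ * s x) * d x := by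
    apply intervalIntegral.intervalIntegral_pos_of_pos_on
    · apply Continuous.intervalIntegrable; fun_prop
    · intro x _; exact mul_pos (exp_pos _) (S.d_pos x)
    · exact huv
  have hE1pos : 0 ≤ ∫ x in u..v, exp ((1 + μ) * s x) * d x := by
    apply intervalIntegral.integral_nonneg huv.le
    intro x _; exact mul_nonneg (exp_pos _).le (S.d_pos x).le
  obtain ⟨hk0, hk1⟩ := S.k_sub_bounds huv
  exact wi_pair_alg (mul_pos (exp_pos _) (exp_pos _)) (by linarith) hk0 hk1 hδ hμ0 hEpos hE1pos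
    (sub_pos.2 (exp_lt_exp.2 (S.s_strictMono huv))) C1 C2 H

end Claimed.Agent.R260

/-!
# Row 260, package WI: arithmetic means of `M`, rearrangement over the three roles

* `wiMar` : `M^{ar}` between `λ = q(u)` and `λ' = q(v)` (divided difference of `λ F(λ)`)
* `WiSys.mar_symm`, `WiSys.mar_mono`
* `WiSys.pair25` : `1 - k[u,v]² + r δ² ≤ q[u,v]² M^{ar}(u,v) / (q(u) q(v))`
* `wi_rearrange` : the rearrangement step before (2.21)
* `wi_surplus_coord` : the pointwise surplus inequality in eigen-coordinates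
-/

namespace Claimed.Agent.R260

open Real Set MeasureTheory intervalIntegral

/-- divided difference with prescribed diagonal value -/
noncomputable def wiDD (f f' : ℝ → ℝ) (u v : ℝ) : ℝ :=
  if u = v then f' u else (f u - f v) / (u - v)

theorem wiDD_symm (f f' : ℝ → ℝ) (u v : ℝ) : wiDD f f' u v = wiDD f f' v u := by
  unfold wiDD
  by_cases h : u = v
  · subst h; rfl
  · rw [if_neg h, if_neg (Ne.symm h), ← neg_sub (f v) (f u), ← neg_sub v u, neg_div_neg_eq]

theorem wiDD_self (f f' : ℝ → ℝ) (u : ℝ) : wiDD f f' u u = f' u := by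
  simp [wiDD]

theorem wiDD_of_ne (f f' : ℝ → ℝ) {u v : ℝ} (h : u ≠ v) :
    wiDD f f' u v = (f u - f v) / (u - v) := by
  simp [wiDD, h]

/-- the arithmetic mean of `M` between `q(u)` and `q(v)` -/
noncomputable def wiMar (s d k b : ℝ → ℝ) (u v : ℝ) : ℝ :=
  if u = v then (1 - b u ^ 2) / d u ^ 2
  else (exp (s u) * k u ^ 2 - exp (s v) * k v ^ 2) / (exp (s u) - exp (s v))

/-- the surplus weight `r(u,v) δ(u,v)²` with parameter `μ` -/
noncomputable def wiRw (s : ℝ → ℝ) (μ u v : ℝ) : ℝ :=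
  (1 + μ) / 16 * ((s v - s u) ^ 2 + (s v - s u) ^ 4 / 30 + (s v - s u) ^ 6 / 1680)

theorem wiRw_symm (s : ℝ → ℝ) (μ u v : ℝ) : wiRw s μ u v = wiRw s μ v u := by
  unfold wiRw; ring

namespace WiSys

variable {s d k b : ℝ → ℝ}

theorem mar_symm (_S : WiSys s d k b) (u v : ℝ) : wiMar s d k b u v = wiMar s d k b v u := by
  unfold wiMar
  by_cases h : u = v
  · subst h; rfl
  · rw [if_neg h, if_neg (Ne.symm h), ← neg_sub (exp (s v) * k v ^ 2), ← neg_sub (exp (s v)),
      neg_div_neg_eq]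

theorem M_eq (S : WiSys s d k b) (x : ℝ) :
    (1 - b x ^ 2) / d x ^ 2 = (1 + b x) / d x * k x := by
  rw [S.k_eq]
  have := (S.d_pos x).ne'
  field_simp
  ring

theorem M_mono (S : WiSys s d k b) : Monotone fun x => (1 - b x ^ 2) / d x ^ 2 := by
  have h : (fun x => (1 - b x ^ 2) / d x ^ 2) = fun x => (1 + b x) / d x * k x := by
    funext x; exact S.M_eq x
  rw [h]
  apply Monotone.mul S.mono S.k_mono
  · intro x
    have := S.b_pos x
    exact div_nonneg (by linarith) (S.d_pos x).le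
  · intro x; exact (S.k_pos x).le

theorem integral_q (S : WiSys s d k b) (u v : ℝ) :
    ∫ x in u..v, exp (s x) * d x = exp (s v) - exp (s u) := by
  have := S.integral_exp 1 u v
  simpa using this

/-- `M(u) (q v - q u) ≤ P v - P u ≤ M(v) (q v - q u)` for `u ≤ v` -/
theorem P_bounds (S : WiSys s d k b) {u v : ℝ} (huv : u ≤ v) :
    (1 - b u ^ 2) / d u ^ 2 * (exp (s v) - exp (s u))
        ≤ exp (s v) * k v ^ 2 - exp (s u) * k u ^ 2 ∧
      exp (s v) * k v ^ 2 - exp (s u) * k u ^ 2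
        ≤ (1 - b v ^ 2) / d v ^ 2 * (exp (s v) - exp (s u)) := by
  have hsc := S.s_cont
  have hdc := S.d_cont
  have hMc := S.M_cont
  rw [← S.integral_P, ← S.integral_q, ← intervalIntegral.integral_const_mul,
    ← intervalIntegral.integral_const_mul]
  constructor
  · apply intervalIntegral.integral_mono_on huv
    · apply Continuous.intervalIntegrable; fun_prop
    · apply Continuous.intervalIntegrable; fun_prop
    · intro x hx
      have h1 := S.M_mono hx.1
      have h2 : 0 ≤ exp (s x) * d x := mul_nonneg (exp_pos _).le (S.d_pos x).le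
      simp only at h1
      calc (1 - b u ^ 2) / d u ^ 2 * (exp (s x) * d x)
          ≤ (1 - b x ^ 2) / d x ^ 2 * (exp (s x) * d x) := mul_le_mul_of_nonneg_right h1 h2
        _ = _ := by ring
  · apply intervalIntegral.integral_mono_on huv
    · apply Continuous.intervalIntegrable; fun_prop
    · apply Continuous.intervalIntegrable; fun_prop
    · intro x hx
      have h1 := S.M_mono hx.2
      have h2 : 0 ≤ exp (s x) * d x := mul_nonneg (exp_pos _).le (S.d_pos x).le
      simp only at h1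
      calc (1 - b x ^ 2) / d x ^ 2 * exp (s x) * d x
          = (1 - b x ^ 2) / d x ^ 2 * (exp (s x) * d x) := by ring
        _ ≤ (1 - b v ^ 2) / d v ^ 2 * (exp (s x) * d x) := mul_le_mul_of_nonneg_right h1 h2

theorem q_lt (S : WiSys s d k b) {u v : ℝ} (huv : u < v) : exp (s u) < exp (s v) :=
  exp_lt_exp.2 (S.s_strictMono huv)

theorem mar_of_lt (S : WiSys s d k b) {u v : ℝ} (huv : u < v) :
    wiMar s d k b u v
      = (exp (s v) * k v ^ 2 - exp (s u) * k u ^ 2) / (exp (s v) - exp (s u)) := by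
  rw [S.mar_symm]
  unfold wiMar
  rw [if_neg huv.ne']

theorem mar_self (_S : WiSys s d k b) (u : ℝ) :
    wiMar s d k b u u = (1 - b u ^ 2) / d u ^ 2 := by
  simp [wiMar]

/-- `M(u) ≤ M^{ar}(u,v) ≤ M(v)` for `u ≤ v` -/
theorem mar_bounds (S : WiSys s d k b) {u v : ℝ} (huv : u ≤ v) :
    (1 - b u ^ 2) / d u ^ 2 ≤ wiMar s d k b u v ∧
      wiMar s d k b u v ≤ (1 - b v ^ 2) / d v ^ 2 := by
  rcases eq_or_lt_of_le huv with h | h
  · subst h; rw [S.mar_self]; exact ⟨le_rfl, le_rfl⟩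
  · have hq : 0 < exp (s v) - exp (s u) := sub_pos.2 (S.q_lt h)
    obtain ⟨h1, h2⟩ := S.P_bounds huv
    rw [S.mar_of_lt h]
    exact ⟨(le_div_iff₀ hq).2 h1, (div_le_iff₀ hq).2 h2⟩

theorem mar_mono (S : WiSys s d k b) {u v w : ℝ} (huv : u ≤ v) (hvw : v ≤ w) :
    wiMar s d k b u v ≤ wiMar s d k b u w ∧ wiMar s d k b u w ≤ wiMar s d k b v w := by
  rcases eq_or_lt_of_le huv with h1 | h1
  · subst h1
    rw [S.mar_self]
    exact ⟨(S.mar_bounds hvw).1, le_rfl⟩
  rcases eq_or_lt_of_le hvw with h2 | h2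
  · subst h2
    rw [S.mar_self]
    exact ⟨le_rfl, (S.mar_bounds huv).2⟩
  -- mediant
  have a1 := (S.mar_bounds huv).2
  have a2 := (S.mar_bounds hvw).1
  have hq1 : 0 < exp (s v) - exp (s u) := sub_pos.2 (S.q_lt h1)
  have hq2 : 0 < exp (s w) - exp (s v) := sub_pos.2 (S.q_lt h2)
  have hq3 : 0 < exp (s w) - exp (s u) := by linarith
  have h12 : wiMar s d k b u v ≤ wiMar s d k b v w := le_trans a1 a2
  rw [S.mar_of_lt h1, S.mar_of_lt h2] at h12
  rw [S.mar_of_lt h1, S.mar_of_lt h2, S.mar_of_lt (lt_trans h1 h2)]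
  rw [div_le_div_iff₀ hq1 hq2] at h12
  constructor
  · rw [div_le_div_iff₀ hq1 hq3]; nlinarith [h12]
  · rw [div_le_div_iff₀ hq3 hq2]; nlinarith [h12]

/-- the derivative of `q = exp ∘ s` -/
theorem hasDerivAt_q (S : WiSys s d k b) (x : ℝ) :
    HasDerivAt (fun y => exp (s y)) (exp (s x) * d x) x := (S.hs x).exp

/-- (2.22)-(2.26): comparison of `M^{ar}` with the derivative coefficients. -/
theorem pair25 (S : WiSys s d k b) {u v μ : ℝ} (hμ0 : 0 ≤ μ) (hμ1 : μ ≤ 1)
    (htilt : MonotoneOn (fun x => (1 - b x ^ 2) / d x ^ 2 * exp (-(μ * s x)))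
      (Icc (min u v) (max u v))) :
    1 - wiDD k b u v ^ 2 + wiRw s μ u v
      ≤ wiDD (fun x => exp (s x)) (fun x => exp (s x) * d x) u v ^ 2 * wiMar s d k b u v
          / (exp (s u) * exp (s v)) := by
  -- reduce to `u ≤ v`
  wlog huv : u ≤ v generalizing u v
  · have h := this (u := v) (v := u) (by rwa [min_comm, max_comm]) (le_of_not_ge huv)
    rw [wiDD_symm k b, wiRw_symm, wiDD_symm _ _ v u, S.mar_symm v u, mul_comm (exp (s v))] at h
    exact h
  rcases eq_or_lt_of_le huv with h | h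
  · subst h
    rw [wiDD_self, wiDD_self, S.mar_self]
    have hd := (S.d_pos u).ne'
    have he := (exp_pos (s u)).ne'
    have : wiRw s μ u u = 0 := by simp [wiRw]
    rw [this]
    apply le_of_eq
    field_simp
    ring
  · rw [min_eq_left huv, max_eq_right huv] at htilt
    have hp := wi_pair S h hμ0 hμ1 htilt
    rw [wiDD_of_ne _ _ h.ne, wiDD_of_ne _ _ h.ne, S.mar_of_lt h]
    have hq : 0 < exp (s v) - exp (s u) := sub_pos.2 (S.q_lt h)
    have hvu : 0 < v - u := sub_pos.2 h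
    have hQ : 0 < exp (s u) * exp (s v) := mul_pos (exp_pos _) (exp_pos _)
    rw [le_div_iff₀ hQ]
    have e1 : ((exp (s u) - exp (s v)) / (u - v)) ^ 2
          * ((exp (s v) * k v ^ 2 - exp (s u) * k u ^ 2) / (exp (s v) - exp (s u)))
        = (exp (s v) * k v ^ 2 - exp (s u) * k u ^ 2) * (exp (s v) - exp (s u)) / (v - u) ^ 2 := by
      have h1 : u - v ≠ 0 := sub_ne_zero.2 h.ne
      have h2 := hq.ne'
      have h3 := hvu.ne'
      field_simp
      ring
    rw [e1, le_div_iff₀ (by positivity)]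
    have e2 : (1 - ((k u - k v) / (u - v)) ^ 2 + wiRw s μ u v) * (exp (s u) * exp (s v))
          * (v - u) ^ 2
        = exp (s u) * exp (s v) * ((v - u) ^ 2 - (k v - k u) ^ 2
          + (1 + μ) / 16 * ((s v - s u) ^ 2 + (s v - s u) ^ 4 / 30 + (s v - s u) ^ 6 / 1680)
            * (v - u) ^ 2) := by
      have h1 : u - v ≠ 0 := sub_ne_zero.2 h.ne
      unfold wiRw
      field_simp
      ring
    rw [e2]
    exact hp

end WiSys

end Claimed.Agent.R260

/-!
# Row 260, package WI: the rearrangement step and the surplus inequality in eigen-coordinates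

Everything here is stated for abstract functions `lam` (`= q`), `Mar` (`= M^{ar}`), `qdd`, `kdd`
(divided differences) and `Rw` (`= r δ²`); the hypotheses are `WiSys.mar_symm`, `WiSys.mar_mono`,
`WiSys.pair25` of `WiTriple.lean`.
-/

namespace Claimed.Agent.R260

open Finset

theorem wi_three_alg {l1 l2 l3 M12 M13 M23 : ℝ} (h12 : l1 ≤ l2) (h23 : l2 ≤ l3)
    (hA : M12 ≤ M13) (hB : M13 ≤ M23) :
    0 ≤ (l1 + l2 - 2 * l3) * M12 + (l2 + l3 - 2 * l1) * M23 + (l3 + l1 - 2 * l2) * M13 := by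
  have h1 : 0 ≤ (2 * l3 - l1 - l2) * (M13 - M12) :=
    mul_nonneg (by linarith) (by linarith)
  have h2 : 0 ≤ (l2 + l3 - 2 * l1) * (M23 - M13) :=
    mul_nonneg (by linarith) (by linarith)
  nlinarith [h1, h2]

/-- the three-role inequality -/
theorem wi_three {lam : ℝ → ℝ} (hlam : Monotone lam) {Mar : ℝ → ℝ → ℝ}
    (hsymm : ∀ u v, Mar u v = Mar v u)
    (hmono : ∀ u v w, u ≤ v → v ≤ w → Mar u v ≤ Mar u w ∧ Mar u w ≤ Mar v w) (x y z : ℝ) :
    0 ≤ (lam x + lam y - 2 * lam z) * Mar x y + (lam y + lam z - 2 * lam x) * Mar y z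
        + (lam z + lam x - 2 * lam y) * Mar z x := by
  have sorted : ∀ u v w, u ≤ v → v ≤ w →
      0 ≤ (lam u + lam v - 2 * lam w) * Mar u v + (lam v + lam w - 2 * lam u) * Mar v w
        + (lam w + lam u - 2 * lam v) * Mar u w := fun u v w huv hvw =>
    wi_three_alg (hlam huv) (hlam hvw) (hmono u v w huv hvw).1 (hmono u v w huv hvw).2
  have e1 := hsymm x y
  have e2 := hsymm y z
  have e3 := hsymm z x
  rcases le_total x y with hxy | hxy <;> rcases le_total y z with hyz | hyz <;>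
    rcases le_total x z with hxz | hxz
  · have := sorted x y z hxy hyz; rw [e3]; linarith
  · have := sorted x y z hxy hyz; rw [e3]; linarith
  · have := sorted x z y hxz hyz; rw [e2, e3]; linarith
  · have := sorted z x y hxz hxy; rw [e2]; linarith
  · have := sorted y x z hxy hxz; rw [e1, e3]; linarith
  · have := sorted y z x hyz hxz; rw [e1]; linarith
  · have := sorted z y x hyz hxy; rw [e1, e2]; linarith
  · have := sorted z y x hyz hxy; rw [e1, e2]; linarith

section sums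

variable {ι : Type*} [Fintype ι]

theorem wi_sum_rot (g : ι → ι → ι → ℝ) :
    ∑ i, ∑ j, ∑ r, g j r i = ∑ i, ∑ j, ∑ r, g i j r := by
  rw [sum_comm]
  apply sum_congr rfl
  intro j _
  rw [sum_comm]

theorem wi_sum_rot' (g : ι → ι → ι → ℝ) :
    ∑ i, ∑ j, ∑ r, g r i j = ∑ i, ∑ j, ∑ r, g i j r :=
  (wi_sum_rot (fun i j r => g r i j)).symm

theorem wi_sum_swap (g : ι → ι → ι → ℝ) :
    ∑ i, ∑ j, ∑ r, g j i r = ∑ i, ∑ j, ∑ r, g i j r := by
  rw [sum_comm]

/-- the rearrangement step before (2.21) -/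
theorem wi_rearrange (a : ι → ℝ) {lam : ℝ → ℝ} (hlam : Monotone lam) {Mar : ℝ → ℝ → ℝ}
    (hsymm : ∀ u v, Mar u v = Mar v u)
    (hmono : ∀ u v w, u ≤ v → v ≤ w → Mar u v ≤ Mar u w ∧ Mar u w ≤ Mar v w)
    (W : ι → ι → ι → ℝ) (hW0 : ∀ i j r, 0 ≤ W i j r) (hW1 : ∀ i j r, W i j r = W j i r)
    (hW2 : ∀ i j r, W i j r = W i r j) :
    ∑ i, ∑ j, ∑ r, W i j r * (lam (a r) * Mar (a i) (a j))
      ≤ ∑ i, ∑ j, ∑ r, W i j r * (lam (a i) * Mar (a i) (a j)) := by
  -- the three sums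
  set A := ∑ i, ∑ j, ∑ r, W i j r * (lam (a i) * Mar (a i) (a j)) with hA
  set B := ∑ i, ∑ j, ∑ r, W i j r * (lam (a r) * Mar (a i) (a j)) with hB
  have hA' : ∑ i, ∑ j, ∑ r, W i j r * (lam (a j) * Mar (a i) (a j)) = A := by
    rw [hA, ← wi_sum_swap]
    apply sum_congr rfl; intro i _
    apply sum_congr rfl; intro j _
    apply sum_congr rfl; intro r _
    rw [hW1 j i r, hsymm (a j) (a i)]
  have hc : ∑ i, ∑ j, ∑ r,
      W i j r * ((lam (a i) + lam (a j) - 2 * lam (a r)) * Mar (a i) (a j)) = 2 * A - 2 * B := by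
    have : ∀ i j r, W i j r * ((lam (a i) + lam (a j) - 2 * lam (a r)) * Mar (a i) (a j))
        = W i j r * (lam (a i) * Mar (a i) (a j)) + W i j r * (lam (a j) * Mar (a i) (a j))
          - 2 * (W i j r * (lam (a r) * Mar (a i) (a j))) := by
      intro i j r; ring
    simp_rw [this, sum_sub_distrib, sum_add_distrib, ← mul_sum]
    rw [hA']
    ring
  have h1 := wi_sum_rot (fun i j r =>
    W i j r * ((lam (a i) + lam (a j) - 2 * lam (a r)) * Mar (a i) (a j)))
  have h2 := wi_sum_rot' (fun i j r =>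
    W i j r * ((lam (a i) + lam (a j) - 2 * lam (a r)) * Mar (a i) (a j)))
  beta_reduce at h1 h2
  have hpos : 0 ≤ ∑ i, ∑ j, ∑ r,
      (W i j r * ((lam (a i) + lam (a j) - 2 * lam (a r)) * Mar (a i) (a j))
        + W j r i * ((lam (a j) + lam (a r) - 2 * lam (a i)) * Mar (a j) (a r))
        + W r i j * ((lam (a r) + lam (a i) - 2 * lam (a j)) * Mar (a r) (a i))) := by
    apply sum_nonneg; intro i _
    apply sum_nonneg; intro j _
    apply sum_nonneg; intro r _
    have e1 : W j r i = W i j r := by rw [hW2 j r i, hW1 j i r]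
    have e2 : W r i j = W i j r := by rw [hW1 r i j, hW2 i r j]
    rw [e1, e2, ← mul_add, ← mul_add]
    exact mul_nonneg (hW0 i j r) (wi_three hlam hsymm hmono (a i) (a j) (a r))
  simp_rw [sum_add_distrib] at hpos
  rw [h1, h2, hc] at hpos
  linarith

/-- **The pointwise surplus inequality in eigen-coordinates** ((2.19) ⟹ (2.26)).
`Z i j r = (Z_r)_{ij}`, `Θ i j r = q[a_i,a_j] (Z_r)_{ij}` totally symmetric. -/
theorem wi_surplus_coord (a : ι → ℝ) {lam : ℝ → ℝ} (hlam : Monotone lam)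
    (hpos : ∀ x, 0 < lam x) {Mar qdd kdd Rw : ℝ → ℝ → ℝ}
    (hsymm : ∀ u v, Mar u v = Mar v u)
    (hmono : ∀ u v w, u ≤ v → v ≤ w → Mar u v ≤ Mar u w ∧ Mar u w ≤ Mar v w)
    (hpair : ∀ u v, 1 - kdd u v ^ 2 + Rw u v ≤ qdd u v ^ 2 * Mar u v / (lam u * lam v))
    (Z Θ : ι → ι → ι → ℝ) (hΘ : ∀ i j r, Θ i j r = qdd (a i) (a j) * Z i j r)
    (hΘ1 : ∀ i j r, Θ i j r = Θ j i r) (hΘ2 : ∀ i j r, Θ i j r = Θ i r j) :
    ∑ i, ∑ j, ∑ r, (1 - kdd (a i) (a j) ^ 2 + Rw (a i) (a j)) * Z i j r ^ 2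
      ≤ ∑ i, ∑ j, ∑ r, Θ i j r ^ 2 * Mar (a i) (a j) / (lam (a j) * lam (a r)) := by
  have hre := wi_rearrange a hlam hsymm hmono
    (fun i j r => Θ i j r ^ 2 / (lam (a i) * lam (a j) * lam (a r)))
    (fun i j r => by
      have := hpos (a i); have := hpos (a j); have := hpos (a r)
      positivity)
    (fun i j r => by rw [hΘ1 i j r, mul_comm (lam (a i)) (lam (a j))])
    (fun i j r => by rw [hΘ2 i j r, mul_assoc, mul_comm (lam (a j)) (lam (a r)), ← mul_assoc])
  calc ∑ i, ∑ j, ∑ r, (1 - kdd (a i) (a j) ^ 2 + Rw (a i) (a j)) * Z i j r ^ 2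
      ≤ ∑ i, ∑ j, ∑ r, Θ i j r ^ 2 / (lam (a i) * lam (a j) * lam (a r))
          * (lam (a r) * Mar (a i) (a j)) := by
        apply sum_le_sum; intro i _
        apply sum_le_sum; intro j _
        apply sum_le_sum; intro r _
        have h1 := mul_le_mul_of_nonneg_right (hpair (a i) (a j)) (sq_nonneg (Z i j r))
        refine le_trans h1 (le_of_eq ?_)
        have := (hpos (a i)).ne'; have := (hpos (a j)).ne'; have := (hpos (a r)).ne'
        rw [hΘ]
        field_simp
    _ ≤ ∑ i, ∑ j, ∑ r, Θ i j r ^ 2 / (lam (a i) * lam (a j) * lam (a r))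
          * (lam (a i) * Mar (a i) (a j)) := hre
    _ = ∑ i, ∑ j, ∑ r, Θ i j r ^ 2 * Mar (a i) (a j) / (lam (a j) * lam (a r)) := by
        apply sum_congr rfl; intro i _
        apply sum_congr rfl; intro j _
        apply sum_congr rfl; intro r _
        have := (hpos (a i)).ne'; have := (hpos (a j)).ne'; have := (hpos (a r)).ne'
        field_simp

end sums

end Claimed.Agent.R260
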